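import Crest.Agent.R2.Spec750b

set_option autoImplicit false
set_option maxHeartbeats 400000

open Complex Finset
open scoped Real

namespace Crest.Agent.R2.B488

open Crest.Agent.R2.M750

variable {ι : Type*}

/-! ### (LS) large sieve on a box -/

/-- **(LS)** large sieve inequality: `r`-separated frequencies, sum over a box of half side
`1/(2r)` around `z`. -/
theorem large_sieve {r : ℝ} (hr : 0 < r) (hr2 : r ≤ 1 / 2) (T : Finset ι) (c x : ι → ℂ)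
    (hsep : ∀ i ∈ T, ∀ j ∈ T, i ≠ j → ¬ inR r (x i - x j))
    (z : GaussianInt) (V : Finset GaussianInt)
    (hV : ∀ v ∈ V, |(v.re : ℝ) - z.re| * (2 * r) ≤ 1 ∧ |(v.im : ℝ) - z.im| * (2 * r) ≤ 1) :
    ∑ v ∈ V, ‖∑ i ∈ T, c i * chi v (x i)‖ ^ 2 ≤ 10 / r ^ 2 * ∑ i ∈ T, ‖c i‖ ^ 2 := by
  classical
  have h := sum_box_le hr hr2 T c x z (V.map ⟨fun v => v - z, sub_left_injective⟩) (by
    intro v hv
    rw [Finset.mem_map] at hv
    obtain ⟨u, hu, rfl⟩ := hv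
    have := hV u hu
    simpa using this)
  rw [Finset.sum_map] at h
  simp only [Function.Embedding.coeFn_mk, add_sub_cancel] at h
  refine le_trans h ?_
  rw [div_mul_eq_mul_div, mul_div_assoc]
  refine mul_le_mul_of_nonneg_left ?_ (by norm_num)
  rw [Finset.sum_div]
  refine Finset.sum_le_sum fun i hi => ?_
  rw [Finset.sum_eq_single i]
  · calc ‖c i‖ * ‖c i‖ * phi r (x i - x i) ≤ ‖c i‖ * ‖c i‖ * (1 / r ^ 2) := by
          gcongr
          exact phi_le hr _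
      _ = ‖c i‖ ^ 2 / r ^ 2 := by ring
  · intro j hj hji
    rw [phi_eq_zero hr (hsep i hi j hj hji.symm), mul_zero]
  · intro h; exact absurd hi h

/-! ### (KER) the box kernel -/

/-- the box `[0,R)²` in `ℤ[i]` -/
def bx (R : ℕ) : Finset GaussianInt :=
  (Finset.range R ×ˢ Finset.range R).map
    ⟨fun p => (⟨p.1, p.2⟩ : GaussianInt), by
      intro p q h
      have h1 := congrArg Zsqrtd.re h
      have h2 := congrArg Zsqrtd.im h
      simp only [Nat.cast_inj] at h1 h2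
      exact Prod.ext h1 h2⟩

theorem mem_bx {R : ℕ} {h : GaussianInt} :
    h ∈ bx R ↔ (0 ≤ h.re ∧ h.re < R) ∧ (0 ≤ h.im ∧ h.im < R) := by
  unfold bx
  simp only [Finset.mem_map, Finset.mem_product, Finset.mem_range, Function.Embedding.coeFn_mk]
  constructor
  · rintro ⟨p, ⟨h1, h2⟩, rfl⟩
    simp only
    omega
  · rintro ⟨⟨h1, h2⟩, h3, h4⟩
    refine ⟨(h.re.toNat, h.im.toNat), ⟨by simp only; omega, by simp only; omega⟩, ?_⟩
    apply Zsqrtd.ext <;> simp only <;> omega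

theorem card_bx (R : ℕ) : (bx R).card = R ^ 2 := by
  unfold bx
  rw [Finset.card_map, Finset.card_product, Finset.card_range, sq]

/-- the kernel -/
noncomputable def kap (R : ℕ) (η : ℂ) : ℂ := (1 / (R : ℂ) ^ 2) * ∑ h ∈ bx R, chi h η

/-- **(KER)** -/
theorem kap_lower {R : ℕ} (hR : 0 < R) {η : ℂ} (h1 : |η.re| * (8 * R) ≤ 1)
    (h2 : |η.im| * (8 * R) ≤ 1) : 1 / 2 ≤ ‖kap R η‖ := by
  have hR' : (0 : ℝ) < R := by exact_mod_cast hR
  obtain ⟨c, hc⟩ : ∃ c : ℝ, c = (R : ℝ) / 2 * η.re - (R : ℝ) / 2 * η.im := ⟨_, rfl⟩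
  have key : ∀ h ∈ bx R, 1 / 2 ≤ (e1 (-c) * chi h η).re := by
    intro h hh
    rw [mem_bx] at hh
    obtain ⟨⟨a1, a2⟩, b1, b2⟩ := hh
    have a1' : (0 : ℝ) ≤ h.re := by exact_mod_cast a1
    have a2' : (h.re : ℝ) ≤ R := by exact_mod_cast a2.le
    have b1' : (0 : ℝ) ≤ h.im := by exact_mod_cast b1
    have b2' : (h.im : ℝ) ≤ R := by exact_mod_cast b2.le
    have e : e1 (-c) * chi h η = e1 (((h.re : ℝ) - R / 2) * η.re - ((h.im : ℝ) - R / 2) * η.im) := by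
      unfold chi
      rw [← e1_add, Complex.mul_re, ← GaussianInt.intCast_re, ← GaussianInt.intCast_im, hc]
      congr 1
      ring
    rw [e, e1_re]
    obtain ⟨s, hs⟩ : ∃ s : ℝ, s = ((h.re : ℝ) - R / 2) * η.re - ((h.im : ℝ) - R / 2) * η.im :=
      ⟨_, rfl⟩
    rw [← hs]
    have hs1 : |s| ≤ 1 / 8 := by
      have g1 : |((h.re : ℝ) - R / 2) * η.re| ≤ 1 / 16 := by
        rw [abs_mul]
        have : |(h.re : ℝ) - R / 2| ≤ R / 2 := by rw [abs_le]; constructor <;> linarith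
        calc |(h.re : ℝ) - R / 2| * |η.re| ≤ (R / 2) * |η.re| := by gcongr
          _ ≤ 1 / 16 := by nlinarith
      have g2 : |((h.im : ℝ) - R / 2) * η.im| ≤ 1 / 16 := by
        rw [abs_mul]
        have : |(h.im : ℝ) - R / 2| ≤ R / 2 := by rw [abs_le]; constructor <;> linarith
        calc |(h.im : ℝ) - R / 2| * |η.im| ≤ (R / 2) * |η.im| := by gcongr
          _ ≤ 1 / 16 := by nlinarith
      rw [hs]
      rw [abs_le] at g1 g2 ⊢
      constructor <;> linarith [g1.1, g1.2, g2.1, g2.2]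
    have hpi := Real.pi_pos
    rw [← Real.cos_pi_div_three, ← Real.cos_abs (2 * π * s)]
    apply Real.cos_le_cos_of_nonneg_of_le_pi (abs_nonneg _) (by linarith)
    rw [abs_mul, abs_of_pos (by positivity)]
    nlinarith
  have h3 : (R : ℝ) ^ 2 / 2 ≤ (e1 (-c) * ∑ h ∈ bx R, chi h η).re := by
    rw [Finset.mul_sum, Complex.re_sum]
    calc (R : ℝ) ^ 2 / 2 = ∑ h ∈ bx R, (1 / 2 : ℝ) := by
          rw [Finset.sum_const, card_bx, nsmul_eq_mul]; push_cast; ring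
      _ ≤ _ := Finset.sum_le_sum key
  have h4 : (R : ℝ) ^ 2 / 2 ≤ ‖∑ h ∈ bx R, chi h η‖ := by
    calc (R : ℝ) ^ 2 / 2 ≤ (e1 (-c) * ∑ h ∈ bx R, chi h η).re := h3
      _ ≤ ‖e1 (-c) * ∑ h ∈ bx R, chi h η‖ := Complex.re_le_norm _
      _ = ‖∑ h ∈ bx R, chi h η‖ := by rw [norm_mul, norm_e1, one_mul]
  unfold kap
  rw [norm_mul, norm_div, norm_one, norm_pow, Complex.norm_natCast]
  rw [one_div_mul_eq_div, le_div_iff₀ (by positivity)]
  linarith

theorem kap_ne_zero {R : ℕ} (hR : 0 < R) {η : ℂ} (h1 : |η.re| * (8 * R) ≤ 1)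
    (h2 : |η.im| * (8 * R) ≤ 1) : kap R η ≠ 0 := by
  intro h
  have := kap_lower hR h1 h2
  rw [h, norm_zero] at this
  linarith

/-! ### (SM) smoothing -/

/-- the smoothed weight `om v = R⁻² ∑_{h ∈ box} μ(v+h)` (with `μ` restricted to `Z`) -/
noncomputable def om (Z : Finset GaussianInt) (μ : GaussianInt → ℝ) (R : ℕ) (v : GaussianInt) : ℝ :=
  (1 / (R : ℝ) ^ 2) * ∑ h ∈ bx R, if v + h ∈ Z then μ (v + h) else 0

/-- the support of `om` -/
noncomputable def Zb (Z : Finset GaussianInt) (R : ℕ) : Finset GaussianInt :=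
  (Z ×ˢ bx R).image fun p => p.1 - p.2

theorem mem_Zb {Z : Finset GaussianInt} {R : ℕ} {v : GaussianInt} :
    v ∈ Zb Z R ↔ ∃ h ∈ bx R, v + h ∈ Z := by
  unfold Zb
  rw [Finset.mem_image]
  constructor
  · rintro ⟨p, hp, rfl⟩
    rw [Finset.mem_product] at hp
    exact ⟨p.2, hp.2, by simpa using hp.1⟩
  · rintro ⟨h, hh, hv⟩
    exact ⟨(v + h, h), Finset.mem_product.mpr ⟨hv, hh⟩, by simp⟩

theorem om_nonneg {Z : Finset GaussianInt} {μ : GaussianInt → ℝ} (hμ : ∀ z ∈ Z, 0 ≤ μ z) (R : ℕ)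
    (v : GaussianInt) : 0 ≤ om Z μ R v := by
  unfold om
  refine mul_nonneg (by positivity) (Finset.sum_nonneg fun h _ => ?_)
  split_ifs with hh
  · exact hμ _ hh
  · exact le_rfl

/-- change of variables `v = z - h` -/
theorem sum_shift {M : Type*} [AddCommMonoid M] (Z : Finset GaussianInt) (R : ℕ)
    (f : GaussianInt → GaussianInt → M) :
    ∑ z ∈ Z, ∑ h ∈ bx R, f z h =
      ∑ v ∈ Zb Z R, ∑ h ∈ bx R, if v + h ∈ Z then f (v + h) h else 0 := by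
  classical
  rw [← Finset.sum_product', ← Finset.sum_product', ← Finset.sum_filter]
  refine Finset.sum_bij' (fun p _ => (p.1 - p.2, p.2)) (fun p _ => (p.1 + p.2, p.2)) ?_ ?_ ?_ ?_ ?_
  · intro p hp
    rw [Finset.mem_product] at hp
    rw [Finset.mem_filter, Finset.mem_product]
    refine ⟨⟨mem_Zb.mpr ⟨p.2, hp.2, ?_⟩, hp.2⟩, ?_⟩ <;> simpa using hp.1
  · intro p hp
    rw [Finset.mem_filter, Finset.mem_product] at hp
    rw [Finset.mem_product]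
    exact ⟨hp.2, hp.1.2⟩
  · intro p _; simp
  · intro p _; simp
  · intro p _; simp

/-- the mollified coefficients -/
noncomputable def tl (R : ℕ) (a x : ι → ℂ) (i : ι) : ℂ := a i / kap R (-x i)

theorem avg_tl {R : ℕ} (hR : 0 < R) (T : Finset ι) (a x : ι → ℂ)
    (hx : ∀ i ∈ T, |(x i).re| * (8 * R) ≤ 1 ∧ |(x i).im| * (8 * R) ≤ 1) (v : GaussianInt) :
    (1 / (R : ℂ) ^ 2) * ∑ h ∈ bx R, ∑ i ∈ T, tl R a x i * chi (v - h) (x i) =
      ∑ i ∈ T, a i * chi v (x i) := by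
  rw [Finset.sum_comm, Finset.mul_sum]
  refine Finset.sum_congr rfl fun i hi => ?_
  have hk : kap R (-x i) ≠ 0 := kap_ne_zero hR (by simpa using (hx i hi).1) (by simpa using (hx i hi).2)
  have e : ∑ h ∈ bx R, tl R a x i * chi (v - h) (x i) =
      tl R a x i * chi v (x i) * ∑ h ∈ bx R, chi h (-x i) := by
    rw [Finset.mul_sum]
    refine Finset.sum_congr rfl fun h _ => ?_
    rw [chi_sub_left, chi_neg_right]
    ring
  rw [e]
  have e2 : (1 / (R : ℂ) ^ 2) * (tl R a x i * chi v (x i) * ∑ h ∈ bx R, chi h (-x i)) =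
      tl R a x i * chi v (x i) * kap R (-x i) := by
    unfold kap; ring
  rw [e2, tl]
  field_simp

theorem sum_tl_sq {R : ℕ} (hR : 0 < R) (T : Finset ι) (a x : ι → ℂ)
    (hx : ∀ i ∈ T, |(x i).re| * (8 * R) ≤ 1 ∧ |(x i).im| * (8 * R) ≤ 1) :
    ∑ i ∈ T, ‖tl R a x i‖ ^ 2 ≤ 4 * ∑ i ∈ T, ‖a i‖ ^ 2 := by
  rw [Finset.mul_sum]
  refine Finset.sum_le_sum fun i hi => ?_
  have hk := kap_lower hR (η := -x i) (by simpa using (hx i hi).1) (by simpa using (hx i hi).2)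
  unfold tl
  rw [norm_div, div_pow, div_le_iff₀ (by positivity)]
  have : 1 / 4 ≤ ‖kap R (-x i)‖ ^ 2 := by nlinarith
  nlinarith [sq_nonneg ‖a i‖]

/-- **(SM)** -/
theorem smooth {R : ℕ} (hR : 0 < R) (Z : Finset GaussianInt) (μ : GaussianInt → ℝ)
    (hμ : ∀ z ∈ Z, 0 ≤ μ z) (T : Finset ι) (a x : ι → ℂ)
    (hx : ∀ i ∈ T, |(x i).re| * (8 * R) ≤ 1 ∧ |(x i).im| * (8 * R) ≤ 1) :
    ∑ z ∈ Z, μ z * ‖∑ i ∈ T, a i * chi z (x i)‖ ^ 2 ≤
      ∑ v ∈ Zb Z R, om Z μ R v * ‖∑ i ∈ T, tl R a x i * chi v (x i)‖ ^ 2 := by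
  have hR' : (0 : ℝ) < R := by exact_mod_cast hR
  have h1 : ∀ z, ‖∑ i ∈ T, a i * chi z (x i)‖ ^ 2 ≤
      (1 / (R : ℝ) ^ 2) * ∑ h ∈ bx R, ‖∑ i ∈ T, tl R a x i * chi (z - h) (x i)‖ ^ 2 := by
    intro z
    rw [← avg_tl hR T a x hx z, norm_mul, mul_pow]
    have hn : ‖(1 / (R : ℂ) ^ 2)‖ = 1 / (R : ℝ) ^ 2 := by
      rw [norm_div, norm_one, norm_pow, Complex.norm_natCast]
    rw [hn]
    have h2 : ‖∑ h ∈ bx R, ∑ i ∈ T, tl R a x i * chi (z - h) (x i)‖ ^ 2 ≤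
        (R : ℝ) ^ 2 * ∑ h ∈ bx R, ‖∑ i ∈ T, tl R a x i * chi (z - h) (x i)‖ ^ 2 := by
      calc ‖∑ h ∈ bx R, ∑ i ∈ T, tl R a x i * chi (z - h) (x i)‖ ^ 2
          ≤ (∑ h ∈ bx R, ‖∑ i ∈ T, tl R a x i * chi (z - h) (x i)‖) ^ 2 := by
            gcongr
            exact norm_sum_le _ _
        _ ≤ ((bx R).card : ℝ) * ∑ h ∈ bx R, ‖∑ i ∈ T, tl R a x i * chi (z - h) (x i)‖ ^ 2 :=
            sq_sum_le_card_mul_sum_sq
        _ = _ := by rw [card_bx]; push_cast; ring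
    calc (1 / (R : ℝ) ^ 2) ^ 2 * ‖∑ h ∈ bx R, ∑ i ∈ T, tl R a x i * chi (z - h) (x i)‖ ^ 2
        ≤ (1 / (R : ℝ) ^ 2) ^ 2 *
          ((R : ℝ) ^ 2 * ∑ h ∈ bx R, ‖∑ i ∈ T, tl R a x i * chi (z - h) (x i)‖ ^ 2) := by
          gcongr
      _ = _ := by field_simp
  calc ∑ z ∈ Z, μ z * ‖∑ i ∈ T, a i * chi z (x i)‖ ^ 2
      ≤ ∑ z ∈ Z, μ z * ((1 / (R : ℝ) ^ 2) *
          ∑ h ∈ bx R, ‖∑ i ∈ T, tl R a x i * chi (z - h) (x i)‖ ^ 2) := by
        refine Finset.sum_le_sum fun z hz => ?_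
        exact mul_le_mul_of_nonneg_left (h1 z) (hμ z hz)
    _ = ∑ z ∈ Z, ∑ h ∈ bx R, (1 / (R : ℝ) ^ 2) * (μ z *
          ‖∑ i ∈ T, tl R a x i * chi (z - h) (x i)‖ ^ 2) := by
        refine Finset.sum_congr rfl fun z _ => ?_
        rw [Finset.mul_sum, Finset.mul_sum]
        refine Finset.sum_congr rfl fun h _ => ?_
        ring
    _ = _ := by
        rw [sum_shift]
        refine Finset.sum_congr rfl fun v _ => ?_
        unfold om
        rw [Finset.mul_sum, Finset.sum_mul]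
        refine Finset.sum_congr rfl fun h _ => ?_
        split_ifs with hh
        · rw [add_sub_cancel_right]; ring
        · simp

end Crest.Agent.R2.B488
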