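import Crest.Agent.R2.B488a

set_option autoImplicit false
set_option maxHeartbeats 400000

open Complex Finset
open scoped Real

namespace Crest.Agent.R2.B488

open Crest.Agent.R2.M750

variable {ι : Type*}

theorem ft_dual (Z : Finset GaussianInt) (μ : GaussianInt → ℝ) (T : Finset ι) (a x : ι → ℂ) :
    ∑ i ∈ T, a i * ft Z μ (x i) = ∑ z ∈ Z, (μ z : ℂ) * ∑ i ∈ T, a i * chi z (x i) := by
  simp only [ft, Finset.mul_sum]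
  rw [Finset.sum_comm]
  refine Finset.sum_congr rfl fun z _ => Finset.sum_congr rfl fun i _ => ?_
  ring

theorem jensen_sq (Z : Finset GaussianInt) (μ : GaussianInt → ℝ) (hμ : ∀ z ∈ Z, 0 ≤ μ z)
    (hμ1 : ∑ z ∈ Z, μ z ≤ 1) (f : GaussianInt → ℂ) :
    ‖∑ z ∈ Z, (μ z : ℂ) * f z‖ ^ 2 ≤ ∑ z ∈ Z, μ z * ‖f z‖ ^ 2 := by
  have h1 : ‖∑ z ∈ Z, (μ z : ℂ) * f z‖ ≤ ∑ z ∈ Z, μ z * ‖f z‖ := by
    refine le_trans (norm_sum_le _ _) (Finset.sum_le_sum fun z hz => ?_)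
    rw [norm_mul, Complex.norm_real, Real.norm_of_nonneg (hμ z hz)]
  have h2 : (∑ z ∈ Z, μ z * ‖f z‖) ^ 2 ≤ (∑ z ∈ Z, μ z) * ∑ z ∈ Z, μ z * ‖f z‖ ^ 2 := by
    apply Finset.sum_sq_le_sum_mul_sum_of_sq_le_mul
    · exact hμ
    · intro z hz; exact mul_nonneg (hμ z hz) (sq_nonneg _)
    · intro z _; exact le_of_eq (by ring)
  have h3 : 0 ≤ ∑ z ∈ Z, μ z * ‖f z‖ ^ 2 :=
    Finset.sum_nonneg fun z hz => mul_nonneg (hμ z hz) (sq_nonneg _)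
  calc ‖∑ z ∈ Z, (μ z : ℂ) * f z‖ ^ 2 ≤ (∑ z ∈ Z, μ z * ‖f z‖) ^ 2 := by gcongr
    _ ≤ (∑ z ∈ Z, μ z) * ∑ z ∈ Z, μ z * ‖f z‖ ^ 2 := h2
    _ ≤ 1 * ∑ z ∈ Z, μ z * ‖f z‖ ^ 2 := by gcongr
    _ = _ := one_mul _

/-- bound of the weighted sum with the smoothed weight -/
theorem om_sum_le {r : ℝ} (hr : 0 < r) (hr2 : r ≤ 1 / 2) {R : ℕ}
    (Z : Finset GaussianInt) (μ : GaussianInt → ℝ) (T : Finset ι) (c x : ι → ℂ)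
    (hsep : ∀ i ∈ T, ∀ j ∈ T, i ≠ j → ¬ inR r (x i - x j))
    (C : Finset GaussianInt)
    (hC : ∀ v ∈ Zb Z R, ∃ c ∈ C, |(v.re : ℝ) - c.re| * (2 * r) ≤ 1 ∧
      |(v.im : ℝ) - c.im| * (2 * r) ≤ 1)
    {M : ℝ} (hM0 : 0 ≤ M) (hM : ∀ v ∈ Zb Z R, om Z μ R v ≤ M) :
    ∑ v ∈ Zb Z R, om Z μ R v * ‖∑ i ∈ T, c i * chi v (x i)‖ ^ 2 ≤
      10 / r ^ 2 * C.card * M * ∑ i ∈ T, ‖c i‖ ^ 2 := by
  classical
  have hex : ∀ v : GaussianInt, ∃ c : GaussianInt, v ∈ Zb Z R → (c ∈ C ∧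
      |(v.re : ℝ) - c.re| * (2 * r) ≤ 1 ∧ |(v.im : ℝ) - c.im| * (2 * r) ≤ 1) := by
    intro v
    by_cases hv : v ∈ Zb Z R
    · obtain ⟨c, h1, h2⟩ := hC v hv
      exact ⟨c, fun _ => ⟨h1, h2⟩⟩
    · exact ⟨0, fun h => absurd h hv⟩
  choose g hg using hex
  set F : GaussianInt → ℝ := fun v => ‖∑ i ∈ T, c i * chi v (x i)‖ ^ 2 with hF
  have hF0 : ∀ v, 0 ≤ F v := fun v => sq_nonneg _
  calc ∑ v ∈ Zb Z R, om Z μ R v * F v ≤ ∑ v ∈ Zb Z R, M * F v :=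
        Finset.sum_le_sum fun v hv => mul_le_mul_of_nonneg_right (hM v hv) (hF0 v)
    _ = M * ∑ v ∈ Zb Z R, F v := by rw [Finset.mul_sum]
    _ = M * ∑ e ∈ C, ∑ v ∈ (Zb Z R).filter (fun v => g v = e), F v := by
        rw [Finset.sum_fiberwise_of_maps_to (fun v hv => (hg v hv).1)]
    _ ≤ M * ∑ e ∈ C, (10 / r ^ 2 * ∑ i ∈ T, ‖c i‖ ^ 2) := by
        refine mul_le_mul_of_nonneg_left (Finset.sum_le_sum fun e _ => ?_) hM0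
        refine large_sieve hr hr2 T c x hsep e _ ?_
        intro v hv
        rw [Finset.mem_filter] at hv
        have := (hg v hv.1).2
        rw [hv.2] at this
        exact this
    _ = _ := by rw [Finset.sum_const, nsmul_eq_mul]; ring

/-- **(B1)** localised large sieve. -/
theorem B1 {r : ℝ} (hr : 0 < r) (hr2 : r ≤ 1 / 2) {R : ℕ} (hR : 0 < R)
    (Z : Finset GaussianInt) (μ : GaussianInt → ℝ) (hμ : ∀ z ∈ Z, 0 ≤ μ z)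
    (hμ1 : ∑ z ∈ Z, μ z ≤ 1) (T : Finset ι) (x : ι → ℂ)
    (hx : ∀ i ∈ T, |(x i).re| * (8 * R) ≤ 1 ∧ |(x i).im| * (8 * R) ≤ 1)
    (hsep : ∀ i ∈ T, ∀ j ∈ T, i ≠ j → ¬ inR r (x i - x j))
    (C : Finset GaussianInt)
    (hC : ∀ v ∈ Zb Z R, ∃ c ∈ C, |(v.re : ℝ) - c.re| * (2 * r) ≤ 1 ∧
      |(v.im : ℝ) - c.im| * (2 * r) ≤ 1)
    {M : ℝ} (hM0 : 0 ≤ M) (hM : ∀ v ∈ Zb Z R, om Z μ R v ≤ M) :
    ∑ i ∈ T, ‖ft Z μ (x i)‖ ^ 2 ≤ 40 / r ^ 2 * C.card * M := by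
  obtain ⟨b, hb⟩ : ∃ b : ι → ℂ, b = fun i => (starRingEnd ℂ) (ft Z μ (x i)) := ⟨_, rfl⟩
  obtain ⟨S, hS⟩ : ∃ S : ℝ, S = ∑ i ∈ T, ‖ft Z μ (x i)‖ ^ 2 := ⟨_, rfl⟩
  have hS0 : 0 ≤ S := by rw [hS]; positivity
  have hSb : ∑ i ∈ T, ‖b i‖ ^ 2 = S := by
    rw [hS, hb]
    refine Finset.sum_congr rfl fun i _ => ?_
    rw [RCLike.norm_conj]
  have h1 : (S : ℂ) = ∑ i ∈ T, b i * ft Z μ (x i) := by
    rw [hS, hb]
    push_cast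
    refine Finset.sum_congr rfl fun i _ => ?_
    rw [← Complex.conj_mul']
  have h2 : S ^ 2 ≤ ∑ z ∈ Z, μ z * ‖∑ i ∈ T, b i * chi z (x i)‖ ^ 2 := by
    have := jensen_sq Z μ hμ hμ1 (fun z => ∑ i ∈ T, b i * chi z (x i))
    rw [← ft_dual, ← h1, Complex.norm_real, Real.norm_of_nonneg hS0] at this
    exact this
  have h3 := smooth hR Z μ hμ T b x hx
  have h4 := om_sum_le hr hr2 Z μ T (tl R b x) x hsep C hC hM0 hM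
  have h5 := sum_tl_sq hR T b x hx
  rw [hSb] at h5
  have h6 : S ^ 2 ≤ (40 / r ^ 2 * C.card * M) * S := by
    calc S ^ 2 ≤ 10 / r ^ 2 * C.card * M * ∑ i ∈ T, ‖tl R b x i‖ ^ 2 := by linarith
      _ ≤ 10 / r ^ 2 * C.card * M * (4 * S) := by gcongr
      _ = _ := by ring
  rw [← hS]
  by_contra hlt
  push Not at hlt
  have hSpos : 0 < S := lt_of_le_of_lt (by positivity) hlt
  nlinarith

end Crest.Agent.R2.B488
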