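import Mathlib

/-!
# R2 (Gaussian moat): elementary asymptotics and numerical side conditions
-/

set_option autoImplicit false

namespace Crest.Agent.R2.N306

open Filter Real

/-! ## (a), (b) asymptotics -/

/-- a polylogarithm is eventually below any power -/
theorem polylog_le (n : ℕ) {ε : ℝ} (hε : 0 < ε) (C : ℝ) :
    ∃ X0 : ℝ, 1 ≤ X0 ∧ ∀ w : ℝ, X0 ≤ w → C * (log w) ^ n ≤ w ^ ε := by
  have h1 : (fun w : ℝ => (log w) ^ n) =o[atTop] fun w : ℝ => w ^ ε := by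
    have := isLittleO_log_rpow_rpow_atTop (r := (n : ℝ)) hε
    refine this.congr' ?_ (EventuallyEq.rfl)
    filter_upwards with w
    rw [rpow_natCast]
  have h2 := h1.def (c := 1 / (|C| + 1)) (by positivity)
  obtain ⟨X0, hX0⟩ := eventually_atTop.1 h2
  refine ⟨max X0 1, le_max_right _ _, fun w hw => ?_⟩
  have hw0 := hX0 w ((le_max_left _ _).trans hw)
  have hw1 : 1 ≤ w := (le_max_right _ _).trans hw
  have hlog : 0 ≤ log w := log_nonneg hw1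
  rw [norm_of_nonneg (by positivity), norm_of_nonneg (by positivity)] at hw0
  have hC : C ≤ |C| + 1 := (le_abs_self C).trans (by linarith)
  calc C * (log w) ^ n ≤ (|C| + 1) * (log w) ^ n :=
        mul_le_mul_of_nonneg_right hC (by positivity)
    _ ≤ (|C| + 1) * (1 / (|C| + 1) * w ^ ε) := mul_le_mul_of_nonneg_left hw0 (by positivity)
    _ = w ^ ε := by field_simp

theorem polylog_le_exp (n : ℕ) {ε : ℝ} (hε : 0 < ε) (C : ℝ) :
    ∃ X0 : ℝ, 1 ≤ X0 ∧ ∀ w : ℝ, X0 ≤ w → C * (log w) ^ n ≤ exp (ε * log w) := by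
  obtain ⟨X0, h1, h2⟩ := polylog_le n hε C
  refine ⟨X0, h1, fun w hw => ?_⟩
  have := h2 w hw
  rwa [rpow_def_of_pos (by linarith), mul_comm (log w)] at this

theorem const_le {ε : ℝ} (hε : 0 < ε) (C : ℝ) :
    ∃ X0 : ℝ, 1 ≤ X0 ∧ ∀ w : ℝ, X0 ≤ w → C ≤ w ^ ε := by
  simpa using polylog_le 0 hε C

theorem const_le_exp {ε : ℝ} (hε : 0 < ε) (C : ℝ) :
    ∃ X0 : ℝ, 1 ≤ X0 ∧ ∀ w : ℝ, X0 ≤ w → C ≤ exp (ε * log w) := by
  simpa using polylog_le_exp 0 hε C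

theorem const_le_log (C : ℝ) : ∃ X0 : ℝ, 1 ≤ X0 ∧ ∀ w : ℝ, X0 ≤ w → C ≤ log w := by
  refine ⟨exp (max C 0), by rw [one_le_exp_iff]; exact le_max_right _ _, fun w hw => ?_⟩
  have h1 : 0 < w := (exp_pos _).trans_le hw
  exact (le_max_left C 0).trans ((le_log_iff_exp_le h1).2 hw)

/-- `C * log w ≤ w^ε` and so on for `W` with `c log W ≤ log w` -/
theorem polylog_le₂ (n : ℕ) {ε c : ℝ} (hε : 0 < ε) (hc : 0 < c) (C : ℝ) :
    ∃ X0 : ℝ, 1 ≤ X0 ∧ ∀ w W : ℝ, X0 ≤ w → w ≤ W → c * log W ≤ log w →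
      C * (log W) ^ n ≤ w ^ ε := by
  obtain ⟨X0, h1, h2⟩ := polylog_le n hε (|C| / c ^ n)
  refine ⟨X0, h1, fun w W hw hW hl => ?_⟩
  have hw1 : 1 ≤ w := h1.trans hw
  have hlw : 0 ≤ log w := log_nonneg hw1
  have hlW : 0 ≤ log W := log_nonneg (hw1.trans hW)
  have h3 := h2 w hw
  have h4 : log W ≤ log w / c := by rw [le_div_iff₀ hc]; linarith
  calc C * (log W) ^ n ≤ |C| * (log W) ^ n :=
        mul_le_mul_of_nonneg_right (le_abs_self C) (by positivity)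
    _ ≤ |C| * (log w / c) ^ n :=
        mul_le_mul_of_nonneg_left (pow_le_pow_left₀ hlW h4 n) (abs_nonneg C)
    _ = |C| / c ^ n * log w ^ n := by rw [div_pow]; ring
    _ ≤ w ^ ε := h3

theorem polylog_le_exp₂ (n : ℕ) {ε c : ℝ} (hε : 0 < ε) (hc : 0 < c) (C : ℝ) :
    ∃ X0 : ℝ, 1 ≤ X0 ∧ ∀ w W : ℝ, X0 ≤ w → w ≤ W → c * log W ≤ log w →
      C * (log W) ^ n ≤ exp (ε * log w) := by
  obtain ⟨X0, h1, h2⟩ := polylog_le₂ n hε hc C
  refine ⟨X0, h1, fun w W hw hW hl => ?_⟩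
  have := h2 w W hw hW hl
  rwa [rpow_def_of_pos (by linarith), mul_comm (log w)] at this

/-- the log of a polylogarithm -/
theorem loglog_le₂ (n : ℕ) {ε c : ℝ} (hε : 0 < ε) (hc : 0 < c) (C : ℝ) :
    ∃ X0 : ℝ, 1 ≤ X0 ∧ ∀ w W : ℝ, X0 ≤ w → w ≤ W → c * log W ≤ log w →
      log (C * (log W) ^ n) ≤ ε * log w := by
  obtain ⟨X0, h1, h2⟩ := polylog_le_exp₂ n hε hc |C|
  refine ⟨X0, h1, fun w W hw hW hl => ?_⟩
  have hw1 : 1 ≤ w := h1.trans hw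
  have hlw : 0 ≤ log w := log_nonneg hw1
  have hlW : 0 ≤ log W := log_nonneg (hw1.trans hW)
  have h3 := h2 w W hw hW hl
  rw [← log_abs]
  by_cases h0 : |C * log W ^ n| = 0
  · rw [h0, log_zero]; positivity
  · rw [log_le_iff_le_exp (lt_of_le_of_ne (abs_nonneg _) (Ne.symm h0)), abs_mul,
      abs_of_nonneg (pow_nonneg hlW n)]
    exact h3

theorem loglog_le (C : ℝ) {ε : ℝ} (hε : 0 < ε) :
    ∃ X0 : ℝ, 1 ≤ X0 ∧ ∀ w : ℝ, X0 ≤ w → log (C * log w) ≤ ε * log w := by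
  obtain ⟨X0, h1, h2⟩ := loglog_le₂ 1 hε one_pos C
  refine ⟨X0, h1, fun w hw => ?_⟩
  have := h2 w w hw le_rfl (by rw [one_mul])
  simpa using this

/-! ## (c), (d) windows of norms and moduli -/

lemma log_sqrt' {w : ℝ} (hw : 0 ≤ w) : log (√w) = log w / 2 := log_sqrt hw

lemma exp_mul_log_sqrt {w : ℝ} (hw : 0 < w) (s : ℝ) : exp (s * log (√w)) = w ^ (s / 2) := by
  rw [log_sqrt hw.le, rpow_def_of_pos hw]; congr 1; ring

/-- number of primes: `c w / log w ≤ g` gives `g ≥ |p|^(2-ε)` in the modulus normalisation -/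
theorem card_ge {c ε : ℝ} (hc : 0 < c) (hε : 0 < ε) :
    ∃ X0 : ℝ, 2 ≤ X0 ∧ ∀ w : ℝ, X0 ≤ w → ∀ g : ℝ, c * w / log w ≤ g →
      exp ((2 - ε) * log (√w)) ≤ g := by
  obtain ⟨X0, h1, h2⟩ := polylog_le 1 (half_pos hε) (1 / c)
  refine ⟨max X0 2, le_max_right _ _, fun w hw g hg => ?_⟩
  have hw2 : 2 ≤ w := (le_max_right _ _).trans hw
  have hw0 : 0 < w := by linarith
  have hlog : 0 < log w := log_pos (by linarith)
  have h3 := h2 w ((le_max_left _ _).trans hw)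
  rw [pow_one] at h3
  refine le_trans ?_ hg
  rw [exp_mul_log_sqrt hw0, le_div_iff₀ hlog]
  have h4 : log w ≤ c * w ^ (ε / 2) := by
    have := mul_le_mul_of_nonneg_left h3 hc.le
    rwa [← mul_assoc, mul_one_div_cancel hc.ne', one_mul] at this
  calc w ^ ((2 - ε) / 2) * log w ≤ w ^ ((2 - ε) / 2) * (c * w ^ (ε / 2)) :=
        mul_le_mul_of_nonneg_left h4 (by positivity)
    _ = c * (w ^ ((2 - ε) / 2) * w ^ (ε / 2)) := by ring
    _ = c * w := by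
        rw [← rpow_add hw0, show (2 - ε) / 2 + ε / 2 = 1 by ring, rpow_one]

lemma norm_toComplex_sq (p : GaussianInt) : ‖GaussianInt.toComplex p‖ ^ 2 = (p.norm : ℝ) := by
  rw [← Complex.normSq_eq_norm_sq, GaussianInt.intCast_real_norm]

/-- norm window and modulus window -/
theorem ab_window {w : ℝ} (hw : 0 ≤ w) {p : GaussianInt} (h1 : w < (p.norm : ℝ))
    (h2 : (p.norm : ℝ) ≤ 4 * w) :
    √w ≤ ‖GaussianInt.toComplex p‖ ∧ ‖GaussianInt.toComplex p‖ ≤ 2 * √w := by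
  have h3 := norm_toComplex_sq p
  constructor
  · rw [← sqrt_sq (norm_nonneg (GaussianInt.toComplex p)), h3]
    exact sqrt_le_sqrt h1.le
  · rw [← sqrt_sq (norm_nonneg (GaussianInt.toComplex p)), h3]
    have : (2 : ℝ) * √w = √(4 * w) := by
      rw [sqrt_mul (by norm_num), show (4 : ℝ) = 2 ^ 2 by norm_num, sqrt_sq (by norm_num)]
    rw [this]
    exact sqrt_le_sqrt h2

lemma norm_rpow_window {w s : ℝ} (hw : 0 < w) (hs : 0 ≤ s) {q : ℝ} (h1 : w < q) :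
    w ^ s ≤ q ^ s := rpow_le_rpow hw.le h1.le hs

/-! ## (e) levels -/

theorem exists_level {L T0 X : ℝ} (hL : 1 < L) (hT : 0 < T0) (hX : T0 ≤ X) :
    ∃ j : ℕ, L ^ j * T0 ≤ X ∧ X < L ^ (j + 1) * T0 := by
  obtain ⟨j, h1, h2⟩ := exists_nat_pow_near (show 1 ≤ X / T0 by rwa [one_le_div hT]) hL
  refine ⟨j, ?_, ?_⟩
  · rwa [le_div_iff₀ hT] at h1
  · rwa [div_lt_iff₀ hT] at h2

theorem level_mono {L T0 X Y : ℝ} (hL : 1 < L) (hT : 0 < T0) {i j : ℕ} (hi : L ^ i * T0 ≤ X)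
    (hXY : X ≤ Y) (hj : Y < L ^ (j + 1) * T0) : i ≤ j := by
  have h1 : L ^ i * T0 < L ^ (j + 1) * T0 := lt_of_le_of_lt (hi.trans hXY) hj
  have h2 : L ^ i < L ^ (j + 1) := lt_of_mul_lt_mul_right h1 hT.le
  have h3 := (pow_lt_pow_iff_right₀ hL).1 h2
  omega

/-- the choice of `N`: `N ≥ (3N+2)^(1-ε)` for large `N` -/
theorem exists_N {ε : ℝ} (hε : 0 < ε) : ∃ N0 : ℕ, 1 ≤ N0 ∧ ∀ N : ℕ, N0 ≤ N →
    ((3 * N + 2 : ℝ)) ^ (1 - ε) ≤ N := by
  obtain ⟨X0, h1, h2⟩ := const_le hε 5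
  refine ⟨⌈X0⌉₊ + 1, by omega, fun N hN => ?_⟩
  have hX : X0 ≤ N := (Nat.le_ceil X0).trans (by exact_mod_cast (by omega : ⌈X0⌉₊ ≤ N))
  have hN1 : (1 : ℝ) ≤ N := h1.trans hX
  have h3 := h2 N hX
  by_cases he : ε ≤ 1
  · calc ((3 * N + 2 : ℝ)) ^ (1 - ε) ≤ (5 * N : ℝ) ^ (1 - ε) :=
          rpow_le_rpow (by positivity) (by linarith) (by linarith)
      _ = 5 ^ (1 - ε) * (N : ℝ) ^ (1 - ε) := mul_rpow (by norm_num) (by linarith)
      _ ≤ 5 * (N : ℝ) ^ (1 - ε) := by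
          apply mul_le_mul_of_nonneg_right _ (by positivity)
          calc (5 : ℝ) ^ (1 - ε) ≤ 5 ^ (1 : ℝ) :=
                rpow_le_rpow_of_exponent_le (by norm_num) (by linarith)
            _ = 5 := rpow_one 5
      _ ≤ (N : ℝ) ^ ε * (N : ℝ) ^ (1 - ε) := mul_le_mul_of_nonneg_right h3 (by positivity)
      _ = N := by rw [← rpow_add (by linarith), show ε + (1 - ε) = 1 by ring, rpow_one]
  · push Not at he
    calc ((3 * N + 2 : ℝ)) ^ (1 - ε) ≤ (3 * N + 2 : ℝ) ^ (0 : ℝ) :=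
          rpow_le_rpow_of_exponent_le (by linarith) (by linarith)
      _ = 1 := rpow_zero _
      _ ≤ N := hN1

lemma pow_ge {N : ℕ} {ε : ℝ} (h : ((3 * N + 2 : ℝ)) ^ (1 - ε) ≤ N) (k : ℕ) :
    (((3 * N + 2 : ℝ)) ^ k) ^ (1 - ε) ≤ (N : ℝ) ^ k := by
  rw [← rpow_natCast, ← rpow_mul (by positivity), mul_comm (k : ℝ), rpow_mul (by positivity),
    rpow_natCast]
  exact pow_le_pow_left₀ (by positivity) h k

/-- if `L^k ≥ e^V / B` and `A B ≤ e^(ε U)` then `A / N^k ≤ e^(-((1-ε') V - ε U))` -/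
lemma div_pow_le {N : ℕ} {ε' : ℝ} (hε0 : 0 ≤ ε') (hε1 : ε' ≤ 1) (hN : 1 ≤ N)
    (h : ((3 * N + 2 : ℝ)) ^ (1 - ε') ≤ N) {k : ℕ} {V B A E : ℝ} (hB : 1 ≤ B) (hA : 0 ≤ A)
    (h1 : exp V ≤ B * (3 * N + 2 : ℝ) ^ k) (h2 : A * B ≤ exp E) :
    A / (N : ℝ) ^ k ≤ exp (-((1 - ε') * V - E)) := by
  have hNr : (0 : ℝ) < N := by exact_mod_cast hN
  have h3 := pow_ge h k
  have hL : (0 : ℝ) < (3 * N + 2 : ℝ) ^ k := by positivity
  have h4 : exp ((1 - ε') * V) ≤ B * (N : ℝ) ^ k := by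
    calc exp ((1 - ε') * V) = (exp V) ^ (1 - ε') := by rw [← exp_mul]; ring_nf
      _ ≤ (B * (3 * N + 2 : ℝ) ^ k) ^ (1 - ε') :=
          rpow_le_rpow (exp_pos _).le h1 (by linarith)
      _ = B ^ (1 - ε') * ((3 * N + 2 : ℝ) ^ k) ^ (1 - ε') := mul_rpow (by linarith) hL.le
      _ ≤ B * (N : ℝ) ^ k := by
          apply mul_le_mul _ h3 (by positivity) (by linarith)
          calc B ^ (1 - ε') ≤ B ^ (1 : ℝ) :=
                rpow_le_rpow_of_exponent_le hB (by linarith)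
            _ = B := rpow_one B
  have hNk : (0 : ℝ) < (N : ℝ) ^ k := by positivity
  rw [div_le_iff₀ hNk, neg_sub, exp_sub, div_mul_eq_mul_div, le_div_iff₀ (exp_pos _)]
  calc A * exp ((1 - ε') * V) ≤ A * (B * (N : ℝ) ^ k) := mul_le_mul_of_nonneg_left h4 hA
    _ = A * B * (N : ℝ) ^ k := by ring
    _ ≤ exp E * (N : ℝ) ^ k := mul_le_mul_of_nonneg_right h2 hNk.le

/-- **levels**: from the top level `J` of `e^(2U)` get the three level gaps and the (P1) numbers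
of the node measures. -/
theorem levels {N : ℕ} {ε ε' : ℝ} (hε' : 0 < ε') (hεε : 2 * ε' ≤ ε) (hε : ε ≤ 1) (hN : 1 ≤ N)
    (h : ((3 * N + 2 : ℝ)) ^ (1 - ε') ≤ N) {T0 U : ℝ} (hT : 1 ≤ T0) (hU : 0 ≤ U)
    (hbig : 25 * N * (3 * N + 2) * T0 ≤ exp (ε / 2 * U)) {J : ℕ}
    (hJ1 : (3 * N + 2 : ℝ) ^ J * T0 ≤ exp (2 * U))
    (hJ2 : exp (2 * U) < (3 * N + 2 : ℝ) ^ (J + 1) * T0) :
    ∃ a b c : ℕ, J = a + b + c ∧
      (3 * N + 2 : ℝ) ^ c * T0 ≤ exp U ∧ exp U < (3 * N + 2 : ℝ) ^ (c + 1) * T0 ∧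
      (3 * N + 2 : ℝ) ^ (b + c) * T0 ≤ exp (3 / 2 * U) ∧
      exp (3 / 2 * U) < (3 * N + 2 : ℝ) ^ (b + c + 1) * T0 ∧
      1 / (N : ℝ) ^ c ≤ exp (-((1 - ε) * U)) ∧
      25 * N / (N : ℝ) ^ b ≤ exp (-((1 / 2 - ε) * U)) ∧
      25 * N / (N : ℝ) ^ a ≤ exp (-((1 / 2 - ε) * U)) := by
  have hNr : (1 : ℝ) ≤ N := by exact_mod_cast hN
  have hL : (1 : ℝ) < 3 * N + 2 := by linarith
  have hT0 : (0 : ℝ) < T0 := by linarith
  have hTU : T0 ≤ exp U := by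
    calc T0 = 1 * T0 := (one_mul _).symm
      _ ≤ (25 * N * (3 * N + 2)) * T0 := mul_le_mul_of_nonneg_right (by nlinarith) hT0.le
      _ ≤ exp (ε / 2 * U) := hbig
      _ ≤ exp U := exp_le_exp.2 (by nlinarith)
  obtain ⟨c, hc1, hc2⟩ := exists_level hL hT0 hTU
  have hTU2 : T0 ≤ exp (3 / 2 * U) := hTU.trans (exp_le_exp.2 (by nlinarith))
  obtain ⟨m, hm1, hm2⟩ := exists_level hL hT0 hTU2
  have hcm : c ≤ m := level_mono hL hT0 hc1 (exp_le_exp.2 (by nlinarith)) hm2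
  have hmJ : m ≤ J := level_mono hL hT0 hm1 (exp_le_exp.2 (by nlinarith)) hJ2
  obtain ⟨b, rfl⟩ := Nat.exists_eq_add_of_le hcm
  obtain ⟨a, rfl⟩ := Nat.exists_eq_add_of_le hmJ
  refine ⟨a, b, c, by ring, hc1, hc2, by rw [add_comm b c]; exact hm1,
    by rw [add_comm b c]; exact hm2, ?_, ?_, ?_⟩
  · -- `N^c`
    have h1 : exp U ≤ ((3 * N + 2) * T0) * (3 * N + 2 : ℝ) ^ c := by
      calc exp U ≤ (3 * N + 2 : ℝ) ^ (c + 1) * T0 := hc2.le
        _ = _ := by ring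
    have h2 : (1 : ℝ) * ((3 * N + 2) * T0) ≤ exp (ε / 2 * U) := by
      refine le_trans ?_ hbig
      have : 0 ≤ (3 * (N : ℝ) + 2) * T0 := by positivity
      nlinarith
    have h3 := div_pow_le hε'.le (by linarith) hN h (k := c) (V := U) (B := (3 * N + 2) * T0)
      (A := 1) (E := ε / 2 * U) (by nlinarith) (by norm_num) h1 h2
    refine h3.trans (exp_le_exp.2 ?_)
    nlinarith
  · -- `N^b`
    have h1 : exp (U / 2) ≤ (3 * N + 2) * (3 * N + 2 : ℝ) ^ b := by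
      have h4 : exp (3 / 2 * U) = exp U * exp (U / 2) := by rw [← exp_add]; ring_nf
      have h5 : exp U * exp (U / 2) < exp U * ((3 * N + 2) * (3 * N + 2 : ℝ) ^ b) := by
        rw [← h4]
        calc exp (3 / 2 * U) < (3 * N + 2 : ℝ) ^ (c + b + 1) * T0 := hm2
          _ = ((3 * N + 2 : ℝ) ^ c * T0) * ((3 * N + 2) * (3 * N + 2 : ℝ) ^ b) := by ring
          _ ≤ exp U * ((3 * N + 2) * (3 * N + 2 : ℝ) ^ b) :=
              mul_le_mul_of_nonneg_right hc1 (by positivity)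
      exact (lt_of_mul_lt_mul_left h5 (exp_pos _).le).le
    have h2 : (25 * N : ℝ) * (3 * N + 2) ≤ exp (ε / 2 * U) := by
      refine le_trans ?_ hbig
      have : 0 ≤ 25 * (N : ℝ) * (3 * N + 2) := by positivity
      nlinarith
    have h3 := div_pow_le hε'.le (by linarith) hN h (k := b) (V := U / 2) (B := (3 * N + 2))
      (A := 25 * N) (E := ε / 2 * U) (by linarith) (by positivity) h1 h2
    refine h3.trans (exp_le_exp.2 ?_)
    nlinarith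
  · -- `N^a`
    have h1 : exp (U / 2) ≤ (3 * N + 2) * (3 * N + 2 : ℝ) ^ a := by
      have h4 : exp (2 * U) = exp (3 / 2 * U) * exp (U / 2) := by rw [← exp_add]; ring_nf
      have h5 : exp (3 / 2 * U) * exp (U / 2) <
          exp (3 / 2 * U) * ((3 * N + 2) * (3 * N + 2 : ℝ) ^ a) := by
        rw [← h4]
        calc exp (2 * U) < (3 * N + 2 : ℝ) ^ (c + b + a + 1) * T0 := hJ2
          _ = ((3 * N + 2 : ℝ) ^ (c + b) * T0) * ((3 * N + 2) * (3 * N + 2 : ℝ) ^ a) := by ring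
          _ ≤ exp (3 / 2 * U) * ((3 * N + 2) * (3 * N + 2 : ℝ) ^ a) :=
              mul_le_mul_of_nonneg_right hm1 (by positivity)
      exact (lt_of_mul_lt_mul_left h5 (exp_pos _).le).le
    have h2 : (25 * N : ℝ) * (3 * N + 2) ≤ exp (ε / 2 * U) := by
      refine le_trans ?_ hbig
      have : 0 ≤ 25 * (N : ℝ) * (3 * N + 2) := by positivity
      nlinarith
    have h3 := div_pow_le hε'.le (by linarith) hN h (k := a) (V := U / 2) (B := (3 * N + 2))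
      (A := 25 * N) (E := ε / 2 * U) (by linarith) (by positivity) h1 h2
    refine h3.trans (exp_le_exp.2 ?_)
    nlinarith

/-! ## (f) harmonic sums -/

theorem sum_inv_ge (k0 n : ℕ) (hk : 1 ≤ k0) :
    log (((k0 : ℝ) + n) / k0) ≤ ∑ k ∈ Finset.range n, 1 / ((k0 : ℝ) + k) := by
  have hk0 : (0 : ℝ) < k0 := by exact_mod_cast hk
  induction n with
  | zero => simp [hk0.ne']
  | succ n ih =>
    rw [Finset.sum_range_succ]
    have h1 : (0 : ℝ) < (k0 : ℝ) + n := by positivity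
    have h2 : log (((k0 : ℝ) + (n + 1 : ℕ)) / k0) =
        log (((k0 : ℝ) + n) / k0) + log (((k0 : ℝ) + (n + 1 : ℕ)) / (k0 + n)) := by
      rw [← log_mul (by positivity) (by positivity)]
      congr 1
      field_simp
    rw [h2]
    have h3 : log (((k0 : ℝ) + (n + 1 : ℕ)) / (k0 + n)) ≤ 1 / ((k0 : ℝ) + n) := by
      refine (log_le_sub_one_of_pos (by positivity)).trans ?_
      rw [div_sub_one h1.ne']
      push_cast
      rw [show (k0 : ℝ) + (n + 1) - (k0 + n) = 1 by ring]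
    linarith

end Crest.Agent.R2.N306
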