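import Mathlib

/-!
# R2 (Gaussian moat): common shapes for N, T2, B, B3, right_half, END (helper911)
-/

set_option autoImplicit false

namespace Crest.Agent.R2

open Finset

open Classical in
/-- `p` has at least `s` light classes for the weight `m` on `A`. -/
def LightAt (A : Finset GaussianInt) (m : GaussianInt → ℝ) (p : GaussianInt) (s : ℝ) : Prop :=
  ∃ R : Finset GaussianInt, (∀ x ∈ R, ∀ y ∈ R, p ∣ x - y → x = y) ∧ s ≤ (#R : ℝ) ∧
    ∀ c ∈ R, (∑ v ∈ A with p ∣ v - c, m v) ≤ 1 / (4 * (p.norm : ℝ))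

/-- Cluster data below the leaves `lf i`. -/
structure Clus {ι : Type} (lf : ι → GaussianInt) (r : ℝ) (l : ℕ) (C : ι → Finset GaussianInt)
    (cl : ι → GaussianInt → ℝ) : Prop where
  nonneg : ∀ i v, 0 ≤ cl i v
  supp : ∀ i, ∀ v ∉ C i, cl i v = 0
  sum_one : ∀ i, ∑ v ∈ C i, cl i v = 1
  near : ∀ i, ∀ v ∈ C i, ‖GaussianInt.toComplex (v - lf i)‖ ≤ r
  small : ∀ i v, cl i v ≤ 1 / (l : ℝ)

theorem LightAt.mono {A : Finset GaussianInt} {m : GaussianInt → ℝ} {p : GaussianInt} {s t : ℝ}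
    (h : LightAt A m p s) (hts : t ≤ s) : LightAt A m p t := by
  obtain ⟨R, h1, h2, h3⟩ := h
  exact ⟨R, h1, hts.trans h2, h3⟩

end Crest.Agent.R2
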