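import Crest.Agent.R2.Reg549b
import Crest.Agent.R2.Num306
import Crest.Agent.R2.Shape911

/-!
# R2 (Gaussian moat): the back of `right_half`

A cluster measure on helper763's tree cannot have a Fourier coefficient `≥ w^{-ε/32}` at `b_p/p`
for `≥ c w / log w` primes of norm in `(w, 4w]`.
-/

set_option autoImplicit false

namespace Crest.Agent.R2.T2

open Finset
open Crest.Agent.R2.Gcd62 (ab)
open Crest.Agent.R2.T1

noncomputable section

/-- `mu` in helper911's form. -/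
theorem mu_eq_div {Λ : Type} [Fintype Λ] {C : Λ → Finset GaussianInt}
    {cl : Λ → GaussianInt → ℝ} (hz : ∀ f, ∀ v, v ∉ C f → cl f v = 0) :
    mu C cl = fun v => (∑ i, cl i v) / (Fintype.card Λ : ℝ) := by
  funext v
  unfold mu
  rw [div_eq_inv_mul]
  congr 1
  refine Finset.sum_congr rfl fun f _ => ?_
  split_ifs with h
  · rfl
  · exact (hz f v h).symm

set_option maxHeartbeats 1000000 in
theorem right_back (ε : ℝ) (hε : 0 < ε) (hε1 : ε ≤ 1 / 40000) (N : ℕ) (hN1 : 1 ≤ N)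
    (hN : (3 * (N : ℝ) + 2) ^ (1 - ε / 2) ≤ N) (D : ℝ) (hD : 1 ≤ D) (c : ℝ) (hc : 0 < c)
    (C2 : ℝ) (hC2 : 1 / (2 * ε ^ 2) ≤ C2) (C4 : ℝ) :
    ∃ X0 : ℝ, ∀ w wmax : ℝ, X0 ≤ w → w ≤ wmax → c * Real.log wmax ≤ Real.log w →
    ∀ l : ℕ, 1 ≤ l → (l : ℝ) ≤ C4 * (Real.log wmax) ^ 2 →
    ∀ J : ℕ, TT N (2 * D * l) J ≤ Real.exp (2 * (C2 * Real.log wmax)) →
      Real.exp (2 * (C2 * Real.log wmax)) < TT N (2 * D * l) (J + 1) →
    ∀ (E : Set GaussianInt) (x : GaussianInt) (node : List (Fin N) → GaussianInt),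
      IsTree E N (TT N (2 * D * l)) J x node →
    ∀ (C : (Fin J → Fin N) → Finset GaussianInt) (cl : (Fin J → Fin N) → GaussianInt → ℝ),
      Clus (leaf node) (D * l) l C cl →
    ∀ G : Finset GaussianInt, (∀ p ∈ G, Prime p) →
      (∀ p ∈ G, w < (p.norm : ℝ)) → (∀ p ∈ G, (p.norm : ℝ) ≤ 4 * w) →
      (∀ p ∈ G, ∀ q ∈ G, Associated p q → p = q) → c * w / Real.log w ≤ (G.card : ℝ) →
    ∀ b : GaussianInt → GaussianInt, (∀ p ∈ G, ¬ p ∣ b p) →
      (∀ p ∈ G, w ^ (-(ε / 32)) ≤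
        ‖E717.mhat (Finset.univ.biUnion C)
          (fun v => (∑ i, cl i v) / (Fintype.card (Fin J → Fin N) : ℝ))
          (GaussianInt.toComplex (b p) / GaussianInt.toComplex p)‖) →
      False := by
  classical
  have hC2pos : 0 < C2 := lt_of_lt_of_le (by positivity) hC2
  obtain ⟨U0, hS⟩ := tree_three_scales ε hε hε1
  obtain ⟨X1, hX1, h1⟩ := N306.loglog_le₂ 1 (half_pos hε) hc C2
  obtain ⟨X2, hX2, h2⟩ := N306.const_le_log (U0 / C2)
  obtain ⟨X3, hX3, h3⟩ := N306.polylog_le_exp 2 (ε := ε / 2 * C2) (by positivity)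
    (25 * N * (3 * N + 2) * (2 * D * C4))
  obtain ⟨X4, hX4, h4⟩ := N306.card_ge (ε := ε / 4) hc (by positivity)
  refine ⟨max (max X1 X2) (max X3 X4), ?_⟩
  intro w wmax hw hww hcw l hl1 hl2 J hJ1 hJ2 E x node htree C cl hcl G hGp hGlo hGhi hGass hGcard
    b hb hbias
  have hwX1 : X1 ≤ w := (le_max_left _ _).trans ((le_max_left _ _).trans hw)
  have hwX2 : X2 ≤ w := (le_max_right _ _).trans ((le_max_left _ _).trans hw)
  have hwX3 : X3 ≤ w := (le_max_left _ _).trans ((le_max_right _ _).trans hw)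
  have hwX4 : X4 ≤ w := (le_max_right _ _).trans ((le_max_right _ _).trans hw)
  have hw2 : 2 ≤ w := hX4.trans hwX4
  have hw0 : 0 < w := by linarith
  have hlw0 : 0 < Real.log w := Real.log_pos (by linarith)
  have hlW : Real.log w ≤ Real.log wmax := Real.log_le_log hw0 hww
  have hlW0 : 0 < Real.log wmax := by linarith
  set U : ℝ := C2 * Real.log wmax with hU
  have hU0 : 0 ≤ U := by positivity
  have hlr : (1 : ℝ) ≤ l := by exact_mod_cast hl1
  have hDl : 1 ≤ D * l := by nlinarith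
  have hT0 : 1 ≤ 2 * D * l := by nlinarith
  have hNr : (1 : ℝ) ≤ N := by exact_mod_cast hN1
  -- the levels
  have hbig : 25 * N * (3 * N + 2) * (2 * D * l) ≤ Real.exp (ε / 2 * U) := by
    have e1 := h3 wmax (hwX3.trans hww)
    have e2 : ε / 2 * C2 * Real.log wmax = ε / 2 * U := by rw [hU]; ring
    rw [e2] at e1
    refine le_trans ?_ e1
    have e3 : 25 * (N : ℝ) * (3 * N + 2) * (2 * D * l)
        ≤ 25 * (N : ℝ) * (3 * N + 2) * (2 * D * (C4 * Real.log wmax ^ 2)) := by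
      refine mul_le_mul_of_nonneg_left ?_ (by positivity)
      exact mul_le_mul_of_nonneg_left hl2 (by linarith)
    refine e3.trans (le_of_eq ?_)
    ring
  obtain ⟨a, b', c', hJ, g1, g2, g3, g4, g5, g6, g7⟩ := N306.levels (N := N) (ε := ε)
    (ε' := ε / 2) (by positivity) (by linarith) (by linarith) hN1 hN hT0 hU0 hbig hJ1 hJ2
  have hJ' : J = a + (b' + c') := by omega
  subst hJ'
  have hexp1 : ∀ s : ℝ, 0 ≤ s → Real.exp (-(s * U)) ≤ 1 := by
    intro s hs
    rw [Real.exp_le_one_iff]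
    have : 0 ≤ s * U := mul_nonneg hs hU0
    linarith
  have ha : 1 ≤ a := by
    rcases Nat.eq_zero_or_pos a with h | h
    · exfalso
      rw [h, pow_zero, div_one] at g7
      have := hexp1 (1 / 2 - ε) (by linarith)
      linarith
    · exact h
  have hb1 : 1 ≤ b' := by
    rcases Nat.eq_zero_or_pos b' with h | h
    · exfalso
      rw [h, pow_zero, div_one] at g6
      have := hexp1 (1 / 2 - ε) (by linarith)
      linarith
    · exact h
  have hwin : ∀ p ∈ G, √w ≤ ab p ∧ ab p ≤ 2 * √w := fun p hp =>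
    N306.ab_window hw0.le (hGlo p hp) (hGhi p hp)
  refine hS U (√w) ?_ (Real.sqrt_pos.2 hw0) ?_ ?_ G hGp hGass (fun p hp => (hwin p hp).1)
    (fun p hp => (hwin p hp).2) (h4 w hwX4 _ hGcard) b hb E N (TT N (2 * D * l)) a b' c' x node
    htree hN1 ha hb1 (fun i => TT_pos N (by linarith) i) g1 g2.le g3 g4.le hJ1 l (D * l) C cl
    ?_ hl1 hcl.near hcl.nonneg (fun f v hv => hcl.supp f v hv) hcl.sum_one hcl.small ?_ g6 g7 ?_
  · have e1 := h2 w hwX2
    rw [div_le_iff₀ hC2pos] at e1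
    rw [hU]
    calc U0 ≤ Real.log w * C2 := e1
      _ ≤ Real.log wmax * C2 := mul_le_mul_of_nonneg_right hlW hC2pos.le
      _ = C2 * Real.log wmax := by ring
  · have e1 := h1 w wmax hwX1 hww hcw
    rw [pow_one] at e1
    rw [N306.log_sqrt' hw0.le, hU]
    linarith
  · rw [N306.log_sqrt' hw0.le, hU]
    have e1 : 1 / 2 ≤ ε ^ 2 * C2 := by
      rw [div_le_iff₀ (by positivity)] at hC2
      linarith
    calc Real.log w / 2 = 1 / 2 * Real.log w := by ring
      _ ≤ 1 / 2 * Real.log wmax := by linarith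
      _ ≤ ε ^ 2 * C2 * Real.log wmax := mul_le_mul_of_nonneg_right e1 hlW0.le
      _ = ε ^ 2 * (C2 * Real.log wmax) := by ring
  · rw [TT_zero]
    linarith
  · refine le_trans ?_ g5
    have hNc : (0 : ℝ) < (N : ℝ) ^ c' := by positivity
    rw [div_le_div_iff₀ (by positivity) hNc]
    nlinarith
  · intro p hp
    have e1 := hbias p hp
    have e2 : Real.exp (-(ε / 16 * Real.log (√w))) = w ^ (-(ε / 32)) := by
      rw [← neg_mul, N306.exp_mul_log_sqrt hw0]
      congr 1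
      ring
    rw [e2, mu_eq_div (fun f v hv => hcl.supp f v hv)]
    exact e1

end

end Crest.Agent.R2.T2
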