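import Crest.Agent.R2.End717b

/-!
# R2 (Gaussian moat), block B1: characters mod a split prime, light classes
-/

set_option autoImplicit false

namespace Crest.Agent.R2.B717

open Finset Crest.Agent.R2.E717

/-- `e(t) = exp (2 π i t)` -/
noncomputable def ee (t : ℝ) : ℂ := Complex.exp (2 * Real.pi * (t : ℂ) * Complex.I)

theorem chi_eq_ee (v : GaussianInt) (x : ℂ) : chi v x = ee (((v : ℂ) * x).re) := rfl

theorem ee_add (s t : ℝ) : ee (s + t) = ee s * ee t := by
  unfold ee; rw [← Complex.exp_add]; congr 1; push_cast; ring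

theorem ee_zero : ee 0 = 1 := by simp [ee]

theorem norm_ee (t : ℝ) : ‖ee t‖ = 1 := by
  unfold ee
  have : (2 * (Real.pi : ℂ) * (t : ℂ) * Complex.I) = ((2 * Real.pi * t : ℝ) : ℂ) * Complex.I := by
    push_cast; ring
  rw [this, Complex.norm_exp_ofReal_mul_I]

theorem ee_ne_zero (t : ℝ) : ee t ≠ 0 := Complex.exp_ne_zero _

theorem ee_neg (t : ℝ) : ee (-t) = (starRingEnd ℂ) (ee t) := by
  unfold ee
  rw [← Complex.exp_conj]
  congr 1
  simp only [map_mul, Complex.conj_ofReal, Complex.conj_I, map_ofNat, Complex.ofReal_neg]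
  ring

theorem ee_sub (s t : ℝ) : ee (s - t) = ee s * (starRingEnd ℂ) (ee t) := by
  rw [sub_eq_add_neg, ee_add, ee_neg]

theorem ee_int (n : ℤ) : ee (n : ℝ) = 1 := by
  unfold ee
  rw [Complex.exp_eq_one_iff]
  exact ⟨n, by push_cast; ring⟩

theorem ee_eq_one_iff {t : ℝ} : ee t = 1 ↔ ∃ n : ℤ, t = n := by
  constructor
  · intro h
    unfold ee at h
    rw [Complex.exp_eq_one_iff] at h
    obtain ⟨n, hn⟩ := h
    refine ⟨n, ?_⟩
    have h1 : (2 * (Real.pi : ℂ) * Complex.I) ≠ 0 := by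
      simp [Real.pi_ne_zero]
    have h2 : (2 * (Real.pi : ℂ) * Complex.I) * (t : ℂ) = (2 * (Real.pi : ℂ) * Complex.I) * (n : ℂ) := by
      linear_combination hn
    have h3 := mul_left_cancel₀ h1 h2
    exact_mod_cast h3
  · rintro ⟨n, rfl⟩; exact ee_int n

theorem ee_nat_mul (k : ℕ) (t : ℝ) : ee (k * t) = ee t ^ k := by
  induction k with
  | zero => simp [ee_zero]
  | succ k ih => rw [pow_succ, ← ih, ← ee_add]; congr 1; push_cast; ring

/-- sums of roots of unity -/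
theorem sum_ee (n : ℕ) (hn : 0 < n) (a : ℤ) :
    ∑ j ∈ range n, ee (j * ((a : ℝ) / n)) = if (n : ℤ) ∣ a then (n : ℂ) else 0 := by
  have hn' : (n : ℝ) ≠ 0 := by exact_mod_cast hn.ne'
  simp_rw [ee_nat_mul]
  split_ifs with h
  · obtain ⟨m, rfl⟩ := h
    have : ee ((((n : ℤ) * m : ℤ) : ℝ) / n) = 1 := by
      rw [ee_eq_one_iff]
      exact ⟨m, by push_cast; field_simp⟩
    rw [this]; simp
  · have h1 : ee ((a : ℝ) / n) ≠ 1 := by
      intro h1
      rw [ee_eq_one_iff] at h1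
      obtain ⟨m, hm⟩ := h1
      rw [div_eq_iff hn'] at hm
      exact h ⟨m, by exact_mod_cast (by rw [hm]; ring : (a : ℝ) = (n : ℝ) * m)⟩
    rw [geom_sum_eq h1, ← ee_nat_mul]
    have : (n : ℝ) * ((a : ℝ) / n) = a := by field_simp
    rw [this, ee_int, sub_self, zero_div]

theorem chi_add_left (v w : GaussianInt) (x : ℂ) : chi (v + w) x = chi v x * chi w x := by
  rw [chi_eq_ee, chi_eq_ee, chi_eq_ee, ← ee_add, GaussianInt.toComplex_add, add_mul, Complex.add_re]

theorem chi_add_right (v : GaussianInt) (x y : ℂ) : chi v (x + y) = chi v x * chi v y := by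
  rw [chi_eq_ee, chi_eq_ee, chi_eq_ee, ← ee_add, mul_add, Complex.add_re]

theorem chi_zero_left (x : ℂ) : chi 0 x = 1 := by
  rw [chi_eq_ee]; simp [ee_zero]

theorem chi_neg_left (v : GaussianInt) (x : ℂ) : chi (-v) x = (starRingEnd ℂ) (chi v x) := by
  rw [chi_eq_ee, chi_eq_ee, ← ee_neg, GaussianInt.toComplex_neg, neg_mul, Complex.neg_re]

theorem chi_neg_right (v : GaussianInt) (x : ℂ) : chi v (-x) = (starRingEnd ℂ) (chi v x) := by
  rw [chi_eq_ee, chi_eq_ee, ← ee_neg, mul_neg, Complex.neg_re]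

theorem chi_sub_left (v w : GaussianInt) (x : ℂ) :
    chi (v - w) x = chi v x * (starRingEnd ℂ) (chi w x) := by
  rw [sub_eq_add_neg, chi_add_left, chi_neg_left]

theorem chi_sub_right (v : GaussianInt) (x y : ℂ) :
    chi v (x - y) = chi v x * (starRingEnd ℂ) (chi v y) := by
  rw [sub_eq_add_neg, chi_add_right, chi_neg_right]

theorem chi_mul_conj (v : GaussianInt) (x : ℂ) : chi v x * (starRingEnd ℂ) (chi v x) = 1 := by
  rw [Complex.mul_conj, Complex.normSq_eq_norm_sq, norm_chi]; simp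

theorem chi_gaussian (v g : GaussianInt) : chi v (g : ℂ) = 1 := by
  rw [chi_eq_ee, ← GaussianInt.toComplex_mul, ← GaussianInt.intCast_re]
  exact ee_int _

theorem mhat_add_gaussian (A : Finset GaussianInt) (m : GaussianInt → ℝ) (x : ℂ)
    (g : GaussianInt) : mhat A m (x + g) = mhat A m x := by
  unfold mhat
  refine Finset.sum_congr rfl fun z _ => ?_
  rw [chi_add_right, chi_gaussian, mul_one]

theorem mhat_zero (A : Finset GaussianInt) (m : GaussianInt → ℝ) (hs : ∑ z ∈ A, m z = 1) :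
    mhat A m 0 = 1 := by
  unfold mhat
  simp only [chi_eq_ee, mul_zero, Complex.zero_re, ee_zero, mul_one]
  exact_mod_cast hs

theorem mhat_neg (A : Finset GaussianInt) (m : GaussianInt → ℝ) (x : ℂ) :
    mhat A m (-x) = (starRingEnd ℂ) (mhat A m x) := by
  unfold mhat
  rw [map_sum]
  refine Finset.sum_congr rfl fun z _ => ?_
  rw [chi_neg_right, map_mul, Complex.conj_ofReal]

/-- the additive map `z ↦ Re (z * conj π)`; it separates the classes mod `π` modulo `p = N(π)` -/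
def tt (q z : GaussianInt) : ℤ := (z * star q).re

theorem tt_sub (q z w : GaussianInt) : tt q (z - w) = tt q z - tt q w := by
  unfold tt; rw [sub_mul, Zsqrtd.re_sub]

theorem chi_div (q z : GaussianInt) (hq : q ≠ 0) (b : ℤ) :
    chi z ((b : ℂ) / q) = ee (b * ((tt q z : ℝ) / (q.norm : ℝ))) := by
  rw [chi_eq_ee]
  congr 1
  have h1 : (q : ℂ) * (starRingEnd ℂ) (q : ℂ) = ((q.norm : ℤ) : ℂ) := by
    rw [Complex.mul_conj, GaussianInt.intCast_complex_norm]
  have hq' : (q : ℂ) ≠ 0 := by rwa [Ne, GaussianInt.toComplex_eq_zero]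
  have hqc : (starRingEnd ℂ) (q : ℂ) ≠ 0 := by rwa [Ne, map_eq_zero]
  have hn : ((q.norm : ℤ) : ℂ) ≠ 0 := by rw [← h1]; exact mul_ne_zero hq' hqc
  have h2 : (z : ℂ) * ((b : ℂ) / q) = ((z * star q : GaussianInt) : ℂ) * ((b : ℝ) / ((q.norm : ℤ) : ℝ) : ℝ) := by
    rw [GaussianInt.toComplex_mul, GaussianInt.toComplex_star]
    push_cast
    rw [← h1]
    field_simp
  rw [h2, Complex.re_mul_ofReal, ← GaussianInt.intCast_re]
  unfold tt
  ring

theorem dvd_iff_tt {q : GaussianInt} {p : ℕ} (hp : p.Prime) (hq : q.norm = p) (z : GaussianInt) :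
    q ∣ z ↔ (p : ℤ) ∣ tt q z := by
  have hq0 : q ≠ 0 := by
    rintro rfl
    rw [Zsqrtd.norm_zero] at hq
    exact hp.ne_zero (by exact_mod_cast hq.symm)
  have hqq : q * star q = ((p : ℤ) : GaussianInt) := by
    rw [← Zsqrtd.norm_eq_mul_conj, hq]
  constructor
  · rintro ⟨y, rfl⟩
    unfold tt
    have : q * y * star q = ((p : ℤ) : GaussianInt) * y := by rw [← hqq]; ring
    have h2 : (((p : ℤ) : GaussianInt) * y).re = (p : ℤ) * y.re := by
      rw [Zsqrtd.re_mul]; simp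
    rw [this, h2]
    exact dvd_mul_right _ _
  · intro h
    unfold tt at h
    set u : GaussianInt := z * star q with hu
    have hnorm : u.norm = z.norm * p := by
      rw [hu, Zsqrtd.norm_mul, Zsqrtd.norm_conj, hq]
    have him : (p : ℤ) ∣ u.im := by
      have h1 : u.norm = u.re * u.re + u.im * u.im := by
        rw [Zsqrtd.norm_def]; ring
      have h2 : (p : ℤ) ∣ u.im * u.im := by
        have h3 : u.im * u.im = z.norm * p - u.re * u.re := by rw [← hnorm, h1]; ring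
        rw [h3]
        exact dvd_sub (dvd_mul_left _ _) (dvd_mul_of_dvd_left h _)
      have hp' : Prime (p : ℤ) := Nat.prime_iff_prime_int.mp hp
      rcases hp'.dvd_or_dvd h2 with h | h <;> exact h
    have h3 : ((p : ℤ) : GaussianInt) ∣ u := by
      rw [Zsqrtd.intCast_dvd]
      exact ⟨h, him⟩
    rw [← hqq, hu] at h3
    obtain ⟨y, hy⟩ := h3
    have hs0 : star q ≠ 0 := by rwa [Ne, star_eq_zero]
    refine ⟨y, mul_right_cancel₀ hs0 ?_⟩
    rw [hy]; ring

open Classical in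
/-- mass of the residue classes mod `π`, indexed by `ZMod p` -/
noncomputable def nu (A : Finset GaussianInt) (m : GaussianInt → ℝ) (q : GaussianInt) (p : ℕ)
    (k : ZMod p) : ℝ := ∑ z ∈ A with ((tt q z : ℤ) : ZMod p) = k, m z

open Classical in
theorem parseval {q : GaussianInt} {p : ℕ} (hp : p.Prime) (hq : q.norm = p)
    (A : Finset GaussianInt) (m : GaussianInt → ℝ) :
    haveI : NeZero p := ⟨hp.ne_zero⟩
    ∑ b ∈ range p, ‖mhat A m ((b : ℂ) / q)‖ ^ 2 = p * ∑ k : ZMod p, nu A m q p k ^ 2 := by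
  haveI : NeZero p := ⟨hp.ne_zero⟩
  have hq0 : q ≠ 0 := by
    rintro rfl
    rw [Zsqrtd.norm_zero] at hq
    exact hp.ne_zero (by exact_mod_cast hq.symm)
  have h1 : ∀ b : ℕ, ((‖mhat A m ((b : ℂ) / q)‖ ^ 2 : ℝ) : ℂ)
      = ∑ z ∈ A, ∑ z' ∈ A, (m z : ℂ) * (m z' : ℂ) *
          ee (b * (((tt q z - tt q z' : ℤ) : ℝ) / p)) := by
    intro b
    rw [← Complex.normSq_eq_norm_sq, ← Complex.mul_conj]
    unfold mhat
    rw [map_sum, Finset.sum_mul_sum]
    refine Finset.sum_congr rfl fun z _ => Finset.sum_congr rfl fun z' _ => ?_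
    have hb : ((b : ℕ) : ℂ) = ((b : ℤ) : ℂ) := by push_cast; rfl
    rw [hb, map_mul, Complex.conj_ofReal, chi_div q z hq0, chi_div q z' hq0, hq]
    have : ee (b * (((tt q z - tt q z' : ℤ) : ℝ) / p))
        = ee (((b : ℤ) : ℝ) * ((tt q z : ℝ) / (((p : ℕ) : ℤ) : ℝ))) *
          (starRingEnd ℂ) (ee (((b : ℤ) : ℝ) * ((tt q z' : ℝ) / (((p : ℕ) : ℤ) : ℝ)))) := by
      rw [← ee_sub]
      congr 1
      push_cast; ring
    rw [this]
    ring
  have h2 : ((∑ b ∈ range p, ‖mhat A m ((b : ℂ) / q)‖ ^ 2 : ℝ) : ℂ)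
      = ∑ z ∈ A, ∑ z' ∈ A, (m z : ℂ) * (m z' : ℂ) *
          (if (p : ℤ) ∣ tt q z - tt q z' then (p : ℂ) else 0) := by
    rw [Complex.ofReal_sum]
    simp_rw [h1]
    rw [Finset.sum_comm]
    refine Finset.sum_congr rfl fun z _ => ?_
    rw [Finset.sum_comm]
    refine Finset.sum_congr rfl fun z' _ => ?_
    rw [← Finset.mul_sum, sum_ee p hp.pos]
  have h3 : (p : ℝ) * ∑ k : ZMod p, nu A m q p k ^ 2
      = ∑ z ∈ A, ∑ z' ∈ A, m z * m z' * (if (p : ℤ) ∣ tt q z - tt q z' then (p : ℝ) else 0) := by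
    have h4 : ∀ k : ZMod p, nu A m q p k ^ 2 = ∑ z ∈ A, ∑ z' ∈ A,
        (if ((tt q z : ℤ) : ZMod p) = k then
          (if ((tt q z' : ℤ) : ZMod p) = k then m z * m z' else 0) else 0) := by
      intro k
      unfold nu
      rw [sq, Finset.sum_filter, Finset.sum_mul_sum]
      refine Finset.sum_congr rfl fun z _ => Finset.sum_congr rfl fun z' _ => ?_
      split_ifs <;> simp
    simp_rw [h4]
    rw [Finset.sum_comm, Finset.mul_sum]
    refine Finset.sum_congr rfl fun z _ => ?_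
    rw [Finset.sum_comm, Finset.mul_sum]
    refine Finset.sum_congr rfl fun z' _ => ?_
    rw [Finset.sum_ite_eq]
    simp only [Finset.mem_univ, if_true]
    have h5 : ((tt q z' : ℤ) : ZMod p) = ((tt q z : ℤ) : ZMod p) ↔ (p : ℤ) ∣ tt q z - tt q z' :=
      ZMod.intCast_eq_intCast_iff_dvd_sub _ _ _
    by_cases h6 : (p : ℤ) ∣ tt q z - tt q z'
    · rw [if_pos h6, if_pos (h5.mpr h6)]; ring
    · rw [if_neg h6, if_neg (fun h => h6 (h5.mp h))]; ring
  have h7 : ((∑ b ∈ range p, ‖mhat A m ((b : ℂ) / q)‖ ^ 2 : ℝ) : ℂ)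
      = (((p : ℝ) * ∑ k : ZMod p, nu A m q p k ^ 2 : ℝ) : ℂ) := by
    rw [h2, h3]
    push_cast
    refine Finset.sum_congr rfl fun z _ => Finset.sum_congr rfl fun z' _ => ?_
    split_ifs <;> simp
  exact_mod_cast h7

open Classical in
/-- **(3.1)** many light classes mod `π` force a large second moment of the nontrivial
characters mod `π`. -/
theorem light_classes {q : GaussianInt} {p : ℕ} (hp : p.Prime) (hq : q.norm = p)
    (A : Finset GaussianInt) (m : GaussianInt → ℝ) (hs : ∑ z ∈ A, m z = 1)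
    (C : Finset GaussianInt) (hC : ∀ c ∈ C, ∀ c' ∈ C, q ∣ c - c' → c = c')
    (hlight : ∀ c ∈ C, ∑ z ∈ A with q ∣ z - c, m z ≤ 1 / (4 * p)) :
    9 / 16 * (C.card : ℝ) / p ≤ ∑ b ∈ Ico 1 p, ‖mhat A m ((b : ℂ) / q)‖ ^ 2 := by
  haveI : NeZero p := ⟨hp.ne_zero⟩
  have hp0 : (0 : ℝ) < p := by exact_mod_cast hp.pos
  have hpars := parseval hp hq A m
  have h0 : ∑ b ∈ range p, ‖mhat A m ((b : ℂ) / q)‖ ^ 2
      = 1 + ∑ b ∈ Ico 1 p, ‖mhat A m ((b : ℂ) / q)‖ ^ 2 := by
    rw [Finset.range_eq_Ico, Finset.sum_eq_sum_Ico_succ_bot hp.pos]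
    congr 1
    simp [mhat_zero A m hs]
  have hsum1 : ∑ k : ZMod p, nu A m q p k = 1 := by
    unfold nu
    rw [Finset.sum_fiberwise]
    exact hs
  have hvar : ∑ k : ZMod p, (nu A m q p k - 1 / p) ^ 2 = ∑ k : ZMod p, nu A m q p k ^ 2 - 1 / p := by
    have : ∀ k : ZMod p, (nu A m q p k - 1 / p) ^ 2
        = nu A m q p k ^ 2 - 2 / p * nu A m q p k + 1 / p ^ 2 := by intro k; ring
    simp_rw [this]
    rw [Finset.sum_add_distrib, Finset.sum_sub_distrib, ← Finset.mul_sum, hsum1,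
      Finset.sum_const, Finset.card_univ, ZMod.card, nsmul_eq_mul]
    field_simp
    ring
  -- the light classes
  set K : Finset (ZMod p) := C.image (fun c => ((tt q c : ℤ) : ZMod p)) with hK
  have hinj : Set.InjOn (fun c => ((tt q c : ℤ) : ZMod p)) (C : Set GaussianInt) := by
    intro c hc c' hc' h
    have h1 : (p : ℤ) ∣ tt q c' - tt q c := (ZMod.intCast_eq_intCast_iff_dvd_sub _ _ _).mp h
    rw [← tt_sub, ← dvd_iff_tt hp hq] at h1
    exact (hC c' hc' c hc h1).symm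
  have hKcard : K.card = C.card := Finset.card_image_of_injOn hinj
  have hlow : (K.card : ℝ) * (9 / 16 / p ^ 2) ≤ ∑ k : ZMod p, (nu A m q p k - 1 / p) ^ 2 := by
    calc (K.card : ℝ) * (9 / 16 / p ^ 2) = ∑ k ∈ K, (9 / 16 / (p : ℝ) ^ 2) := by
          rw [Finset.sum_const, nsmul_eq_mul]
      _ ≤ ∑ k ∈ K, (nu A m q p k - 1 / p) ^ 2 := by
          refine Finset.sum_le_sum fun k hk => ?_
          rw [hK, Finset.mem_image] at hk
          obtain ⟨c, hc, rfl⟩ := hk
          have h1 : nu A m q p ((tt q c : ℤ) : ZMod p) ≤ 1 / (4 * p) := by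
            refine le_of_eq_of_le ?_ (hlight c hc)
            unfold nu
            refine Finset.sum_congr ?_ fun _ _ => rfl
            ext z
            simp only [Finset.mem_filter]
            refine and_congr_right fun _ => ?_
            rw [eq_comm, ZMod.intCast_eq_intCast_iff_dvd_sub, ← tt_sub, ← dvd_iff_tt hp hq]
          have h2 : (3 / 4 / (p : ℝ)) ≤ 1 / p - nu A m q p ((tt q c : ℤ) : ZMod p) := by
            have : (1 : ℝ) / p - 1 / (4 * p) = 3 / 4 / p := by field_simp; ring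
            linarith
          have h3 : (3 / 4 / (p : ℝ)) ^ 2 ≤ (1 / p - nu A m q p ((tt q c : ℤ) : ZMod p)) ^ 2 :=
            pow_le_pow_left₀ (by positivity) h2 2
          calc (9 / 16 / (p : ℝ) ^ 2) = (3 / 4 / (p : ℝ)) ^ 2 := by ring
            _ ≤ _ := h3
            _ = _ := by ring
      _ ≤ ∑ k : ZMod p, (nu A m q p k - 1 / p) ^ 2 :=
          Finset.sum_le_sum_of_subset_of_nonneg (Finset.subset_univ _) fun _ _ _ => sq_nonneg _
  rw [hKcard, hvar] at hlow
  rw [h0] at hpars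
  have h5 : (p : ℝ) * ((C.card : ℝ) * (9 / 16 / p ^ 2)) ≤ p * (∑ k : ZMod p, nu A m q p k ^ 2 - 1 / p) :=
    mul_le_mul_of_nonneg_left hlow hp0.le
  have h6 : (p : ℝ) * (∑ k : ZMod p, nu A m q p k ^ 2 - 1 / p)
      = ∑ b ∈ Ico 1 p, ‖mhat A m ((b : ℂ) / q)‖ ^ 2 := by
    rw [mul_sub, ← hpars]
    field_simp
    ring
  rw [h6] at h5
  calc 9 / 16 * (C.card : ℝ) / p = (p : ℝ) * ((C.card : ℝ) * (9 / 16 / p ^ 2)) := by
        field_simp
    _ ≤ _ := h5

end Crest.Agent.R2.B717
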