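import Crest.Agent.R2.Bias717a

/-!
# R2 (Gaussian moat), block B2: arithmetic of the frequencies `b / π`, cells, abstract inequality
-/

set_option autoImplicit false

namespace Crest.Agent.R2.B717

open Finset Crest.Agent.R2.E717

/-! ### Nonzero fractions are not small -/

theorem toC_ne {z : GaussianInt} (h : z ≠ 0) : (z : ℂ) ≠ 0 := by
  rwa [Ne, GaussianInt.toComplex_eq_zero]

theorem frac_lower {x : ℂ} {D n : GaussianInt} (hD : D ≠ 0) (hx : x = (n : ℂ) / D) (hx0 : x ≠ 0) :
    1 / N D ≤ ‖x‖ := by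
  have hn : n ≠ 0 := by
    rintro rfl
    apply hx0; rw [hx]; simp
  have h1 := one_le_N hn
  have h2 : 0 < N D := lt_of_lt_of_le one_pos (one_le_N hD)
  rw [hx, norm_div]
  exact div_le_div_of_nonneg_right h1 h2.le

theorem not_gaussian {q M n g : GaussianInt} (hq : Prime q) {b : GaussianInt} (hb : ¬ q ∣ b)
    (hM : ¬ q ∣ M) : (b : ℂ) / q + (n : ℂ) / M ≠ (g : ℂ) := by
  intro h
  have hM0 : M ≠ 0 := by rintro rfl; exact hM (dvd_zero _)
  have h1 := toC_ne hq.ne_zero
  have h2 := toC_ne hM0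
  field_simp at h
  have h3 : b * M + q * n = q * M * g := by
    have : ((b * M + q * n : GaussianInt) : ℂ) = ((q * M * g : GaussianInt) : ℂ) := by
      simp only [map_mul, map_add]
      linear_combination h
    exact GaussianInt.toComplex_injective this
  have h4 : q ∣ b * M := ⟨M * g - n, by linear_combination h3⟩
  rcases hq.dvd_or_dvd h4 with h | h
  · exact hb h
  · exact hM h

/-- a Gaussian prime of norm `p` does not divide `b` for `0 < b < p` -/
theorem not_dvd_nat {q : GaussianInt} {p : ℕ} (hp : p.Prime) (hq : q.norm = p) {b : ℤ}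
    (hb : ¬ (p : ℤ) ∣ b) : ¬ q ∣ (b : GaussianInt) := by
  rintro ⟨y, hy⟩
  have h1 : ((b : GaussianInt)).norm = q.norm * y.norm := by rw [hy, Zsqrtd.norm_mul]
  rw [hq, Zsqrtd.norm_intCast] at h1
  have h2 : (p : ℤ) ∣ b * b := ⟨y.norm, h1⟩
  have hp' : Prime (p : ℤ) := Nat.prime_iff_prime_int.mp hp
  rcases hp'.dvd_or_dvd h2 with h | h <;> exact hb h

/-- the standing hypotheses on a set of split primes -/
structure PrimeSet (G : Finset GaussianInt) (w : ℝ) : Prop where
  prime : ∀ q ∈ G, Prime q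
  ass : ∀ q ∈ G, ∀ q' ∈ G, Associated q q' → q = q'
  split : ∀ q ∈ G, (q.norm.natAbs).Prime
  lower : ∀ q ∈ G, w < (q.norm : ℝ)
  upper : ∀ q ∈ G, (q.norm : ℝ) ≤ 4 * w

namespace PrimeSet

variable {G : Finset GaussianInt} {w : ℝ}

theorem norm_eq (_hG : PrimeSet G w) {q : GaussianInt} (_hq : q ∈ G) :
    q.norm = ((q.norm.natAbs : ℕ) : ℤ) := by
  rw [Int.natCast_natAbs, abs_of_nonneg (GaussianInt.norm_nonneg q)]

theorem not_dvd (hG : PrimeSet G w) {q q' : GaussianInt} (hq : q ∈ G) (hq' : q' ∈ G)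
    (hne : q ≠ q') : ¬ q ∣ q' := by
  intro h
  exact hne (hG.ass q hq q' hq' (((hG.prime q hq).irreducible.dvd_irreducible_iff_associated
    (hG.prime q' hq').irreducible).mp h))

theorem not_dvd_b (hG : PrimeSet G w) {q : GaussianInt} (hq : q ∈ G) {b : ℕ}
    (hb : b ∈ Ico 1 q.norm.natAbs) : ¬ q ∣ (b : GaussianInt) := by
  have h1 := not_dvd_nat (hG.split q hq) (hG.norm_eq hq) (b := (b : ℤ)) (by
    rw [Finset.mem_Ico] at hb
    intro h
    have := Nat.le_of_dvd (by omega) (Int.natCast_dvd_natCast.mp h)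
    omega)
  simpa using h1

theorem not_dvd_sub (hG : PrimeSet G w) {q : GaussianInt} (hq : q ∈ G) {b b' : ℕ}
    (hb : b ∈ Ico 1 q.norm.natAbs) (hb' : b' ∈ Ico 1 q.norm.natAbs) (hne : b ≠ b') :
    ¬ q ∣ ((b : GaussianInt) - (b' : GaussianInt)) := by
  have h1 := not_dvd_nat (hG.split q hq) (hG.norm_eq hq) (b := (b : ℤ) - (b' : ℤ)) (by
    rw [Finset.mem_Ico] at hb hb'
    intro h
    have h2 : (b : ℤ) - (b' : ℤ) ≠ 0 := by omega
    have h3 := Int.natAbs_dvd_natAbs.mpr h
    have h4 := Nat.le_of_dvd (by omega) h3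
    omega)
  simpa using h1

theorem N_le (hG : PrimeSet G w) {q : GaussianInt} (hq : q ∈ G) : N q ^ 2 ≤ 4 * w := by
  have h1 : N q ^ 2 = (q.norm : ℝ) := by
    rw [N_sq]
    rw [Zsqrtd.norm_def]; push_cast; ring
  rw [h1]; exact hG.upper q hq

theorem N_pos (hG : PrimeSet G w) {q : GaussianInt} (hq : q ∈ G) : 0 < N q :=
  lt_of_lt_of_le one_pos (one_le_N (hG.prime q hq).ne_zero)

theorem w_pos (hG : PrimeSet G w) {q : GaussianInt} (hq : q ∈ G) : 0 < w := by
  have := hG.N_le hq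
  have h2 := hG.N_pos hq
  nlinarith

/-- the frequencies -/
noncomputable def freq (i : GaussianInt × ℕ) : ℂ := (i.2 : ℂ) / (i.1 : ℂ)

/-- frequencies of two different primes -/
theorem two_primes (hG : PrimeSet G w) {i j : GaussianInt × ℕ} (hi : i.1 ∈ G) (hj : j.1 ∈ G)
    (hib : i.2 ∈ Ico 1 i.1.norm.natAbs) (hne : i.1 ≠ j.1) (g : GaussianInt) :
    1 / (4 * w) ≤ ‖PrimeSet.freq i - PrimeSet.freq j - (g : ℂ)‖ := by
  have hw := hG.w_pos hi
  have h1 := toC_ne (hG.prime _ hi).ne_zero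
  have h2 := toC_ne (hG.prime _ hj).ne_zero
  have hx : freq i - freq j - (g : ℂ)
      = (((i.2 : GaussianInt) * j.1 - (j.2 : GaussianInt) * i.1 - g * i.1 * j.1 : GaussianInt) : ℂ)
        / ((i.1 * j.1 : GaussianInt) : ℂ) := by
    unfold freq
    simp only [GaussianInt.toComplex_sub, map_mul, map_natCast]
    field_simp
  have hx0 : freq i - freq j - (g : ℂ) ≠ 0 := by
    intro h
    refine not_gaussian (hG.prime _ hi) (hG.not_dvd_b hi hib) (hG.not_dvd hi hj hne)
      (n := -(j.2 : GaussianInt)) (g := g) ?_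
    unfold freq at h
    simp only [map_natCast, GaussianInt.toComplex_neg]
    linear_combination h
  have hD : i.1 * j.1 ≠ 0 := mul_ne_zero (hG.prime _ hi).ne_zero (hG.prime _ hj).ne_zero
  refine le_trans ?_ (frac_lower hD hx hx0)
  have h3 := hG.N_le hi
  have h4 := hG.N_le hj
  have h5 := hG.N_pos hi
  have h6 := hG.N_pos hj
  rw [N_mul]
  apply one_div_le_one_div_of_le (by positivity)
  nlinarith [sq_nonneg (N i.1 - N j.1)]

/-- frequencies of the same prime -/
theorem same_prime (hG : PrimeSet G w) {q : GaussianInt} (hq : q ∈ G) {b b' : ℕ}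
    (hb : b ∈ Ico 1 q.norm.natAbs) (hb' : b' ∈ Ico 1 q.norm.natAbs) (hne : b ≠ b')
    (g : GaussianInt) :
    1 / N q ≤ ‖PrimeSet.freq (q, b) - PrimeSet.freq (q, b') - (g : ℂ)‖ := by
  have h1 := toC_ne (hG.prime _ hq).ne_zero
  have hx : freq (q, b) - freq (q, b') - (g : ℂ)
      = (((b : GaussianInt) - (b' : GaussianInt) - g * q : GaussianInt) : ℂ) / (q : ℂ) := by
    unfold freq
    simp only [GaussianInt.toComplex_sub, map_mul, map_natCast]
    field_simp
  refine frac_lower (hG.prime _ hq).ne_zero hx ?_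
  rw [hx]
  intro h
  rw [div_eq_zero_iff] at h
  rcases h with h | h
  · rw [GaussianInt.toComplex_eq_zero] at h
    exact hG.not_dvd_sub hq hb hb' hne ⟨g, by linear_combination h⟩
  · exact h1 h

/-- a linear order on Gaussian integers (used only to choose one of the two orders of a pair) -/
def lt' (q q' : GaussianInt) : Prop := toLex (q.re, q.im) < toLex (q'.re, q'.im)

theorem lt'_irrefl (q : GaussianInt) : ¬ lt' q q := lt_irrefl _

theorem lt'_trans {a b c : GaussianInt} (h : lt' a b) (h' : lt' b c) : lt' a c := lt_trans h h'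

theorem lt'_or {q q' : GaussianInt} (h : q ≠ q') : lt' q q' ∨ lt' q' q := by
  unfold lt'
  rcases lt_trichotomy (toLex (q.re, q.im)) (toLex (q'.re, q'.im)) with h1 | h1 | h1
  · exact Or.inl h1
  · exfalso
    apply h
    have h2 : (q.re, q.im) = (q'.re, q'.im) := by simpa using h1
    rw [Prod.mk.injEq] at h2
    exact Zsqrtd.ext h2.1 h2.2
  · exact Or.inr h1

theorem ne_of_lt' {a b : GaussianInt} (h : lt' a b) : a ≠ b := by
  rintro rfl; exact lt'_irrefl a h

set_option maxHeartbeats 800000 in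
/-- differences of two frequencies are distinct and separated -/
theorem four_primes (hG : PrimeSet G w) {i i' j j' : GaussianInt × ℕ}
    (hi : i.1 ∈ G) (hi' : i'.1 ∈ G) (hj : j.1 ∈ G) (hj' : j'.1 ∈ G)
    (hib : i.2 ∈ Ico 1 i.1.norm.natAbs) (hib' : i'.2 ∈ Ico 1 i'.1.norm.natAbs)
    (hjb : j.2 ∈ Ico 1 j.1.norm.natAbs) (hjb' : j'.2 ∈ Ico 1 j'.1.norm.natAbs)
    (hlt : lt' i.1 i'.1) (hlt' : lt' j.1 j'.1) (hne : (i, i') ≠ (j, j')) (g : GaussianInt) :
    1 / (16 * w ^ 2) ≤
      ‖(PrimeSet.freq i - PrimeSet.freq i') - (PrimeSet.freq j - PrimeSet.freq j') - (g : ℂ)‖ := by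
  have hw := hG.w_pos hi
  have h1 := toC_ne (hG.prime _ hi).ne_zero
  have h2 := toC_ne (hG.prime _ hi').ne_zero
  have h3 := toC_ne (hG.prime _ hj).ne_zero
  have h4 := toC_ne (hG.prime _ hj').ne_zero
  have hii := ne_of_lt' hlt
  have hjj := ne_of_lt' hlt'
  set V : ℂ := (freq i - freq i') - (freq j - freq j') - (g : ℂ) with hV
  set num : GaussianInt := (i.2 : GaussianInt) * i'.1 * j.1 * j'.1
    - (i'.2 : GaussianInt) * i.1 * j.1 * j'.1 - (j.2 : GaussianInt) * i.1 * i'.1 * j'.1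
    + (j'.2 : GaussianInt) * i.1 * i'.1 * j.1 - g * (i.1 * i'.1 * j.1 * j'.1) with hnum
  have hx : V = (num : ℂ) / ((i.1 * i'.1 * j.1 * j'.1 : GaussianInt) : ℂ) := by
    rw [hV, hnum]
    unfold freq
    simp only [GaussianInt.toComplex_sub, GaussianInt.toComplex_add, map_mul, map_natCast]
    field_simp
    ring
  have hnum0 : num ≠ 0 := by
    intro h0
    -- a prime which occurs once divides its numerator
    have key : ∀ (q a r s t x y z : GaussianInt), Prime q → ¬ q ∣ a → ¬ q ∣ r → ¬ q ∣ s → ¬ q ∣ t →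
        a * r * s * t = q * x → False := by
      intro q a r s t x y z hq ha hr hs ht h
      have h5 : q ∣ a * r * s * t := ⟨x, h⟩
      rcases hq.dvd_or_dvd h5 with h5 | h5
      · rcases hq.dvd_or_dvd h5 with h5 | h5
        · rcases hq.dvd_or_dvd h5 with h5 | h5
          · exact ha h5
          · exact hr h5
        · exact hs h5
      · exact ht h5
    by_cases c1 : i.1 = j.1
    · by_cases c2 : i'.1 = j'.1
      · -- same primes
        have h5 : i.1 * i'.1 * (((i.2 : GaussianInt) - (j.2 : GaussianInt)) * i'.1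
            - ((i'.2 : GaussianInt) - (j'.2 : GaussianInt)) * i.1 - g * (i.1 * i'.1)) = 0 := by
          rw [hnum, ← c1, ← c2] at h0
          linear_combination h0
        have h6 : ((i.2 : GaussianInt) - (j.2 : GaussianInt)) * i'.1
            - ((i'.2 : GaussianInt) - (j'.2 : GaussianInt)) * i.1 - g * (i.1 * i'.1) = 0 := by
          rcases mul_eq_zero.mp h5 with h | h
          · exact absurd h (mul_ne_zero (hG.prime _ hi).ne_zero (hG.prime _ hi').ne_zero)
          · exact h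
        have h7 : i.2 = j.2 := by
          by_contra hb
          have hnd := hG.not_dvd_sub hi hib (by rw [c1]; exact hjb) hb
          have h8 : i.1 ∣ ((i.2 : GaussianInt) - (j.2 : GaussianInt)) * i'.1 :=
            ⟨((i'.2 : GaussianInt) - (j'.2 : GaussianInt)) + g * i'.1, by linear_combination h6⟩
          rcases (hG.prime _ hi).dvd_or_dvd h8 with h | h
          · exact hnd h
          · exact hG.not_dvd hi hi' hii h
        have h8 : i'.2 = j'.2 := by
          by_contra hb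
          have hnd := hG.not_dvd_sub hi' hib' (by rw [c2]; exact hjb') hb
          have h9 : i'.1 ∣ ((i'.2 : GaussianInt) - (j'.2 : GaussianInt)) * i.1 :=
            ⟨((i.2 : GaussianInt) - (j.2 : GaussianInt)) - g * i.1, by linear_combination -h6⟩
          rcases (hG.prime _ hi').dvd_or_dvd h9 with h | h
          · exact hnd h
          · exact hG.not_dvd hi' hi hii.symm h
        exact hne (by rw [Prod.mk.injEq]; exact ⟨Prod.ext c1 h7, Prod.ext c2 h8⟩)
      · -- `i'` occurs once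
        have d2 : i'.1 ≠ j.1 := by rw [← c1]; exact hii.symm
        refine key i'.1 (i'.2 : GaussianInt) i.1 j.1 j'.1
          ((i.2 : GaussianInt) * j.1 * j'.1 - (j.2 : GaussianInt) * i.1 * j'.1
            + (j'.2 : GaussianInt) * i.1 * j.1 - g * (i.1 * j.1 * j'.1)) 0 0
          (hG.prime _ hi') (hG.not_dvd_b hi' hib') (hG.not_dvd hi' hi hii.symm)
          (hG.not_dvd hi' hj d2) (hG.not_dvd hi' hj' c2) ?_
        rw [hnum] at h0
        linear_combination -h0
    · by_cases c3 : i.1 = j'.1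
      · -- `j` occurs once
        have d1 : j.1 ≠ i'.1 := by
          have : lt' j.1 i'.1 := lt'_trans (by rw [c3]; exact hlt') hlt
          exact ne_of_lt' this
        refine key j.1 (j.2 : GaussianInt) i.1 i'.1 j'.1
          ((i.2 : GaussianInt) * i'.1 * j'.1 - (i'.2 : GaussianInt) * i.1 * j'.1
            + (j'.2 : GaussianInt) * i.1 * i'.1 - g * (i.1 * i'.1 * j'.1)) 0 0
          (hG.prime _ hj) (hG.not_dvd_b hj hjb) (hG.not_dvd hj hi (Ne.symm c1))
          (hG.not_dvd hj hi' d1) (hG.not_dvd hj hj' hjj) ?_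
        rw [hnum] at h0
        linear_combination -h0
      · -- `i` occurs once
        refine key i.1 (i.2 : GaussianInt) i'.1 j.1 j'.1
          ((i'.2 : GaussianInt) * j.1 * j'.1 + (j.2 : GaussianInt) * i'.1 * j'.1
            - (j'.2 : GaussianInt) * i'.1 * j.1 + g * (i'.1 * j.1 * j'.1)) 0 0
          (hG.prime _ hi) (hG.not_dvd_b hi hib) (hG.not_dvd hi hi' hii)
          (hG.not_dvd hi hj c1) (hG.not_dvd hi hj' c3) ?_
        rw [hnum] at h0
        linear_combination h0
  have hD : i.1 * i'.1 * j.1 * j'.1 ≠ 0 :=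
    mul_ne_zero (mul_ne_zero (mul_ne_zero (hG.prime _ hi).ne_zero (hG.prime _ hi').ne_zero)
      (hG.prime _ hj).ne_zero) (hG.prime _ hj').ne_zero
  have hx0 : V ≠ 0 := by
    rw [hx]
    exact div_ne_zero (toC_ne hnum0) (toC_ne hD)
  refine le_trans ?_ (frac_lower hD hx hx0)
  have e1 := hG.N_le hi
  have e2 := hG.N_le hi'
  have e3 := hG.N_le hj
  have e4 := hG.N_le hj'
  have p1 := hG.N_pos hi
  have p2 := hG.N_pos hi'
  have p3 := hG.N_pos hj
  have p4 := hG.N_pos hj'
  rw [N_mul, N_mul, N_mul]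
  apply one_div_le_one_div_of_le (by positivity)
  have f1 : N i.1 * N i'.1 ≤ 4 * w := by nlinarith [sq_nonneg (N i.1 - N i'.1)]
  have f2 : N j.1 * N j'.1 ≤ 4 * w := by nlinarith [sq_nonneg (N j.1 - N j'.1)]
  calc N i.1 * N i'.1 * N j.1 * N j'.1 = (N i.1 * N i'.1) * (N j.1 * N j'.1) := by ring
    _ ≤ (4 * w) * (4 * w) := mul_le_mul f1 f2 (by positivity) (by positivity)
    _ = 16 * w ^ 2 := by ring

end PrimeSet

/-! ### The abstract inequality -/

/-- cells with small / large `A` -/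
theorem cell_sum {ι κ : Type*} [DecidableEq κ] (I : Finset ι) (K : Finset κ) (c : ι → κ)
    (hc : ∀ i ∈ I, c i ∈ K) (f : ι → ℝ) (AQ HS : κ → ℝ) (X1 X2 Y θ σ : ℝ)
    (hA : ∀ k ∈ K, 0 ≤ AQ k) (hHS : ∀ k ∈ K, 0 ≤ HS k)
    (hcell : ∀ k ∈ K, ∑ i ∈ I with c i = k, f i ≤ 4 * AQ k * (1 + Real.sqrt (HS k)))
    (hX1 : ∑ k ∈ K, AQ k ≤ X1) (hX2 : ∑ k ∈ K, HS k ≤ X2)
    (hY : ∀ k ∈ K, ((I.filter fun i => c i = k).card : ℝ) ≤ Y) (hf : ∀ i ∈ I, f i ≤ θ)
    (hθ : 0 ≤ θ) (hY0 : 0 ≤ Y) (hσ : 0 < σ) :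
    ∑ i ∈ I, f i ≤ 4 * X1 + 4 * Real.sqrt (σ * X1 * X2) + X1 / σ * (Y * θ) := by
  classical
  have hX1' : 0 ≤ X1 := (Finset.sum_nonneg hA).trans hX1
  have hX2' : 0 ≤ X2 := (Finset.sum_nonneg hHS).trans hX2
  rw [← Finset.sum_fiberwise_of_maps_to hc]
  have h1 : ∀ k ∈ K, ∑ i ∈ I with c i = k, f i ≤
      4 * AQ k + 4 * (if AQ k < σ then AQ k * Real.sqrt (HS k) else 0)
        + (if AQ k < σ then 0 else Y * θ) := by
    intro k hk
    by_cases h : AQ k < σ
    · rw [if_pos h, if_pos h]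
      refine (hcell k hk).trans (le_of_eq (by ring))
    · rw [if_neg h, if_neg h]
      have h2 : ∑ i ∈ I with c i = k, f i ≤ Y * θ := by
        calc ∑ i ∈ I with c i = k, f i ≤ ∑ i ∈ I with c i = k, θ :=
              Finset.sum_le_sum fun i hi => hf i (Finset.mem_filter.mp hi).1
          _ = ((I.filter fun i => c i = k).card : ℝ) * θ := by rw [Finset.sum_const, nsmul_eq_mul]
          _ ≤ Y * θ := mul_le_mul_of_nonneg_right (hY k hk) hθ
      have h3 := hA k hk
      linarith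
  refine (Finset.sum_le_sum h1).trans ?_
  rw [Finset.sum_add_distrib, Finset.sum_add_distrib, ← Finset.mul_sum, ← Finset.mul_sum]
  have h4 : ∑ k ∈ K, (if AQ k < σ then AQ k * Real.sqrt (HS k) else 0)
      ≤ Real.sqrt (σ * X1 * X2) := by
    have h5 : ∑ k ∈ K, (if AQ k < σ then AQ k * Real.sqrt (HS k) else 0)
        = ∑ k ∈ K, (if AQ k < σ then AQ k else 0) * Real.sqrt (HS k) := by
      refine Finset.sum_congr rfl fun k _ => ?_
      split_ifs <;> simp
    rw [h5]
    refine (Real.sum_mul_le_sqrt_mul_sqrt _ _ _).trans ?_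
    rw [← Real.sqrt_mul' _ (Finset.sum_nonneg fun k _ => sq_nonneg _)]
    apply Real.sqrt_le_sqrt
    have h6 : ∑ k ∈ K, (if AQ k < σ then AQ k else 0) ^ 2 ≤ σ * X1 := by
      calc ∑ k ∈ K, (if AQ k < σ then AQ k else 0) ^ 2 ≤ ∑ k ∈ K, σ * AQ k := by
            refine Finset.sum_le_sum fun k hk => ?_
            have h3 := hA k hk
            split_ifs with h
            · nlinarith
            · rw [zero_pow (by norm_num)]; positivity
        _ = σ * ∑ k ∈ K, AQ k := by rw [Finset.mul_sum]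
        _ ≤ σ * X1 := mul_le_mul_of_nonneg_left hX1 hσ.le
    have h7 : ∑ k ∈ K, Real.sqrt (HS k) ^ 2 ≤ X2 := by
      refine le_trans (le_of_eq ?_) hX2
      exact Finset.sum_congr rfl fun k hk => Real.sq_sqrt (hHS k hk)
    exact mul_le_mul h6 h7 (Finset.sum_nonneg fun k _ => sq_nonneg _) (by positivity)
  have h8 : ∑ k ∈ K, (if AQ k < σ then 0 else Y * θ) ≤ X1 / σ * (Y * θ) := by
    have h9 : ∀ k ∈ K, (if AQ k < σ then 0 else Y * θ) ≤ AQ k / σ * (Y * θ) := by
      intro k hk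
      have h3 := hA k hk
      have h10 : 0 ≤ Y * θ := mul_nonneg hY0 hθ
      split_ifs with h
      · positivity
      · push Not at h
        have : 1 ≤ AQ k / σ := by rw [le_div_iff₀ hσ]; linarith
        nlinarith
    refine (Finset.sum_le_sum h9).trans ?_
    rw [← Finset.sum_mul, ← Finset.sum_div]
    exact mul_le_mul_of_nonneg_right (div_le_div_of_nonneg_right hX1 hσ.le) (mul_nonneg hY0 hθ)
  linarith

end Crest.Agent.R2.B717
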