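import Crest.Agent.R2.End717b

/-!
# R2 (Gaussian moat), Theorem S, end game, step (S3): localisation

`ℓ = e^{U/4}`, `E = e^{O(ε) U}`.
-/

set_option autoImplicit false

namespace Crest.Agent.R2.E717

open Finset

/-- `x` is within `r` (max norm) of a Gaussian integer -/
def inR (r : ℝ) (x : ℂ) : Prop :=
  ∃ z : GaussianInt, |(x - (z : ℂ)).re| < r ∧ |(x - (z : ℂ)).im| < r

/-- spectral lemma (j = 1) as a black box -/
def Spec1 (A : Finset GaussianInt) (m : GaussianInt → ℝ) : Prop :=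
  ∀ (I : Finset GaussianInt) (x : GaussianInt → ℂ) (t r0 G g ρ : ℝ) (C : ℝ),
    0 < t → 0 < G → 20 * r0 * G ≤ 1 → 1 ≤ ρ →
    (∀ i ∈ I, ‖x i‖ ≤ r0) → (∀ i ∈ I, t ≤ ‖mhat A m (x i)‖) →
    (∀ v : GaussianInt, ∀ B ⊆ A, (∀ z ∈ B, N (z - v) ≤ G) → ∑ z ∈ B, m z ≤ g) →
    (∀ z ∈ A, N z + G ≤ ρ) →
    (∀ P : Finset (GaussianInt × GaussianInt),
      (∀ p ∈ P, (p.1 ∈ I ∧ p.2 ∈ I) ∧ inR (1 / (2 * ρ)) (x p.1 - x p.2)) → (P.card : ℝ) ≤ C) →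
    (t / 2) ^ 2 * (I.card : ℝ) ^ 2 * (disc G).card ≤ g * (40 * ρ ^ 2) * C

/-- spectral lemma (j = 2) as a black box -/
def Spec2 (A : Finset GaussianInt) (m : GaussianInt → ℝ) : Prop :=
  ∀ (I : Finset GaussianInt) (x : GaussianInt → ℂ) (t r0 G g ρ : ℝ) (C : ℝ),
    0 < t → 0 < G → 20 * r0 * G ≤ 1 → 1 ≤ ρ →
    (∀ i ∈ I, ‖x i‖ ≤ r0) → (∀ i ∈ I, t ≤ ‖mhat A m (x i)‖) →
    (∀ v : GaussianInt, ∀ B ⊆ A, (∀ z ∈ B, N (z - v) ≤ G) → ∑ z ∈ B, m z ≤ g) →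
    (∀ z ∈ A, N z + G ≤ ρ) →
    (∀ P : Finset ((GaussianInt × GaussianInt) × (GaussianInt × GaussianInt)),
      (∀ p ∈ P, (p.1.1 ∈ I ∧ p.1.2 ∈ I ∧ p.2.1 ∈ I ∧ p.2.2 ∈ I) ∧
        inR (1 / (2 * ρ)) (x p.1.1 + x p.1.2 - x p.2.1 - x p.2.2)) → (P.card : ℝ) ≤ C) →
    (t / 2) ^ 4 * (I.card : ℝ) ^ 4 * (disc G).card ≤ g * (40 * ρ ^ 2) * C

/-- a small complex number near a Gaussian integer is near `0` -/
theorem norm_le_of_inR {r : ℝ} {x : ℂ} (hr : r ≤ 1 / 2) (hx : ‖x‖ ≤ 1 / 2) (h : inR r x) :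
    ‖x‖ < 2 * r := by
  obtain ⟨z, h1, h2⟩ := h
  rw [Complex.sub_re, ← GaussianInt.intCast_re] at h1
  rw [Complex.sub_im, ← GaussianInt.intCast_im] at h2
  have hre := (Complex.abs_re_le_norm x).trans hx
  have him := (Complex.abs_im_le_norm x).trans hx
  rw [abs_le] at hre him
  rw [abs_lt] at h1 h2
  have hz1 : z.re = 0 := by
    have a1 : (z.re : ℝ) < 1 := by linarith
    have a2 : (-1 : ℝ) < (z.re : ℝ) := by linarith
    have a3 : z.re < 1 := by exact_mod_cast a1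
    have a4 : -1 < z.re := by exact_mod_cast a2
    omega
  have hz2 : z.im = 0 := by
    have a1 : (z.im : ℝ) < 1 := by linarith
    have a2 : (-1 : ℝ) < (z.im : ℝ) := by linarith
    have a3 : z.im < 1 := by exact_mod_cast a1
    have a4 : -1 < z.im := by exact_mod_cast a2
    omega
  rw [hz1, Int.cast_zero, sub_zero] at h1
  rw [hz2, Int.cast_zero, sub_zero] at h2
  have h3 : ‖x‖ ≤ |x.re| + |x.im| := Complex.norm_le_abs_re_add_abs_im x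
  have h4 : |x.re| < r := abs_lt.mpr h1
  have h5 : |x.im| < r := abs_lt.mpr h2
  linarith

theorem norm_cdiv_le {c M : GaussianInt} {E b : ℝ} (hc : N c ≤ E) (hb : 0 < b) (hM : b ≤ N M)
    (hE : 0 ≤ E) : ‖(c : ℂ) / M‖ ≤ E / b := by
  rw [norm_div]
  exact div_le_div₀ hE hc hb hM

theorem cdiv_sub_cdiv {c M M' : GaussianInt} (hM : M ≠ 0) (hM' : M' ≠ 0) :
    (c : ℂ) / M - c / M' = c * (M' - M) / (M * M') := by
  have h1 : (M : ℂ) ≠ 0 := by rwa [Ne, GaussianInt.toComplex_eq_zero]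
  have h2 : (M' : ℂ) ≠ 0 := by rwa [Ne, GaussianInt.toComplex_eq_zero]
  field_simp

/-- (S3): a separated subset is small -/
theorem separated_card_le (ℓ E : ℝ) (hE : 10 ^ 4 ≤ E) (hℓ : E ^ 10 ≤ ℓ)
    (S : Finset GaussianInt) (c : GaussianInt) (hc0 : c ≠ 0) (hc : N c ≤ E)
    (hlow : ∀ M ∈ S, ℓ ^ 4 / E ≤ N M) (hup : ∀ M ∈ S, N M ≤ ℓ ^ 4 * E)
    (hsep : ∀ a ∈ S, ∀ b ∈ S, a ≠ b → ℓ ^ 2 / E ^ 4 < N (a - b))
    (A : Finset GaussianInt) (m : GaussianInt → ℝ)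
    (hA : ∀ z ∈ A, N z ≤ ℓ ^ 6)
    (hP1 : ∀ v : GaussianInt, ∀ B ⊆ A, (∀ z ∈ B, N (z - v) ≤ ℓ ^ 4) → ∑ z ∈ B, m z ≤ E / ℓ ^ 2)
    (hbig : ∀ M ∈ S, 1 / E ≤ ‖mhat A m ((c : ℂ) / M)‖)
    (hspec : Spec1 A m) : (S.card : ℝ) ≤ E ^ 21 * ℓ ^ 2 := by
  have hE0 : 0 < E := by linarith
  have hE1 : 1 ≤ E := by linarith
  have hℓE : E ≤ ℓ := by
    have : E ^ 1 ≤ E ^ 10 := pow_le_pow_right₀ hE1 (by norm_num)
    linarith
  have hℓ0 : 0 < ℓ := by linarith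
  have hℓ1 : 1 ≤ ℓ := by linarith
  have hMne : ∀ M ∈ S, M ≠ 0 := by
    intro M hM h0
    have := hlow M hM
    rw [h0, N_zero] at this
    have h2 : 0 < ℓ ^ 4 / E := by positivity
    linarith
  have hGpos : 0 < ℓ ^ 4 / (20 * E ^ 2) := by positivity
  have hr0G : 20 * (E ^ 2 / ℓ ^ 4) * (ℓ ^ 4 / (20 * E ^ 2)) ≤ 1 := by
    apply le_of_eq
    field_simp
  have hρ1 : 1 ≤ ℓ ^ 6 * E ^ 6 := by
    have h1 : 1 ≤ ℓ ^ 6 := one_le_pow₀ hℓ1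
    have h2 : 1 ≤ E ^ 6 := one_le_pow₀ hE1
    nlinarith
  have hr0small : E ^ 2 / ℓ ^ 4 ≤ 1 / 4 := by
    rw [div_le_div_iff₀ (by positivity) (by norm_num)]
    have h1 : E ^ 2 ≤ ℓ ^ 2 := pow_le_pow_left₀ hE0.le hℓE 2
    have h2 : (10 ^ 4 : ℝ) ^ 2 ≤ ℓ ^ 2 := pow_le_pow_left₀ (by norm_num) (by linarith) 2
    nlinarith
  have hnorm : ∀ M ∈ S, ‖(c : ℂ) / M‖ ≤ E ^ 2 / ℓ ^ 4 := by
    intro M hM
    have := norm_cdiv_le hc (by positivity : 0 < ℓ ^ 4 / E) (hlow M hM) hE0.le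
    refine this.trans (le_of_eq ?_)
    field_simp
  have key := hspec S (fun M => (c : ℂ) / M) (1 / E) (E ^ 2 / ℓ ^ 4) (ℓ ^ 4 / (20 * E ^ 2))
    (E / ℓ ^ 2) (ℓ ^ 6 * E ^ 6) (S.card) (by positivity) hGpos hr0G hρ1 hnorm hbig ?_ ?_ ?_
  · -- arithmetic
    have hG2 : 2 ≤ ℓ ^ 4 / (20 * E ^ 2) := by
      rw [le_div_iff₀ (by positivity)]
      have h1 : E ^ 2 ≤ ℓ ^ 2 := pow_le_pow_left₀ hE0.le hℓE 2
      have h2 : (10 ^ 4 : ℝ) ^ 2 ≤ ℓ ^ 2 := pow_le_pow_left₀ (by norm_num) (by linarith) 2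
      nlinarith
    have hd := le_card_disc hG2
    have hS0 : (0 : ℝ) ≤ S.card := Nat.cast_nonneg _
    have h1 : (1 / E / 2) ^ 2 * (S.card : ℝ) ^ 2 * ((ℓ ^ 4 / (20 * E ^ 2)) ^ 2 / 4)
        ≤ E / ℓ ^ 2 * (40 * (ℓ ^ 6 * E ^ 6) ^ 2) * S.card :=
      le_trans (mul_le_mul_of_nonneg_left hd (by positivity)) key
    have h2 : (1 / E / 2) ^ 2 * (S.card : ℝ) ^ 2 * ((ℓ ^ 4 / (20 * E ^ 2)) ^ 2 / 4)
        = ((S.card : ℝ) * (ℓ ^ 8 / (6400 * E ^ 6))) * S.card := by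
      field_simp
      ring
    have h3 : E / ℓ ^ 2 * (40 * (ℓ ^ 6 * E ^ 6) ^ 2) * S.card
        = (40 * E ^ 13 * ℓ ^ 10) * S.card := by
      field_simp
    rw [h2, h3] at h1
    rcases hS0.eq_or_lt with h0 | hpos
    · rw [← h0]; positivity
    · have h4 := le_of_mul_le_mul_right h1 hpos
      rw [mul_div_assoc', div_le_iff₀ (by positivity)] at h4
      have h5 : (S.card : ℝ) * ℓ ^ 8 ≤ (256000 * E ^ 19 * ℓ ^ 2) * ℓ ^ 8 := by
        calc (S.card : ℝ) * ℓ ^ 8 ≤ 40 * E ^ 13 * ℓ ^ 10 * (6400 * E ^ 6) := h4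
          _ = (256000 * E ^ 19 * ℓ ^ 2) * ℓ ^ 8 := by ring
      have h6 := le_of_mul_le_mul_right h5 (by positivity)
      have h7 : (256000 : ℝ) ≤ E ^ 2 := by nlinarith
      calc (S.card : ℝ) ≤ 256000 * E ^ 19 * ℓ ^ 2 := h6
        _ ≤ E ^ 2 * E ^ 19 * ℓ ^ 2 := by
            have : 0 ≤ E ^ 19 * ℓ ^ 2 := by positivity
            nlinarith
        _ = E ^ 21 * ℓ ^ 2 := by ring
  · -- measure of balls
    intro v B hB hBv
    refine hP1 v B hB fun z hz => (hBv z hz).trans ?_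
    exact div_le_self (by positivity) (by nlinarith)
  · -- supports
    intro z hz
    have h1 := hA z hz
    have h2 : ℓ ^ 4 / (20 * E ^ 2) ≤ ℓ ^ 6 :=
      (div_le_self (by positivity) (by nlinarith)).trans (pow_le_pow_right₀ hℓ1 (by norm_num))
    have h3 : 2 ≤ E ^ 6 := by
      have : E ^ 1 ≤ E ^ 6 := pow_le_pow_right₀ hE1 (by norm_num)
      linarith
    have h4 : 0 < ℓ ^ 6 := by positivity
    nlinarith
  · -- diagonal
    intro P hP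
    have hPd : ∀ p ∈ P, p.1 = p.2 := by
      intro p hp
      obtain ⟨⟨hp1, hp2⟩, hp3⟩ := hP p hp
      by_contra hne
      have h1 : ‖(c : ℂ) / p.1 - c / p.2‖ < 2 * (1 / (2 * (ℓ ^ 6 * E ^ 6))) := by
        refine norm_le_of_inR ?_ ?_ hp3
        · rw [div_le_div_iff₀ (by positivity) (by norm_num)]
          linarith
        · refine (norm_sub_le _ _).trans ?_
          have := hnorm _ hp1
          have := hnorm _ hp2
          linarith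
      rw [cdiv_sub_cdiv (hMne _ hp1) (hMne _ hp2), norm_div, norm_mul, norm_mul,
        ← GaussianInt.toComplex_sub] at h1
      have h2 := hsep _ hp2 _ hp1 (Ne.symm hne)
      have h3 := one_le_N hc0
      have h4 := hup _ hp1
      have h5 := hup _ hp2
      have h6 := hlow _ hp1
      have h7 := hlow _ hp2
      have h8 : 0 < ℓ ^ 4 / E := by positivity
      have h9 : N p.1 * N p.2 ≤ (ℓ ^ 4 * E) * (ℓ ^ 4 * E) :=
        mul_le_mul h4 h5 (N_nonneg _) (by positivity)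
      have h10 : 0 < N p.1 * N p.2 := mul_pos (by linarith) (by linarith)
      change N c * N (p.2 - p.1) / (N p.1 * N p.2) < _ at h1
      rw [div_lt_iff₀ h10] at h1
      have h11 : ℓ ^ 2 / E ^ 4 < N c * N (p.2 - p.1) := by
        have : 0 ≤ N (p.2 - p.1) := N_nonneg _
        nlinarith
      have h12 : 2 * (1 / (2 * (ℓ ^ 6 * E ^ 6))) * (N p.1 * N p.2) ≤ ℓ ^ 2 / E ^ 4 := by
        calc 2 * (1 / (2 * (ℓ ^ 6 * E ^ 6))) * (N p.1 * N p.2)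
            ≤ 2 * (1 / (2 * (ℓ ^ 6 * E ^ 6))) * ((ℓ ^ 4 * E) * (ℓ ^ 4 * E)) :=
              mul_le_mul_of_nonneg_left h9 (by positivity)
          _ = ℓ ^ 2 / E ^ 4 := by field_simp
      linarith
    have hcard : P.card ≤ S.card := by
      refine Finset.card_le_card_of_injOn Prod.fst (fun p hp => (hP p hp).1.1) ?_
      intro p hp q hq hpq
      refine Prod.ext hpq ?_
      rw [← hPd p hp, ← hPd q hq, hpq]
    exact_mod_cast hcard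

end Crest.Agent.R2.E717
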