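import Crest.Agent.R2.Bias717b
import Crest.Agent.R2.End717c

/-!
# R2 (Gaussian moat), block B2: the cells
-/

set_option autoImplicit false

namespace Crest.Agent.R2.B717

open Finset Crest.Agent.R2.E717

/-- index of the cell of `x` on the grid `(1/n) ℤ[i] / ℤ[i]` -/
noncomputable def cidx (n : ℕ) (x : ℂ) : ℕ × ℕ :=
  ((round ((n : ℝ) * x.re) % (n : ℤ)).toNat, (round ((n : ℝ) * x.im) % (n : ℤ)).toNat)

/-- centre of a cell -/
noncomputable def ctr (n : ℕ) (k : ℕ × ℕ) : ℂ := ⟨(k.1 : ℝ) / n, (k.2 : ℝ) / n⟩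

/-- the Gaussian integer moving `x` next to the centre of its cell -/
noncomputable def gsh (n : ℕ) (x : ℂ) : GaussianInt :=
  ⟨round ((n : ℝ) * x.re) / (n : ℤ), round ((n : ℝ) * x.im) / (n : ℤ)⟩

noncomputable def rep (n : ℕ) (x : ℂ) : ℂ := x - (gsh n x : ℂ)

theorem cidx_mem {n : ℕ} (hn : 0 < n) (x : ℂ) : cidx n x ∈ range n ×ˢ range n := by
  have hn' : (0 : ℤ) < n := by exact_mod_cast hn
  unfold cidx
  rw [Finset.mem_product, Finset.mem_range, Finset.mem_range]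
  constructor
  · have h1 := Int.emod_nonneg (round ((n : ℝ) * x.re)) hn'.ne'
    have h2 := Int.emod_lt_of_pos (round ((n : ℝ) * x.re)) hn'
    simp only
    omega
  · have h1 := Int.emod_nonneg (round ((n : ℝ) * x.im)) hn'.ne'
    have h2 := Int.emod_lt_of_pos (round ((n : ℝ) * x.im)) hn'
    simp only
    omega

theorem rep_sub_ctr_re {n : ℕ} (hn : 0 < n) (x : ℂ) :
    |(rep n x - ctr n (cidx n x)).re| ≤ 1 / (2 * n) := by
  have hn' : (0 : ℤ) < n := by exact_mod_cast hn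
  have hnr : (0 : ℝ) < n := by exact_mod_cast hn
  set j : ℤ := round ((n : ℝ) * x.re) with hj
  have h1 : (((j % (n : ℤ)).toNat : ℕ) : ℝ) = ((j % (n : ℤ) : ℤ) : ℝ) := by
    have := Int.toNat_of_nonneg (Int.emod_nonneg j hn'.ne')
    exact_mod_cast this
  have h2 : ((j % (n : ℤ) : ℤ) : ℝ) = (j : ℝ) - n * ((j / (n : ℤ) : ℤ) : ℝ) := by
    have := Int.emod_def j (n : ℤ)
    rw [this]; push_cast; ring
  have h3 : (rep n x - ctr n (cidx n x)).re = ((n : ℝ) * x.re - j) / n := by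
    unfold rep ctr cidx gsh
    rw [Complex.sub_re, Complex.sub_re, ← GaussianInt.intCast_re]
    simp only
    rw [← hj, h1, h2]
    field_simp
    ring
  rw [h3, abs_div, abs_of_pos hnr, div_le_div_iff₀ hnr (by positivity)]
  have h4 := abs_sub_round ((n : ℝ) * x.re)
  rw [← hj] at h4
  nlinarith

theorem rep_sub_ctr_im {n : ℕ} (hn : 0 < n) (x : ℂ) :
    |(rep n x - ctr n (cidx n x)).im| ≤ 1 / (2 * n) := by
  have hn' : (0 : ℤ) < n := by exact_mod_cast hn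
  have hnr : (0 : ℝ) < n := by exact_mod_cast hn
  set j : ℤ := round ((n : ℝ) * x.im) with hj
  have h1 : (((j % (n : ℤ)).toNat : ℕ) : ℝ) = ((j % (n : ℤ) : ℤ) : ℝ) := by
    have := Int.toNat_of_nonneg (Int.emod_nonneg j hn'.ne')
    exact_mod_cast this
  have h2 : ((j % (n : ℤ) : ℤ) : ℝ) = (j : ℝ) - n * ((j / (n : ℤ) : ℤ) : ℝ) := by
    have := Int.emod_def j (n : ℤ)
    rw [this]; push_cast; ring
  have h3 : (rep n x - ctr n (cidx n x)).im = ((n : ℝ) * x.im - j) / n := by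
    unfold rep ctr cidx gsh
    rw [Complex.sub_im, Complex.sub_im, ← GaussianInt.intCast_im]
    simp only
    rw [← hj, h1, h2]
    field_simp
    ring
  rw [h3, abs_div, abs_of_pos hnr, div_le_div_iff₀ hnr (by positivity)]
  have h4 := abs_sub_round ((n : ℝ) * x.im)
  rw [← hj] at h4
  nlinarith

theorem mhat_rep (A : Finset GaussianInt) (m : GaussianInt → ℝ) (n : ℕ) (x : ℂ) :
    mhat A m (rep n x) = mhat A m x := by
  have := mhat_add_gaussian A m (rep n x) (gsh n x)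
  rw [← this]
  unfold rep
  rw [sub_add_cancel]

/-- the frequency index set -/
noncomputable def Fr (G : Finset GaussianInt) : Finset (GaussianInt × ℕ) :=
  (G.sigma fun q => Ico 1 q.norm.natAbs).map
    ⟨fun s => (s.1, s.2), by
      rintro ⟨a, b⟩ ⟨c, d⟩ h
      simp only [Prod.mk.injEq] at h
      obtain ⟨rfl, rfl⟩ := h
      rfl⟩

theorem mem_Fr {G : Finset GaussianInt} {i : GaussianInt × ℕ} :
    i ∈ Fr G ↔ i.1 ∈ G ∧ i.2 ∈ Ico 1 i.1.norm.natAbs := by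
  unfold Fr
  rw [Finset.mem_map]
  constructor
  · rintro ⟨⟨a, b⟩, h, rfl⟩
    rw [Finset.mem_sigma] at h
    exact h
  · intro h
    exact ⟨⟨i.1, i.2⟩, by rw [Finset.mem_sigma]; exact h, rfl⟩

theorem sum_Fr (G : Finset GaussianInt) (f : GaussianInt × ℕ → ℝ) :
    ∑ i ∈ Fr G, f i = ∑ q ∈ G, ∑ b ∈ Ico 1 q.norm.natAbs, f (q, b) := by
  unfold Fr
  rw [Finset.sum_map, Finset.sum_sigma]
  rfl

/-- number of separated points in a small square -/
theorem card_separated_le {ι : Type*} (I : Finset ι) (y : ι → ℂ) (ξ : ℂ) (a δ : ℝ) (ha : 0 ≤ a)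
    (hδ : 0 < δ) (h1 : ∀ i ∈ I, |(y i - ξ).re| ≤ a) (h2 : ∀ i ∈ I, |(y i - ξ).im| ≤ a)
    (hsep : ∀ i ∈ I, ∀ j ∈ I, i ≠ j → δ ≤ ‖y i - y j‖) :
    (I.card : ℝ) ≤ (4 * a / δ + 2) ^ 2 := by
  classical
  set F : ι → ℤ × ℤ := fun i => (⌊(y i - ξ).re * (2 / δ)⌋, ⌊(y i - ξ).im * (2 / δ)⌋) with hF
  have hmap : ∀ i ∈ I, F i ∈ Finset.Icc ⌊-(a * (2 / δ))⌋ ⌊a * (2 / δ)⌋ ×ˢ
      Finset.Icc ⌊-(a * (2 / δ))⌋ ⌊a * (2 / δ)⌋ := by
    intro i hi
    have g1 := abs_le.mp (h1 i hi)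
    have g2 := abs_le.mp (h2 i hi)
    have hd : 0 < 2 / δ := by positivity
    rw [hF, Finset.mem_product, Finset.mem_Icc, Finset.mem_Icc]
    refine ⟨⟨Int.floor_le_floor ?_, Int.floor_le_floor ?_⟩,
      ⟨Int.floor_le_floor ?_, Int.floor_le_floor ?_⟩⟩ <;> nlinarith
  have hinj : Set.InjOn F (I : Set ι) := by
    intro i hi j hj hij
    by_contra hne
    have h3 := hsep i hi j hj hne
    rw [hF] at hij
    simp only [Prod.mk.injEq] at hij
    have e1 := Int.abs_sub_lt_one_of_floor_eq_floor hij.1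
    have e2 := Int.abs_sub_lt_one_of_floor_eq_floor hij.2
    have hd : 0 < 2 / δ := by positivity
    have e3 : |(y i - y j).re| < δ / 2 := by
      have : (y i - ξ).re * (2 / δ) - (y j - ξ).re * (2 / δ) = (y i - y j).re * (2 / δ) := by
        simp only [Complex.sub_re]; ring
      rw [this, abs_mul, abs_of_pos hd] at e1
      have h5 : |(y i - y j).re| * (2 / δ) * (δ / 2) < 1 * (δ / 2) :=
        mul_lt_mul_of_pos_right e1 (by positivity)
      have h6 : |(y i - y j).re| * (2 / δ) * (δ / 2) = |(y i - y j).re| := by field_simp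
      linarith
    have e4 : |(y i - y j).im| < δ / 2 := by
      have : (y i - ξ).im * (2 / δ) - (y j - ξ).im * (2 / δ) = (y i - y j).im * (2 / δ) := by
        simp only [Complex.sub_im]; ring
      rw [this, abs_mul, abs_of_pos hd] at e2
      have h5 : |(y i - y j).im| * (2 / δ) * (δ / 2) < 1 * (δ / 2) :=
        mul_lt_mul_of_pos_right e2 (by positivity)
      have h6 : |(y i - y j).im| * (2 / δ) * (δ / 2) = |(y i - y j).im| := by field_simp
      linarith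
    have h7 := Complex.norm_le_abs_re_add_abs_im (y i - y j)
    linarith
  have hcard : I.card ≤ (Finset.Icc ⌊-(a * (2 / δ))⌋ ⌊a * (2 / δ)⌋ ×ˢ
      Finset.Icc ⌊-(a * (2 / δ))⌋ ⌊a * (2 / δ)⌋).card :=
    Finset.card_le_card_of_injOn F hmap hinj
  have hb : 0 ≤ a * (2 / δ) := by positivity
  have h8 : ((Finset.Icc ⌊-(a * (2 / δ))⌋ ⌊a * (2 / δ)⌋).card : ℝ) ≤ 4 * a / δ + 2 := by
    rw [Int.card_Icc]
    have h9 : ⌊-(a * (2 / δ))⌋ ≤ ⌊a * (2 / δ)⌋ := Int.floor_le_floor (by linarith)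
    have h10 : (((⌊a * (2 / δ)⌋ + 1 - ⌊-(a * (2 / δ))⌋).toNat : ℕ) : ℝ)
        = (⌊a * (2 / δ)⌋ : ℝ) + 1 - (⌊-(a * (2 / δ))⌋ : ℝ) := by
      have h11 : (((⌊a * (2 / δ)⌋ + 1 - ⌊-(a * (2 / δ))⌋).toNat : ℕ) : ℤ)
          = ⌊a * (2 / δ)⌋ + 1 - ⌊-(a * (2 / δ))⌋ := Int.toNat_of_nonneg (by omega)
      have h12 : ((((⌊a * (2 / δ)⌋ + 1 - ⌊-(a * (2 / δ))⌋).toNat : ℕ) : ℤ) : ℝ)
          = ((⌊a * (2 / δ)⌋ + 1 - ⌊-(a * (2 / δ))⌋ : ℤ) : ℝ) := by rw [h11]
      push_cast at h12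
      exact h12
    rw [h10]
    have h13 := Int.floor_le (a * (2 / δ))
    have h14 := Int.sub_one_lt_floor (-(a * (2 / δ)))
    have h15 : 4 * a / δ = a * (2 / δ) + a * (2 / δ) := by field_simp; ring
    linarith
  rw [Finset.card_product] at hcard
  calc (I.card : ℝ) ≤ ((Finset.Icc ⌊-(a * (2 / δ))⌋ ⌊a * (2 / δ)⌋).card : ℝ) *
        ((Finset.Icc ⌊-(a * (2 / δ))⌋ ⌊a * (2 / δ)⌋).card : ℝ) := by exact_mod_cast hcard
    _ ≤ (4 * a / δ + 2) * (4 * a / δ + 2) := mul_le_mul h8 h8 (Nat.cast_nonneg _) (by positivity)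
    _ = _ := by ring

/-- not within `r` of a Gaussian integer, from a lower bound of all the distances -/
theorem not_inR {ζ : ℂ} {δ r : ℝ} (hr : 2 * r ≤ δ) (h : ∀ g : GaussianInt, δ ≤ ‖ζ - (g : ℂ)‖) :
    ¬ inR r ζ := by
  rintro ⟨g, h1, h2⟩
  have h3 := Complex.norm_le_abs_re_add_abs_im (ζ - (g : ℂ))
  have := h g
  linarith

/-- **(3.4)**, main inequality with free parameters; the analytic inputs are hypotheses:
`hcell` = cell inequality, `hX1` = Parseval over the cells, `hLS` = localised large sieve. -/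
theorem bias_ineq {G : Finset GaussianInt} {w : ℝ} (hG : PrimeSet G w)
    (A : Finset GaussianInt) (m : GaussianInt → ℝ) (n : ℕ) (hn : 0 < n) (hn8 : 8 * w < (n : ℝ) ^ 2)
    (hw1 : 1 ≤ w)
    (AQ : ℕ × ℕ → ℝ) (hAQ : ∀ k, 0 ≤ AQ k)
    (hcell : ∀ k : ℕ × ℕ, ∀ (I : Finset (GaussianInt × ℕ)) (y : GaussianInt × ℕ → ℂ),
      (∀ i ∈ I, |(y i - ctr n k).re| ≤ 1 / (2 * n) ∧ |(y i - ctr n k).im| ≤ 1 / (2 * n)) →
      ∑ i ∈ I, ‖mhat A m (y i)‖ ^ 2 ≤ 4 * AQ k *
        (1 + Real.sqrt (∑ i ∈ I, ∑ j ∈ I with j ≠ i, ‖mhat A m (y i - y j)‖ ^ 2)))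
    (X1 X2 : ℝ) (hX1 : ∑ k ∈ range n ×ˢ range n, AQ k ≤ X1)
    (hLS : ∀ (P : Finset ((GaussianInt × ℕ) × (GaussianInt × ℕ)))
      (z : (GaussianInt × ℕ) × (GaussianInt × ℕ) → ℂ),
      (∀ i ∈ P, ∀ j ∈ P, i ≠ j → ¬ inR (1 / (32 * w ^ 2)) (z i - z j)) →
      (∀ i ∈ P, |(z i).re| ≤ 1 / n ∧ |(z i).im| ≤ 1 / n) →
      ∑ i ∈ P, ‖mhat A m (z i)‖ ^ 2 ≤ X2)
    (θ σ : ℝ) (hθ : 0 ≤ θ) (hσ : 0 < σ)
    (hsmall : ∀ q ∈ G, ∀ b ∈ Ico 1 q.norm.natAbs, ‖mhat A m ((b : ℂ) / q)‖ ^ 2 ≤ θ) :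
    ∑ q ∈ G, ∑ b ∈ Ico 1 q.norm.natAbs, ‖mhat A m ((b : ℂ) / q)‖ ^ 2 ≤
      4 * X1 + 4 * Real.sqrt (σ * X1 * (2 * X2)) + X1 / σ * ((8 * w / n + 2) ^ 2 * θ) := by
  classical
  have hnr : (0 : ℝ) < n := by exact_mod_cast hn
  have hw0 : 0 < w := by linarith
  set fr : GaussianInt × ℕ → ℂ := PrimeSet.freq with hfr
  set y : GaussianInt × ℕ → ℂ := fun i => rep n (fr i) with hy
  set c : GaussianInt × ℕ → ℕ × ℕ := fun i => cidx n (fr i) with hc
  have hsum : ∑ q ∈ G, ∑ b ∈ Ico 1 q.norm.natAbs, ‖mhat A m ((b : ℂ) / q)‖ ^ 2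
      = ∑ i ∈ Fr G, ‖mhat A m (y i)‖ ^ 2 := by
    rw [sum_Fr]
    refine Finset.sum_congr rfl fun q _ => Finset.sum_congr rfl fun b _ => ?_
    rw [hy]
    simp only
    rw [mhat_rep]
    rfl
  -- two frequencies in the same cell
  have hyc : ∀ i k, c i = k → |(y i - ctr n k).re| ≤ 1 / (2 * n) ∧ |(y i - ctr n k).im| ≤ 1 / (2 * n) := by
    rintro i k rfl
    exact ⟨rep_sub_ctr_re hn _, rep_sub_ctr_im hn _⟩
  have hyy : ∀ i j, c i = c j → |(y i - y j).re| ≤ 1 / n ∧ |(y i - y j).im| ≤ 1 / n := by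
    intro i j hij
    have h1 := hyc i (c j) hij
    have h2 := hyc j (c j) rfl
    have e : (1 : ℝ) / n = 1 / (2 * n) + 1 / (2 * n) := by field_simp; ring
    constructor
    · have h3 : (y i - y j).re = (y i - ctr n (c j)).re - (y j - ctr n (c j)).re := by
        simp only [Complex.sub_re]; ring
      rw [h3, e]
      exact (abs_sub _ _).trans (add_le_add h1.1 h2.1)
    · have h3 : (y i - y j).im = (y i - ctr n (c j)).im - (y j - ctr n (c j)).im := by
        simp only [Complex.sub_im]; ring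
      rw [h3, e]
      exact (abs_sub _ _).trans (add_le_add h1.2 h2.2)
  have hyfr : ∀ i j, ∃ g : GaussianInt, y i - y j = fr i - fr j - (g : ℂ) := by
    intro i j
    refine ⟨gsh n (fr i) - gsh n (fr j), ?_⟩
    rw [hy, GaussianInt.toComplex_sub]
    simp only [rep]
    ring
  have hdiff : ∀ i ∈ Fr G, ∀ j ∈ Fr G, i ≠ j → c i = c j → i.1 ≠ j.1 := by
    intro i hi j hj hne hij h1
    rw [mem_Fr] at hi hj
    obtain ⟨g, hg⟩ := hyfr i j
    have h2 := hyy i j hij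
    have hi2 : i = (i.1, i.2) := rfl
    have hj2 : j = (i.1, j.2) := Prod.ext h1.symm rfl
    have hb : i.2 ≠ j.2 := fun h => hne (Prod.ext h1 h)
    have h3 := hG.same_prime hi.1 hi.2 (by rw [h1]; exact hj.2) hb g
    rw [← hi2, ← hj2, ← hfr, ← hg] at h3
    -- |y i - y j| ≤ 2 / n < 1 / N q
    have h4 : ‖y i - y j‖ ^ 2 ≤ 2 / (n : ℝ) ^ 2 := by
      rw [← Complex.normSq_eq_norm_sq, Complex.normSq_apply]
      have a1 := abs_le.mp h2.1
      have a2 := abs_le.mp h2.2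
      have e1 : (y i - y j).re * (y i - y j).re ≤ (1 / (n : ℝ)) * (1 / n) := by nlinarith
      have e2 : (y i - y j).im * (y i - y j).im ≤ (1 / (n : ℝ)) * (1 / n) := by nlinarith
      have e3 : (2 : ℝ) / (n : ℝ) ^ 2 = (1 / (n : ℝ)) * (1 / n) + (1 / (n : ℝ)) * (1 / n) := by
        field_simp; ring
      linarith
    have h5 := hG.N_pos hi.1
    have h6 := hG.N_le hi.1
    have h7 : (1 / N i.1) ^ 2 ≤ ‖y i - y j‖ ^ 2 := pow_le_pow_left₀ (by positivity) h3 2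
    have h8 : (1 / N i.1) ^ 2 = 1 / N i.1 ^ 2 := by rw [div_pow, one_pow]
    have h9 : 1 / (4 * w) ≤ 1 / N i.1 ^ 2 := one_div_le_one_div_of_le (by positivity) h6
    have h10 : 2 / (n : ℝ) ^ 2 < 1 / (4 * w) := by
      rw [div_lt_div_iff₀ (by positivity) (by positivity)]
      linarith
    linarith
  rw [hsum]
  -- the sum of all `HS`
  set HS : ℕ × ℕ → ℝ := fun k => ∑ i ∈ (Fr G).filter (fun i => c i = k),
    ∑ j ∈ ((Fr G).filter (fun i => c i = k)).filter (fun j => j ≠ i),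
      ‖mhat A m (y i - y j)‖ ^ 2 with hHS
  have hHSsum : ∑ k ∈ range n ×ˢ range n, HS k ≤ 2 * X2 := by
    set P : Finset ((GaussianInt × ℕ) × (GaussianInt × ℕ)) :=
      (Fr G ×ˢ Fr G).filter (fun p => c p.1 = c p.2 ∧ PrimeSet.lt' p.1.1 p.2.1) with hP
    set P' : Finset ((GaussianInt × ℕ) × (GaussianInt × ℕ)) :=
      (Fr G ×ˢ Fr G).filter (fun p => c p.1 = c p.2 ∧ PrimeSet.lt' p.2.1 p.1.1) with hP'
    set F : (GaussianInt × ℕ) × (GaussianInt × ℕ) → ℝ :=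
      fun p => ‖mhat A m (y p.1 - y p.2)‖ ^ 2 with hF
    have e1 : ∑ k ∈ range n ×ˢ range n, HS k
        = ∑ p ∈ (Fr G ×ˢ Fr G).filter (fun p => c p.1 = c p.2 ∧ p.2 ≠ p.1), F p := by
      have e2 : ∀ k, HS k = ∑ p ∈ ((Fr G ×ˢ Fr G).filter
          (fun p => c p.1 = c p.2 ∧ p.2 ≠ p.1)).filter (fun p => c p.1 = k), F p := by
        intro k
        rw [hHS]
        simp only
        rw [Finset.sum_filter, Finset.filter_filter, Finset.sum_filter, Finset.sum_product]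
        refine Finset.sum_congr rfl fun i hi => ?_
        split_ifs with h
        · rw [Finset.filter_filter, Finset.sum_filter]
          refine Finset.sum_congr rfl fun j hj => ?_
          simp only [hF]
          by_cases h2 : c j = k
          · by_cases h3 : j ≠ i
            · rw [if_pos ⟨h2, h3⟩, if_pos ⟨⟨h.trans h2.symm, h3⟩, h⟩]
            · rw [if_neg (fun h4 => h3 h4.2), if_neg (fun h4 => h3 h4.1.2)]
          · rw [if_neg (fun h4 => h2 h4.1), if_neg (fun h4 => h2 (h4.1.1.symm.trans h4.2))]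
        · symm
          refine Finset.sum_eq_zero fun j hj => ?_
          rw [if_neg (fun h4 => h h4.2)]
      simp_rw [e2]
      refine Finset.sum_fiberwise_of_maps_to (fun p _ => cidx_mem hn _) _
    have e3 : (Fr G ×ˢ Fr G).filter (fun p => c p.1 = c p.2 ∧ p.2 ≠ p.1) = P ∪ P' := by
      ext p
      rw [hP, hP', Finset.mem_union, Finset.mem_filter, Finset.mem_filter, Finset.mem_filter,
        Finset.mem_product]
      constructor
      · rintro ⟨⟨hp1, hp2⟩, hc1, hne⟩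
        have h1 := hdiff p.1 hp1 p.2 hp2 (Ne.symm hne) hc1
        rcases PrimeSet.lt'_or h1 with h | h
        · exact Or.inl ⟨⟨hp1, hp2⟩, hc1, h⟩
        · exact Or.inr ⟨⟨hp1, hp2⟩, hc1, h⟩
      · rintro (⟨h1, h2, h3⟩ | ⟨h1, h2, h3⟩)
        · exact ⟨h1, h2, fun h => PrimeSet.ne_of_lt' h3 (by rw [h])⟩
        · exact ⟨h1, h2, fun h => PrimeSet.ne_of_lt' h3 (by rw [h])⟩
    have e4 : ∑ p ∈ P', F p = ∑ p ∈ P, F p := by
      refine Finset.sum_bij' (fun p _ => (p.2, p.1)) (fun p _ => (p.2, p.1)) ?_ ?_ ?_ ?_ ?_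
      · intro p hp
        rw [hP', Finset.mem_filter, Finset.mem_product] at hp
        rw [hP, Finset.mem_filter, Finset.mem_product]
        exact ⟨⟨hp.1.2, hp.1.1⟩, hp.2.1.symm, hp.2.2⟩
      · intro p hp
        rw [hP, Finset.mem_filter, Finset.mem_product] at hp
        rw [hP', Finset.mem_filter, Finset.mem_product]
        exact ⟨⟨hp.1.2, hp.1.1⟩, hp.2.1.symm, hp.2.2⟩
      · intro p _; rfl
      · intro p _; rfl
      · intro p _
        rw [hF]
        simp only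
        have : y p.1 - y p.2 = -(y p.2 - y p.1) := by ring
        rw [this, mhat_neg, RCLike.norm_conj]
    have e5 : ∑ p ∈ P, F p ≤ X2 := by
      refine hLS P (fun p => y p.1 - y p.2) ?_ ?_
      · intro p hp p' hp' hne
        rw [hP, Finset.mem_filter, Finset.mem_product] at hp hp'
        rw [mem_Fr, mem_Fr] at hp hp'
        refine not_inR (δ := 1 / (16 * w ^ 2)) (le_of_eq (by field_simp; norm_num)) ?_
        intro g
        obtain ⟨g1, hg1⟩ := hyfr p.1 p.2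
        obtain ⟨g2, hg2⟩ := hyfr p'.1 p'.2
        have h1 := hG.four_primes hp.1.1.1 hp.1.2.1 hp'.1.1.1 hp'.1.2.1 hp.1.1.2 hp.1.2.2
          hp'.1.1.2 hp'.1.2.2 hp.2.2 hp'.2.2 hne (g1 - g2 + g)
        refine h1.trans (le_of_eq ?_)
        rw [hg1, hg2, GaussianInt.toComplex_add, GaussianInt.toComplex_sub]
        congr 1
        ring
      · intro p hp
        rw [hP, Finset.mem_filter] at hp
        exact hyy _ _ hp.2.1
    rw [e1, e3]
    have e6 := Finset.sum_union_inter (s₁ := P) (s₂ := P') (f := F)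
    have e7 : 0 ≤ ∑ p ∈ P ∩ P', F p := Finset.sum_nonneg fun p _ => sq_nonneg _
    rw [e4] at e6
    linarith
  refine (cell_sum (Fr G) (range n ×ˢ range n) c (fun i _ => cidx_mem hn _)
    (fun i => ‖mhat A m (y i)‖ ^ 2) AQ HS X1 (2 * X2) ((8 * w / n + 2) ^ 2) θ σ
    (fun k _ => hAQ k) (fun k _ => Finset.sum_nonneg fun i _ => Finset.sum_nonneg fun j _ =>
      sq_nonneg _) ?_ hX1 hHSsum ?_ ?_ hθ (by positivity) hσ)
  · intro k _
    exact hcell k _ y (fun i hi => hyc i k (Finset.mem_filter.mp hi).2)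
  · intro k _
    have h1 := card_separated_le ((Fr G).filter fun i => c i = k) y (ctr n k) (1 / (2 * n))
      (1 / (4 * w)) (by positivity) (by positivity)
      (fun i hi => (hyc i k (Finset.mem_filter.mp hi).2).1)
      (fun i hi => (hyc i k (Finset.mem_filter.mp hi).2).2) ?_
    · refine h1.trans (le_of_eq ?_)
      congr 2
      field_simp
      ring
    · intro i hi j hj hne
      rw [Finset.mem_filter] at hi hj
      have h2 := hdiff i hi.1 j hj.1 hne (hi.2.trans hj.2.symm)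
      obtain ⟨g, hg⟩ := hyfr i j
      rw [hg]
      exact hG.two_primes (mem_Fr.mp hi.1).1 (mem_Fr.mp hj.1).1 (mem_Fr.mp hi.1).2 h2 g
  · intro i hi
    rw [mem_Fr] at hi
    have := hsmall i.1 hi.1 i.2 hi.2
    simp only [hy]
    rw [mhat_rep]
    exact this

end Crest.Agent.R2.B717
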