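import Crest.Agent.R2.Cell937b

/-!
# R2 (Gaussian moat), block B2 of #11312: Parseval over the cells (PARS)
(helper937)
-/

set_option autoImplicit false

namespace Crest.Agent.R2.B937

open Crest.Agent.R2.Tri Finset

theorem ee_nat_mul (x : ℝ) (n : ℕ) : ee ((n : ℝ) * x) = ee x ^ n := by
  induction n with
  | zero => simp
  | succ n ih =>
    rw [pow_succ, ← ih, ← ee_add]
    congr 1
    push_cast
    ring

theorem ee_eq_one_iff (x : ℝ) : ee x = 1 ↔ ∃ n : ℤ, x = n := by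
  unfold ee
  rw [Complex.exp_eq_one_iff]
  constructor
  · rintro ⟨n, hn⟩
    refine ⟨n, ?_⟩
    have h2 : (2 * (Real.pi : ℂ) * Complex.I) ≠ 0 := by
      simp [Real.pi_ne_zero, Complex.I_ne_zero]
    have : (x : ℂ) * (2 * (Real.pi : ℂ) * Complex.I) = (n : ℂ) * (2 * (Real.pi : ℂ) * Complex.I) := by
      rw [← hn]; ring
    have := mul_right_cancel₀ h2 this
    exact_mod_cast this
  · rintro ⟨n, rfl⟩
    exact ⟨n, by push_cast; ring⟩

/-- orthogonality on `ℤ / N`. -/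
theorem geom_zero (N : ℕ) (hN : 0 < N) (k : ℤ) (hk : k ≠ 0) (hkN : |k| < N) :
    ∑ a ∈ Finset.range N, ee ((k : ℝ) * ((a : ℝ) / N)) = 0 := by
  have hN' : (N : ℝ) ≠ 0 := by exact_mod_cast hN.ne'
  set ζ := ee ((k : ℝ) / N) with hζ
  have h1 : ∀ a ∈ Finset.range N, ee ((k : ℝ) * ((a : ℝ) / N)) = ζ ^ a := by
    intro a _
    rw [hζ, ← ee_nat_mul]
    congr 1
    ring
  rw [Finset.sum_congr rfl h1]
  have hz1 : ζ ≠ 1 := by
    rw [hζ, Ne, ee_eq_one_iff]
    rintro ⟨n, hn⟩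
    have h2 : (k : ℝ) = n * N := by
      rw [← hn]; field_simp
    have h3 : k = n * N := by exact_mod_cast h2
    have hn0 : n ≠ 0 := by
      rintro rfl
      exact hk (by simpa using h3)
    have h4 : |k| = |n| * N := by
      rw [h3, abs_mul]
      congr 1
      exact abs_of_nonneg (by positivity)
    have h5 : 1 ≤ |n| := Int.one_le_abs hn0
    nlinarith
  have hzN : ζ ^ N = 1 := by
    rw [hζ, ← ee_nat_mul]
    have : (N : ℝ) * ((k : ℝ) / N) = k := by field_simp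
    rw [this, ee_int]
  have := mul_geom_sum ζ N
  rw [hzN, sub_self] at this
  exact (mul_eq_zero.mp this).resolve_left (sub_ne_zero.mpr hz1)

/-- centre of a cell. -/
noncomputable def ctr (N a b : ℕ) : ℂ := ⟨(a : ℝ) / N, (b : ℝ) / N⟩

theorem chi_sub_left (v w : GaussianInt) (x : ℂ) :
    chi (v - w) x = chi v x * (starRingEnd ℂ) (chi w x) := by
  rw [sub_eq_add_neg, chi_add_left, chi_neg_left]

theorem sum_ctr (ρ N : ℕ) (hN : 0 < N) (hρ : ρ ≤ N) (p q : ℕ × ℕ) (hp : p ∈ bx ρ) (hq : q ∈ bx ρ) :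
    ∑ a ∈ Finset.range N, ∑ b ∈ Finset.range N, chi (hh p - hh q) (ctr N a b)
      = if p = q then (N : ℂ) ^ 2 else 0 := by
  unfold bx at hp hq
  rw [Finset.mem_product, Finset.mem_range, Finset.mem_range] at hp hq
  have h1 : ∀ a ∈ Finset.range N, ∀ b ∈ Finset.range N, chi (hh p - hh q) (ctr N a b)
      = ee ((((p.1 : ℤ) - q.1 : ℤ) : ℝ) * ((a : ℝ) / N)) *
        ee ((((q.2 : ℤ) - p.2 : ℤ) : ℝ) * ((b : ℝ) / N)) := by
    intro a _ b _
    unfold chi
    rw [← ee_add]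
    congr 1
    have e1 : (((hh p - hh q).re : ℤ) : ℝ) = (((p.1 : ℤ) - q.1 : ℤ) : ℝ) := by simp [hh]
    have e2 : (((hh p - hh q).im : ℤ) : ℝ) = -(((q.2 : ℤ) - p.2 : ℤ) : ℝ) := by simp [hh]
    rw [e1, e2]
    simp only [ctr]
    ring
  have h2 : ∑ a ∈ Finset.range N, ∑ b ∈ Finset.range N, chi (hh p - hh q) (ctr N a b)
      = (∑ a ∈ Finset.range N, ee ((((p.1 : ℤ) - q.1 : ℤ) : ℝ) * ((a : ℝ) / N))) *
        (∑ b ∈ Finset.range N, ee ((((q.2 : ℤ) - p.2 : ℤ) : ℝ) * ((b : ℝ) / N))) := by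
    rw [Finset.sum_mul_sum]
    apply Finset.sum_congr rfl
    intro a ha
    apply Finset.sum_congr rfl
    intro b hb
    exact h1 a ha b hb
  rw [h2]
  split_ifs with hpq
  · subst hpq
    simp [sq]
  · by_cases h3 : p.1 = q.1
    · have h4 : p.2 ≠ q.2 := fun h => hpq (Prod.ext h3 h)
      have : ∑ b ∈ Finset.range N, ee ((((q.2 : ℤ) - p.2 : ℤ) : ℝ) * ((b : ℝ) / N)) = 0 := by
        apply geom_zero N hN
        · omega
        · rw [abs_lt]; omega
      rw [this, mul_zero]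
    · have : ∑ a ∈ Finset.range N, ee ((((p.1 : ℤ) - q.1 : ℤ) : ℝ) * ((a : ℝ) / N)) = 0 := by
        apply geom_zero N hN
        · omega
        · rw [abs_lt]; omega
      rw [this, zero_mul]

/-- Parseval on a box. -/
theorem parseval_box (ρ N : ℕ) (hN : 0 < N) (hρ : ρ ≤ N) (c : ℕ × ℕ → ℂ) :
    ∑ a ∈ Finset.range N, ∑ b ∈ Finset.range N,
      ‖∑ p ∈ bx ρ, c p * chi (hh p) (ctr N a b)‖ ^ 2 = (N : ℝ) ^ 2 * ∑ p ∈ bx ρ, ‖c p‖ ^ 2 := by
  have key : ((∑ a ∈ Finset.range N, ∑ b ∈ Finset.range N,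
      ‖∑ p ∈ bx ρ, c p * chi (hh p) (ctr N a b)‖ ^ 2 : ℝ) : ℂ)
      = (((N : ℝ) ^ 2 * ∑ p ∈ bx ρ, ‖c p‖ ^ 2 : ℝ) : ℂ) := by
    push_cast
    have h1 : ∀ a ∈ Finset.range N, ∀ b ∈ Finset.range N,
        ((‖∑ p ∈ bx ρ, c p * chi (hh p) (ctr N a b)‖ : ℝ) : ℂ) ^ 2
        = ∑ p ∈ bx ρ, ∑ q ∈ bx ρ, c p * (starRingEnd ℂ) (c q) * chi (hh p - hh q) (ctr N a b) := by
      intro a _ b _
      rw [← Complex.mul_conj', map_sum, Finset.sum_mul_sum]
      apply Finset.sum_congr rfl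
      intro p _
      apply Finset.sum_congr rfl
      intro q _
      rw [chi_sub_left, map_mul]
      ring
    rw [Finset.sum_congr rfl fun a ha => Finset.sum_congr rfl fun b hb => h1 a ha b hb]
    have h2 : ∑ a ∈ Finset.range N, ∑ b ∈ Finset.range N, ∑ p ∈ bx ρ, ∑ q ∈ bx ρ,
        c p * (starRingEnd ℂ) (c q) * chi (hh p - hh q) (ctr N a b)
        = ∑ p ∈ bx ρ, ∑ q ∈ bx ρ, c p * (starRingEnd ℂ) (c q) *
          ∑ a ∈ Finset.range N, ∑ b ∈ Finset.range N, chi (hh p - hh q) (ctr N a b) := by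
      simp only [Finset.mul_sum]
      rw [← Finset.sum_product', Finset.sum_comm]
      apply Finset.sum_congr rfl
      intro p _
      rw [Finset.sum_comm]
      apply Finset.sum_congr rfl
      intro q _
      rw [← Finset.sum_product']
    rw [h2, Finset.mul_sum]
    apply Finset.sum_congr rfl
    intro p hp
    have h3 : ∀ q ∈ bx ρ, c p * (starRingEnd ℂ) (c q) *
          ∑ a ∈ Finset.range N, ∑ b ∈ Finset.range N, chi (hh p - hh q) (ctr N a b)
        = if p = q then c p * (starRingEnd ℂ) (c q) * (N : ℂ) ^ 2 else 0 := by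
      intro q hq
      rw [sum_ctr ρ N hN hρ p q hp hq]
      split_ifs <;> simp
    rw [Finset.sum_congr rfl h3, Finset.sum_ite_eq, if_pos hp, Complex.mul_conj']
    ring
  exact_mod_cast key

variable {A : Finset GaussianInt} {m : GaussianInt → ℝ}

/-- **Parseval over the cells** (3.4) of #11312. -/
theorem sum_AQ_le (hm : ∀ z ∈ A, 0 ≤ m z) (M : ℝ) (hM : ∀ z ∈ A, m z ≤ M) (ρ N : ℕ) (hρ : 0 < ρ)
    (hρN : ρ ≤ N) (V : Finset GaussianInt) :
    ∑ a ∈ Finset.range N, ∑ b ∈ Finset.range N, AQ A m ρ V (ctr N a b)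
      ≤ ((N : ℝ) / ρ) ^ 2 * M * ((V.filter fun v => om A m ρ v ≠ 0).card : ℝ) := by
  classical
  have hN : 0 < N := lt_of_lt_of_le hρ hρN
  have hρ' : (0 : ℝ) < ρ := by exact_mod_cast hρ
  have hN' : (0 : ℝ) < N := by exact_mod_cast hN
  unfold AQ
  have h1 : ∑ a ∈ Finset.range N, ∑ b ∈ Finset.range N, ∑ v ∈ V,
      ‖mQ A m ρ (ctr N a b) v‖ ^ 2 / om A m ρ v
      = ∑ v ∈ V, (∑ a ∈ Finset.range N, ∑ b ∈ Finset.range N,
        ‖mQ A m ρ (ctr N a b) v‖ ^ 2) / om A m ρ v := by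
    rw [← Finset.sum_product', Finset.sum_comm]
    apply Finset.sum_congr rfl
    intro v _
    rw [← Finset.sum_div, Finset.sum_product]
  rw [h1]
  have h2 : ∀ v ∈ V, (∑ a ∈ Finset.range N, ∑ b ∈ Finset.range N,
        ‖mQ A m ρ (ctr N a b) v‖ ^ 2) / om A m ρ v
      ≤ if om A m ρ v ≠ 0 then ((N : ℝ) / ρ) ^ 2 * M else 0 := by
    intro v _
    split_ifs with h0
    · have hpos : 0 < om A m ρ v := lt_of_le_of_ne (om_nonneg hm ρ v) (Ne.symm h0)
      rw [div_le_iff₀ hpos]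
      have h3 : ∀ a ∈ Finset.range N, ∀ b ∈ Finset.range N, ‖mQ A m ρ (ctr N a b) v‖ ^ 2
          = (1 / (ρ : ℝ) ^ 4) *
            ‖∑ p ∈ bx ρ, (me A m (v + hh p) : ℂ) * chi (hh p) (ctr N a b)‖ ^ 2 := by
        intro a _ b _
        unfold mQ
        have e1 : ∑ p ∈ bx ρ, (me A m (v + hh p) : ℂ) * chi (v + hh p) (ctr N a b)
            = chi v (ctr N a b) * ∑ p ∈ bx ρ, (me A m (v + hh p) : ℂ) * chi (hh p) (ctr N a b) := by
          rw [Finset.mul_sum]
          apply Finset.sum_congr rfl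
          intro p _
          rw [chi_add_left]
          ring
        rw [e1, norm_div, norm_mul, norm_chi, one_mul, norm_pow, Complex.norm_natCast, div_pow,
          ← pow_mul]
        ring
      rw [Finset.sum_congr rfl fun a ha => Finset.sum_congr rfl fun b hb => h3 a ha b hb]
      simp only [← Finset.mul_sum]
      rw [parseval_box ρ N hN hρN]
      have h4 : ∑ p ∈ bx ρ, ‖(me A m (v + hh p) : ℂ)‖ ^ 2
          ≤ M * ∑ p ∈ bx ρ, me A m (v + hh p) := by
        rw [Finset.mul_sum]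
        apply Finset.sum_le_sum
        intro p _
        rw [Complex.norm_real, Real.norm_eq_abs, sq_abs, sq]
        have hn := me_nonneg hm (v + hh p)
        have hle : me A m (v + hh p) ≤ M ∨ me A m (v + hh p) = 0 := by
          unfold me
          split_ifs with hA
          · exact Or.inl (hM _ hA)
          · exact Or.inr rfl
        rcases hle with hle | hle
        · exact mul_le_mul_of_nonneg_right hle hn
        · rw [hle]; simp
      have h5 : ∑ p ∈ bx ρ, me A m (v + hh p) = om A m ρ v * (ρ : ℝ) ^ 2 := by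
        unfold om
        field_simp
      rw [h5] at h4
      calc 1 / (ρ : ℝ) ^ 4 * ((N : ℝ) ^ 2 * ∑ p ∈ bx ρ, ‖(me A m (v + hh p) : ℂ)‖ ^ 2)
          ≤ 1 / (ρ : ℝ) ^ 4 * ((N : ℝ) ^ 2 * (M * (om A m ρ v * (ρ : ℝ) ^ 2))) := by gcongr
        _ = ((N : ℝ) / ρ) ^ 2 * M * om A m ρ v := by
          field_simp
    · push Not at h0
      rw [h0]
      simp
  refine le_trans (Finset.sum_le_sum h2) ?_
  rw [← Finset.sum_filter, Finset.sum_const, nsmul_eq_mul]
  exact le_of_eq (by ring)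

/-- `A_Q ≤ 1` for a probability. -/
theorem AQ_le_one (hm : ∀ z ∈ A, 0 ≤ m z) (hs : ∑ z ∈ A, m z = 1) (ρ : ℕ) (hρ : 0 < ρ)
    (V : Finset GaussianInt) (hV : ∀ z ∈ A, ∀ p ∈ bx ρ, z - hh p ∈ V) (ξ : ℂ) :
    AQ A m ρ V ξ ≤ 1 := by
  have h1 : AQ A m ρ V ξ ≤ ∑ v ∈ V, om A m ρ v := by
    unfold AQ
    apply Finset.sum_le_sum
    intro v _
    rcases (om_nonneg hm ρ v).eq_or_lt with h0 | h0
    · rw [← h0]; simp
    · rw [div_le_iff₀ h0, ← sq]
      exact pow_le_pow_left₀ (norm_nonneg _) (norm_mQ_le hm ρ ξ v) 2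
  refine le_trans h1 (le_of_eq ?_)
  have h2 := sum_om_chi (m := m) ρ V hV 0
  simp only [chi_zero_right, mul_one] at h2
  have h3 : kap ρ 0 = 1 := by
    unfold kap
    simp only [chi_zero_right, Finset.sum_const, card_bx, nsmul_eq_mul, mul_one]
    push_cast
    rw [div_self]
    exact pow_ne_zero _ (by exact_mod_cast hρ.ne')
  have h4 : ft A m 0 = 1 := by
    unfold ft
    simp only [chi_zero_right, mul_one]
    exact_mod_cast hs
  rw [h3, h4, mul_one] at h2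
  exact_mod_cast h2

theorem AQ_nonneg (hm : ∀ z ∈ A, 0 ≤ m z) (ρ : ℕ) (V : Finset GaussianInt) (ξ : ℂ) :
    0 ≤ AQ A m ρ V ξ :=
  Finset.sum_nonneg fun v _ => div_nonneg (by positivity) (om_nonneg hm ρ v)

end Crest.Agent.R2.B937
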