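import Crest.Agent.R2.Front507f

/-!
# Row 2 (Theorem S), FRONT: the theorem (helper507)
-/

namespace Crest.Agent.R2.F507

open Finset Complex
open Crest.Agent.R2.M750 Crest.Agent.R2.Gcd62

theorem exp_mul_nat (x : ℝ) (n : ℕ) : Real.exp x ^ n = Real.exp (n * x) := by
  rw [← Real.exp_nat_mul]

set_option maxHeartbeats 4000000 in
open Classical in
/-- **FRONT of Theorem S.** -/
theorem front (ε U w : ℝ) (hε : 0 < ε) (hε1 : ε ≤ 1 / 1000) (hUε : 100 ≤ ε * U)
    (hw0 : 0 < w)
    (hwlow : Real.log U ≤ ε * Real.log w) (hwup : Real.log w ≤ ε ^ 2 * U)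
    (G : Finset GaussianInt) (hG : ∀ p ∈ G, Prime p)
    (hass : ∀ p ∈ G, ∀ q ∈ G, Associated p q → p = q)
    (hwl : ∀ p ∈ G, w ≤ ab p) (hwu : ∀ p ∈ G, ab p ≤ 2 * w)
    (hn : Real.exp ((2 - ε) * Real.log w) ≤ G.card)
    (a : GaussianInt → GaussianInt) (ha : ∀ p ∈ G, ¬ p ∣ a p)
    (A₁ A₂ A₃ : Finset GaussianInt) (m₁ m₂ m₃ : GaussianInt → ℝ)
    (hm₁ : ∀ z ∈ A₁, 0 ≤ m₁ z) (hm₂ : ∀ z ∈ A₂, 0 ≤ m₂ z) (hm₃ : ∀ z ∈ A₃, 0 ≤ m₃ z)
    (hs₁ : ∑ z ∈ A₁, m₁ z = 1) (hs₂ : ∑ z ∈ A₂, m₂ z = 1) (hs₃ : ∑ z ∈ A₃, m₃ z = 1)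
    (hsupp : ∀ z ∈ A₁, ∀ z' ∈ A₁, ab (z - z') ≤ 2 * Real.exp U)
    (hP1 : ∀ z ∈ A₁, m₁ z ≤ Real.exp (-((1 - ε) * U)))
    (hF₁ : ∀ p ∈ G, Real.exp (-(ε * Real.log w)) ≤
      ‖ft A₁ m₁ (GaussianInt.toComplex (a p) / GaussianInt.toComplex p)‖)
    (hF₂ : ∀ p ∈ G, Real.exp (-(ε * Real.log w)) ≤
      ‖ft A₂ m₂ (GaussianInt.toComplex (a p) / GaussianInt.toComplex p)‖)
    (hF₃ : ∀ p ∈ G, Real.exp (-(ε * Real.log w)) ≤
      ‖ft A₃ m₃ (GaussianInt.toComplex (a p) / GaussianInt.toComplex p)‖) :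
    ∃ (b : GaussianInt → GaussianInt) (c : GaussianInt) (F : Finset (Finset GaussianInt)),
      (∀ p ∈ G, ¬ p ∣ b p) ∧ c ≠ 0 ∧ ab c ≤ Real.exp (23 * ε * U) ∧
      (∀ S ∈ F, S ⊆ G ∧ MM S ∣ NN b S - c ∧ Real.exp U ≤ ab (MM S) ∧
        ab (MM S) ≤ Real.exp ((1 + 23 * ε) * U) ∧
        Real.exp (-(43 * ε * U)) ≤
          ‖ft A₂ m₂ (GaussianInt.toComplex c / GaussianInt.toComplex (MM S))‖ ∧
        Real.exp (-(43 * ε * U)) ≤
          ‖ft A₃ m₃ (GaussianInt.toComplex c / GaussianInt.toComplex (MM S))‖) ∧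
      Real.exp ((1 - 62 * ε) * U) ≤ F.card := by
  obtain ⟨k, hk1, hkl, hku, h4k, hkU, hlogU, hlw⟩ := exists_k ε U w hε hε1 hUε hwlow hwup
  -- basic sizes
  have hU0 : 0 < U := by
    by_contra h
    push Not at h
    nlinarith
  have hεU : 0 < ε * U := by positivity
  have hlw0 : 0 < Real.log w := lt_of_lt_of_le (by positivity) hlw
  have hUw : U ≤ w := by
    rw [← Real.log_le_log_iff hU0 hw0]
    refine hwlow.trans ?_
    nlinarith
  have hU1 : 1 ≤ U := by
    have := Real.log_le_sub_one_of_pos hU0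
    linarith
  have hw1 : 1 ≤ w := hU1.trans hUw
  have hn0 : 0 < (G.card : ℝ) := (Real.exp_pos _).trans_le hn
  set n : ℝ := (G.card : ℝ) with hndef
  set s : ℝ := Real.sqrt n with hsdef
  have hsn : s ^ 2 = n := Real.sq_sqrt hn0.le
  have hn1 : 1 ≤ n := by
    refine le_trans ?_ hn
    rw [← Real.exp_zero]
    apply Real.exp_le_exp.mpr
    apply mul_nonneg (by linarith) hlw0.le
  have hs1 : 1 ≤ s := Real.one_le_sqrt.mpr hn1
  have hk0 : (0 : ℝ) < k := by
    have : (1 : ℝ) ≤ k := by exact_mod_cast hk1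
    linarith
  set r : ℝ := Real.exp (-U) / 8 with hrdef
  have hr : 0 < r := by positivity
  have hr2 : r ≤ 1 / 2 := by
    have : Real.exp (-U) ≤ 1 := Real.exp_le_one_iff.mpr (by linarith)
    rw [hrdef]
    linarith
  have hreU : r * Real.exp U = 1 / 8 := by
    rw [hrdef, div_mul_eq_mul_div, ← Real.exp_add]
    simp
  set Y : ℝ := (2 * w) ^ (2 * k) with hYdef
  -- (b3)
  have hY : Y ≤ Real.exp ((1 + 23 * ε) * U) := by
    rw [hYdef]
    calc (2 * w) ^ (2 * k) = Real.exp (((2 * k : ℕ) : ℝ) * Real.log (2 * w)) := by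
          rw [mul_comm (((2 * k : ℕ) : ℝ)), Real.exp_mul, Real.exp_log (by linarith),
            Real.rpow_natCast]
      _ ≤ Real.exp ((1 + 23 * ε) * U) := by
          apply Real.exp_le_exp.mpr
          rw [Real.log_mul (by norm_num) hw0.ne']
          push_cast
          have h1 : 2 * (k : ℝ) * Real.log 2 ≤ 2 * k * Real.log U := by
            apply mul_le_mul_of_nonneg_left _ (by positivity)
            have := log_two_le_one
            linarith
          nlinarith
  have hY0 : 0 < Y := by positivity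
  -- (b1)
  have hb1 : (4 * k : ℝ) ^ (2 * k) ≤ Real.exp (2 * ε * U) := by
    apply pow_le_exp (by positivity) h4k
    push_cast
    nlinarith
  -- (b2)
  have hlogUsmall : Real.log U ≤ 0.001 * (ε * U) := by
    calc Real.log U ≤ ε * Real.log w := hwlow
      _ ≤ ε * (ε ^ 2 * U) := mul_le_mul_of_nonneg_left hwup hε.le
      _ = ε ^ 2 * (ε * U) := by ring
      _ ≤ 0.001 * (ε * U) := by
          apply mul_le_mul_of_nonneg_right _ hεU.le
          nlinarith
  have hb2 : ((2 * k + 1).factorial : ℝ) ≤ Real.exp (2 * ε * U) := by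
    have h1 : ((2 * k + 1).factorial : ℝ) ≤ ((2 * k + 1 : ℕ) : ℝ) ^ (2 * k + 1) := by
      exact_mod_cast Nat.factorial_le_pow (2 * k + 1)
    refine h1.trans ?_
    apply pow_le_exp (U := U) (by positivity)
    · push_cast
      have : (1 : ℝ) ≤ k := by exact_mod_cast hk1
      linarith
    · push_cast
      have : (2 * (k : ℝ) + 1) * Real.log U = 2 * k * Real.log U + Real.log U := by ring
      rw [this]
      nlinarith
  -- (b4)
  have hexp1 : (1 : ℝ) ≤ Real.exp (23 * ε * U) := Real.one_le_exp (by positivity)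
  have h2rY : 2 * r * Y ≤ Real.exp (23 * ε * U) / 4 := by
    have h1 : 2 * r * Y ≤ 2 * r * Real.exp ((1 + 23 * ε) * U) :=
      mul_le_mul_of_nonneg_left hY (by positivity)
    have h2 : Real.exp ((1 + 23 * ε) * U) = Real.exp U * Real.exp (23 * ε * U) := by
      rw [← Real.exp_add]
      congr 1
      ring
    rw [h2] at h1
    calc 2 * r * Y ≤ 2 * r * (Real.exp U * Real.exp (23 * ε * U)) := h1
      _ = 2 * (r * Real.exp U) * Real.exp (23 * ε * U) := by ring
      _ = Real.exp (23 * ε * U) / 4 := by rw [hreU]; ring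
  have hexp4 : (4 : ℝ) ≤ Real.exp (ε * U) := by
    have := Real.add_one_le_exp (ε * U)
    linarith
  have hb4 : ((ball (2 * r * Y)).card : ℝ) ≤ Real.exp (47 * ε * U) := by
    have h1 := card_ball (R := 2 * r * Y) (by positivity)
    have h2 : 2 * (2 * r * Y) + 1 ≤ 2 * Real.exp (23 * ε * U) := by linarith
    calc ((ball (2 * r * Y)).card : ℝ) ≤ (2 * (2 * r * Y) + 1) ^ 2 := h1
      _ ≤ (2 * Real.exp (23 * ε * U)) ^ 2 := pow_le_pow_left₀ (by positivity) h2 2
      _ = 4 * Real.exp (46 * ε * U) := by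
          have h3 : Real.exp (23 * ε * U) ^ 2 = Real.exp (46 * ε * U) := by
            rw [exp_mul_nat]
            congr 1
            push_cast
            ring
          rw [mul_pow, h3]
          norm_num
      _ ≤ Real.exp (ε * U) * Real.exp (46 * ε * U) :=
          mul_le_mul_of_nonneg_right hexp4 (Real.exp_pos _).le
      _ = Real.exp (47 * ε * U) := by
          rw [← Real.exp_add]
          congr 1
          ring
  -- Z
  set Z : ℝ := n ^ (2 * k) * Real.exp (-(2 * U)) with hZdef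
  have hZ0 : 0 ≤ Z := by positivity
  have hr12 : Real.exp U ≤ 1 / (2 * r) := by
    rw [le_div_iff₀ (by positivity)]
    have : Real.exp U * (2 * r) = 2 * (r * Real.exp U) := by ring
    rw [this, hreU]
    norm_num
  have hZ : ∀ S ⊆ G, 1 / (2 * r) ≤ ab (MM S) → s ^ (((2 * k : ℕ) : ℤ) - (S.card : ℤ)) ≤ Z := by
    intro S hS h
    exact Z_bound hε hε1 hU0.le hw0 hlw hkl hn S (fun p hp => hwu p (hS hp)) (hr12.trans h)
  -- numerators
  have hbb := bb_ok (k := k) G hG hwl h4k hk1 hUw a ha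
  -- W lower
  have hgpos : 0 < Real.exp (-((1 - ε) * U)) := Real.exp_pos _
  have hWl := W_lower' (ι := ↥G) k (al G a) (phi r) (wt r) (wt_nonneg r) (hasSum_phi hr hr2)
    A₁ A₂ A₃ m₁ m₂ m₃ hm₁ hm₂ hm₃ hs₁ hs₂ hs₃ (Real.exp (-((1 - ε) * U))) hP1 (by
      intro z hz z' hz'
      have h1 := hsupp z hz z' hz'
      have h2 : |((z - z').re : ℝ)| ≤ 2 * Real.exp U := by
        refine le_trans ?_ h1
        have := Complex.abs_re_le_norm (GaussianInt.toComplex (z - z'))
        rwa [← GaussianInt.intCast_re] at this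
      have h3 : |((z - z').im : ℝ)| ≤ 2 * Real.exp U := by
        refine le_trans ?_ h1
        have := Complex.abs_im_le_norm (GaussianInt.toComplex (z - z'))
        rwa [← GaussianInt.intCast_im] at this
      have h4 : 2 * Real.exp U * (2 * r) ≤ 1 := by
        have : 2 * Real.exp U * (2 * r) = 4 * (r * Real.exp U) := by ring
        rw [this, hreU]
        norm_num
      apply wt_lower hr
      · exact (mul_le_mul_of_nonneg_right h2 (by positivity)).trans h4
      · exact (mul_le_mul_of_nonneg_right h3 (by positivity)).trans h4)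
  set W : ℝ := ∑ t : Fin k × Bool → ↥G, phi r (Phi k (al G a) t) *
          (‖ft A₂ m₂ (Phi k (al G a) t)‖ ^ 2 * ‖ft A₃ m₃ (Phi k (al G a) t)‖ ^ 2) with hWdef
  have hsumlow : n * Real.exp (-(6 * (ε * Real.log w))) ≤
      ∑ i : ↥G, ‖ft A₁ m₁ (al G a i)‖ ^ 2 * ‖ft A₂ m₂ (al G a i)‖ ^ 2 *
        ‖ft A₃ m₃ (al G a i)‖ ^ 2 := by
    have h1 : ∀ i : ↥G, Real.exp (-(6 * (ε * Real.log w))) ≤
        ‖ft A₁ m₁ (al G a i)‖ ^ 2 * ‖ft A₂ m₂ (al G a i)‖ ^ 2 * ‖ft A₃ m₃ (al G a i)‖ ^ 2 := by
      intro i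
      set e₀ := Real.exp (-(ε * Real.log w)) with he₀
      have he0 : 0 < e₀ := Real.exp_pos _
      have h2 : Real.exp (-(6 * (ε * Real.log w))) = e₀ ^ 2 * e₀ ^ 2 * e₀ ^ 2 := by
        rw [he₀, exp_mul_nat, ← Real.exp_add, ← Real.exp_add]
        congr 1
        push_cast
        ring
      rw [h2]
      have g1 := pow_le_pow_left₀ he0.le (hF₁ i i.2) 2
      have g2 := pow_le_pow_left₀ he0.le (hF₂ i i.2) 2
      have g3 := pow_le_pow_left₀ he0.le (hF₃ i i.2) 2
      exact mul_le_mul (mul_le_mul g1 g2 (by positivity) (by positivity)) g3 (by positivity)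
        (by positivity)
    calc n * Real.exp (-(6 * (ε * Real.log w)))
        = ∑ i : ↥G, Real.exp (-(6 * (ε * Real.log w))) := by
          rw [Finset.sum_const, nsmul_eq_mul, Finset.card_univ, Fintype.card_coe]
      _ ≤ _ := Finset.sum_le_sum fun i _ => h1 i
  have hWlow : n ^ (2 * k) * Real.exp ((1 - 8 * ε) * U) ≤ 10 * W := by
    have h1 : (n * Real.exp (-(6 * (ε * Real.log w)))) ^ (2 * k)
        ≤ 10 * Real.exp (-((1 - ε) * U)) * W :=
      (pow_le_pow_left₀ (by positivity) hsumlow _).trans hWl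
    have h2 : n ^ (2 * k) * Real.exp (-(7 * ε * U))
        ≤ (n * Real.exp (-(6 * (ε * Real.log w)))) ^ (2 * k) := by
      rw [mul_pow, exp_mul_nat]
      apply mul_le_mul_of_nonneg_left _ (by positivity)
      apply Real.exp_le_exp.mpr
      push_cast
      have h3 : 6 * ε * (2 * k * Real.log w) ≤ 6 * ε * ((1 + 21 * ε) * U) :=
        mul_le_mul_of_nonneg_left hku (by positivity)
      have h4 : 6 * ε * ((1 + 21 * ε) * U) ≤ 7 * ε * U := by
        have : 6 * ε * ((1 + 21 * ε) * U) = (6 + 126 * ε) * (ε * U) := by ring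
        rw [this]
        have : (6 + 126 * ε) * (ε * U) ≤ 7 * (ε * U) :=
          mul_le_mul_of_nonneg_right (by linarith) hεU.le
        linarith
      nlinarith
    have h3 := h2.trans h1
    have h4 : n ^ (2 * k) * Real.exp ((1 - 8 * ε) * U)
        = (n ^ (2 * k) * Real.exp (-(7 * ε * U))) * Real.exp ((1 - ε) * U) := by
      rw [mul_assoc, ← Real.exp_add]
      congr 2
      ring
    have h5 : 10 * W = (10 * Real.exp (-((1 - ε) * U)) * W) * Real.exp ((1 - ε) * U) := by
      have : Real.exp (-((1 - ε) * U)) * Real.exp ((1 - ε) * U) = 1 := by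
        rw [← Real.exp_add]
        simp
      linear_combination (-10 * W) * this
    rw [h4, h5]
    exact mul_le_mul_of_nonneg_right h3 (Real.exp_pos _).le
  -- W upper
  set τ : ℝ := Real.exp (-(43 * ε * U)) with hτ
  have hWu := W_upper G a k r τ hr A₂ A₃ m₂ m₃ hm₂ hm₃ hs₂ hs₃
  rw [← hWdef] at hWu
  set T0 := univ.filter (fun t : Fin k × Bool → ↥G =>
            ∃ z : GaussianInt, Phi k (al G a) t = GaussianInt.toComplex z) with hT0
  set Eall := univ.filter (fun t : Fin k × Bool → ↥G =>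
            inR r (Phi k (al G a) t) ∧
            ¬ ∃ z : GaussianInt, Phi k (al G a) t = GaussianInt.toComplex z) with hEall
  set Eg := univ.filter (fun t : Fin k × Bool → ↥G =>
            inR r (Phi k (al G a) t) ∧
            (¬ ∃ z : GaussianInt, Phi k (al G a) t = GaussianInt.toComplex z) ∧
            τ ≤ ‖ft A₂ m₂ (Phi k (al G a) t)‖ ∧ τ ≤ ‖ft A₃ m₃ (Phi k (al G a) t)‖) with hEg
  have hr64 : 1 / r ^ 2 = 64 * Real.exp (2 * U) := by
    rw [hrdef, div_pow, exp_mul_nat]
    push_cast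
    rw [mul_neg, Real.exp_neg]
    field_simp
    norm_num
  rw [hr64] at hWu
  -- T0
  have hT0b : (T0.card : ℝ) ≤ n ^ (2 * k) * Real.exp (-((1 + 17 * ε) * U)) := by
    have h1 := T0_card G hG hass a hbb hk1 s hs1 (le_of_eq hsn.symm)
    have h2 : s ^ (2 * k) = n ^ k := by rw [pow_mul, hsn]
    rw [h2] at h1
    have h3 : Real.exp ((1 + 19 * ε) * U) ≤ n ^ k := by
      calc Real.exp ((1 + 19 * ε) * U) ≤ Real.exp (k * ((2 - ε) * Real.log w)) := by
            apply Real.exp_le_exp.mpr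
            have h4 : (1 - ε / 2) * ((1 + 20 * ε) * U) ≤ (1 - ε / 2) * (2 * k * Real.log w) :=
              mul_le_mul_of_nonneg_left hkl (by linarith)
            have h5 : (1 - ε / 2) * ((1 + 20 * ε) * U)
                = (1 + 19 * ε) * U + (1 / 2 - 10 * ε) * (ε * U) := by ring
            have h6 : 0 ≤ (1 / 2 - 10 * ε) * (ε * U) :=
              mul_nonneg (by linarith) hεU.le
            have h7 : (1 - ε / 2) * (2 * k * Real.log w) = k * ((2 - ε) * Real.log w) := by ring
            linarith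
        _ = (Real.exp ((2 - ε) * Real.log w)) ^ k := by rw [exp_mul_nat]
        _ ≤ n ^ k := pow_le_pow_left₀ (Real.exp_pos _).le hn k
    have h4 : n ^ (2 * k) = n ^ k * n ^ k := by rw [← pow_add]; congr 1; ring
    calc (T0.card : ℝ) ≤ ((2 * k + 1).factorial : ℝ) * n ^ k := h1
      _ ≤ Real.exp (2 * ε * U) * n ^ k := mul_le_mul_of_nonneg_right hb2 (by positivity)
      _ = n ^ k * (Real.exp ((1 + 19 * ε) * U) * Real.exp (-((1 + 17 * ε) * U))) := by
          rw [← Real.exp_add, mul_comm]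
          congr 2
          ring
      _ ≤ n ^ k * (n ^ k * Real.exp (-((1 + 17 * ε) * U))) := by
          apply mul_le_mul_of_nonneg_left _ (by positivity)
          exact mul_le_mul_of_nonneg_right h3 (Real.exp_pos _).le
      _ = n ^ (2 * k) * Real.exp (-((1 + 17 * ε) * U)) := by rw [h4]; ring
  -- Eall
  have hw1000 : 1000 * w ^ 2 ≤ Real.exp (ε * U) := by
    have h1 : w ^ 2 ≤ Real.exp (2 * (ε ^ 2 * U)) := by
      calc w ^ 2 = Real.exp (2 * Real.log w) := by
            rw [mul_comm, Real.exp_mul, Real.exp_log hw0]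
            norm_num
        _ ≤ Real.exp (2 * (ε ^ 2 * U)) := Real.exp_le_exp.mpr (by linarith)
    have h2 : (1000 : ℝ) ≤ Real.exp (0.9 * (ε * U)) := by
      have h3 : (1024 : ℝ) ≤ Real.exp 10 := by
        have h4 : (2 : ℝ) ≤ Real.exp 1 := by
          have := Real.add_one_le_exp (1 : ℝ)
          linarith
        calc (1024 : ℝ) = 2 ^ 10 := by norm_num
          _ ≤ (Real.exp 1) ^ 10 := pow_le_pow_left₀ (by norm_num) h4 10
          _ = Real.exp 10 := by rw [exp_mul_nat]; norm_num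
      have h5 : Real.exp 10 ≤ Real.exp (0.9 * (ε * U)) := Real.exp_le_exp.mpr (by linarith)
      linarith
    calc 1000 * w ^ 2 ≤ Real.exp (0.9 * (ε * U)) * Real.exp (2 * (ε ^ 2 * U)) :=
          mul_le_mul h2 h1 (by positivity) (Real.exp_pos _).le
      _ = Real.exp (0.9 * (ε * U) + 2 * (ε ^ 2 * U)) := by rw [← Real.exp_add]
      _ ≤ Real.exp (ε * U) := by
          apply Real.exp_le_exp.mpr
          have : 2 * (ε ^ 2 * U) = 2 * ε * (ε * U) := by ring
          rw [this]
          nlinarith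
  have hY1 : 1 ≤ Y := by
    rw [hYdef]
    apply one_le_pow₀
    linarith
  have hEallb : (Eall.card : ℝ) ≤ n ^ (2 * k) * Real.exp (-U + 76 * ε * U) := by
    have h1 := pigeon G hG a hk1 s hs1 (le_of_eq hsn.symm) w hw1 hwu r hr Z hZ0 hZ Eall
      (by
        intro t ht
        exact (Finset.mem_filter.mp ht).2)
      (1000 * w ^ 2 * Y) (by positivity)
      (by
        intro ν hν c _ _ F hF
        exact card_le hG hass (hbb ν hν) hw1 hY1 hwu c F (fun S hS => (hF S hS).1)
          (fun S hS => (hF S hS).2.1) (fun S hS => (hF S hS).2.2.1))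
    refine h1.trans ?_
    have h2 : 1000 * w ^ 2 * Y ≤ Real.exp (ε * U) * Real.exp ((1 + 23 * ε) * U) :=
      mul_le_mul hw1000 hY hY0.le (Real.exp_pos _).le
    calc (4 * k : ℝ) ^ (2 * k) * (((ball (2 * r * (2 * w) ^ (2 * k))).card : ℝ) *
          (1000 * w ^ 2 * Y * (((2 * k + 1).factorial : ℝ) * Z)))
        ≤ Real.exp (2 * ε * U) * (Real.exp (47 * ε * U) *
          ((Real.exp (ε * U) * Real.exp ((1 + 23 * ε) * U)) * (Real.exp (2 * ε * U) * Z))) := by
          apply mul_le_mul hb1 _ (by positivity) (Real.exp_pos _).le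
          apply mul_le_mul hb4 _ (by positivity) (Real.exp_pos _).le
          apply mul_le_mul h2 _ (by positivity) (by positivity)
          exact mul_le_mul_of_nonneg_right hb2 hZ0
      _ = n ^ (2 * k) * (Real.exp (2 * ε * U) * Real.exp (47 * ε * U) *
          Real.exp (ε * U) * Real.exp ((1 + 23 * ε) * U) * Real.exp (2 * ε * U) *
          Real.exp (-(2 * U))) := by rw [hZdef]; ring
      _ = n ^ (2 * k) * Real.exp (-U + 75 * ε * U) := by
          rw [← Real.exp_add, ← Real.exp_add, ← Real.exp_add, ← Real.exp_add, ← Real.exp_add]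
          congr 2
          ring
      _ ≤ n ^ (2 * k) * Real.exp (-U + 76 * ε * U) := by
          apply mul_le_mul_of_nonneg_left _ (by positivity)
          apply Real.exp_le_exp.mpr
          linarith
  -- Eg
  have h2560 : (2560 : ℝ) ≤ Real.exp (2 * (ε * U)) := by
    have h3 : (4 : ℝ) ^ 6 ≤ Real.exp (2 * (ε * U)) := by
      have h4 : (2 : ℝ) ≤ Real.exp 1 := by
        have := Real.add_one_le_exp (1 : ℝ)
        linarith
      calc (4 : ℝ) ^ 6 = 2 ^ 12 := by norm_num
        _ ≤ (Real.exp 1) ^ 12 := pow_le_pow_left₀ (by norm_num) h4 12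
        _ = Real.exp 12 := by rw [exp_mul_nat]; norm_num
        _ ≤ Real.exp (2 * (ε * U)) := Real.exp_le_exp.mpr (by linarith)
    linarith
  have hN0 : 0 < n ^ (2 * k) := by positivity
  have hEgl : n ^ (2 * k) * Real.exp (-((1 + 10 * ε) * U)) ≤ (Eg.card : ℝ) := by
    -- 10 W ≥ n^{2k} e^{(1-8ε)U}; the first two terms are small
    have ht1 : 10 * (64 * Real.exp (2 * U) * (T0.card : ℝ))
        ≤ n ^ (2 * k) * Real.exp ((1 - 8 * ε) * U) / 4 := by
      have h1 : 10 * (64 * Real.exp (2 * U) * (T0.card : ℝ))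
          ≤ 10 * (64 * Real.exp (2 * U) * (n ^ (2 * k) * Real.exp (-((1 + 17 * ε) * U)))) := by
        apply mul_le_mul_of_nonneg_left _ (by norm_num)
        exact mul_le_mul_of_nonneg_left hT0b (by positivity)
      refine h1.trans ?_
      have h2 : Real.exp (2 * U) * Real.exp (-((1 + 17 * ε) * U))
          = Real.exp ((1 - 8 * ε) * U) * Real.exp (-(9 * (ε * U))) := by
        rw [← Real.exp_add, ← Real.exp_add]
        congr 1
        ring
      have h3 : Real.exp (-(9 * (ε * U))) ≤ 1 / 2560 := by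
        rw [Real.exp_neg, inv_eq_one_div]
        apply one_div_le_one_div_of_le (by norm_num)
        refine h2560.trans (Real.exp_le_exp.mpr (by linarith))
      calc 10 * (64 * Real.exp (2 * U) * (n ^ (2 * k) * Real.exp (-((1 + 17 * ε) * U))))
          = 640 * n ^ (2 * k) * (Real.exp (2 * U) * Real.exp (-((1 + 17 * ε) * U))) := by ring
        _ = 640 * n ^ (2 * k) * (Real.exp ((1 - 8 * ε) * U) * Real.exp (-(9 * (ε * U)))) := by
            rw [h2]
        _ ≤ 640 * n ^ (2 * k) * (Real.exp ((1 - 8 * ε) * U) * (1 / 2560)) := by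
            apply mul_le_mul_of_nonneg_left _ (by positivity)
            exact mul_le_mul_of_nonneg_left h3 (Real.exp_pos _).le
        _ = n ^ (2 * k) * Real.exp ((1 - 8 * ε) * U) / 4 := by ring
    have ht2 : 10 * (64 * Real.exp (2 * U) * (τ ^ 2 * (Eall.card : ℝ)))
        ≤ n ^ (2 * k) * Real.exp ((1 - 8 * ε) * U) / 4 := by
      have h1 : 10 * (64 * Real.exp (2 * U) * (τ ^ 2 * (Eall.card : ℝ)))
          ≤ 10 * (64 * Real.exp (2 * U) * (τ ^ 2 *
            (n ^ (2 * k) * Real.exp (-U + 76 * ε * U)))) := by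
        apply mul_le_mul_of_nonneg_left _ (by norm_num)
        apply mul_le_mul_of_nonneg_left _ (by positivity)
        exact mul_le_mul_of_nonneg_left hEallb (by positivity)
      refine h1.trans ?_
      have h2 : Real.exp (2 * U) * (τ ^ 2 * Real.exp (-U + 76 * ε * U))
          = Real.exp ((1 - 8 * ε) * U) * Real.exp (-(2 * (ε * U))) := by
        rw [hτ, exp_mul_nat, ← Real.exp_add, ← Real.exp_add, ← Real.exp_add]
        congr 1
        push_cast
        ring
      have h3 : Real.exp (-(2 * (ε * U))) ≤ 1 / 2560 := by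
        rw [Real.exp_neg, inv_eq_one_div]
        exact one_div_le_one_div_of_le (by norm_num) h2560
      calc 10 * (64 * Real.exp (2 * U) * (τ ^ 2 *
            (n ^ (2 * k) * Real.exp (-U + 76 * ε * U))))
          = 640 * n ^ (2 * k) * (Real.exp (2 * U) * (τ ^ 2 * Real.exp (-U + 76 * ε * U))) := by
            ring
        _ = 640 * n ^ (2 * k) * (Real.exp ((1 - 8 * ε) * U) * Real.exp (-(2 * (ε * U)))) := by
            rw [h2]
        _ ≤ 640 * n ^ (2 * k) * (Real.exp ((1 - 8 * ε) * U) * (1 / 2560)) := by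
            apply mul_le_mul_of_nonneg_left _ (by positivity)
            exact mul_le_mul_of_nonneg_left h3 (Real.exp_pos _).le
        _ = n ^ (2 * k) * Real.exp ((1 - 8 * ε) * U) / 4 := by ring
    have hmain : n ^ (2 * k) * Real.exp ((1 - 8 * ε) * U) / 2
        ≤ 640 * Real.exp (2 * U) * (Eg.card : ℝ) := by
      have h1 : 10 * W ≤ 10 * (64 * Real.exp (2 * U) * ((T0.card : ℝ) + τ ^ 2 * (Eall.card : ℝ)
          + (Eg.card : ℝ))) := mul_le_mul_of_nonneg_left hWu (by norm_num)
      have h2 : 10 * (64 * Real.exp (2 * U) * ((T0.card : ℝ) + τ ^ 2 * (Eall.card : ℝ)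
          + (Eg.card : ℝ))) = 10 * (64 * Real.exp (2 * U) * (T0.card : ℝ))
            + 10 * (64 * Real.exp (2 * U) * (τ ^ 2 * (Eall.card : ℝ)))
            + 640 * Real.exp (2 * U) * (Eg.card : ℝ) := by ring
      linarith
    -- conclude
    have h5 : Real.exp ((1 - 8 * ε) * U)
        = Real.exp (2 * U) * (Real.exp (-((1 + 10 * ε) * U)) * Real.exp (2 * (ε * U))) := by
      rw [← Real.exp_add, ← Real.exp_add]
      congr 1
      ring
    have h6 : 1280 * (n ^ (2 * k) * Real.exp (-((1 + 10 * ε) * U)))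
        ≤ 1280 * (Eg.card : ℝ) := by
      have h7 : n ^ (2 * k) * (Real.exp (2 * U) *
          (Real.exp (-((1 + 10 * ε) * U)) * 2560)) / 2 ≤ 640 * Real.exp (2 * U) * (Eg.card : ℝ) := by
        refine le_trans ?_ hmain
        rw [h5]
        apply div_le_div_of_nonneg_right _ (by norm_num)
        apply mul_le_mul_of_nonneg_left _ hN0.le
        apply mul_le_mul_of_nonneg_left _ (Real.exp_pos _).le
        exact mul_le_mul_of_nonneg_left h2560 (Real.exp_pos _).le
      have h8 : 0 < Real.exp (2 * U) := Real.exp_pos _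
      have h9 : Real.exp (2 * U) * (1280 * (n ^ (2 * k) * Real.exp (-((1 + 10 * ε) * U))))
          ≤ Real.exp (2 * U) * (640 * (Eg.card : ℝ)) := by
        calc _ = n ^ (2 * k) * (Real.exp (2 * U) *
          (Real.exp (-((1 + 10 * ε) * U)) * 2560)) / 2 := by ring
          _ ≤ _ := h7
          _ = _ := by ring
      have h10 := le_of_mul_le_mul_left h9 h8
      have h11 : (0 : ℝ) ≤ (Eg.card : ℝ) := by positivity
      linarith
    linarith
  -- final pigeonhole
  by_contra hcon
  push Not at hcon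
  have hpg := pigeon G hG a hk1 s hs1 (le_of_eq hsn.symm) w hw1 hwu r hr Z hZ0 hZ Eg
      (by
        intro t ht
        have := (Finset.mem_filter.mp ht).2
        exact ⟨this.1, this.2.1⟩)
      (Real.exp ((1 - 62 * ε) * U)) (Real.exp_pos _).le
      (by
        intro ν hν c hc0 hcle F hF
        apply le_of_lt
        apply hcon (bb G ν a) c F (hbb ν hν) hc0
        · refine hcle.trans (h2rY.trans ?_)
          linarith
        · intro S hS
          obtain ⟨h1, h2, h3, h4, t, ht, h, hh⟩ := hF S hS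
          refine ⟨h1, h2, hr12.trans h4, h3.trans hY, ?_, ?_⟩
          · have h5 := (Finset.mem_filter.mp ht).2.2.2.1
            rw [hh, ft_add_int] at h5
            exact h5
          · have h5 := (Finset.mem_filter.mp ht).2.2.2.2
            rw [hh, ft_add_int] at h5
            exact h5)
  have hlast : n ^ (2 * k) * Real.exp (-((1 + 10 * ε) * U))
      ≤ n ^ (2 * k) * Real.exp (-((1 + 11 * ε) * U)) := by
    calc n ^ (2 * k) * Real.exp (-((1 + 10 * ε) * U)) ≤ (Eg.card : ℝ) := hEgl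
      _ ≤ _ := hpg
      _ ≤ Real.exp (2 * ε * U) * (Real.exp (47 * ε * U) *
          (Real.exp ((1 - 62 * ε) * U) * (Real.exp (2 * ε * U) * Z))) := by
          apply mul_le_mul hb1 _ (by positivity) (Real.exp_pos _).le
          apply mul_le_mul hb4 _ (by positivity) (Real.exp_pos _).le
          apply mul_le_mul_of_nonneg_left _ (Real.exp_pos _).le
          exact mul_le_mul_of_nonneg_right hb2 hZ0
      _ = n ^ (2 * k) * (Real.exp (2 * ε * U) * Real.exp (47 * ε * U) *
          Real.exp ((1 - 62 * ε) * U) * Real.exp (2 * ε * U) * Real.exp (-(2 * U))) := by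
          rw [hZdef]; ring
      _ = n ^ (2 * k) * Real.exp (-((1 + 11 * ε) * U)) := by
          rw [← Real.exp_add, ← Real.exp_add, ← Real.exp_add, ← Real.exp_add]
          congr 2
          ring
  have h1 := le_of_mul_le_mul_left hlast hN0
  rw [Real.exp_le_exp] at h1
  nlinarith

end Crest.Agent.R2.F507
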