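import Crest.Agent.R2.End717g
import Crest.Agent.R2.Front507g

/-!
# R2 (Gaussian moat): **Theorem S** (helper21, #10973 / #10987), complete.

Glue of helper507's `front` and `endgame_sets`.
-/

set_option autoImplicit false

namespace Crest.Agent.R2

open Finset
open Crest.Agent.R2.Gcd62 (MM NN ab)

namespace E717

theorem mhat_eq_ft750 (A : Finset GaussianInt) (m : GaussianInt → ℝ) (x : ℂ) :
    mhat A m x = M750.ft A m x := by
  unfold mhat M750.ft
  refine Finset.sum_congr rfl fun z _ => ?_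
  congr 1
  unfold chi M750.chi M750.e1
  congr 1
  ring

/-- translate of a finite weight -/
theorem mhat_translate (A : Finset GaussianInt) (m : GaussianInt → ℝ) (v : GaussianInt) (x : ℂ) :
    ‖mhat (A.map ⟨fun z => z - v, sub_left_injective⟩) (fun z => m (z + v)) x‖ = ‖mhat A m x‖ := by
  have h : mhat (A.map ⟨fun z => z - v, sub_left_injective⟩) (fun z => m (z + v)) x
      = chi (-v) x * mhat A m x := by
    unfold mhat
    rw [Finset.sum_map, Finset.mul_sum]
    refine Finset.sum_congr rfl fun z _ => ?_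
    simp only [Function.Embedding.coeFn_mk, sub_add_cancel]
    have : chi (z - v) x = chi (-v) x * chi z x := by
      unfold chi
      rw [← Complex.exp_add]
      congr 1
      rw [GaussianInt.toComplex_sub, GaussianInt.toComplex_neg]
      simp only [sub_mul, neg_mul, Complex.sub_re, Complex.neg_re, Complex.ofReal_sub,
        Complex.ofReal_neg]
      ring
    rw [this]
    ring
  rw [h, norm_mul, norm_chi, one_mul]

end E717

open E717

/-- Finite probability measures on `ℤ[i]`: a finset and a weight. -/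
structure IsProbOn (A : Finset GaussianInt) (m : GaussianInt → ℝ) : Prop where
  nonneg : ∀ z ∈ A, 0 ≤ m z
  sum_one : ∑ z ∈ A, m z = 1

set_option maxHeartbeats 1000000 in
/-- **Theorem S** (helper21).  There are no three one-dimensional measures at the scales
`e^U, e^{3U/2}, e^{2U}` with a common Fourier bias `≥ w^{-ε}` at `w^{2-ε}` primes of size `w`. -/
theorem theoremS (ε : ℝ) (hε : 0 < ε) (hε1 : ε ≤ 1 / 40000) :
    ∃ U0 : ℝ, ∀ U w : ℝ, U0 ≤ U → 0 < w → Real.log U ≤ ε * Real.log w →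
      Real.log w ≤ ε ^ 2 * U →
    ∀ (G : Finset GaussianInt), (∀ p ∈ G, Prime p) →
    (∀ p ∈ G, ∀ q ∈ G, Associated p q → p = q) →
    (∀ p ∈ G, w ≤ ab p) → (∀ p ∈ G, ab p ≤ 2 * w) →
    Real.exp ((2 - ε) * Real.log w) ≤ G.card →
    ∀ (a : GaussianInt → GaussianInt), (∀ p ∈ G, ¬ p ∣ a p) →
    ∀ (A₁ A₂ A₃ : Finset GaussianInt) (m₁ m₂ m₃ : GaussianInt → ℝ) (v₁ v₂ v₃ : GaussianInt),
    IsProbOn A₁ m₁ → IsProbOn A₂ m₂ → IsProbOn A₃ m₃ →
    (∀ z ∈ A₁, ab (z - v₁) ≤ Real.exp U) →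
    (∀ z ∈ A₂, ab (z - v₂) ≤ Real.exp (3 / 2 * U)) →
    (∀ z ∈ A₃, ab (z - v₃) ≤ Real.exp (2 * U)) →
    (∀ z ∈ A₁, m₁ z ≤ Real.exp (-((1 - ε) * U))) →
    (∀ x : GaussianInt, ∀ B ⊆ A₂, (∀ z ∈ B, ab (z - x) ≤ Real.exp U) →
      ∑ z ∈ B, m₂ z ≤ Real.exp (-((1 / 2 - ε) * U))) →
    (∀ x : GaussianInt, ∀ B ⊆ A₃, (∀ z ∈ B, ab (z - x) ≤ Real.exp (3 / 2 * U)) →
      ∑ z ∈ B, m₃ z ≤ Real.exp (-((1 / 2 - ε) * U))) →
    (∀ p ∈ G, Real.exp (-(ε * Real.log w)) ≤
      ‖mhat A₁ m₁ (GaussianInt.toComplex (a p) / GaussianInt.toComplex p)‖) →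
    (∀ p ∈ G, Real.exp (-(ε * Real.log w)) ≤
      ‖mhat A₂ m₂ (GaussianInt.toComplex (a p) / GaussianInt.toComplex p)‖) →
    (∀ p ∈ G, Real.exp (-(ε * Real.log w)) ≤
      ‖mhat A₃ m₃ (GaussianInt.toComplex (a p) / GaussianInt.toComplex p)‖) →
    False := by
  classical
  obtain ⟨E0, hend⟩ := endgame_sets hε
  refine ⟨max (100 / ε) (Real.log (max E0 1) / (62 * ε)), ?_⟩
  intro U w hU hw0 hwlow hwup G hG hass hwl hwu hn a ha A₁ A₂ A₃ m₁ m₂ m₃ v₁ v₂ v₃ hp₁ hp₂ hp₃
    hs₁ hs₂ hs₃ hP₁ hP₂ hP₃ hF₁ hF₂ hF₃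
  have hU1 : 100 / ε ≤ U := (le_max_left _ _).trans hU
  have hU2 : Real.log (max E0 1) / (62 * ε) ≤ U := (le_max_right _ _).trans hU
  have hUε : 100 ≤ ε * U := by
    rw [div_le_iff₀ hε] at hU1; linarith
  have hU0 : 0 < U := lt_of_lt_of_le (by positivity) hU1
  -- translated measures
  set T2 : Finset GaussianInt := A₂.map ⟨fun z => z - v₂, sub_left_injective⟩ with hT2
  set T3 : Finset GaussianInt := A₃.map ⟨fun z => z - v₃, sub_left_injective⟩ with hT3
  obtain ⟨b, c, F, hb, hc0, hc, hF, hFcard⟩ := F507.front ε U w hε (by linarith) hUε hw0 hwlow hwup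
    G hG hass hwl hwu hn a ha A₁ A₂ A₃ m₁ m₂ m₃ hp₁.nonneg hp₂.nonneg hp₃.nonneg
    hp₁.sum_one hp₂.sum_one hp₃.sum_one
    (by
      intro z hz z' hz'
      have h1 := hs₁ z hz
      have h2 := hs₁ z' hz'
      have h3 := N_sub_le_sub z v₁ z'
      rw [N_sub_comm v₁ z'] at h3
      change N (z - z') ≤ _
      change N (z - v₁) ≤ _ at h1
      change N (z' - v₁) ≤ _ at h2
      linarith)
    hP₁
    (fun p hp => by rw [← mhat_eq_ft750]; exact hF₁ p hp)
    (fun p hp => by rw [← mhat_eq_ft750]; exact hF₂ p hp)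
    (fun p hp => by rw [← mhat_eq_ft750]; exact hF₃ p hp)
  -- parameters
  have hℓ4 : Real.exp (U / 4) ^ 4 = Real.exp U := by
    rw [← Real.exp_nat_mul]; congr 1; push_cast; ring
  have hℓ6 : Real.exp (U / 4) ^ 6 = Real.exp (3 / 2 * U) := by
    rw [← Real.exp_nat_mul]; congr 1; push_cast; ring
  have hℓ8 : Real.exp (U / 4) ^ 8 = Real.exp (2 * U) := by
    rw [← Real.exp_nat_mul]; congr 1; push_cast; ring
  have hℓ2 : Real.exp (U / 4) ^ 2 = Real.exp (U / 2) := by
    rw [← Real.exp_nat_mul]; congr 1; push_cast; ring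
  have hwexp : 2 * w ≤ Real.exp (62 * ε * U) := by
    have h1 : Real.log (2 * w) ≤ 62 * ε * U := by
      rw [Real.log_mul (by norm_num) hw0.ne']
      have h2 : Real.log 2 ≤ 1 := by
        have := Real.log_two_lt_d9
        linarith
      have h3 : ε ^ 2 * U ≤ ε * U := by
        have : ε ^ 2 ≤ ε := by nlinarith
        exact mul_le_mul_of_nonneg_right this hU0.le
      nlinarith
    rwa [Real.log_le_iff_le_exp (by positivity)] at h1
  have hwge1 : 1 ≤ w := by
    by_contra h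
    push Not at h
    have h1 : Real.log w < 0 := Real.log_neg hw0 h
    have h2 : 0 < Real.log U := by
      refine Real.log_pos ?_
      have : (1 : ℝ) < 100 / ε := by
        rw [lt_div_iff₀ hε]; linarith
      linarith
    nlinarith
  have hE0' : E0 ≤ Real.exp (62 * ε * U) := by
    have h1 : Real.log (max E0 1) ≤ 62 * ε * U := by
      rw [div_le_iff₀ (by positivity)] at hU2
      linarith
    have h2 : (0 : ℝ) < max E0 1 := lt_of_lt_of_le one_pos (le_max_right _ _)
    rw [Real.log_le_iff_le_exp h2] at h1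
    exact (le_max_left _ _).trans h1
  refine hend (Real.exp (U / 4)) (Real.exp (62 * ε * U)) hE0' ?_ ?_ G hG hass b hb w hwge1 hwexp hwu
    c hc0 ?_ F (fun S hS => (hF S hS).1) (fun S hS => (hF S hS).2.1) ?_ ?_ ?_
    T2 (fun z => m₂ (z + v₂)) ?_ ?_ ?_ ?_ ?_ T3 (fun z => m₃ (z + v₃)) ?_ ?_ ?_ ?_ ?_
  · rw [← Real.exp_nat_mul]
    apply Real.exp_le_exp.mpr
    push_cast
    nlinarith
  · rw [← Real.exp_mul]
    apply Real.exp_le_exp.mpr
    nlinarith
  · refine hc.trans (Real.exp_le_exp.mpr ?_)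
    nlinarith
  · intro S hS
    rw [hℓ4, ← Real.exp_sub]
    refine le_trans (Real.exp_le_exp.mpr ?_) (hF S hS).2.2.1
    nlinarith
  · intro S hS
    rw [hℓ4, ← Real.exp_add]
    refine (hF S hS).2.2.2.1.trans (Real.exp_le_exp.mpr ?_)
    nlinarith
  · rw [hℓ4, ← Real.exp_sub]
    refine le_trans (Real.exp_le_exp.mpr ?_) hFcard
    nlinarith
  · intro z hz
    rw [hT2, Finset.mem_map] at hz
    obtain ⟨y, hy, rfl⟩ := hz
    simpa using hp₂.nonneg y hy
  · rw [hT2, Finset.sum_map]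
    simpa using hp₂.sum_one
  · intro z hz
    rw [hT2, Finset.mem_map] at hz
    obtain ⟨y, hy, rfl⟩ := hz
    rw [hℓ6]
    exact hs₂ y hy
  · intro x B hB hBx
    rw [hℓ4] at hBx
    have h1 := hP₂ (x + v₂) (B.map ⟨fun z => z + v₂, add_left_injective v₂⟩) ?_ ?_
    · rw [Finset.sum_map] at h1
      refine h1.trans (le_of_eq_of_le rfl ?_)
      rw [hℓ2, ← Real.exp_sub]
      apply Real.exp_le_exp.mpr
      nlinarith
    · intro z hz
      rw [Finset.mem_map] at hz
      obtain ⟨y, hy, rfl⟩ := hz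
      have := hB hy
      rw [hT2, Finset.mem_map] at this
      obtain ⟨u, hu, rfl⟩ := this
      simpa using hu
    · intro z hz
      rw [Finset.mem_map] at hz
      obtain ⟨y, hy, rfl⟩ := hz
      have := hBx y hy
      simpa using this
  · intro S hS
    rw [mhat_translate, mhat_eq_ft750]
    refine le_trans ?_ (hF S hS).2.2.2.2.1
    rw [one_div, ← Real.exp_neg]
    apply Real.exp_le_exp.mpr
    nlinarith
  · intro z hz
    rw [hT3, Finset.mem_map] at hz
    obtain ⟨y, hy, rfl⟩ := hz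
    simpa using hp₃.nonneg y hy
  · rw [hT3, Finset.sum_map]
    simpa using hp₃.sum_one
  · intro z hz
    rw [hT3, Finset.mem_map] at hz
    obtain ⟨y, hy, rfl⟩ := hz
    rw [hℓ8]
    exact hs₃ y hy
  · intro x B hB hBx
    rw [hℓ6] at hBx
    have h1 := hP₃ (x + v₃) (B.map ⟨fun z => z + v₃, add_left_injective v₃⟩) ?_ ?_
    · rw [Finset.sum_map] at h1
      refine h1.trans (le_of_eq_of_le rfl ?_)
      rw [hℓ2, ← Real.exp_sub]
      apply Real.exp_le_exp.mpr
      nlinarith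
    · intro z hz
      rw [Finset.mem_map] at hz
      obtain ⟨y, hy, rfl⟩ := hz
      have := hB hy
      rw [hT3, Finset.mem_map] at this
      obtain ⟨u, hu, rfl⟩ := this
      simpa using hu
    · intro z hz
      rw [Finset.mem_map] at hz
      obtain ⟨y, hy, rfl⟩ := hz
      have := hBx y hy
      simpa using this
  · intro S hS
    rw [mhat_translate, mhat_eq_ft750]
    refine le_trans ?_ (hF S hS).2.2.2.2.2
    rw [one_div, ← Real.exp_neg]
    apply Real.exp_le_exp.mpr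
    nlinarith

end Crest.Agent.R2
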