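import Crest.Agent.R2.Bias717c
import Crest.Agent.R2.Cell937c
import Crest.Agent.R2.B488b
import Crest.Agent.R2.ThmS717
import Crest.Agent.R2.Shape911

/-!
# R2 (Gaussian moat), block B1+B2 of #11312: light classes ⇒ one large coefficient for half of the
primes.  Glue of `bias_ineq` with helper937's cell inequality and helper488's localised large sieve.
-/

set_option autoImplicit false

namespace Crest.Agent.R2.B717

open Finset Crest.Agent.R2.E717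

theorem ee_eq_tri (t : ℝ) : ee t = Tri.ee t := rfl

theorem inR750 {r : ℝ} {x : ℂ} (h : M750.inR r x) : inR r x := by
  obtain ⟨z, h1, h2⟩ := h
  refine ⟨z, ?_, ?_⟩
  · rw [Complex.sub_re, ← GaussianInt.intCast_re]; exact h1
  · rw [Complex.sub_im, ← GaussianInt.intCast_im]; exact h2

theorem ctr_eq (n : ℕ) (k : ℕ × ℕ) : ctr n k = B937.ctr n k.1 k.2 := rfl

/-- **(3.4) with free parameters.** -/
theorem bias_param {G : Finset GaussianInt} {w : ℝ} (hG : PrimeSet G w) (hw1 : 1 ≤ w)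
    (A : Finset GaussianInt) (m : GaussianInt → ℝ) (hm : ∀ z ∈ A, 0 ≤ m z)
    (hs : ∑ z ∈ A, m z = 1) (ρ : ℕ) (hρ : 0 < ρ) (hρ8 : 8 * w < (8 * (ρ : ℝ)) ^ 2)
    (V : Finset GaussianInt) (hV : ∀ z ∈ A, ∀ p ∈ B937.bx ρ, z - B937.hh p ∈ V)
    (M1 V1 : ℝ) (hM1 : ∀ z ∈ A, m z ≤ M1) (hM10 : 0 ≤ M1)
    (hV1 : ((V.filter fun v => B937.om A m ρ v ≠ 0).card : ℝ) ≤ V1)
    (C : Finset GaussianInt)
    (hC : ∀ v ∈ B488.Zb A ρ, ∃ c ∈ C, |(v.re : ℝ) - c.re| * (2 * (1 / (32 * w ^ 2))) ≤ 1 ∧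
      |(v.im : ℝ) - c.im| * (2 * (1 / (32 * w ^ 2))) ≤ 1)
    (M2 : ℝ) (hM20 : 0 ≤ M2) (hM2 : ∀ v ∈ B488.Zb A ρ, B488.om A m ρ v ≤ M2)
    (θ σ : ℝ) (hθ : 0 ≤ θ) (hσ : 0 < σ)
    (hsmall : ∀ q ∈ G, ∀ b ∈ Ico 1 q.norm.natAbs, ‖mhat A m ((b : ℂ) / q)‖ ^ 2 ≤ θ) :
    ∑ q ∈ G, ∑ b ∈ Ico 1 q.norm.natAbs, ‖mhat A m ((b : ℂ) / q)‖ ^ 2 ≤
      4 * (64 * (M1 * V1)) +
      4 * Real.sqrt (σ * (64 * (M1 * V1)) * (2 * (40960 * w ^ 4 * (C.card * M2)))) +
      64 * (M1 * V1) / σ * ((w / ρ + 2) ^ 2 * θ) := by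
  classical
  have hρr : (0 : ℝ) < ρ := by exact_mod_cast hρ
  have hw0 : 0 < w := by linarith
  have key := bias_ineq hG A m (8 * ρ) (by omega) (by push_cast; exact hρ8) hw1
    (fun k => B937.AQ A m ρ V (ctr (8 * ρ) k)) (fun k => B937.AQ_nonneg hm ρ V _) ?_
    (64 * (M1 * V1)) (40960 * w ^ 4 * (C.card * M2)) ?_ ?_ θ σ hθ hσ hsmall
  · refine key.trans (le_of_eq ?_)
    push_cast
    have : 8 * w / (8 * (ρ : ℝ)) = w / ρ := by field_simp
    rw [this]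
  · intro k I y hy
    have h16 : ∀ t : ℝ, t ≤ 1 / (2 * ((8 * ρ : ℕ) : ℝ)) → t ≤ 1 / (16 * (ρ : ℝ)) := by
      intro t ht
      refine ht.trans (le_of_eq ?_)
      push_cast
      congr 1
      ring
    have h1 := B937.cell hm hs ρ hρ V hV (ctr (8 * ρ) k) I y
      (fun i hi => h16 _ (hy i hi).1) (fun i hi => h16 _ (hy i hi).2)
    simp only [← mhat_eq_ft] at h1
    refine h1.trans (le_of_eq ?_)
    congr 3
    refine Finset.sum_congr rfl fun i _ => ?_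
    refine Finset.sum_congr ?_ fun _ _ => rfl
    ext j
    rw [Finset.mem_erase, Finset.mem_filter]
    tauto
  · have h1 := B937.sum_AQ_le hm M1 hM1 ρ (8 * ρ) hρ (by omega) V
    rw [Finset.sum_product]
    have h2 : ∀ a b, ctr (8 * ρ) (a, b) = B937.ctr (8 * ρ) a b := fun a b => rfl
    simp only [h2]
    refine h1.trans ?_
    have h3 : (((8 * ρ : ℕ) : ℝ) / ρ) ^ 2 = 64 := by
      push_cast
      field_simp
      norm_num
    rw [h3, mul_assoc]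
    exact mul_le_mul_of_nonneg_left (mul_le_mul_of_nonneg_left hV1 hM10) (by norm_num)
  · intro P z hsep hz
    have hr : 0 < 1 / (32 * w ^ 2) := by positivity
    have hr2 : 1 / (32 * w ^ 2) ≤ 1 / 2 := by
      apply one_div_le_one_div_of_le (by norm_num)
      nlinarith
    have h1 := B488.B1 hr hr2 hρ A m hm hs.le P z ?_ ?_ C hC hM20 hM2
    · simp only [← mhat_eq_ft750] at h1
      refine h1.trans (le_of_eq ?_)
      field_simp
      ring
    · intro i hi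
      have h2 := hz i hi
      have h3 : (1 : ℝ) / ((8 * ρ : ℕ) : ℝ) * (8 * ρ) = 1 := by push_cast; field_simp
      have h4 : (0 : ℝ) ≤ 8 * ρ := by positivity
      constructor
      · rw [← h3]; exact mul_le_mul_of_nonneg_right h2.1 h4
      · rw [← h3]; exact mul_le_mul_of_nonneg_right h2.2 h4
    · intro i hi j hj hne h
      exact hsep i hi j hj hne (inR750 h)

/-- Final exponent bookkeeping, isolated: a real inequality. -/
theorem exponents (ε K : ℝ) (hε : 0 < ε) (hε1 : ε ≤ 1 / 10) (hK : 1 ≤ K) :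
    ∃ W0 : ℝ, 1 ≤ W0 ∧ ∀ w : ℝ, W0 ≤ w → ∀ X1 X2 Y n : ℝ, 0 ≤ X1 → 0 ≤ X2 → 0 ≤ Y →
      X1 ≤ K * w ^ (1 - 2 * ε + ε / 8) → 2 * X2 ≤ K * w ^ (1 + 2 * ε + ε / 8) →
      Y ≤ K * w ^ (4 * ε) →
      n * (9 / 16 * (4 * w) ^ (-ε)) ≤
        4 * X1 + 4 * Real.sqrt (w ^ (-(3 * ε)) * X1 * (2 * X2)) +
          X1 / w ^ (-(3 * ε)) * (Y * w ^ (-(7 * ε))) →
      w ^ (1 - ε / 8) ≤ 2 * n → False := by
  -- choose `W0` with `W0 ^ (ε/4) > 16 K^2 · 16`
  refine ⟨max 1 ((1000 * K ^ 2) ^ (4 / ε)), le_max_left _ _, ?_⟩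
  intro w hw X1 X2 Y n hX10 hX20 hY0 hX1 hX2 hY hmain hn
  have hw1 : 1 ≤ w := (le_max_left _ _).trans hw
  have hw0 : 0 < w := by linarith
  have hK0 : 0 < K := by linarith
  have hbig : 1000 * K ^ 2 ≤ w ^ (ε / 4) := by
    have h1 : (1000 * K ^ 2) ^ (4 / ε) ≤ w := (le_max_right _ _).trans hw
    have h2 := Real.rpow_le_rpow (by positivity) h1 (by positivity : 0 ≤ ε / 4)
    rwa [← Real.rpow_mul (by positivity), show 4 / ε * (ε / 4) = 1 by field_simp, Real.rpow_one] at h2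
  -- lower bound of the left side
  have h4 : (9 / 32 : ℝ) * 4 ^ (-ε) * w ^ (1 - ε - ε / 8) ≤ n * (9 / 16 * (4 * w) ^ (-ε)) := by
    have e1 : (4 * w) ^ (-ε) = 4 ^ (-ε) * w ^ (-ε) := Real.mul_rpow (by norm_num) hw0.le
    have e2 : w ^ (1 - ε - ε / 8) = w ^ (1 - ε / 8) * w ^ (-ε) := by
      rw [← Real.rpow_add hw0]; congr 1; ring
    rw [e1, e2]
    have e3 : 0 ≤ 4 ^ (-ε) * w ^ (-ε) := by positivity
    nlinarith
  have h45 : (1 / 2 : ℝ) ≤ 4 ^ (-ε) := by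
    have e1 : (4 : ℝ) ^ (-(1 / 2) : ℝ) ≤ 4 ^ (-ε) :=
      Real.rpow_le_rpow_of_exponent_le (by norm_num) (by linarith)
    have e2 : (4 : ℝ) ^ (-(1 / 2) : ℝ) = 1 / 2 := by
      rw [Real.rpow_neg (by norm_num), show (4 : ℝ) = 2 ^ (2 : ℝ) by norm_num,
        ← Real.rpow_mul (by norm_num)]
      norm_num
    linarith
  set P : ℝ := w ^ (1 - 3 / 2 * ε + ε / 8) with hP
  have hP0 : 0 < P := Real.rpow_pos_of_pos hw0 _
  have t1 : X1 ≤ K * P := by
    refine hX1.trans (mul_le_mul_of_nonneg_left ?_ hK0.le)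
    exact Real.rpow_le_rpow_of_exponent_le hw1 (by linarith)
  have t2 : Real.sqrt (w ^ (-(3 * ε)) * X1 * (2 * X2)) ≤ K * P := by
    rw [Real.sqrt_le_left (by positivity)]
    calc w ^ (-(3 * ε)) * X1 * (2 * X2)
        ≤ w ^ (-(3 * ε)) * (K * w ^ (1 - 2 * ε + ε / 8)) * (K * w ^ (1 + 2 * ε + ε / 8)) := by
          refine mul_le_mul (mul_le_mul_of_nonneg_left hX1 (by positivity)) hX2 (by positivity)
            (by positivity)
      _ = (K * P) ^ 2 := by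
          have e1 : P ^ 2 = w ^ (-(3 * ε)) * w ^ (1 - 2 * ε + ε / 8) * w ^ (1 + 2 * ε + ε / 8) := by
            rw [hP, ← Real.rpow_natCast, ← Real.rpow_mul hw0.le, ← Real.rpow_add hw0,
              ← Real.rpow_add hw0]
            congr 1
            push_cast
            ring
          rw [mul_pow, e1]
          ring
  have t3 : X1 / w ^ (-(3 * ε)) * (Y * w ^ (-(7 * ε))) ≤ K ^ 2 * P := by
    have e1 : X1 / w ^ (-(3 * ε)) * (Y * w ^ (-(7 * ε))) = X1 * Y * w ^ (-(4 * ε)) := by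
      have : w ^ (-(7 * ε)) = w ^ (-(3 * ε)) * w ^ (-(4 * ε)) := by
        rw [← Real.rpow_add hw0]; congr 1; ring
      rw [this]
      have hne : w ^ (-(3 * ε)) ≠ 0 := (Real.rpow_pos_of_pos hw0 _).ne'
      field_simp
    rw [e1]
    calc X1 * Y * w ^ (-(4 * ε))
        ≤ (K * w ^ (1 - 2 * ε + ε / 8)) * (K * w ^ (4 * ε)) * w ^ (-(4 * ε)) := by
          refine mul_le_mul_of_nonneg_right (mul_le_mul hX1 hY hY0 (by positivity)) (by positivity)
      _ = K ^ 2 * w ^ (1 - 2 * ε + ε / 8) := by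
          have : w ^ (4 * ε) * w ^ (-(4 * ε)) = 1 := by
            rw [← Real.rpow_add hw0]; simp
          linear_combination (K ^ 2 * w ^ (1 - 2 * ε + ε / 8)) * this
      _ ≤ K ^ 2 * P := by
          refine mul_le_mul_of_nonneg_left ?_ (by positivity)
          exact Real.rpow_le_rpow_of_exponent_le hw1 (by linarith)
  have hfin : (9 / 64 : ℝ) * w ^ (1 - ε - ε / 8) ≤ 9 * K ^ 2 * P := by
    have e0 : 0 < w ^ (1 - ε - ε / 8) := Real.rpow_pos_of_pos hw0 _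
    have e1 : (9 / 64 : ℝ) * w ^ (1 - ε - ε / 8) ≤ 9 / 32 * 4 ^ (-ε) * w ^ (1 - ε - ε / 8) := by
      nlinarith
    have e2 : K ≤ K ^ 2 := by nlinarith
    have e3 : K * P ≤ K ^ 2 * P := mul_le_mul_of_nonneg_right e2 hP0.le
    linarith
  have hsplit : w ^ (1 - ε - ε / 8) = P * w ^ (ε / 4) := by
    rw [hP, ← Real.rpow_add hw0]; congr 1; ring
  rw [hsplit] at hfin
  have : (9 / 64 : ℝ) * (P * (1000 * K ^ 2)) ≤ (9 / 64 : ℝ) * (P * w ^ (ε / 4)) := by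
    refine mul_le_mul_of_nonneg_left (mul_le_mul_of_nonneg_left hbig hP0.le) (by norm_num)
  have hKP : 0 < K ^ 2 * P := by positivity
  nlinarith

/-- **BLOCK B1+B2**: light classes imply one large coefficient for at least half of the primes. -/
theorem bias_half (ε K : ℝ) (hε : 0 < ε) (hε1 : ε ≤ 1 / 10) (hK : 1 ≤ K) :
    ∃ W0 : ℝ, 1 ≤ W0 ∧ ∀ w : ℝ, W0 ≤ w → ∀ G : Finset GaussianInt, PrimeSet G w →
      w ^ (1 - ε / 8) ≤ (G.card : ℝ) →
      ∀ (A : Finset GaussianInt) (m : GaussianInt → ℝ), (∀ z ∈ A, 0 ≤ m z) → ∑ z ∈ A, m z = 1 →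
      ∀ ρ : ℕ, 0 < ρ → 8 * w < (8 * (ρ : ℝ)) ^ 2 →
      ∀ V : Finset GaussianInt, (∀ z ∈ A, ∀ p ∈ B937.bx ρ, z - B937.hh p ∈ V) →
      ∀ M1 V1 : ℝ, (∀ z ∈ A, m z ≤ M1) → 0 ≤ M1 →
      ((V.filter fun v => B937.om A m ρ v ≠ 0).card : ℝ) ≤ V1 →
      ∀ C : Finset GaussianInt,
      (∀ v ∈ B488.Zb A ρ, ∃ c ∈ C, |(v.re : ℝ) - c.re| * (2 * (1 / (32 * w ^ 2))) ≤ 1 ∧
        |(v.im : ℝ) - c.im| * (2 * (1 / (32 * w ^ 2))) ≤ 1) →
      ∀ M2 : ℝ, 0 ≤ M2 → (∀ v ∈ B488.Zb A ρ, B488.om A m ρ v ≤ M2) →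
      64 * (M1 * V1) ≤ K * w ^ (1 - 2 * ε + ε / 8) →
      2 * (40960 * w ^ 4 * (C.card * M2)) ≤ K * w ^ (1 + 2 * ε + ε / 8) →
      (w / ρ + 2) ^ 2 ≤ K * w ^ (4 * ε) →
      (∀ q ∈ G, LightAt A m q ((q.norm : ℝ) ^ (1 - ε))) →
      ∃ G3 ⊆ G, G.card ≤ 2 * G3.card ∧ ∃ b : GaussianInt → GaussianInt,
        (∀ q ∈ G3, ¬ q ∣ b q) ∧
        ∀ q ∈ G3, w ^ (-(7 / 2 * ε)) ≤ ‖mhat A m ((b q : ℂ) / q)‖ := by
  classical
  obtain ⟨W0, hW01, hexp⟩ := exponents ε K hε hε1 hK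
  refine ⟨W0, hW01, ?_⟩
  intro w hw G hG hcard A m hm hs ρ hρ hρ8 V hV M1 V1 hM1 hM10 hV1 C hC M2 hM20 hM2 hX1 hX2 hY hlight
  have hw1 : 1 ≤ w := hW01.trans hw
  have hw0 : 0 < w := by linarith
  -- good primes
  set good : GaussianInt → Prop := fun q => ∃ b ∈ Ico 1 q.norm.natAbs,
    w ^ (-(7 / 2 * ε)) ≤ ‖mhat A m ((b : ℂ) / q)‖ with hgood
  set G3 : Finset GaussianInt := G.filter good with hG3
  have hhalf : G.card ≤ 2 * G3.card := by
    by_contra hcon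
    push Not at hcon
    set G1 : Finset GaussianInt := G.filter (fun q => ¬ good q) with hG1
    have hG1card : G.card ≤ 2 * G1.card := by
      have := Finset.card_filter_add_card_filter_not (s := G) good
      rw [← hG3, ← hG1] at this
      omega
    have hG1P : PrimeSet G1 w := by
      have hsub : ∀ q ∈ G1, q ∈ G := fun q hq => (Finset.mem_filter.mp hq).1
      exact ⟨fun q hq => hG.prime q (hsub q hq), fun q hq q' hq' => hG.ass q (hsub q hq) q' (hsub q' hq'),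
        fun q hq => hG.split q (hsub q hq), fun q hq => hG.lower q (hsub q hq),
        fun q hq => hG.upper q (hsub q hq)⟩
    have hsm : ∀ q ∈ G1, ∀ b ∈ Ico 1 q.norm.natAbs, ‖mhat A m ((b : ℂ) / q)‖ ^ 2 ≤ w ^ (-(7 * ε)) := by
      intro q hq b hb
      have h1 : ¬ good q := (Finset.mem_filter.mp hq).2
      have h2 : ‖mhat A m ((b : ℂ) / q)‖ < w ^ (-(7 / 2 * ε)) := by
        by_contra h
        push Not at h
        exact h1 ⟨b, hb, h⟩
      have h3 : ‖mhat A m ((b : ℂ) / q)‖ ^ 2 ≤ (w ^ (-(7 / 2 * ε))) ^ 2 :=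
        pow_le_pow_left₀ (norm_nonneg _) h2.le 2
      refine h3.trans (le_of_eq ?_)
      rw [← Real.rpow_natCast, ← Real.rpow_mul hw0.le]
      congr 1
      push_cast
      ring
    have hV10 : 0 ≤ V1 := (Nat.cast_nonneg _).trans hV1
    have hmain := bias_param hG1P hw1 A m hm hs ρ hρ hρ8 V hV M1 V1 hM1 hM10 hV1 C hC M2 hM20 hM2
      (w ^ (-(7 * ε))) (w ^ (-(3 * ε))) (by positivity) (by positivity) hsm
    have hlow : (G1.card : ℝ) * (9 / 16 * (4 * w) ^ (-ε)) ≤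
        ∑ q ∈ G1, ∑ b ∈ Ico 1 q.norm.natAbs, ‖mhat A m ((b : ℂ) / q)‖ ^ 2 := by
      rw [← nsmul_eq_mul, ← Finset.sum_const]
      refine Finset.sum_le_sum fun q hq => ?_
      have hqG : q ∈ G := (Finset.mem_filter.mp hq).1
      obtain ⟨R, hR1, hR2, hR3⟩ := hlight q hqG
      have hnq := hG.norm_eq hqG
      have hnr : (q.norm : ℝ) = ((q.norm.natAbs : ℕ) : ℝ) := by
        have : ((q.norm : ℤ) : ℝ) = (((q.norm.natAbs : ℕ) : ℤ) : ℝ) := by rw [← hnq]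
        rw [this, Int.cast_natCast]
      have h1 := light_classes (hG.split q hqG) hnq A m hs R hR1 (by
        intro c hc
        have := hR3 c hc
        rw [hnr] at this
        convert this using 3)
      refine le_trans ?_ h1
      rw [← hnr]
      have hqpos : (0 : ℝ) < (q.norm : ℝ) := lt_trans hw0 (hG.lower q hqG)
      have h2 : (4 * w) ^ (-ε) ≤ (q.norm : ℝ) ^ (-ε) :=
        Real.rpow_le_rpow_of_nonpos hqpos (hG.upper q hqG) (by linarith)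
      have h3 : (q.norm : ℝ) ^ (-ε) ≤ (R.card : ℝ) / (q.norm : ℝ) := by
        rw [le_div_iff₀ hqpos]
        refine le_trans (le_of_eq ?_) hR2
        rw [← Real.rpow_add_one hqpos.ne']
        congr 1
        ring
      calc (9 / 16 : ℝ) * (4 * w) ^ (-ε) ≤ 9 / 16 * ((R.card : ℝ) / (q.norm : ℝ)) :=
            mul_le_mul_of_nonneg_left (h2.trans h3) (by norm_num)
        _ = 9 / 16 * (R.card : ℝ) / (q.norm : ℝ) := by ring
    refine hexp w hw (64 * (M1 * V1)) (40960 * w ^ 4 * (C.card * M2)) ((w / ρ + 2) ^ 2) G1.card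
      (by positivity) (by positivity) (by positivity) hX1 hX2 hY (hlow.trans hmain) ?_
    refine hcard.trans ?_
    exact_mod_cast hG1card
  have hex : ∀ q, q ∈ G3 → ∃ b : ℕ, b ∈ Ico 1 q.norm.natAbs ∧
      w ^ (-(7 / 2 * ε)) ≤ ‖mhat A m ((b : ℂ) / q)‖ := by
    intro q hq
    obtain ⟨b, hb, h⟩ := (Finset.mem_filter.mp hq).2
    exact ⟨b, hb, h⟩
  choose! b hb1 hb2 using hex
  refine ⟨G3, Finset.filter_subset _ _, hhalf, fun q => ((b q : ℕ) : GaussianInt), ?_, ?_⟩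
  · intro q hq
    exact hG.not_dvd_b (Finset.mem_filter.mp hq).1 (hb1 q hq)
  · intro q hq
    have := hb2 q hq
    simpa using this

end Crest.Agent.R2.B717
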