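import Crest.Agent.R2.Bias717d

/-!
# R2 (Gaussian moat), block B: from the regularity numbers of the tree measure (helper549's
`reg_tree`) to the large coefficients.
-/

set_option autoImplicit false

namespace Crest.Agent.R2.B717

open Finset Crest.Agent.R2.E717
open Crest.Agent.R2.Gcd62 (ab)

theorem N_mk_le (a b : ℕ) (ρ : ℕ) (ha : a ≤ ρ) (hb : b ≤ ρ) :
    N (⟨(a : ℤ), (b : ℤ)⟩ : GaussianInt) ≤ 2 * ρ := by
  have h1 : N (⟨(a : ℤ), (b : ℤ)⟩ : GaussianInt) ^ 2 = (a : ℝ) ^ 2 + (b : ℝ) ^ 2 := by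
    rw [N_sq]; push_cast; rfl
  have ha' : (a : ℝ) ≤ ρ := by exact_mod_cast ha
  have hb' : (b : ℝ) ≤ ρ := by exact_mod_cast hb
  have ha0 : (0 : ℝ) ≤ a := Nat.cast_nonneg _
  have hb0 : (0 : ℝ) ≤ b := Nat.cast_nonneg _
  nlinarith [N_nonneg (⟨(a : ℤ), (b : ℤ)⟩ : GaussianInt)]

/-- the number of points of `A - box` -/
theorem card_sub_box (A : Finset GaussianInt) (ρ : ℕ) (hρ : 0 < ρ) (Z : Finset GaussianInt)
    (hZ : ∀ v ∈ A, ∃ z ∈ Z, ab (v - z) ≤ ρ) (V : Finset GaussianInt)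
    (hV : ∀ v ∈ V, ∃ a ∈ A, ∃ p ∈ B937.bx ρ, v = a - B937.hh p) :
    (V.card : ℝ) ≤ Z.card * (81 * (ρ : ℝ) ^ 2) := by
  classical
  have hρr : (1 : ℝ) ≤ ρ := by exact_mod_cast hρ
  have hsub : V ⊆ Z.biUnion fun z => (disc (3 * ρ)).map ⟨fun u => u + z, add_left_injective z⟩ := by
    intro v hv
    obtain ⟨a, ha, p, hp, rfl⟩ := hV v hv
    obtain ⟨z, hz, hza⟩ := hZ a ha
    rw [Finset.mem_biUnion]
    refine ⟨z, hz, ?_⟩
    rw [Finset.mem_map]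
    refine ⟨a - B937.hh p - z, ?_, by simp⟩
    rw [mem_disc]
    unfold B937.bx at hp
    rw [Finset.mem_product, Finset.mem_range, Finset.mem_range] at hp
    have h1 : N (B937.hh p) ≤ 2 * ρ := N_mk_le p.1 p.2 ρ hp.1.le hp.2.le
    have h2 : a - B937.hh p - z = (a - z) - B937.hh p := by ring
    rw [h2]
    have h3 := N_sub_le (a - z) (B937.hh p)
    change N (a - z) ≤ ρ at hza
    linarith
  have h1 : (V.card : ℝ) ≤ ∑ z ∈ Z, ((disc (3 * ρ)).card : ℝ) := by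
    have h2 := (Finset.card_le_card hsub).trans Finset.card_biUnion_le
    simp only [Finset.card_map] at h2
    exact_mod_cast h2
  rw [Finset.sum_const, nsmul_eq_mul] at h1
  refine h1.trans (mul_le_mul_of_nonneg_left ?_ (Nat.cast_nonneg _))
  refine (card_disc_le (by linarith)).trans (le_of_eq (by ring))

/-- box averages are bounded by the mass of a ball -/
theorem om_le (A : Finset GaussianInt) (m : GaussianInt → ℝ)
    (ρ : ℕ) (hρ : 0 < ρ) (X : ℝ)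
    (hX : ∀ y : ℂ, ∀ B : Finset GaussianInt, (∀ v ∈ B, ‖(v : ℂ) - y‖ ≤ ρ) → ∑ v ∈ B, m v ≤ X)
    (v : GaussianInt) : B488.om A m ρ v ≤ X / (ρ : ℝ) ^ 2 := by
  classical
  have hρr : (0 : ℝ) < ρ := by exact_mod_cast hρ
  unfold B488.om
  rw [one_div, inv_mul_eq_div]
  refine div_le_div_of_nonneg_right ?_ (by positivity)
  rw [← Finset.sum_filter]
  have h1 : ∑ h ∈ (B488.bx ρ).filter (fun h => v + h ∈ A), m (v + h)
      = ∑ u ∈ ((B488.bx ρ).filter (fun h => v + h ∈ A)).image (fun h => v + h), m u := by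
    rw [Finset.sum_image]
    intro a _ b _ hab
    exact add_left_cancel hab
  rw [h1]
  refine hX ((v : ℂ) + ⟨(ρ : ℝ) / 2, (ρ : ℝ) / 2⟩) _ ?_
  intro u hu
  rw [Finset.mem_image] at hu
  obtain ⟨h, hh, rfl⟩ := hu
  rw [Finset.mem_filter, B488.mem_bx] at hh
  obtain ⟨⟨⟨h1, h2⟩, h3, h4⟩, -⟩ := hh
  have e1 : ((v + h : GaussianInt) : ℂ) - ((v : ℂ) + ⟨(ρ : ℝ) / 2, (ρ : ℝ) / 2⟩)
      = (h : ℂ) - ⟨(ρ : ℝ) / 2, (ρ : ℝ) / 2⟩ := by
    rw [GaussianInt.toComplex_add]; ring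
  rw [e1]
  have g1 : (0 : ℝ) ≤ h.re := by exact_mod_cast h1
  have g2 : (h.re : ℝ) ≤ ρ := by exact_mod_cast h2.le
  have g3 : (0 : ℝ) ≤ h.im := by exact_mod_cast h3
  have g4 : (h.im : ℝ) ≤ ρ := by exact_mod_cast h4.le
  refine (Complex.norm_le_abs_re_add_abs_im _).trans ?_
  rw [Complex.sub_re, Complex.sub_im, ← GaussianInt.intCast_re, ← GaussianInt.intCast_im]
  simp only
  have a1 : |(h.re : ℝ) - ρ / 2| ≤ ρ / 2 := abs_le.mpr ⟨by linarith, by linarith⟩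
  have a2 : |(h.im : ℝ) - ρ / 2| ≤ ρ / 2 := abs_le.mpr ⟨by linarith, by linarith⟩
  linarith

set_option maxHeartbeats 1000000 in
/-- **BLOCK B from the regularity numbers of the tree measure.** -/
theorem bias_reg (ε K : ℝ) (hε : 0 < ε) (hε1 : ε ≤ 1 / 10) (hK : 1 ≤ K) :
    ∃ W0 : ℝ, 1 ≤ W0 ∧ ∀ w : ℝ, W0 ≤ w → ∀ G : Finset GaussianInt, PrimeSet G w →
      w ^ (1 - ε / 8) ≤ (G.card : ℝ) →
      ∀ (A : Finset GaussianInt) (m : GaussianInt → ℝ), (∀ z, 0 ≤ m z) → ∑ z ∈ A, m z = 1 →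
      ∀ ρ : ℕ, w ^ (1 - 2 * ε) / 2 ≤ (ρ : ℝ) → (ρ : ℝ) ≤ w ^ (1 - 2 * ε) →
      ∀ M : ℝ, 0 < M → (∀ v ∈ A, m v ≤ K * (ρ : ℝ) ^ (ε / 16) / (M * ρ)) →
      (∃ Z : Finset GaussianInt, (Z.card : ℝ) ≤ M ∧ ∀ v ∈ A, ∃ z ∈ Z, ab (v - z) ≤ ρ) →
      (∀ y : ℂ, ∀ B : Finset GaussianInt, (∀ v ∈ B, ‖(v : ℂ) - y‖ ≤ ρ) → ∑ v ∈ B, m v ≤ K / M) →
      (∃ Z1 : Finset GaussianInt, (Z1.card : ℝ) ≤
          M * (K * (ρ / (15 * w ^ 2) * ((15 * w ^ 2) / ρ) ^ (ε / 16))) ∧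
        ∀ v ∈ A, ∃ z ∈ Z1, ab (v - z) ≤ 15 * w ^ 2) →
      (∀ q ∈ G, LightAt A m q ((q.norm : ℝ) ^ (1 - ε))) →
      ∃ G3 ⊆ G, G.card ≤ 2 * G3.card ∧ ∃ b : GaussianInt → GaussianInt,
        (∀ q ∈ G3, ¬ q ∣ b q) ∧
        ∀ q ∈ G3, w ^ (-(7 / 2 * ε)) ≤ ‖mhat A m ((b q : ℂ) / q)‖ := by
  classical
  obtain ⟨W0, hW01, hmain⟩ := bias_half ε (10 ^ 9 * K ^ 2) hε hε1 (by nlinarith)
  refine ⟨max W0 100, le_max_of_le_left hW01, ?_⟩
  intro w hw G hG hcard A m hm hs ρ hρl hρu M hM hpt hZ hmass hZ1 hlight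
  have hwW : W0 ≤ w := (le_max_left _ _).trans hw
  have hw100 : 100 ≤ w := (le_max_right _ _).trans hw
  have hw1 : 1 ≤ w := by linarith
  have hw0 : 0 < w := by linarith
  have hK0 : 0 < K := by linarith
  have hlow : w ^ (4 / 5 : ℝ) ≤ w ^ (1 - 2 * ε) :=
    Real.rpow_le_rpow_of_exponent_le hw1 (by linarith)
  have hρr : (0 : ℝ) < ρ := lt_of_lt_of_le (by positivity) hρl
  have hρ : 0 < ρ := by exact_mod_cast hρr
  have hρ1 : (1 : ℝ) ≤ ρ := by exact_mod_cast hρ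
  have hρw : (ρ : ℝ) ≤ w := by
    refine hρu.trans ?_
    calc w ^ (1 - 2 * ε) ≤ w ^ (1 : ℝ) := Real.rpow_le_rpow_of_exponent_le hw1 (by linarith)
      _ = w := Real.rpow_one w
  -- `8 w < (8 ρ)^2`
  have hρ8 : 8 * w < (8 * (ρ : ℝ)) ^ 2 := by
    have h1 : w ^ (4 / 5 : ℝ) ≤ 2 * ρ := by linarith
    have h2 : (w ^ (4 / 5 : ℝ)) ^ 2 ≤ (2 * (ρ : ℝ)) ^ 2 := pow_le_pow_left₀ (by positivity) h1 2
    have h3 : w ≤ (w ^ (4 / 5 : ℝ)) ^ 2 := by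
      rw [← Real.rpow_natCast, ← Real.rpow_mul hw0.le]
      calc w = w ^ (1 : ℝ) := (Real.rpow_one w).symm
        _ ≤ _ := Real.rpow_le_rpow_of_exponent_le hw1 (by norm_num)
    nlinarith
  obtain ⟨Z, hZc, hZcov⟩ := hZ
  obtain ⟨Z1, hZ1c, hZ1cov⟩ := hZ1
  set V : Finset GaussianInt := (A ×ˢ B937.bx ρ).image (fun p => p.1 - B937.hh p.2) with hVdef
  have hVcard : (V.card : ℝ) ≤ M * (81 * (ρ : ℝ) ^ 2) := by
    refine (card_sub_box A ρ hρ Z hZcov V ?_).trans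
      (mul_le_mul_of_nonneg_right hZc (by positivity))
    intro v hv
    rw [hVdef, Finset.mem_image] at hv
    obtain ⟨p, hp, rfl⟩ := hv
    rw [Finset.mem_product] at hp
    exact ⟨p.1, hp.1, p.2, hp.2, rfl⟩
  refine hmain w hwW G hG hcard A m (fun z _ => hm z) hs ρ hρ hρ8 V ?_
    (K * (ρ : ℝ) ^ (ε / 16) / (M * ρ)) (M * (81 * (ρ : ℝ) ^ 2)) hpt (by positivity) ?_
    Z1 ?_ (K / M / (ρ : ℝ) ^ 2) (by positivity) (fun v _ => om_le A m ρ hρ _ hmass v) ?_ ?_ ?_ hlight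
  · intro z hz p hp
    rw [hVdef, Finset.mem_image]
    exact ⟨(z, p), Finset.mem_product.mpr ⟨hz, hp⟩, rfl⟩
  · refine le_trans ?_ hVcard
    exact_mod_cast Finset.card_filter_le _ _
  · -- centres
    intro v hv
    rw [B488.mem_Zb] at hv
    obtain ⟨h, hh, hvh⟩ := hv
    rw [B488.mem_bx] at hh
    obtain ⟨z, hz, hzv⟩ := hZ1cov _ hvh
    refine ⟨z, hz, ?_⟩
    have e1 := (abs_re_le (v + h - z)).trans hzv
    have e2 := (abs_im_le (v + h - z)).trans hzv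
    have e3 : ((v + h - z : GaussianInt).re : ℝ) = (v.re : ℝ) + h.re - z.re := by
      rw [Zsqrtd.re_sub, Zsqrtd.re_add]; push_cast; ring
    have e4 : ((v + h - z : GaussianInt).im : ℝ) = (v.im : ℝ) + h.im - z.im := by
      rw [Zsqrtd.im_sub, Zsqrtd.im_add]; push_cast; ring
    rw [e3] at e1
    rw [e4] at e2
    obtain ⟨⟨h1, h2⟩, h3, h4⟩ := hh
    have g1 : (0 : ℝ) ≤ h.re := by exact_mod_cast h1
    have g2 : (h.re : ℝ) ≤ ρ := by exact_mod_cast h2.le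
    have g3 : (0 : ℝ) ≤ h.im := by exact_mod_cast h3
    have g4 : (h.im : ℝ) ≤ ρ := by exact_mod_cast h4.le
    rw [abs_le] at e1 e2
    have hww : w ≤ w ^ 2 := by nlinarith
    have k1 : |(v.re : ℝ) - z.re| ≤ 16 * w ^ 2 := abs_le.mpr ⟨by linarith [e1.1], by linarith [e1.2]⟩
    have k2 : |(v.im : ℝ) - z.im| ≤ 16 * w ^ 2 := abs_le.mpr ⟨by linarith [e2.1], by linarith [e2.2]⟩
    have hr : 0 < 2 * (1 / (32 * w ^ 2)) := by positivity
    have e5 : 16 * w ^ 2 * (2 * (1 / (32 * w ^ 2))) = 1 := by field_simp; norm_num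
    exact ⟨(mul_le_mul_of_nonneg_right k1 hr.le).trans e5.le,
      (mul_le_mul_of_nonneg_right k2 hr.le).trans e5.le⟩
  · -- `64 M1 V1`
    have e1 : 64 * (K * (ρ : ℝ) ^ (ε / 16) / (M * ρ) * (M * (81 * (ρ : ℝ) ^ 2)))
        = 5184 * K * ((ρ : ℝ) * (ρ : ℝ) ^ (ε / 16)) := by
      field_simp
      ring
    rw [e1]
    have e2 : (ρ : ℝ) * (ρ : ℝ) ^ (ε / 16) ≤ w ^ (1 - 2 * ε + ε / 8) := by
      calc (ρ : ℝ) * (ρ : ℝ) ^ (ε / 16) ≤ w ^ (1 - 2 * ε) * w ^ (ε / 16) := by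
            refine mul_le_mul hρu (Real.rpow_le_rpow hρr.le hρw (by positivity)) (by positivity)
              (by positivity)
        _ = w ^ (1 - 2 * ε + ε / 16) := by rw [← Real.rpow_add hw0]
        _ ≤ _ := Real.rpow_le_rpow_of_exponent_le hw1 (by linarith)
    have e3 : 0 ≤ w ^ (1 - 2 * ε + ε / 8) := by positivity
    calc 5184 * K * ((ρ : ℝ) * (ρ : ℝ) ^ (ε / 16)) ≤ 5184 * K * w ^ (1 - 2 * ε + ε / 8) :=
          mul_le_mul_of_nonneg_left e2 (by positivity)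
      _ ≤ 10 ^ 9 * K ^ 2 * w ^ (1 - 2 * ε + ε / 8) := by
          refine mul_le_mul_of_nonneg_right ?_ e3
          nlinarith
  · -- `X2`
    have hZ1' : (Z1.card : ℝ) * (K / M / (ρ : ℝ) ^ 2) ≤
        M * (K * (ρ / (15 * w ^ 2) * ((15 * w ^ 2) / ρ) ^ (ε / 16))) * (K / M / (ρ : ℝ) ^ 2) :=
      mul_le_mul_of_nonneg_right hZ1c (by positivity)
    have e1 : 2 * (40960 * w ^ 4 *
        (M * (K * (ρ / (15 * w ^ 2) * ((15 * w ^ 2) / ρ) ^ (ε / 16))) * (K / M / (ρ : ℝ) ^ 2)))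
        = (81920 / 15) * K ^ 2 * (w ^ 2 / ρ * ((15 * w ^ 2) / ρ) ^ (ε / 16)) := by
      field_simp
      ring
    have e2 : 2 * (40960 * w ^ 4 * ((Z1.card : ℝ) * (K / M / (ρ : ℝ) ^ 2))) ≤
        (81920 / 15) * K ^ 2 * (w ^ 2 / ρ * ((15 * w ^ 2) / ρ) ^ (ε / 16)) := by
      rw [← e1]
      refine mul_le_mul_of_nonneg_left ?_ (by norm_num)
      exact mul_le_mul_of_nonneg_left hZ1' (by positivity)
    refine e2.trans ?_
    have hinv : w ^ 2 / (ρ : ℝ) ≤ 2 * w ^ (1 + 2 * ε) := by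
      rw [div_le_iff₀ hρr]
      have h1 : w ^ (1 + 2 * ε) * w ^ (1 - 2 * ε) = w ^ 2 := by
        rw [← Real.rpow_add hw0, ← Real.rpow_natCast]
        congr 1
        push_cast; ring
      have h2 : 0 < w ^ (1 + 2 * ε) := by positivity
      nlinarith
    have h3 : (15 * w ^ 2) / (ρ : ℝ) ≤ 30 * w ^ (1 + 2 * ε) := by
      have : (15 * w ^ 2) / (ρ : ℝ) = 15 * (w ^ 2 / ρ) := by ring
      rw [this]; linarith
    have h4 : ((15 * w ^ 2) / (ρ : ℝ)) ^ (ε / 16) ≤ 30 * w ^ (ε / 8) := by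
      calc ((15 * w ^ 2) / (ρ : ℝ)) ^ (ε / 16) ≤ (30 * w ^ (1 + 2 * ε)) ^ (ε / 16) :=
            Real.rpow_le_rpow (by positivity) h3 (by positivity)
        _ = 30 ^ (ε / 16) * (w ^ (1 + 2 * ε)) ^ (ε / 16) :=
            Real.mul_rpow (by norm_num) (by positivity)
        _ ≤ 30 * w ^ (ε / 8) := by
            refine mul_le_mul ?_ ?_ (by positivity) (by norm_num)
            · calc (30 : ℝ) ^ (ε / 16) ≤ 30 ^ (1 : ℝ) :=
                    Real.rpow_le_rpow_of_exponent_le (by norm_num) (by linarith)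
                _ = 30 := Real.rpow_one _
            · rw [← Real.rpow_mul hw0.le]
              exact Real.rpow_le_rpow_of_exponent_le hw1 (by nlinarith)
    have h5 : w ^ 2 / (ρ : ℝ) * ((15 * w ^ 2) / ρ) ^ (ε / 16) ≤ 60 * w ^ (1 + 2 * ε + ε / 8) := by
      calc w ^ 2 / (ρ : ℝ) * ((15 * w ^ 2) / ρ) ^ (ε / 16)
          ≤ (2 * w ^ (1 + 2 * ε)) * (30 * w ^ (ε / 8)) :=
            mul_le_mul hinv h4 (by positivity) (by positivity)
        _ = 60 * w ^ (1 + 2 * ε + ε / 8) := by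
            rw [Real.rpow_add hw0 (1 + 2 * ε)]; ring
    have h6 : 0 ≤ w ^ (1 + 2 * ε + ε / 8) := by positivity
    calc (81920 / 15) * K ^ 2 * (w ^ 2 / ρ * ((15 * w ^ 2) / ρ) ^ (ε / 16))
        ≤ (81920 / 15) * K ^ 2 * (60 * w ^ (1 + 2 * ε + ε / 8)) :=
          mul_le_mul_of_nonneg_left h5 (by positivity)
      _ ≤ 10 ^ 9 * K ^ 2 * w ^ (1 + 2 * ε + ε / 8) := by
          have : 0 ≤ K ^ 2 * w ^ (1 + 2 * ε + ε / 8) := by positivity
          nlinarith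
  · -- `Y`
    have h1 : w / (ρ : ℝ) ≤ 2 * w ^ (2 * ε) := by
      rw [div_le_iff₀ hρr]
      have h2 : w ^ (2 * ε) * w ^ (1 - 2 * ε) = w := by
        rw [← Real.rpow_add hw0]
        convert Real.rpow_one w using 2
        ring
      have h3 : 0 < w ^ (2 * ε) := by positivity
      nlinarith
    have h4 : 1 ≤ w ^ (2 * ε) := Real.one_le_rpow hw1 (by positivity)
    have h5 : w / (ρ : ℝ) + 2 ≤ 4 * w ^ (2 * ε) := by linarith
    have h6 : 0 ≤ w / (ρ : ℝ) + 2 := by positivity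
    calc (w / (ρ : ℝ) + 2) ^ 2 ≤ (4 * w ^ (2 * ε)) ^ 2 := pow_le_pow_left₀ h6 h5 2
      _ = 16 * w ^ (4 * ε) := by
          rw [mul_pow, ← Real.rpow_natCast (w ^ (2 * ε)), ← Real.rpow_mul hw0.le]
          norm_num
          ring_nf
      _ ≤ 10 ^ 9 * K ^ 2 * w ^ (4 * ε) := by
          refine mul_le_mul_of_nonneg_right ?_ (by positivity)
          nlinarith

end Crest.Agent.R2.B717
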