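import Crest.Agent.R2.Spec289

/-!
# R2 (Gaussian moat), block B2 of #11312: the cell inequality and Parseval over the cells
(helper937)
-/

set_option autoImplicit false

namespace Crest.Agent.R2.B937

open Crest.Agent.R2.Tri Finset

/-- the box `{0 ≤ re, im < ρ}`, indexed by pairs of naturals. -/
def bx (ρ : ℕ) : Finset (ℕ × ℕ) := Finset.range ρ ×ˢ Finset.range ρ

/-- the Gaussian integer attached to a pair. -/
def hh (p : ℕ × ℕ) : GaussianInt := ⟨p.1, p.2⟩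

theorem card_bx (ρ : ℕ) : (bx ρ).card = ρ ^ 2 := by
  unfold bx
  rw [Finset.card_product, Finset.card_range, sq]

/-- extension by zero. -/
noncomputable def me (A : Finset GaussianInt) (m : GaussianInt → ℝ) (z : GaussianInt) : ℝ :=
  open Classical in if z ∈ A then m z else 0

/-- box average of the weight. -/
noncomputable def om (A : Finset GaussianInt) (m : GaussianInt → ℝ) (ρ : ℕ) (v : GaussianInt) : ℝ :=
  (∑ p ∈ bx ρ, me A m (v + hh p)) / (ρ : ℝ) ^ 2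

/-- twisted box average of the weight. -/
noncomputable def mQ (A : Finset GaussianInt) (m : GaussianInt → ℝ) (ρ : ℕ) (ξ : ℂ)
    (v : GaussianInt) : ℂ :=
  (∑ p ∈ bx ρ, (me A m (v + hh p) : ℂ) * chi (v + hh p) ξ) / (ρ : ℂ) ^ 2

/-- box kernel. -/
noncomputable def kap (ρ : ℕ) (η : ℂ) : ℂ := (∑ p ∈ bx ρ, chi (-hh p) η) / (ρ : ℂ) ^ 2

/-- the energy of a cell with centre `ξ`. -/
noncomputable def AQ (A : Finset GaussianInt) (m : GaussianInt → ℝ) (ρ : ℕ)
    (V : Finset GaussianInt) (ξ : ℂ) : ℝ :=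
  ∑ v ∈ V, ‖mQ A m ρ ξ v‖ ^ 2 / om A m ρ v

section basic

variable {A : Finset GaussianInt} {m : GaussianInt → ℝ}

theorem me_nonneg (hm : ∀ z ∈ A, 0 ≤ m z) (z : GaussianInt) : 0 ≤ me A m z := by
  classical
  unfold me
  split_ifs with h
  · exact hm z h
  · exact le_refl _

theorem om_nonneg (hm : ∀ z ∈ A, 0 ≤ m z) (ρ : ℕ) (v : GaussianInt) : 0 ≤ om A m ρ v := by
  unfold om
  apply div_nonneg
  · exact Finset.sum_nonneg fun p _ => me_nonneg hm _
  · positivity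

theorem norm_mQ_le (hm : ∀ z ∈ A, 0 ≤ m z) (ρ : ℕ) (ξ : ℂ) (v : GaussianInt) :
    ‖mQ A m ρ ξ v‖ ≤ om A m ρ v := by
  unfold mQ om
  rw [norm_div, norm_pow, Complex.norm_natCast]
  gcongr
  refine le_trans (norm_sum_le _ _) ?_
  apply Finset.sum_le_sum
  intro p _
  rw [norm_mul, norm_chi, mul_one, Complex.norm_real, Real.norm_eq_abs,
    abs_of_nonneg (me_nonneg hm _)]

/-- the shift identity. -/
theorem sum_shift (V : Finset GaussianInt) (h : GaussianInt)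
    (hV : ∀ z ∈ A, z - h ∈ V) (g : GaussianInt → ℂ) :
    ∑ v ∈ V, (me A m (v + h) : ℂ) * g v = ∑ z ∈ A, (m z : ℂ) * g (z - h) := by
  classical
  have h1 : ∑ z ∈ A, (m z : ℂ) * g (z - h)
      = ∑ v ∈ A.image (fun z => z - h), (me A m (v + h) : ℂ) * g v := by
    rw [Finset.sum_image]
    · apply Finset.sum_congr rfl
      intro z hz
      unfold me
      rw [sub_add_cancel, if_pos hz]
    · intro a _ b _ hab
      simpa using hab
  rw [h1]
  symm
  apply Finset.sum_subset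
  · intro v hv
    rw [Finset.mem_image] at hv
    obtain ⟨z, hz, rfl⟩ := hv
    exact hV z hz
  · intro v _ hv
    have : v + h ∉ A := by
      intro hvA
      apply hv
      rw [Finset.mem_image]
      exact ⟨v + h, hvA, by ring⟩
    unfold me
    rw [if_neg this]
    simp

theorem sum_om_chi (ρ : ℕ) (V : Finset GaussianInt)
    (hV : ∀ z ∈ A, ∀ p ∈ bx ρ, z - hh p ∈ V) (η : ℂ) :
    ∑ v ∈ V, (om A m ρ v : ℂ) * chi v η = kap ρ η * ft A m η := by
  unfold om kap ft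
  have h1 : ∀ v ∈ V, (((∑ p ∈ bx ρ, me A m (v + hh p)) / (ρ : ℝ) ^ 2 : ℝ) : ℂ) * chi v η
      = ∑ p ∈ bx ρ, ((me A m (v + hh p) : ℂ) * chi v η) / (ρ : ℂ) ^ 2 := by
    intro v _
    push_cast
    rw [div_mul_eq_mul_div, Finset.sum_mul, Finset.sum_div]
  rw [Finset.sum_congr rfl h1, Finset.sum_comm, Finset.sum_div, Finset.sum_mul]
  apply Finset.sum_congr rfl
  intro p hp
  rw [← Finset.sum_div, sum_shift V (hh p) (fun z hz => hV z hz p hp), div_mul_eq_mul_div,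
    Finset.mul_sum]
  congr 1
  apply Finset.sum_congr rfl
  intro z _
  rw [sub_eq_add_neg, chi_add_left]
  ring

theorem sum_chi_mQ (ρ : ℕ) (V : Finset GaussianInt)
    (hV : ∀ z ∈ A, ∀ p ∈ bx ρ, z - hh p ∈ V) (ξ x : ℂ) :
    ∑ v ∈ V, chi v (x - ξ) * mQ A m ρ ξ v = kap ρ (x - ξ) * ft A m x := by
  unfold mQ kap ft
  have h1 : ∀ v ∈ V, chi v (x - ξ) *
      ((∑ p ∈ bx ρ, (me A m (v + hh p) : ℂ) * chi (v + hh p) ξ) / (ρ : ℂ) ^ 2)
      = ∑ p ∈ bx ρ, ((me A m (v + hh p) : ℂ) * (chi (v + hh p) ξ * chi v (x - ξ))) / (ρ : ℂ) ^ 2 := by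
    intro v _
    rw [mul_div_assoc', Finset.mul_sum, Finset.sum_div]
    apply Finset.sum_congr rfl
    intro p _
    ring
  rw [Finset.sum_congr rfl h1, Finset.sum_comm, Finset.sum_div, Finset.sum_mul]
  apply Finset.sum_congr rfl
  intro p hp
  rw [← Finset.sum_div,
    sum_shift V (hh p) (fun z hz => hV z hz p hp) (fun v => chi (v + hh p) ξ * chi v (x - ξ)),
    div_mul_eq_mul_div, Finset.mul_sum]
  congr 1
  apply Finset.sum_congr rfl
  intro z _
  rw [sub_add_cancel, sub_eq_add_neg z, chi_add_left]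
  have : chi z x = chi z ξ * chi z (x - ξ) := by rw [← chi_add_right]; congr 1; ring
  rw [this]
  ring

theorem norm_kap_le (ρ : ℕ) (hρ : 0 < ρ) (η : ℂ) : ‖kap ρ η‖ ≤ 1 := by
  unfold kap
  rw [norm_div, norm_pow, Complex.norm_natCast, div_le_one (by positivity)]
  refine le_trans (norm_sum_le _ _) ?_
  simp only [norm_chi, Finset.sum_const, card_bx, nsmul_eq_mul, mul_one]
  push_cast
  exact le_refl _

theorem half_le_norm_kap (ρ : ℕ) (hρ : 0 < ρ) (η : ℂ) (h1 : |η.re| ≤ 1 / (16 * ρ))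
    (h2 : |η.im| ≤ 1 / (16 * ρ)) : 1 / 2 ≤ ‖kap ρ η‖ := by
  have hρ' : (0 : ℝ) < ρ := by exact_mod_cast hρ
  refine le_trans ?_ (Complex.re_le_norm _)
  unfold kap
  have e : (∑ p ∈ bx ρ, chi (-hh p) η) / (ρ : ℂ) ^ 2
      = (((1 / (ρ : ℝ) ^ 2 : ℝ)) : ℂ) * (∑ p ∈ bx ρ, chi (-hh p) η) := by
    push_cast
    ring
  rw [e, Complex.re_ofReal_mul, Complex.re_sum]
  have key : ∀ p ∈ bx ρ, (1 : ℝ) / 2 ≤ (chi (-hh p) η).re := by
    intro p hp
    unfold bx at hp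
    rw [Finset.mem_product, Finset.mem_range, Finset.mem_range] at hp
    unfold chi
    rw [ee_re]
    have hp1 : (p.1 : ℝ) ≤ ρ := by exact_mod_cast hp.1.le
    have hp2 : (p.2 : ℝ) ≤ ρ := by exact_mod_cast hp.2.le
    have hre : (((-hh p).re : ℤ) : ℝ) = -(p.1 : ℝ) := by simp [hh]
    have him : (((-hh p).im : ℤ) : ℝ) = -(p.2 : ℝ) := by simp [hh]
    rw [hre, him]
    have b1 : |(p.1 : ℝ) * η.re| ≤ 1 / 16 := by
      rw [abs_mul, abs_of_nonneg (by positivity : (0 : ℝ) ≤ p.1)]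
      calc (p.1 : ℝ) * |η.re| ≤ ρ * (1 / (16 * ρ)) := by gcongr
        _ = 1 / 16 := by field_simp
    have b2 : |(p.2 : ℝ) * η.im| ≤ 1 / 16 := by
      rw [abs_mul, abs_of_nonneg (by positivity : (0 : ℝ) ≤ p.2)]
      calc (p.2 : ℝ) * |η.im| ≤ ρ * (1 / (16 * ρ)) := by gcongr
        _ = 1 / 16 := by field_simp
    rw [abs_le] at b1 b2
    have hb : |2 * Real.pi * (-(p.1 : ℝ) * η.re - -(p.2 : ℝ) * η.im)| ≤ Real.pi / 3 := by
      rw [abs_le]
      have hpi := Real.pi_pos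
      constructor
      · nlinarith
      · nlinarith
    have := Real.cos_abs (2 * Real.pi * (-(p.1 : ℝ) * η.re - -(p.2 : ℝ) * η.im))
    rw [← this, ← Real.cos_pi_div_three]
    apply Real.cos_le_cos_of_nonneg_of_le_pi (abs_nonneg _) _ hb
    linarith [Real.pi_pos]
  have hs : ((bx ρ).card : ℝ) * (1 / 2) ≤ ∑ p ∈ bx ρ, (chi (-hh p) η).re := by
    rw [← nsmul_eq_mul]
    exact Finset.card_nsmul_le_sum _ _ _ key
  rw [card_bx] at hs
  push_cast at hs
  calc (1 : ℝ) / 2 = 1 / (ρ : ℝ) ^ 2 * ((ρ : ℝ) ^ 2 * (1 / 2)) := by field_simp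
    _ ≤ _ := by gcongr

end basic

end Crest.Agent.R2.B937
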