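import Crest.Agent.R2.Cell937a

/-!
# R2 (Gaussian moat), block B2 of #11312: the cell inequality (CELL)
(helper937)
-/

set_option autoImplicit false

namespace Crest.Agent.R2.B937

open Crest.Agent.R2.Tri Finset

section cell

variable {A : Finset GaussianInt} {m : GaussianInt → ℝ}

theorem sum_om_sq {ι : Type*} (ρ : ℕ) (V : Finset GaussianInt)
    (hV : ∀ z ∈ A, ∀ p ∈ bx ρ, z - hh p ∈ V) (I : Finset ι) (c y : ι → ℂ) :
    ((∑ v ∈ V, om A m ρ v * ‖∑ i ∈ I, c i * chi v (y i)‖ ^ 2 : ℝ) : ℂ)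
      = ∑ i ∈ I, ∑ j ∈ I, c i * (starRingEnd ℂ) (c j) *
          (kap ρ (y i - y j) * ft A m (y i - y j)) := by
  push_cast
  have h1 : ∀ v ∈ V, (om A m ρ v : ℂ) * (‖∑ i ∈ I, c i * chi v (y i)‖ : ℂ) ^ 2
      = ∑ i ∈ I, ∑ j ∈ I, c i * (starRingEnd ℂ) (c j) * ((om A m ρ v : ℂ) * chi v (y i - y j)) := by
    intro v _
    rw [← Complex.mul_conj', map_sum, Finset.sum_mul_sum, Finset.mul_sum]
    apply Finset.sum_congr rfl
    intro a _
    rw [Finset.mul_sum]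
    apply Finset.sum_congr rfl
    intro b _
    rw [chi_sub_right, map_mul]
    ring
  rw [Finset.sum_congr rfl h1, Finset.sum_comm]
  apply Finset.sum_congr rfl
  intro i _
  rw [Finset.sum_comm]
  apply Finset.sum_congr rfl
  intro j _
  rw [← Finset.mul_sum, sum_om_chi ρ V hV]

/-- quadratic form bound. -/
theorem sum_om_sq_le {ι : Type*} [DecidableEq ι]
    (hs : ∑ z ∈ A, m z = 1) (ρ : ℕ) (hρ : 0 < ρ) (V : Finset GaussianInt)
    (hV : ∀ z ∈ A, ∀ p ∈ bx ρ, z - hh p ∈ V) (I : Finset ι) (c y : ι → ℂ) :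
    ∑ v ∈ V, om A m ρ v * ‖∑ i ∈ I, c i * chi v (y i)‖ ^ 2
      ≤ (∑ i ∈ I, ‖c i‖ ^ 2) *
        (1 + Real.sqrt (∑ i ∈ I, ∑ j ∈ I.erase i, ‖ft A m (y i - y j)‖ ^ 2)) := by
  have h0 : ft A m 0 = 1 := by
    unfold ft
    simp only [chi_zero_right, mul_one]
    exact_mod_cast hs
  have e := sum_om_sq (m := m) ρ V hV I c y
  have e2 : ∑ v ∈ V, om A m ρ v * ‖∑ i ∈ I, c i * chi v (y i)‖ ^ 2
      = (∑ i ∈ I, ∑ j ∈ I, c i * (starRingEnd ℂ) (c j) *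
          (kap ρ (y i - y j) * ft A m (y i - y j))).re := by
    rw [← e, Complex.ofReal_re]
  rw [e2]
  refine le_trans (Complex.re_le_norm _) ?_
  refine le_trans (norm_sum_le _ _) ?_
  have h1 : ∀ i ∈ I, ‖∑ j ∈ I, c i * (starRingEnd ℂ) (c j) *
          (kap ρ (y i - y j) * ft A m (y i - y j))‖
      ≤ ‖c i‖ ^ 2 + ∑ j ∈ I.erase i, (‖c i‖ * ‖c j‖) * ‖ft A m (y i - y j)‖ := by
    intro i hi
    refine le_trans (norm_sum_le _ _) ?_
    rw [← Finset.add_sum_erase _ _ hi]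
    have hterm : ∀ j, ‖c i * (starRingEnd ℂ) (c j) * (kap ρ (y i - y j) * ft A m (y i - y j))‖
        ≤ (‖c i‖ * ‖c j‖) * ‖ft A m (y i - y j)‖ := by
      intro j
      rw [norm_mul, norm_mul, norm_mul, RCLike.norm_conj]
      have := norm_kap_le ρ hρ (y i - y j)
      calc ‖c i‖ * ‖c j‖ * (‖kap ρ (y i - y j)‖ * ‖ft A m (y i - y j)‖)
          ≤ ‖c i‖ * ‖c j‖ * (1 * ‖ft A m (y i - y j)‖) := by gcongr
        _ = _ := by ring
    apply add_le_add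
    · refine le_trans (hterm i) ?_
      rw [sub_self, h0, norm_one, mul_one, sq]
    · apply Finset.sum_le_sum
      intro j _
      exact hterm j
  refine le_trans (Finset.sum_le_sum h1) ?_
  rw [Finset.sum_add_distrib, mul_add, mul_one]
  gcongr
  -- Cauchy-Schwarz on pairs
  rw [Finset.sum_sigma', Finset.sum_sigma']
  have hcs := Finset.sum_mul_sq_le_sq_mul_sq (I.sigma fun i => I.erase i)
    (fun p => ‖c p.1‖ * ‖c p.2‖) (fun p => ‖ft A m (y p.1 - y p.2)‖)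
  have hT : ∑ p ∈ I.sigma (fun i => I.erase i), (‖c p.1‖ * ‖c p.2‖) ^ 2
      ≤ (∑ i ∈ I, ‖c i‖ ^ 2) ^ 2 := by
    rw [Finset.sum_sigma, sq, Finset.sum_mul_sum]
    apply Finset.sum_le_sum
    intro i _
    simp only [mul_pow]
    apply Finset.sum_le_sum_of_subset_of_nonneg (Finset.erase_subset _ _)
    intro j _ _
    positivity
  have hT0 : 0 ≤ ∑ i ∈ I, ‖c i‖ ^ 2 := Finset.sum_nonneg fun i _ => by positivity
  set H := ∑ p ∈ I.sigma (fun i => I.erase i), ‖ft A m (y p.1 - y p.2)‖ ^ 2 with hH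
  have hH0 : 0 ≤ H := Finset.sum_nonneg fun i _ => by positivity
  have hle : (∑ p ∈ I.sigma (fun i => I.erase i), (‖c p.1‖ * ‖c p.2‖) * ‖ft A m (y p.1 - y p.2)‖) ^ 2
      ≤ ((∑ i ∈ I, ‖c i‖ ^ 2) * Real.sqrt H) ^ 2 := by
    rw [mul_pow, Real.sq_sqrt hH0]
    refine le_trans hcs ?_
    gcongr
  exact (abs_le_of_sq_le_sq' hle (by positivity)).2

theorem fin_aux {S Q R : ℝ} (hS : 0 ≤ S) (hQ : 0 ≤ Q) (hR : 0 ≤ R)
    (h : S ^ 2 ≤ (4 * S) * (1 + R) * Q) : S ≤ 4 * Q * (1 + R) := by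
  rcases hS.eq_or_lt with h0 | h0
  · rw [← h0]
    positivity
  · have : S * S ≤ S * (4 * Q * (1 + R)) := by nlinarith
    exact le_of_mul_le_mul_left this h0

/-- **Cell inequality** (3.4) of #11312. -/
theorem cell {ι : Type*} [DecidableEq ι] (hm : ∀ z ∈ A, 0 ≤ m z)
    (hs : ∑ z ∈ A, m z = 1) (ρ : ℕ) (hρ : 0 < ρ) (V : Finset GaussianInt)
    (hV : ∀ z ∈ A, ∀ p ∈ bx ρ, z - hh p ∈ V) (ξ : ℂ) (I : Finset ι) (x : ι → ℂ)
    (hre : ∀ i ∈ I, |(x i - ξ).re| ≤ 1 / (16 * ρ)) (him : ∀ i ∈ I, |(x i - ξ).im| ≤ 1 / (16 * ρ)) :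
    ∑ i ∈ I, ‖ft A m (x i)‖ ^ 2 ≤ 4 * AQ A m ρ V ξ *
      (1 + Real.sqrt (∑ i ∈ I, ∑ j ∈ I.erase i, ‖ft A m (x i - x j)‖ ^ 2)) := by
  set S := ∑ i ∈ I, ‖ft A m (x i)‖ ^ 2 with hS
  set R := Real.sqrt (∑ i ∈ I, ∑ j ∈ I.erase i, ‖ft A m (x i - x j)‖ ^ 2) with hR
  have hR0 : 0 ≤ R := Real.sqrt_nonneg _
  have hS0 : 0 ≤ S := Finset.sum_nonneg fun i _ => by positivity
  have hAQ0 : 0 ≤ AQ A m ρ V ξ := by
    unfold AQ
    exact Finset.sum_nonneg fun v _ => div_nonneg (by positivity) (om_nonneg hm ρ v)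
  set c : ι → ℂ := fun i => (starRingEnd ℂ) (ft A m (x i)) / kap ρ (x i - ξ) with hc
  have hk : ∀ i ∈ I, 1 / 2 ≤ ‖kap ρ (x i - ξ)‖ := fun i hi =>
    half_le_norm_kap ρ hρ _ (hre i hi) (him i hi)
  have hk0 : ∀ i ∈ I, kap ρ (x i - ξ) ≠ 0 := by
    intro i hi h0
    have := hk i hi
    rw [h0, norm_zero] at this
    norm_num at this
  -- total
  have htot : ∑ v ∈ V, (∑ i ∈ I, c i * chi v (x i - ξ)) * mQ A m ρ ξ v = (S : ℂ) := by
    have h1 : ∀ v ∈ V, (∑ i ∈ I, c i * chi v (x i - ξ)) * mQ A m ρ ξ v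
        = ∑ i ∈ I, c i * (chi v (x i - ξ) * mQ A m ρ ξ v) := by
      intro v _
      rw [Finset.sum_mul]
      apply Finset.sum_congr rfl
      intro i _
      ring
    rw [Finset.sum_congr rfl h1, Finset.sum_comm, hS]
    push_cast
    apply Finset.sum_congr rfl
    intro i hi
    rw [← Finset.mul_sum, sum_chi_mQ ρ V hV, hc]
    simp only
    rw [← Complex.conj_mul']
    have := hk0 i hi
    field_simp
  have hCS : S ^ 2 ≤ (∑ v ∈ V, om A m ρ v * ‖∑ i ∈ I, c i * chi v (x i - ξ)‖ ^ 2)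
      * AQ A m ρ V ξ := by
    have h1 : S ≤ ∑ v ∈ V, (Real.sqrt (om A m ρ v) * ‖∑ i ∈ I, c i * chi v (x i - ξ)‖) *
        (‖mQ A m ρ ξ v‖ / Real.sqrt (om A m ρ v)) := by
      have h2 : S = ‖∑ v ∈ V, (∑ i ∈ I, c i * chi v (x i - ξ)) * mQ A m ρ ξ v‖ := by
        rw [htot, Complex.norm_real, Real.norm_eq_abs, abs_of_nonneg hS0]
      rw [h2]
      refine le_trans (norm_sum_le _ _) ?_
      apply Finset.sum_le_sum
      intro v _
      rw [norm_mul]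
      rcases (om_nonneg hm ρ v).eq_or_lt with h0 | h0
      · have hz : ‖mQ A m ρ ξ v‖ = 0 :=
          le_antisymm (by rw [h0]; exact norm_mQ_le hm ρ ξ v) (norm_nonneg _)
        rw [hz]
        simp
      · have : Real.sqrt (om A m ρ v) ≠ 0 := (Real.sqrt_pos.mpr h0).ne'
        apply le_of_eq
        field_simp
    have h3 := Finset.sum_mul_sq_le_sq_mul_sq V
      (fun v => Real.sqrt (om A m ρ v) * ‖∑ i ∈ I, c i * chi v (x i - ξ)‖)
      (fun v => ‖mQ A m ρ ξ v‖ / Real.sqrt (om A m ρ v))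
    refine le_trans (pow_le_pow_left₀ hS0 h1 2) (le_trans h3 (le_of_eq ?_))
    unfold AQ
    congr 1
    · apply Finset.sum_congr rfl
      intro v _
      rw [mul_pow, Real.sq_sqrt (om_nonneg hm ρ v)]
    · apply Finset.sum_congr rfl
      intro v _
      rw [div_pow, Real.sq_sqrt (om_nonneg hm ρ v)]
  have hq := sum_om_sq_le hs ρ hρ V hV I c (fun i => x i - ξ)
  have hdiff : ∀ i j, (x i - ξ) - (x j - ξ) = x i - x j := fun i j => by ring
  simp only [hdiff] at hq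
  rw [← hR] at hq
  have hT : ∑ i ∈ I, ‖c i‖ ^ 2 ≤ 4 * S := by
    rw [hS, Finset.mul_sum]
    apply Finset.sum_le_sum
    intro i hi
    rw [hc]
    simp only
    rw [norm_div, RCLike.norm_conj, div_pow, div_le_iff₀ (by
      have := hk i hi
      positivity)]
    have := hk i hi
    have h4 : 1 ≤ 4 * ‖kap ρ (x i - ξ)‖ ^ 2 := by nlinarith
    nlinarith [sq_nonneg ‖ft A m (x i)‖]
  have hfin : S ^ 2 ≤ (4 * S) * (1 + R) * AQ A m ρ V ξ := by
    refine le_trans hCS ?_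
    refine mul_le_mul_of_nonneg_right (le_trans hq ?_) hAQ0
    exact mul_le_mul_of_nonneg_right hT (by linarith)
  exact fin_aux hS0 hAQ0 hR0 hfin

end cell

end Crest.Agent.R2.B937
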