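import Mathlib

/-!
# R2 (Gaussian moat), block S1a: the gcd property and the counting of denominators
-/

set_option autoImplicit false

namespace Crest.Agent.R2.Gcd62

open Finset

/-- Product of a finite set of (chosen, pairwise non associated) primes. -/
noncomputable def MM (S : Finset GaussianInt) : GaussianInt := ∏ p ∈ S, p

/-- Numerator of `∑_{p∈S} b p / p` over the denominator `MM S`. -/
noncomputable def NN (b : GaussianInt → GaussianInt) (S : Finset GaussianInt) : GaussianInt :=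
  ∑ p ∈ S, b p * ∏ q ∈ S.erase p, q

/-- absolute value of a Gaussian integer -/
noncomputable abbrev ab (z : GaussianInt) : ℝ := ‖GaussianInt.toComplex z‖

theorem ab_nonneg (z : GaussianInt) : 0 ≤ ab z := norm_nonneg _

theorem ab_mul (z w : GaussianInt) : ab (z * w) = ab z * ab w := by
  unfold ab; rw [map_mul, norm_mul]

theorem ab_pow (z : GaussianInt) (n : ℕ) : ab (z ^ n) = ab z ^ n := by
  unfold ab; rw [map_pow, norm_pow]

theorem ab_sub_le (z w : GaussianInt) : ab (z - w) ≤ ab z + ab w := by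
  unfold ab; rw [map_sub]; exact norm_sub_le _ _

theorem ab_add_le (z w : GaussianInt) : ab (z + w) ≤ ab z + ab w := by
  unfold ab; rw [map_add]; exact norm_add_le _ _

theorem ab_one : ab 1 = 1 := by unfold ab; simp

theorem ab_zero : ab 0 = 0 := by unfold ab; simp

theorem ab_eq_zero {z : GaussianInt} : ab z = 0 ↔ z = 0 := by
  unfold ab; simp

theorem ab_sq (z : GaussianInt) : ab z ^ 2 = ((z.norm : ℤ) : ℝ) := by
  unfold ab
  rw [GaussianInt.intCast_real_norm, Complex.normSq_eq_norm_sq]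

/-- nonzero Gaussian integers have absolute value at least one -/
theorem one_le_ab {z : GaussianInt} (hz : z ≠ 0) : 1 ≤ ab z := by
  have h1 : (1 : ℤ) ≤ z.norm := GaussianInt.norm_pos.2 hz
  have h2 : (1 : ℝ) ≤ ab z ^ 2 := by rw [ab_sq]; exact_mod_cast h1
  have h0 := ab_nonneg z
  by_contra h
  push Not at h
  nlinarith

theorem ab_dvd {z w : GaussianInt} (h : z ∣ w) (hw : w ≠ 0) : ab z ≤ ab w := by
  obtain ⟨u, rfl⟩ := h
  rw [ab_mul]
  have hu : u ≠ 0 := by rintro rfl; simp at hw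
  have := one_le_ab hu
  nlinarith [ab_nonneg z]

theorem MM_empty : MM ∅ = 1 := by simp [MM]

theorem MM_insert {S : Finset GaussianInt} {p : GaussianInt} (hp : p ∉ S) :
    MM (insert p S) = p * MM S := by
  unfold MM; rw [Finset.prod_insert hp]

theorem MM_union {D E : Finset GaussianInt} (h : Disjoint D E) :
    MM (D ∪ E) = MM D * MM E := by
  unfold MM; rw [Finset.prod_union h]

theorem MM_dvd_of_subset {D S : Finset GaussianInt} (h : D ⊆ S) : MM D ∣ MM S := by
  unfold MM; exact Finset.prod_dvd_prod_of_subset _ _ _ h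

theorem MM_ne_zero {S : Finset GaussianInt} (h : ∀ p ∈ S, Prime p) : MM S ≠ 0 := by
  unfold MM; exact Finset.prod_ne_zero_iff.2 fun p hp => (h p hp).ne_zero

theorem ab_MM (S : Finset GaussianInt) : ab (MM S) = ∏ p ∈ S, ab p := by
  unfold MM ab
  rw [map_prod, norm_prod]

theorem mem_of_dvd_MM {G S : Finset GaussianInt} (hG : ∀ p ∈ G, Prime p)
    (hass : ∀ p ∈ G, ∀ q ∈ G, Associated p q → p = q) (hS : S ⊆ G) {p : GaussianInt}
    (hp : p ∈ G) (h : p ∣ MM S) : p ∈ S := by
  unfold MM at h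
  obtain ⟨q, hq, hdvd⟩ := ((hG p hp).dvd_finsetProd_iff _).1 h
  have h1 : Associated p q :=
    (hG p hp).irreducible.dvd_irreducible_iff_associated (hG q (hS hq)).irreducible |>.1 hdvd
  rw [hass p hp q (hS hq) h1]
  exact hq

theorem MM_injOn {G : Finset GaussianInt} (hG : ∀ p ∈ G, Prime p)
    (hass : ∀ p ∈ G, ∀ q ∈ G, Associated p q → p = q) {S S' : Finset GaussianInt}
    (hS : S ⊆ G) (hS' : S' ⊆ G) (h : MM S = MM S') : S = S' := by
  apply Finset.Subset.antisymm
  · intro p hp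
    refine mem_of_dvd_MM hG hass hS' (hS hp) ?_
    rw [← h]
    unfold MM
    exact Finset.dvd_prod_of_mem _ hp
  · intro p hp
    refine mem_of_dvd_MM hG hass hS (hS' hp) ?_
    rw [h]
    unfold MM
    exact Finset.dvd_prod_of_mem _ hp

/-- The fraction `NN b S / MM S` is `∑ b p / p`. -/
theorem NN_div_MM (b : GaussianInt → GaussianInt) {S : Finset GaussianInt}
    (h : ∀ p ∈ S, Prime p) :
    GaussianInt.toComplex (NN b S) / GaussianInt.toComplex (MM S)
      = ∑ p ∈ S, GaussianInt.toComplex (b p) / GaussianInt.toComplex p := by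
  unfold NN
  rw [map_sum, Finset.sum_div]
  refine Finset.sum_congr rfl ?_
  intro p hp
  have hp0 : GaussianInt.toComplex p ≠ 0 := by
    rw [Ne, GaussianInt.toComplex_eq_zero]; exact (h p hp).ne_zero
  have hM : MM S = p * ∏ q ∈ S.erase p, q := by
    unfold MM; rw [Finset.mul_prod_erase S (fun q => q) hp]
  have hM0 : GaussianInt.toComplex (∏ q ∈ S.erase p, q) ≠ 0 := by
    rw [Ne, GaussianInt.toComplex_eq_zero]
    exact Finset.prod_ne_zero_iff.2 fun q hq => (h q (Finset.mem_of_mem_erase hq)).ne_zero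
  rw [hM, map_mul, map_mul]
  field_simp

/-- For `S = D ∪ E` disjoint: `NN b S = NN b D * MM E + MM D * NN b E`. -/
theorem NN_union (b : GaussianInt → GaussianInt)
    {D E : Finset GaussianInt} (h : Disjoint D E) :
    NN b (D ∪ E) = NN b D * MM E + MM D * NN b E := by
  unfold NN
  rw [Finset.sum_union h, Finset.sum_mul, Finset.mul_sum]
  congr 1
  · refine Finset.sum_congr rfl ?_
    intro p hp
    have hpE : p ∉ E := fun hE => (Finset.disjoint_left.1 h) hp hE
    have : (D ∪ E).erase p = D.erase p ∪ E := by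
      rw [Finset.erase_union_distrib, Finset.erase_eq_of_notMem hpE]
    have hd : Disjoint (D.erase p) E := Finset.disjoint_of_subset_left (Finset.erase_subset _ _) h
    rw [this, Finset.prod_union hd]
    unfold MM
    ring
  · refine Finset.sum_congr rfl ?_
    intro p hp
    have hpD : p ∉ D := fun hD => (Finset.disjoint_left.1 h) hD hp
    have : (D ∪ E).erase p = D ∪ E.erase p := by
      rw [Finset.erase_union_distrib, Finset.erase_eq_of_notMem hpD]
    have hd : Disjoint D (E.erase p) := Finset.disjoint_of_subset_right (Finset.erase_subset _ _) h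
    rw [this, Finset.prod_union hd]
    unfold MM
    ring

/-- No chosen prime of `D` divides the numerator of `D`. -/
theorem not_dvd_NN {G : Finset GaussianInt} (hG : ∀ p ∈ G, Prime p)
    (hass : ∀ p ∈ G, ∀ q ∈ G, Associated p q → p = q) {b : GaussianInt → GaussianInt}
    (hb : ∀ p ∈ G, ¬ p ∣ b p) {D : Finset GaussianInt} (hD : D ⊆ G) {p : GaussianInt}
    (hp : p ∈ D) : ¬ p ∣ NN b D := by
  intro hdvd
  have hrest : p ∣ ∑ q ∈ D.erase p, b q * ∏ r ∈ D.erase q, r := by
    refine Finset.dvd_sum ?_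
    intro q hq
    refine Dvd.dvd.mul_left ?_ _
    exact Finset.dvd_prod_of_mem (fun r => r)
      (Finset.mem_erase.2 ⟨(Finset.ne_of_mem_erase hq).symm, hp⟩)
  have hsplit : NN b D = b p * ∏ r ∈ D.erase p, r + ∑ q ∈ D.erase p, b q * ∏ r ∈ D.erase q, r := by
    unfold NN
    rw [Finset.add_sum_erase D (fun q => b q * ∏ r ∈ D.erase q, r) hp]
  rw [hsplit] at hdvd
  have h1 : p ∣ b p * ∏ r ∈ D.erase p, r := (dvd_add_left hrest).1 hdvd
  rcases (hG p (hD hp)).dvd_or_dvd h1 with h2 | h2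
  · exact hb p (hD hp) h2
  · have : p ∈ D.erase p := mem_of_dvd_MM hG hass
      ((Finset.erase_subset _ _).trans hD) (hD hp) h2
    simp at this

/-- `MM D` is coprime to `NN b D`, in the form of a cancellation property. -/
theorem MM_dvd_of_dvd_NN_mul {G : Finset GaussianInt} (hG : ∀ p ∈ G, Prime p)
    (hass : ∀ p ∈ G, ∀ q ∈ G, Associated p q → p = q) {b : GaussianInt → GaussianInt}
    (hb : ∀ p ∈ G, ¬ p ∣ b p) {D : Finset GaussianInt} (hD : D ⊆ G) {z : GaussianInt}
    (h : MM D ∣ NN b D * z) : MM D ∣ z := by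
  have hcop : IsCoprime (MM D) (NN b D) := by
    unfold MM
    refine IsCoprime.prod_left ?_
    intro p hp
    rw [(hG p (hD hp)).irreducible.coprime_iff_not_dvd]
    exact not_dvd_NN hG hass hb hD hp
  exact hcop.dvd_of_dvd_mul_left h

/-- (3) `Φ ≡ 0` only for the empty support. -/
theorem MM_dvd_NN_iff {G : Finset GaussianInt} (hG : ∀ p ∈ G, Prime p)
    (hass : ∀ p ∈ G, ∀ q ∈ G, Associated p q → p = q) {b : GaussianInt → GaussianInt}
    (hb : ∀ p ∈ G, ¬ p ∣ b p) {S : Finset GaussianInt} (hS : S ⊆ G) :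
    MM S ∣ NN b S ↔ S = ∅ := by
  constructor
  · intro h
    by_contra hne
    obtain ⟨p, hp⟩ := Finset.nonempty_iff_ne_empty.2 hne
    refine not_dvd_NN hG hass hb hS hp (dvd_trans ?_ h)
    unfold MM
    exact Finset.dvd_prod_of_mem _ hp
  · rintro rfl
    rw [MM_empty]
    exact one_dvd _

/-- (4) **GCD property.** -/
theorem gcd_sq_dvd {G : Finset GaussianInt} (hG : ∀ p ∈ G, Prime p)
    (hass : ∀ p ∈ G, ∀ q ∈ G, Associated p q → p = q) {b : GaussianInt → GaussianInt}
    (hb : ∀ p ∈ G, ¬ p ∣ b p) {S S' D : Finset GaussianInt} (hS : S ⊆ G)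
    (hD : D ⊆ S) (hD' : D ⊆ S') {c : GaussianInt}
    (hc : MM S ∣ NN b S - c) (hc' : MM S' ∣ NN b S' - c) :
    (MM D) ^ 2 ∣ MM S - MM S' := by
  -- decompose
  have hSE : S = D ∪ (S \ D) := (Finset.union_sdiff_of_subset hD).symm
  have hSE' : S' = D ∪ (S' \ D) := (Finset.union_sdiff_of_subset hD').symm
  have hdj : Disjoint D (S \ D) := Finset.disjoint_sdiff
  have hdj' : Disjoint D (S' \ D) := Finset.disjoint_sdiff
  have e1 : MM S = MM D * MM (S \ D) := by
    conv_lhs => rw [hSE]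
    exact MM_union hdj
  have e1' : MM S' = MM D * MM (S' \ D) := by
    conv_lhs => rw [hSE']
    exact MM_union hdj'
  have e2 : NN b S = NN b D * MM (S \ D) + MM D * NN b (S \ D) := by
    conv_lhs => rw [hSE]
    exact NN_union b hdj
  have e2' : NN b S' = NN b D * MM (S' \ D) + MM D * NN b (S' \ D) := by
    conv_lhs => rw [hSE']
    exact NN_union b hdj'
  have h1 : MM D ∣ NN b D * MM (S \ D) - c := by
    have : MM D ∣ NN b S - c := (MM_dvd_of_subset hD).trans hc
    rw [e2] at this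
    have h3 : NN b D * MM (S \ D) - c
        = (NN b D * MM (S \ D) + MM D * NN b (S \ D) - c) - MM D * NN b (S \ D) := by ring
    rw [h3]
    exact dvd_sub this (dvd_mul_right _ _)
  have h1' : MM D ∣ NN b D * MM (S' \ D) - c := by
    have : MM D ∣ NN b S' - c := (MM_dvd_of_subset hD').trans hc'
    rw [e2'] at this
    have h3 : NN b D * MM (S' \ D) - c
        = (NN b D * MM (S' \ D) + MM D * NN b (S' \ D) - c) - MM D * NN b (S' \ D) := by ring
    rw [h3]
    exact dvd_sub this (dvd_mul_right _ _)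
  have h2 : MM D ∣ NN b D * (MM (S \ D) - MM (S' \ D)) := by
    have h3 : NN b D * (MM (S \ D) - MM (S' \ D))
        = (NN b D * MM (S \ D) - c) - (NN b D * MM (S' \ D) - c) := by ring
    rw [h3]
    exact dvd_sub h1 h1'
  have h4 : MM D ∣ MM (S \ D) - MM (S' \ D) :=
    MM_dvd_of_dvd_NN_mul hG hass hb (hD.trans hS) h2
  rw [e1, e1', ← mul_sub, sq]
  exact mul_dvd_mul_left _ h4

/-- (5) greedy divisor. -/
theorem exists_sub_prod {w : ℝ} (hw1 : 1 ≤ w) (S : Finset GaussianInt)
    (hw : ∀ p ∈ S, ab p ≤ 2 * w) {Q : ℝ} (hQ1 : 1 ≤ Q) (hQ : Q ≤ ab (MM S)) :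
    ∃ D ⊆ S, Q ≤ ab (MM D) ∧ ab (MM D) ≤ 2 * w * Q := by
  induction S using Finset.induction_on with
  | empty =>
    refine ⟨∅, Finset.Subset.refl _, hQ, ?_⟩
    rw [MM_empty, ab_one]
    nlinarith
  | insert p S hp ih =>
    by_cases h : Q ≤ ab (MM S)
    · obtain ⟨D, hD, h1, h2⟩ := ih (fun q hq => hw q (Finset.mem_insert_of_mem hq)) h
      exact ⟨D, hD.trans (Finset.subset_insert _ _), h1, h2⟩
    · push Not at h
      refine ⟨insert p S, Finset.Subset.refl _, hQ, ?_⟩
      rw [MM_insert hp, ab_mul]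
      have h1 := hw p (Finset.mem_insert_self _ _)
      have h2 := ab_nonneg p
      have h3 := ab_nonneg (MM S)
      calc ab p * ab (MM S) ≤ (2 * w) * Q := by
            apply mul_le_mul h1 h.le h3 (by linarith)
        _ = 2 * w * Q := by ring

/-- box of Gaussian integers of absolute value `≤ R`. -/
noncomputable def ball (R : ℝ) : Finset GaussianInt :=
  ((Finset.Icc (-⌊R⌋) ⌊R⌋ ×ˢ Finset.Icc (-⌊R⌋) ⌊R⌋ : Finset (ℤ × ℤ)).image
    (fun p : ℤ × ℤ => (⟨p.1, p.2⟩ : GaussianInt))).filter (fun z => ab z ≤ R)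

theorem mem_ball {R : ℝ} {z : GaussianInt} : z ∈ ball R ↔ ab z ≤ R := by
  unfold ball
  rw [Finset.mem_filter]
  refine ⟨fun h => h.2, fun hz => ⟨?_, hz⟩⟩
  rw [Finset.mem_image]
  refine ⟨(z.re, z.im), ?_, by ext <;> rfl⟩
  have h1 : |((z.re : ℤ) : ℝ)| ≤ R := by
    have := Complex.abs_re_le_norm (GaussianInt.toComplex z)
    rw [← GaussianInt.intCast_re] at this
    exact this.trans hz
  have h2 : |((z.im : ℤ) : ℝ)| ≤ R := by
    have := Complex.abs_im_le_norm (GaussianInt.toComplex z)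
    rw [← GaussianInt.intCast_im] at this
    exact this.trans hz
  rw [← Int.cast_abs] at h1 h2
  have h1' : |z.re| ≤ ⌊R⌋ := Int.le_floor.2 h1
  have h2' : |z.im| ≤ ⌊R⌋ := Int.le_floor.2 h2
  rw [abs_le] at h1' h2'
  simp only [Finset.mem_product, Finset.mem_Icc]
  exact ⟨h1', h2'⟩

theorem card_ball {R : ℝ} (hR : 0 ≤ R) : ((ball R).card : ℝ) ≤ (2 * R + 1) ^ 2 := by
  unfold ball
  have h1 : ((Finset.Icc (-⌊R⌋) ⌊R⌋).card : ℝ) ≤ 2 * R + 1 := by
    rw [Int.card_Icc]
    have hf : (0 : ℤ) ≤ ⌊R⌋ := Int.floor_nonneg.2 hR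
    have h2 : ((⌊R⌋ + 1 - -⌊R⌋).toNat : ℤ) = 2 * ⌊R⌋ + 1 := by
      rw [Int.toNat_of_nonneg (by linarith)]; ring
    have h3 : (((⌊R⌋ + 1 - -⌊R⌋).toNat : ℕ) : ℝ) = 2 * (⌊R⌋ : ℝ) + 1 := by
      exact_mod_cast h2
    rw [h3]
    have := Int.floor_le R
    linarith
  calc ((Finset.filter (fun z => ab z ≤ R) ((Finset.Icc (-⌊R⌋) ⌊R⌋ ×ˢ
        Finset.Icc (-⌊R⌋) ⌊R⌋ : Finset (ℤ × ℤ)).image
        (fun p : ℤ × ℤ => (⟨p.1, p.2⟩ : GaussianInt)))).card : ℝ)
      ≤ ((Finset.Icc (-⌊R⌋) ⌊R⌋ ×ˢ Finset.Icc (-⌊R⌋) ⌊R⌋ : Finset (ℤ × ℤ)).card : ℝ) := by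
        exact_mod_cast (Finset.card_filter_le _ _).trans Finset.card_image_le
    _ = ((Finset.Icc (-⌊R⌋) ⌊R⌋).card : ℝ) * ((Finset.Icc (-⌊R⌋) ⌊R⌋).card : ℝ) := by
        rw [Finset.card_product]; push_cast; ring
    _ ≤ (2 * R + 1) * (2 * R + 1) := by
        apply mul_le_mul h1 h1 (by positivity) (by positivity)
    _ = (2 * R + 1) ^ 2 := by ring

/-- (6) **COUNT**. -/
theorem card_le {G : Finset GaussianInt} (hG : ∀ p ∈ G, Prime p)
    (hass : ∀ p ∈ G, ∀ q ∈ G, Associated p q → p = q) {b : GaussianInt → GaussianInt}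
    (hb : ∀ p ∈ G, ¬ p ∣ b p) {w Y : ℝ} (hw1 : 1 ≤ w) (hY : 1 ≤ Y)
    (hw : ∀ p ∈ G, ab p ≤ 2 * w) (c : GaussianInt) (F : Finset (Finset GaussianInt))
    (hF : ∀ S ∈ F, S ⊆ G) (hFc : ∀ S ∈ F, MM S ∣ NN b S - c) (hFY : ∀ S ∈ F, ab (MM S) ≤ Y) :
    (F.card : ℝ) ≤ 1000 * w ^ 2 * Y := by
  classical
  set Q : ℝ := Real.sqrt Y with hQdef
  have hQ1 : 1 ≤ Q := by rw [hQdef]; exact Real.one_le_sqrt.2 hY
  have hQ2 : Q ^ 2 = Y := Real.sq_sqrt (by linarith)
  -- small ones
  set F1 := F.filter (fun S => ab (MM S) < Q) with hF1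
  set F2 := F.filter (fun S => ¬ ab (MM S) < Q) with hF2
  have hsum : F.card = F1.card + F2.card := by
    rw [hF1, hF2, Finset.card_filter_add_card_filter_not]
  have hc1 : (F1.card : ℝ) ≤ (2 * Q + 1) ^ 2 := by
    refine le_trans ?_ (card_ball (by linarith : (0:ℝ) ≤ Q))
    have : F1.card ≤ (ball Q).card := by
      refine Finset.card_le_card_of_injOn MM ?_ ?_
      · intro S hS
        have hS' := Finset.mem_filter.1 (Finset.mem_coe.1 hS)
        exact Finset.mem_coe.2 (mem_ball.2 hS'.2.le)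
      · intro S hS S' hS' h
        have h1 := Finset.mem_filter.1 (Finset.mem_coe.1 hS)
        have h2 := Finset.mem_filter.1 (Finset.mem_coe.1 hS')
        exact MM_injOn hG hass (hF S h1.1) (hF S' h2.1) h
    exact_mod_cast this
  -- choose divisors
  have hex : ∀ S ∈ F2, ∃ D ⊆ S, Q ≤ ab (MM D) ∧ ab (MM D) ≤ 2 * w * Q := by
    intro S hS
    have hS' := Finset.mem_filter.1 hS
    exact exists_sub_prod hw1 S (fun p hp => hw p (hF S hS'.1 hp)) hQ1 (not_lt.1 hS'.2)
  choose! f hfsub hfQ hfw using hex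
  set g : Finset GaussianInt → GaussianInt := fun S => MM (f S) with hg
  have hmaps : ∀ S ∈ F2, g S ∈ ball (2 * w * Q) := fun S hS => mem_ball.2 (hfw S hS)
  have hfib : ∀ d ∈ ball (2 * w * Q), (F2.filter (fun S => g S = d)).card ≤ 25 := by
    intro d _
    rcases (F2.filter (fun S => g S = d)).eq_empty_or_nonempty with h0 | ⟨S0, hS0⟩
    · rw [h0]; simp
    have h0 := Finset.mem_filter.1 hS0
    have h00 := Finset.mem_filter.1 h0.1
    have hdne : d ≠ 0 := by
      rw [← h0.2]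
      exact MM_ne_zero fun p hp => hG p (hF S0 h00.1 (hfsub S0 h0.1 hp))
    have hdQ : Q ≤ ab d := by rw [← h0.2]; exact hfQ S0 h0.1
    -- every S in the fiber: MM S0 - MM S = d^2 * u S with |u| ≤ 2
    have hu : ∀ S ∈ F2.filter (fun S => g S = d), ∃ u : GaussianInt,
        MM S0 - MM S = d ^ 2 * u ∧ ab u ≤ 2 := by
      intro S hS
      have h1 := Finset.mem_filter.1 hS
      have h11 := Finset.mem_filter.1 h1.1
      have hff : f S = f S0 := by
        refine MM_injOn hG hass ((hfsub S h1.1).trans (hF S h11.1))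
          ((hfsub S0 h0.1).trans (hF S0 h00.1)) ?_
        exact h1.2.trans h0.2.symm
      have hdv := gcd_sq_dvd hG hass hb (hF S0 h00.1) (hfsub S0 h0.1)
        (by rw [← hff]; exact hfsub S h1.1) (hFc S0 h00.1) (hFc S h11.1)
      obtain ⟨u, hu⟩ := hdv
      have hd0 : MM (f S0) = d := h0.2
      rw [hd0] at hu
      refine ⟨u, hu, ?_⟩
      have h2 : ab (MM S0 - MM S) ≤ 2 * Y := by
        have := ab_sub_le (MM S0) (MM S)
        have := hFY S0 h00.1
        have := hFY S h11.1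
        linarith
      rw [hu, ab_mul, ab_pow] at h2
      have h3 : Y ≤ ab d ^ 2 := by
        rw [← hQ2]
        exact pow_le_pow_left₀ (by linarith) hdQ 2
      have h4 : 0 < Y := by linarith
      by_contra hcon
      push Not at hcon
      have h5 : 2 * Y < ab d ^ 2 * ab u := by
        calc 2 * Y < Y * ab u := by nlinarith
          _ ≤ ab d ^ 2 * ab u := by
            apply mul_le_mul_of_nonneg_right h3 (ab_nonneg u)
      linarith
    choose! u hu1 hu2 using hu
    have hcard : (F2.filter (fun S => g S = d)).card ≤ (ball 2).card := by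
      refine Finset.card_le_card_of_injOn u ?_ ?_
      · intro S hS
        exact Finset.mem_coe.2 (mem_ball.2 (hu2 S (Finset.mem_coe.1 hS)))
      · intro S hS S' hS' h
        have e1 := hu1 S (Finset.mem_coe.1 hS)
        have e2 := hu1 S' (Finset.mem_coe.1 hS')
        have e3 : MM S = MM S' := by
          have h' : u S = u S' := h
          rw [h'] at e1
          have : MM S0 - MM S = MM S0 - MM S' := by rw [e1, e2]
          linear_combination -this
        have m1 := Finset.mem_filter.1 (Finset.mem_filter.1 (Finset.mem_coe.1 hS)).1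
        have m2 := Finset.mem_filter.1 (Finset.mem_filter.1 (Finset.mem_coe.1 hS')).1
        exact MM_injOn hG hass (hF S m1.1) (hF S' m2.1) e3
    refine hcard.trans ?_
    have := card_ball (R := 2) (by norm_num)
    have h25 : ((ball 2).card : ℝ) ≤ 25 := by linarith
    exact_mod_cast h25
  have hc2 : (F2.card : ℝ) ≤ 25 * (2 * (2 * w * Q) + 1) ^ 2 := by
    have h1 : F2.card ≤ 25 * (ball (2 * w * Q)).card :=
      Finset.card_le_mul_card_image_of_maps_to hmaps 25 hfib
    have h2 : (F2.card : ℝ) ≤ 25 * ((ball (2 * w * Q)).card : ℝ) := by exact_mod_cast h1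
    refine h2.trans ?_
    have := card_ball (R := 2 * w * Q) (by positivity)
    linarith
  have hwQ : 1 ≤ w * Q := by nlinarith
  have e1 : (2 * Q + 1) ^ 2 ≤ 9 * (w ^ 2 * Y) := by
    have : 2 * Q + 1 ≤ 3 * (w * Q) := by nlinarith
    calc (2 * Q + 1) ^ 2 ≤ (3 * (w * Q)) ^ 2 := pow_le_pow_left₀ (by positivity) this 2
      _ = 9 * (w ^ 2 * Q ^ 2) := by ring
      _ = 9 * (w ^ 2 * Y) := by rw [hQ2]
  have e2 : (2 * (2 * w * Q) + 1) ^ 2 ≤ 25 * (w ^ 2 * Y) := by
    have : 2 * (2 * w * Q) + 1 ≤ 5 * (w * Q) := by nlinarith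
    calc (2 * (2 * w * Q) + 1) ^ 2 ≤ (5 * (w * Q)) ^ 2 := pow_le_pow_left₀ (by positivity) this 2
      _ = 25 * (w ^ 2 * Q ^ 2) := by ring
      _ = 25 * (w ^ 2 * Y) := by rw [hQ2]
  have hpos : 0 ≤ w ^ 2 * Y := by positivity
  have : (F.card : ℝ) = F1.card + F2.card := by rw [hsum]; push_cast; ring
  rw [this]
  nlinarith

/-- (8) bookkeeping: if `∑ b p / p = h + x` with `h` a Gaussian integer then the numerator
`c = NN b S - h * MM S` satisfies `c = x * MM S` and `MM S ∣ NN b S - c`. -/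
theorem exists_num (b : GaussianInt → GaussianInt) {S : Finset GaussianInt}
    (h : ∀ p ∈ S, Prime p) {x : ℂ} {z : GaussianInt}
    (hx : ∑ p ∈ S, GaussianInt.toComplex (b p) / GaussianInt.toComplex p
      = GaussianInt.toComplex z + x) :
    ∃ c : GaussianInt, GaussianInt.toComplex c = x * GaussianInt.toComplex (MM S) ∧
      MM S ∣ NN b S - c := by
  refine ⟨NN b S - z * MM S, ?_, ?_⟩
  · have hM : GaussianInt.toComplex (MM S) ≠ 0 := by
      rw [Ne, GaussianInt.toComplex_eq_zero]; exact MM_ne_zero h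
    rw [← NN_div_MM b h] at hx
    rw [map_sub, map_mul]
    field_simp at hx
    rw [hx]
    ring
  · exact ⟨z, by ring⟩

/-- a prime of absolute value `≥ w` does not divide a nonzero integer of absolute value `< w` -/
theorem not_dvd_intCast {w : ℝ} {p : GaussianInt} (hp : w ≤ ab p) {n : ℤ} (hn0 : n ≠ 0)
    (hn : (|n| : ℝ) < w) : ¬ p ∣ (n : GaussianInt) := by
  intro h
  have h1 : (n : GaussianInt) ≠ 0 := by exact_mod_cast hn0
  have h2 := ab_dvd h h1
  have h3 : ab (n : GaussianInt) = |(n : ℝ)| := by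
    unfold ab
    rw [map_intCast]
    simp
  rw [h3] at h2
  linarith

/-- the numerators `b p = n p * a p` are units mod `p` -/
theorem not_dvd_mul {w : ℝ} {p a : GaussianInt} (hpr : Prime p) (hp : w ≤ ab p) {n : ℤ}
    (hn0 : n ≠ 0) (hn : (|n| : ℝ) < w) (ha : ¬ p ∣ a) : ¬ p ∣ (n : GaussianInt) * a := by
  intro h
  rcases hpr.dvd_or_dvd h with h | h
  · exact not_dvd_intCast hp hn0 hn h
  · exact ha h

end Crest.Agent.R2.Gcd62
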