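import Mathlib
import Crest.Prelude.Def_GaussMoat

/-!
# R2 (Gaussian moat), block L0: S0002 from a finite sieve statement
-/

set_option autoImplicit false

namespace Crest.Agent.R2

open Crest.NumberTheoryR

/-- There are a finite set `P` of Gaussian primes and a radius `R` such that every finite `D`-path
all of whose points are divisible by no `p ∈ P` has displacement `< R`. -/
def SieveBlocked (D : ℝ) : Prop :=
  ∃ (P : Finset GaussianInt) (R : ℝ), (∀ p ∈ P, Prime p) ∧
    ∀ (n : ℕ) (x : ℕ → GaussianInt),
      (∀ i < n, ‖GaussianInt.toComplex (x (i + 1) - x i)‖ ≤ D) →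
      (∀ i ≤ n, ∀ p ∈ P, ¬ p ∣ x i) →
      ‖GaussianInt.toComplex (x n - x 0)‖ < R

/-- Balls of Gaussian integers are finite. -/
theorem ball_finite (T : ℝ) : {z : GaussianInt | ‖GaussianInt.toComplex z‖ ≤ T}.Finite := by
  have hfin : ((Finset.Icc (-⌈T⌉) ⌈T⌉ ×ˢ Finset.Icc (-⌈T⌉) ⌈T⌉ : Finset (ℤ × ℤ)) : Set (ℤ × ℤ)).Finite :=
    Finset.finite_toSet _
  refine Set.Finite.subset (hfin.image (fun p : ℤ × ℤ => (⟨p.1, p.2⟩ : GaussianInt))) ?_
  intro z hz
  simp only [Set.mem_ofPred_eq] at hz
  refine ⟨(z.re, z.im), ?_, by ext <;> rfl⟩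
  have h1 : |((z.re : ℤ) : ℝ)| ≤ T := by
    have := Complex.abs_re_le_norm (GaussianInt.toComplex z)
    rw [← GaussianInt.intCast_re] at this
    linarith
  have h2 : |((z.im : ℤ) : ℝ)| ≤ T := by
    have := Complex.abs_im_le_norm (GaussianInt.toComplex z)
    rw [← GaussianInt.intCast_im] at this
    linarith
  have hc : T ≤ (⌈T⌉ : ℝ) := Int.le_ceil T
  rw [abs_le] at h1 h2
  simp only [Finset.coe_product, Finset.coe_Icc, Set.mem_prod, Set.mem_Icc]
  refine ⟨⟨?_, ?_⟩, ⟨?_, ?_⟩⟩
  · have : (-(⌈T⌉ : ℝ)) ≤ (z.re : ℝ) := by linarith [h1.1]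
    exact_mod_cast this
  · have : (z.re : ℝ) ≤ (⌈T⌉ : ℝ) := by linarith [h1.2]
    exact_mod_cast this
  · have : (-(⌈T⌉ : ℝ)) ≤ (z.im : ℝ) := by linarith [h2.1]
    exact_mod_cast this
  · have : (z.im : ℝ) ≤ (⌈T⌉ : ℝ) := by linarith [h2.2]
    exact_mod_cast this

/-- Associated Gaussian integers have the same absolute value. -/
theorem norm_eq_of_associated {z w : GaussianInt} (h : Associated z w) :
    ‖GaussianInt.toComplex z‖ = ‖GaussianInt.toComplex w‖ := by
  obtain ⟨u, rfl⟩ := h
  rw [map_mul, norm_mul]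
  have hu : ‖GaussianInt.toComplex (u : GaussianInt)‖ = 1 := by
    have h1 : (u : GaussianInt).norm.natAbs = 1 := by
      rw [Zsqrtd.norm_eq_one_iff]; exact u.isUnit
    have h2 : ((u : GaussianInt).norm : ℝ) = Complex.normSq (GaussianInt.toComplex u) :=
      GaussianInt.intCast_real_norm _
    have h3 : (u : GaussianInt).norm = 1 := by
      have h0 : 0 ≤ (u : GaussianInt).norm := GaussianInt.norm_nonneg _
      omega
    rw [h3] at h2
    rw [Complex.normSq_eq_norm_sq] at h2
    have h4 : (0 : ℝ) ≤ ‖GaussianInt.toComplex (u : GaussianInt)‖ := norm_nonneg _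
    have h5 : ‖GaussianInt.toComplex (u : GaussianInt)‖ ^ 2 = 1 := by
      rw [← h2]; norm_num
    nlinarith [h4, h5, sq_nonneg (‖GaussianInt.toComplex (u : GaussianInt)‖ - 1)]
  rw [hu, mul_one]

/-- An irreducible Gaussian integer larger than every element of `P` is divisible by no prime
of `P`. -/
theorem not_dvd_of_large {P : Finset GaussianInt} (hP : ∀ p ∈ P, Prime p) {R₀ : ℝ}
    (hR₀ : ∀ p ∈ P, ‖GaussianInt.toComplex p‖ ≤ R₀) {z : GaussianInt} (hz : Irreducible z)
    (hzR : R₀ < ‖GaussianInt.toComplex z‖) : ∀ p ∈ P, ¬ p ∣ z := by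
  intro p hp hdvd
  have hass : Associated p z := by
    rcases (hP p hp).irreducible.dvd_irreducible_iff_associated hz |>.1 hdvd with h
    exact h
  have := norm_eq_of_associated hass
  have := hR₀ p hp
  linarith

/-- Key step: from a walk in the Gaussian prime graph starting far from the origin, the distance to
the starting point stays `< R`. -/
theorem walk_short {D : ℝ} {P : Finset GaussianInt} {R : ℝ} (hP : ∀ p ∈ P, Prime p)
    (hblock : ∀ (n : ℕ) (x : ℕ → GaussianInt),
      (∀ i < n, ‖GaussianInt.toComplex (x (i + 1) - x i)‖ ≤ D) →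
      (∀ i ≤ n, ∀ p ∈ P, ¬ p ∣ x i) →
      ‖GaussianInt.toComplex (x n - x 0)‖ < R)
    {R₀ : ℝ} (hR₀ : ∀ p ∈ P, ‖GaussianInt.toComplex p‖ ≤ R₀)
    {z w : GaussianInt} (hz : Irreducible z)
    (hzR : R₀ + R + |D| < ‖GaussianInt.toComplex z‖)
    (hwalk : (gaussianPrimeGraph D).Reachable z w) :
    ‖GaussianInt.toComplex (w - z)‖ < R := by
  classical
  obtain ⟨p⟩ := hwalk
  set x : ℕ → GaussianInt := fun i => p.getVert i with hx
  have hx0 : x 0 = z := p.getVert_zero
  have hxn : x p.length = w := p.getVert_length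
  have hadj : ∀ i < p.length, (gaussianPrimeGraph D).Adj (x i) (x (i + 1)) := by
    intro i hi
    exact p.adj_getVert_succ hi
  have hstep : ∀ i < p.length, ‖GaussianInt.toComplex (x (i + 1) - x i)‖ ≤ D := by
    intro i hi
    have h := (hadj i hi).2.2.2
    rw [← neg_sub, map_neg, norm_neg]
    exact h
  have hirr : ∀ i ≤ p.length, Irreducible (x i) := by
    intro i hi
    rcases Nat.eq_zero_or_pos i with h0 | hpos
    · subst h0; rw [hx0]; exact hz
    · have := (hadj (i - 1) (by omega)).2.2.1
      rwa [Nat.sub_add_cancel hpos] at this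
  -- induction: all prefixes stay close
  have key : ∀ i ≤ p.length, (∀ j ≤ i, ∀ q ∈ P, ¬ q ∣ x j) ∧
      ‖GaussianInt.toComplex (x i - x 0)‖ < R := by
    intro i
    induction i with
    | zero =>
      intro _
      have hnd : ∀ j ≤ 0, ∀ q ∈ P, ¬ q ∣ x j := by
        intro j hj
        obtain rfl : j = 0 := by omega
        rw [hx0]
        refine not_dvd_of_large hP hR₀ hz ?_
        have hRpos : 0 < R := by
          by_contra hRneg
          push Not at hRneg
          have h := hblock 0 (fun _ => 1) (by intro i hi; omega) (by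
            intro i _ q hq hdvd
            exact (hP q hq).not_isUnit (isUnit_of_dvd_one hdvd))
          simp at h
          linarith
        have : 0 ≤ |D| := abs_nonneg D
        linarith
      exact ⟨hnd, hblock 0 x (by intro i hi; omega) hnd⟩
    | succ i ih =>
      intro hi
      obtain ⟨h1, h2⟩ := ih (by omega)
      have hnd : ∀ j ≤ i + 1, ∀ q ∈ P, ¬ q ∣ x j := by
        intro j hj
        rcases Nat.lt_or_ge j (i + 1) with hlt | hge
        · exact h1 j (by omega)
        · obtain rfl : j = i + 1 := by omega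
          refine not_dvd_of_large hP hR₀ (hirr _ hi) ?_
          have hs := hstep i (by omega)
          have htri : ‖GaussianInt.toComplex z‖ ≤ ‖GaussianInt.toComplex (x (i + 1))‖
              + ‖GaussianInt.toComplex (x (i + 1) - x i)‖ + ‖GaussianInt.toComplex (x i - x 0)‖ := by
            have e : GaussianInt.toComplex z = GaussianInt.toComplex (x (i + 1))
                - GaussianInt.toComplex (x (i + 1) - x i)
                - GaussianInt.toComplex (x i - x 0) := by
              rw [← hx0, ← map_sub, ← map_sub]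
              congr 1
              ring
            calc ‖GaussianInt.toComplex z‖ = ‖GaussianInt.toComplex (x (i + 1))
                - GaussianInt.toComplex (x (i + 1) - x i)
                - GaussianInt.toComplex (x i - x 0)‖ := by rw [← e]
              _ ≤ ‖GaussianInt.toComplex (x (i + 1))
                - GaussianInt.toComplex (x (i + 1) - x i)‖ + ‖GaussianInt.toComplex (x i - x 0)‖ :=
                  norm_sub_le _ _
              _ ≤ _ := by
                  gcongr
                  exact norm_sub_le _ _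
          have hD : D ≤ |D| := le_abs_self D
          linarith
      refine ⟨hnd, hblock (i + 1) x (fun j hj => hstep j (by omega)) hnd⟩
  have := (key p.length le_rfl).2
  rwa [hxn, hx0] at this

/-- **Block L0.** S0002 follows from `∀ D, SieveBlocked D`. -/
theorem S0002_of_sieveBlocked (h : ∀ D : ℝ, SieveBlocked D) :
    ∀ D : ℝ, ∃ B : ℕ, ∀ c : (gaussianPrimeGraph D).ConnectedComponent,
      c.supp.Finite ∧ c.supp.ncard ≤ B := by
  classical
  intro D
  obtain ⟨P, R, hP, hblock⟩ := h D
  obtain ⟨R₀, hR₀⟩ : ∃ R₀ : ℝ, ∀ p ∈ P, ‖GaussianInt.toComplex p‖ ≤ R₀ := by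
    refine ⟨∑ p ∈ P, ‖GaussianInt.toComplex p‖, ?_⟩
    intro p hp
    exact Finset.single_le_sum (f := fun p => ‖GaussianInt.toComplex p‖)
      (fun _ _ => norm_nonneg _) hp
  have hRpos : 0 < R := by
    by_contra hRneg
    push Not at hRneg
    have h := hblock 0 (fun _ => 1) (by intro i hi; omega) (by
      intro i _ q hq hdvd
      exact (hP q hq).not_isUnit (isUnit_of_dvd_one hdvd))
    simp at h
    linarith
  set T : ℝ := 2 * (|R₀| + R + |D|) with hT
  have hTpos : 0 < T := by
    have := abs_nonneg R₀; have := abs_nonneg D; positivity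
  -- two points of the same component are within distance T
  have hclose : ∀ z w : GaussianInt, (gaussianPrimeGraph D).Reachable z w →
      ‖GaussianInt.toComplex (w - z)‖ ≤ T := by
    intro z w hzw
    by_cases hne : z = w
    · subst hne; simp [hTpos.le]
    have hzirr : Irreducible z := by
      obtain ⟨p⟩ := hzw
      cases p with
      | nil => exact absurd rfl hne
      | cons hadj _ => exact hadj.2.1
    have hwirr : Irreducible w := by
      obtain ⟨p⟩ := hzw.symm
      cases p with
      | nil => exact absurd rfl hne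
      | cons hadj _ => exact hadj.2.1
    by_cases hz : R₀ + R + |D| < ‖GaussianInt.toComplex z‖
    · have := walk_short hP hblock hR₀ hzirr hz hzw
      have h1 := abs_nonneg R₀; have h2 := abs_nonneg D
      rw [hT]; linarith
    by_cases hw : R₀ + R + |D| < ‖GaussianInt.toComplex w‖
    · have := walk_short hP hblock hR₀ hwirr hw hzw.symm
      rw [← neg_sub, map_neg, norm_neg] at this
      have h1 := abs_nonneg R₀; have h2 := abs_nonneg D
      rw [hT]; linarith
    · push Not at hz hw
      have h1 := le_abs_self R₀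
      have htri : ‖GaussianInt.toComplex (w - z)‖ ≤ ‖GaussianInt.toComplex w‖
          + ‖GaussianInt.toComplex z‖ := by
        rw [map_sub]; exact norm_sub_le _ _
      rw [hT]; linarith
  refine ⟨{z : GaussianInt | ‖GaussianInt.toComplex z‖ ≤ T}.ncard, ?_⟩
  intro c
  obtain ⟨z, hz⟩ := c.nonempty_supp
  have hsub : c.supp ⊆ (fun w => w + z) '' {z : GaussianInt | ‖GaussianInt.toComplex z‖ ≤ T} := by
    intro w hw
    refine ⟨w - z, ?_, by simp⟩
    refine hclose z w ?_
    rw [SimpleGraph.ConnectedComponent.mem_supp_iff] at hz hw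
    rw [← hz] at hw
    exact (SimpleGraph.ConnectedComponent.eq.1 hw).symm
  have hfin : ((fun w => w + z) '' {z : GaussianInt | ‖GaussianInt.toComplex z‖ ≤ T}).Finite :=
    (ball_finite T).image _
  refine ⟨hfin.subset hsub, ?_⟩
  calc c.supp.ncard ≤ ((fun w => w + z) '' {z : GaussianInt | ‖GaussianInt.toComplex z‖ ≤ T}).ncard :=
        Set.ncard_le_ncard hsub hfin
    _ ≤ _ := Set.ncard_image_le (ball_finite T)

end Crest.Agent.R2
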