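import Mathlib
import Crest.Agent.R2.Red62
import Crest.Agent.R2.Gcd62

/-!
# R2 (Gaussian moat), block K0: a nonempty closed set of escaping points
-/

set_option autoImplicit false

namespace Crest.Agent.R2.K0

open Crest.Agent.R2 Crest.Agent.R2.Gcd62

/-- finite `D`-path from `z`, coprime to `P`, of displacement at least `R` -/
def CoPath (P : Finset GaussianInt) (D : ℝ) (z : GaussianInt) (R : ℝ) : Prop :=
  ∃ (n : ℕ) (x : ℕ → GaussianInt), x 0 = z ∧
    (∀ i < n, ab (x (i + 1) - x i) ≤ D) ∧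
    (∀ i ≤ n, ∀ p ∈ P, ¬ p ∣ x i) ∧ R ≤ ab (x n - z)

theorem CoPath.mono {P : Finset GaussianInt} {D : ℝ} {z : GaussianInt} {R R' : ℝ} (hR : R' ≤ R)
    (h : CoPath P D z R) : CoPath P D z R' := by
  obtain ⟨n, x, h1, h2, h3, h4⟩ := h
  exact ⟨n, x, h1, h2, h3, hR.trans h4⟩

theorem CoPath.translate {P : Finset GaussianInt} {D : ℝ} {z z' : GaussianInt} {R : ℝ}
    (hz : (∏ p ∈ P, p) ∣ z' - z) (h : CoPath P D z R) : CoPath P D z' R := by
  obtain ⟨n, x, h1, h2, h3, h4⟩ := h
  refine ⟨n, fun i => x i + (z' - z), ?_, ?_, ?_, ?_⟩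
  · simp only [h1]; ring
  · intro i hi
    have : x (i + 1) + (z' - z) - (x i + (z' - z)) = x (i + 1) - x i := by ring
    simp only [this]
    exact h2 i hi
  · intro i hi p hp hdvd
    have hp' : p ∣ z' - z := (Finset.dvd_prod_of_mem (fun q => q) hp).trans hz
    exact h3 i hi p hp ((dvd_add_left hp').1 hdvd)
  · have : x n + (z' - z) - z' = x n - z := by ring
    simp only [this]
    exact h4

/-- the set of points from which one can escape arbitrarily far -/
def EE (P : Finset GaussianInt) (D : ℝ) : Set GaussianInt := {z | ∀ R : ℝ, CoPath P D z R}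

theorem mem_EE {P : Finset GaussianInt} {D : ℝ} {z : GaussianInt} :
    z ∈ EE P D ↔ ∀ R : ℝ, CoPath P D z R := Iff.rfl

theorem mem_EE_translate {P : Finset GaussianInt} {D : ℝ} {z z' : GaussianInt}
    (hz : (∏ p ∈ P, p) ∣ z' - z) (h : z ∈ EE P D) : z' ∈ EE P D :=
  mem_EE.2 fun R => (mem_EE.1 h R).translate hz

/-- stabilisation -/
theorem exists_stable (P : Finset GaussianInt) (hP : ∀ p ∈ P, Prime p) (D : ℝ) :
    ∃ R₀ : ℝ, ∀ z, CoPath P D z R₀ → z ∈ EE P D := by
  classical
  set M : GaussianInt := ∏ p ∈ P, p with hM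
  have hM0 : M ≠ 0 := Finset.prod_ne_zero_iff.2 fun p hp => (hP p hp).ne_zero
  -- radius function
  have hch : ∀ r : GaussianInt, ∃ ρ : ℝ, r ∈ EE P D ∨ ¬ CoPath P D r ρ := by
    intro r
    by_cases h : r ∈ EE P D
    · exact ⟨0, Or.inl h⟩
    · rw [mem_EE] at h
      push Not at h
      obtain ⟨ρ, hρ⟩ := h
      exact ⟨ρ, Or.inr hρ⟩
  choose ρ hρ using hch
  refine ⟨∑ r ∈ ball (ab M), |ρ r|, ?_⟩
  intro z hz
  -- representative
  set r : GaussianInt := z % M with hr
  have hrM : ab r ≤ ab M := by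
    have h1 : (r.norm : ℝ) < (M.norm : ℝ) := by
      have := GaussianInt.norm_mod_lt z hM0
      exact_mod_cast this
    rw [← ab_sq, ← ab_sq] at h1
    exact le_of_lt (lt_of_pow_lt_pow_left₀ 2 (ab_nonneg M) h1)
  have hdiv : M ∣ z - r := by
    have : z - r = M * (z / M) := by
      rw [hr]
      have := EuclideanDomain.div_add_mod z M
      linear_combination -this
    rw [this]; exact dvd_mul_right _ _
  have hdiv' : M ∣ r - z := by rw [← neg_sub]; exact (dvd_neg).2 hdiv
  have hrC : CoPath P D r (∑ r ∈ ball (ab M), |ρ r|) := hz.translate hdiv'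
  have hle : ρ r ≤ ∑ r ∈ ball (ab M), |ρ r| := by
    refine (le_abs_self _).trans ?_
    exact Finset.single_le_sum (f := fun r => |ρ r|) (fun _ _ => abs_nonneg _) (mem_ball.2 hrM)
  rcases hρ r with h | h
  · exact mem_EE_translate hdiv h
  · exact absurd (hrC.mono hle) h

/-- **Block K0.** If `D` is not blocked by a sieve then for every finite set `P` of Gaussian primes
there is a nonempty set `E` of points coprime to `P` such that from every point of `E` there are
`D`-paths inside `E` of every displacement. -/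
theorem exists_closed {D : ℝ} (hD : ¬ SieveBlocked D) (P : Finset GaussianInt)
    (hP : ∀ p ∈ P, Prime p) :
    ∃ E : Set GaussianInt, E.Nonempty ∧
      (∀ z ∈ E, ∀ X : ℝ, ∃ (n : ℕ) (γ : ℕ → GaussianInt), γ 0 = z ∧ (∀ i ≤ n, γ i ∈ E) ∧
        (∀ i < n, ab (γ (i + 1) - γ i) ≤ D) ∧ X ≤ ab (γ n - z)) ∧
      ∀ z ∈ E, ∀ p ∈ P, ¬ p ∣ z := by
  classical
  obtain ⟨R₀, hR₀⟩ := exists_stable P hP D
  refine ⟨EE P D, ?_, ?_, ?_⟩
  · -- nonempty
    unfold SieveBlocked at hD
    push Not at hD
    obtain ⟨n, x, h1, h2, h3⟩ := hD P R₀ hP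
    exact ⟨x 0, hR₀ (x 0) ⟨n, x, rfl, h1, h2, h3⟩⟩
  · intro z hz X
    obtain ⟨n, x, h0, h1, h2, h3⟩ := mem_EE.1 hz (|X| + |R₀| + |D|)
    -- first index with displacement ≥ X
    have hex : ∃ i, i ≤ n ∧ X ≤ ab (x i - z) := ⟨n, le_rfl, by
      have := le_abs_self X
      have := abs_nonneg R₀
      have := abs_nonneg D
      linarith⟩
    set j := Nat.find hex with hj
    obtain ⟨hjn, hjX⟩ := Nat.find_spec hex
    have hlt : ∀ i < j, ab (x i - z) < X := by
      intro i hi
      by_contra hcon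
      push Not at hcon
      exact Nat.find_min hex hi ⟨by omega, hcon⟩
    refine ⟨j, x, h0, ?_, fun i hi => h1 i (by omega), hjX⟩
    intro i hi
    -- x i is at distance ≤ |X| + |D| from z
    have hclose : ab (x i - z) ≤ |X| + |D| := by
      rcases Nat.eq_zero_or_pos i with h | hpos
      · subst h
        rw [h0, sub_self, ab_zero]
        positivity
      · have h4 : ab (x (i - 1) - z) < X := hlt (i - 1) (by omega)
        have h5 : ab (x i - x (i - 1)) ≤ D := by
          have := h1 (i - 1) (by omega)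
          rwa [Nat.sub_add_cancel hpos] at this
        have h6 : x i - z = (x i - x (i - 1)) + (x (i - 1) - z) := by ring
        rw [h6]
        have h7 := ab_add_le (x i - x (i - 1)) (x (i - 1) - z)
        have := le_abs_self X
        have := le_abs_self D
        linarith
    refine hR₀ (x i) ⟨n - i, fun k => x (i + k), by simp, ?_, ?_, ?_⟩
    · intro k hk
      have := h1 (i + k) (by omega)
      simpa [Nat.add_assoc] using this
    · intro k hk
      exact h2 (i + k) (by omega)
    · have hin : i + (n - i) = n := by omega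
      simp only [hin]
      have h6 : x n - z = (x n - x i) + (x i - z) := by ring
      rw [h6] at h3
      have h7 := ab_add_le (x n - x i) (x i - z)
      have := le_abs_self R₀
      linarith
  · intro z hz p hp hdvd
    obtain ⟨n, x, h0, h1, h2, h3⟩ := mem_EE.1 hz 0
    exact h2 0 (Nat.zero_le _) p hp (h0 ▸ hdvd)

/-- `SieveBlocked` is monotone: it suffices to treat large `D`. -/
theorem sieveBlocked_mono {D D' : ℝ} (h : D ≤ D') (hb : SieveBlocked D') : SieveBlocked D := by
  obtain ⟨P, R, hP, hR⟩ := hb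
  exact ⟨P, R, hP, fun n x h1 h2 => hR n x (fun i hi => (h1 i hi).trans h) h2⟩

/-- S0002 from `SieveBlocked D` for all `D ≥ 1`. -/
theorem S0002_of_one_le (h : ∀ D : ℝ, 1 ≤ D → SieveBlocked D) :
    ∀ D : ℝ, ∃ B : ℕ, ∀ c : (Crest.NumberTheoryR.gaussianPrimeGraph D).ConnectedComponent,
      c.supp.Finite ∧ c.supp.ncard ≤ B :=
  S0002_of_sieveBlocked fun D =>
    sieveBlocked_mono (le_max_left D 1) (h (max D 1) (le_max_right D 1))

end Crest.Agent.R2.K0
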