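import Mathlib
import Crest.Agent.R055.Ent
import Crest.Agent.R2.Gcd62
import Crest.Agent.R2.ThmS717

/-!
# R2 (Gaussian moat): shared definitions and frozen block statements (helper149)
Text: posts #11294, #11351, #11312.  Every block statement is a `def ... : Prop`.
-/

set_option autoImplicit false

namespace Crest.Agent.R2.X149

open Finset Crest.Agent.R055 Crest.Agent.R2.Gcd62 Crest.Agent.R2 Crest.Agent.R2.E717

/-- residue class of `z` modulo `M` -/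
noncomputable def cl (M z : GaussianInt) : GaussianInt ⧸ Ideal.span {M} :=
  Ideal.Quotient.mk (Ideal.span {M}) z

theorem cl_eq_iff (M z z' : GaussianInt) : cl M z = cl M z' ↔ M ∣ z - z' := by
  unfold cl
  rw [Ideal.Quotient.eq, Ideal.mem_span_singleton]

/-- `E` is rich in `D`-paths: from every point there are finite `D`-paths inside `E` of every
displacement. (= `T1.PathRich E D` of helper763) -/
def ClosedE (D : ℝ) (E : Set GaussianInt) : Prop :=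
  ∀ z ∈ E, ∀ X : ℝ, ∃ (n : ℕ) (γ : ℕ → GaussianInt), γ 0 = z ∧ (∀ i ≤ n, γ i ∈ E) ∧
    (∀ i < n, ab (γ (i + 1) - γ i) ≤ D) ∧ X ≤ ab (γ n - z)

/-- a window of split Gaussian primes, one per conjugate pair, with norms in `(w, 4w]` -/
structure Blk (w : ℝ) (G : Finset GaussianInt) : Prop where
  prime : ∀ p ∈ G, Prime p
  lo : ∀ p ∈ G, w < (p.norm : ℝ)
  hi : ∀ p ∈ G, (p.norm : ℝ) ≤ 4 * w
  rat : ∀ p ∈ G, Nat.Prime p.norm.natAbs
  conj : ∀ p ∈ G, ∀ q ∈ G, ¬ Associated p (star q)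
  assoc : ∀ p ∈ G, ∀ q ∈ G, Associated p q → p = q

/-- BLOCK K8: near-full Kac -/
def KacStmt : Prop :=
  ∀ D c0 τ : ℝ, 1 ≤ D → 0 < c0 → 0 < τ → τ < 1 →
  ∃ (m I : ℕ) (κ W0 : ℝ), 0 < m ∧
    ∀ (n : ℕ) (w : ℕ → ℝ) (G : ℕ → Finset GaussianInt),
      (∀ k < n, W0 ≤ w k) → (∀ k, k + 1 < n → κ * w k ≤ w (k + 1)) →
      (∀ k < n, Blk (w k) (G k)) → (∀ k < n, m ^ I ∣ (G k).card) →
      (∀ k < n, c0 * w k / Real.log (w k) ≤ (G k).card) →
      (∀ k < n, ((G k).card : ℝ) ≤ 2 * c0 * w k / Real.log (w k)) →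
      ∀ E : Set GaussianInt, E.Nonempty → ClosedE D E →
        ∃ (Ω : Type) (_ : Fintype Ω) (P : Ω → ℝ) (z : Ω → GaussianInt), IsProb P ∧
          (∀ ω, z ω ∈ E) ∧
          ∀ k < n, ∃ G' ⊆ G k, (G k).card ≤ m ^ I * G'.card ∧
            (1 - τ) * ∑ p ∈ G', Real.log (p.norm : ℝ) ≤
              ent P (fun ω => cl (∏ p ∈ G', p) (z ω))

/-- cluster law at `x`: probability weight on `A`, inside the ball of radius `T0` around `x`,
every point of mass `≤ 1/l`. -/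
structure IsCluster (T0 : ℝ) (l : ℕ) (x : GaussianInt) (A : Finset GaussianInt)
    (c : GaussianInt → ℝ) : Prop where
  prob : IsProbOn A c
  zero : ∀ v, v ∉ A → c v = 0
  supp : ∀ v ∈ A, ab (v - x) ≤ T0
  le : ∀ v, c v ≤ 1 / (l : ℝ)

/-- average of the cluster laws over a finite set `Y` of centres -/
noncomputable def avgC (Y : Finset GaussianInt) (c : GaussianInt → GaussianInt → ℝ)
    (v : GaussianInt) : ℝ := (∑ y ∈ Y, c y v) / (Y.card : ℝ)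

/-- the support of the average -/
noncomputable def suppC (Y : Finset GaussianInt) (A : GaussianInt → Finset GaussianInt) :
    Finset GaussianInt := Y.biUnion A

open Classical in
/-- many light classes modulo `p`: at least `norm p ^ (1-ε)` classes of mass `≤ 1/(4 norm p)` -/
def ManyLight (ε : ℝ) (A : Finset GaussianInt) (μ : GaussianInt → ℝ) (p : GaussianInt) : Prop :=
  ∃ S : Finset (GaussianInt ⧸ Ideal.span {p}), (p.norm : ℝ) ^ (1 - ε) ≤ (S.card : ℝ) ∧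
    ∀ q ∈ S, (∑ v ∈ A, if cl p v = q then μ v else 0) ≤ 1 / (4 * (p.norm : ℝ))

/-- BLOCK N1+N2: from near-full Kac to light classes, at one scale `k` and one point `x ∈ E` -/
def LightStmt : Prop :=
  ∀ (D c0 τ : ℝ) (mI : ℕ), 1 ≤ D → 0 < c0 → 0 < τ → τ ≤ 1 / 100 → 0 < mI →
  ∃ κ W0 H C : ℝ,
    ∀ (n : ℕ) (w : ℕ → ℝ) (G' : ℕ → Finset GaussianInt) (E : Set GaussianInt) (l : ℕ) (R : ℝ)
      (Y : GaussianInt → Finset GaussianInt),
      (∀ k < n, W0 ≤ w k) → (∀ k, k + 1 < n → κ * w k ≤ w (k + 1)) →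
      (∀ k < n, Blk (w k) (G' k)) →
      (∀ k < n, c0 * w k / Real.log (w k) ≤ mI * (G' k).card) →
      (∀ k < n, ((G' k).card : ℝ) ≤ 2 * c0 * w k / Real.log (w k)) →
      H ≤ ∑ k ∈ Finset.range n, 1 / Real.log (w k) →
      1 ≤ R → (n : ℝ) * (2 * Real.log R + C) ≤ l → (∀ k < n, (2 * D * l) ^ 2 ≤ w k) →
      ClosedE D E → (∀ k < n, ∀ p ∈ G' k, ∀ x ∈ E, ¬ p ∣ x) →
      (∀ x ∈ E, (Y x).Nonempty ∧ ∀ y ∈ Y x, y ∈ E ∧ ab (y - x) ≤ R) →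
      ∀ (Ω : Type) (_ : Fintype Ω) (P : Ω → ℝ) (z : Ω → GaussianInt), IsProb P →
      (∀ ω, z ω ∈ E) →
      (∀ k < n, (1 - τ) * ∑ p ∈ G' k, Real.log (p.norm : ℝ) ≤
              ent P (fun ω => cl (∏ p ∈ G' k, p) (z ω))) →
      ∃ k < n, ∃ x ∈ E, ∃ (A : GaussianInt → Finset GaussianInt) (c : GaussianInt → GaussianInt → ℝ),
        (∀ y ∈ Y x, IsCluster (D * l) l y (A y) (c y)) ∧
        ∃ G'' ⊆ G' k, (G' k).card ≤ 2 * G''.card ∧
          ∀ p ∈ G'', ManyLight (8 * τ) (suppC (Y x) A) (avgC (Y x) c) p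

/-- BLOCK B (717): light classes imply one large coefficient for half of the primes.
Numbers: `rho0` box side, `n0 ≥ #(A - box)`, `minf ≥ sup μ`, `m0 ≥` mass of a box of side `rho0`,
`n1 ≥` number of `R1`-boxes meeting the smoothed support. Owners may use any equivalent form. -/
def BiasStmt : Prop :=
  ∃ ε20 : ℝ, 0 < ε20 ∧ ∀ ε2 : ℝ, 0 < ε2 → ε2 ≤ ε20 → ∃ W0 : ℝ, ∀ (w : ℝ) (G'' : Finset GaussianInt)
    (A : Finset GaussianInt) (μ : GaussianInt → ℝ), W0 ≤ w → Blk w G'' →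
    w ^ (1 - ε2 / 20) ≤ (G''.card : ℝ) → IsProbOn A μ → (∀ v, v ∉ A → μ v = 0) →
    (∀ p ∈ G'', ManyLight ε2 A μ p) →
    -- regularity of `μ` at the two radii `ρ0 = w^{1-2ε2}` and `R1 = 16 w^2` (tree with losses `w^{ε2/20}`)
    (∃ (M : ℝ), 0 < M ∧   -- `M` = number of pieces of radius `ρ0`
      (∀ v, μ v ≤ w ^ (ε2 / 20) / (M * w ^ (1 - 2 * ε2))) ∧
      (∃ Z : Finset GaussianInt, (Z.card : ℝ) ≤ M * w ^ (ε2 / 20) ∧
        ∀ v ∈ A, ∃ z ∈ Z, ab (v - z) ≤ w ^ (1 - 2 * ε2)) ∧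
      (∀ x : GaussianInt, ∀ B ⊆ A, (∀ v ∈ B, ab (v - x) ≤ w ^ (1 - 2 * ε2)) →
        ∑ v ∈ B, μ v ≤ w ^ (ε2 / 20) / M) ∧
      (∃ Z1 : Finset GaussianInt, (Z1.card : ℝ) ≤ M * w ^ (ε2 / 20) * w ^ (1 - 2 * ε2) / w ^ 2 ∧
        ∀ v ∈ A, ∃ z ∈ Z1, ab (v - z) ≤ 16 * w ^ 2)) →
    ∃ G3 ⊆ G'', G''.card ≤ 2 * G3.card ∧ ∃ b : GaussianInt → GaussianInt, (∀ p ∈ G3, ¬ p ∣ b p) ∧
      ∀ p ∈ G3, w ^ (-(4 * ε2)) ≤
        ‖mhat A μ (GaussianInt.toComplex (b p) / GaussianInt.toComplex p)‖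

/-- BLOCK Z1: supply of windows of split primes -/
def PrimesStmt : Prop :=
  ∃ c0 K X0 : ℝ, 0 < c0 ∧ 1 ≤ K ∧ ∀ X : ℝ, X0 ≤ X → ∃ w : ℝ, X ≤ w ∧ w ≤ K * X ∧
    ∃ G : Finset GaussianInt, Blk w G ∧ 2 * c0 * w / Real.log w ≤ (G.card : ℝ)

end Crest.Agent.R2.X149
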