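import Mathlib

/-!
Divisor bound in the Gaussian integers.
-/

set_option autoImplicit false

namespace Crest.Agent.R2.Div701

open Zsqrtd GaussianInt

local notation "ℤi" => GaussianInt

/-- norm as a real number -/
noncomputable def nr (z : ℤi) : ℝ := (Zsqrtd.norm z : ℝ)

theorem nr_eq (z : ℤi) : nr z = (z.re : ℝ) ^ 2 + (z.im : ℝ) ^ 2 := by
  unfold nr; rw [Zsqrtd.norm]; push_cast; ring

theorem nr_nonneg (z : ℤi) : 0 ≤ nr z := by rw [nr_eq]; positivity

theorem nr_mul (x y : ℤi) : nr (x * y) = nr x * nr y := by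
  unfold nr; rw [Zsqrtd.norm_mul]; push_cast; ring

theorem nr_one : nr 1 = 1 := by unfold nr; simp

theorem nr_pow (x : ℤi) (i : ℕ) : nr (x ^ i) = nr x ^ i := by
  induction i with
  | zero => simp [nr_one]
  | succ n ih => rw [pow_succ, nr_mul, ih, pow_succ]

theorem one_le_nr {z : ℤi} (hz : z ≠ 0) : 1 ≤ nr z := by
  have : 0 < Zsqrtd.norm z := GaussianInt.norm_pos.2 hz
  unfold nr; exact_mod_cast this

theorem nr_eq_normSq (z : ℤi) : nr z = Complex.normSq (z : ℂ) := by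
  unfold nr; simp

theorem nr_eq_norm_sq (z : ℤi) : nr z = ‖(z : ℂ)‖ ^ 2 := by
  rw [nr_eq_normSq, Complex.normSq_eq_norm_sq]

theorem isUnit_of_nr_eq_one {z : ℤi} (h : nr z = 1) : IsUnit z := by
  rw [← Zsqrtd.norm_eq_one_iff]
  unfold nr at h
  have : Zsqrtd.norm z = 1 := by exact_mod_cast h
  rw [this]; rfl

theorem nr_unit {z : ℤi} (h : IsUnit z) : nr z = 1 := by
  rw [← Zsqrtd.norm_eq_one_iff] at h
  unfold nr
  have h2 : ((Zsqrtd.norm z).natAbs : ℤ) = Zsqrtd.norm z := GaussianInt.abs_natCast_norm z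
  rw [h] at h2
  rw [← h2]; simp

theorem two_le_nr_prime {p : ℤi} (hp : Prime p) : 2 ≤ nr p := by
  have h1 : 1 ≤ nr p := one_le_nr hp.ne_zero
  have h2 : nr p ≠ 1 := fun h => hp.not_isUnit (isUnit_of_nr_eq_one h)
  unfold nr at *
  have h3 : (1:ℤ) ≤ Zsqrtd.norm p := by exact_mod_cast h1
  have h4 : Zsqrtd.norm p ≠ 1 := by intro h; apply h2; rw [h]; simp
  have : (2:ℤ) ≤ Zsqrtd.norm p := by omega
  exact_mod_cast this

/-- ball of Gaussian integers as a finset -/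
noncomputable def box (B : ℕ) : Finset ℤi :=
  ((Finset.Icc (-(B:ℤ)) B) ×ˢ (Finset.Icc (-(B:ℤ)) B)).image (fun p => (⟨p.1, p.2⟩ : ℤi))

theorem mem_box {B : ℕ} {z : ℤi} (h : nr z ≤ (B:ℝ) ^ 2) : z ∈ box B := by
  unfold box
  rw [Finset.mem_image]
  refine ⟨(z.re, z.im), ?_, rfl⟩
  rw [nr_eq] at h
  have hB : (0:ℝ) ≤ B := Nat.cast_nonneg _
  have h1 : |(z.re : ℝ)| ≤ B := abs_le_of_sq_le_sq (by nlinarith [sq_nonneg (z.im : ℝ)]) hB
  have h2 : |(z.im : ℝ)| ≤ B := abs_le_of_sq_le_sq (by nlinarith [sq_nonneg (z.re : ℝ)]) hB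
  rw [abs_le] at h1 h2
  simp only [Finset.mem_product, Finset.mem_Icc]
  refine ⟨⟨?_, ?_⟩, ?_, ?_⟩
  · exact_mod_cast h1.1
  · exact_mod_cast h1.2
  · exact_mod_cast h2.1
  · exact_mod_cast h2.2

theorem card_box (B : ℕ) : (box B).card ≤ (2 * B + 1) ^ 2 := by
  unfold box
  refine (Finset.card_image_le).trans ?_
  rw [Finset.card_product]
  have : (Finset.Icc (-(B:ℤ)) B).card = 2 * B + 1 := by
    rw [Int.card_Icc]; omega
  rw [this, sq]

theorem finite_nr_le (T : ℝ) : {z : ℤi | nr z ≤ T}.Finite := by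
  obtain ⟨B, hB⟩ := exists_nat_ge (max T 1)
  refine (Finset.finite_toSet (box B)).subset ?_
  intro z hz
  apply mem_box
  have h1 : T ≤ B := le_trans (le_max_left _ _) hB
  have h2 : (1:ℝ) ≤ B := le_trans (le_max_right _ _) hB
  have hz' : nr z ≤ T := hz
  nlinarith

theorem nr_le_of_dvd {d N : ℤi} (hN : N ≠ 0) (h : d ∣ N) : nr d ≤ nr N := by
  obtain ⟨c, rfl⟩ := h
  rw [nr_mul]
  have hc : c ≠ 0 := fun h => hN (by rw [h, mul_zero])
  have := one_le_nr hc
  nlinarith [nr_nonneg d]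

theorem finite_divisors {N : ℤi} (hN : N ≠ 0) : {d : ℤi | d ∣ N}.Finite :=
  (finite_nr_le (nr N)).subset (fun _ h => nr_le_of_dvd hN h)

/-- the divisors up to units -/
def dv (N : ℤi) : Set (Associates ℤi) := {a | a ∣ Associates.mk N}

theorem dv_eq_image (N : ℤi) : dv N = Associates.mk '' {d : ℤi | d ∣ N} := by
  ext a
  constructor
  · intro h
    obtain ⟨d, rfl⟩ := Associates.mk_surjective a
    exact ⟨d, Associates.mk_dvd_mk.1 h, rfl⟩
  · rintro ⟨d, hd, rfl⟩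
    exact Associates.mk_dvd_mk.2 hd

theorem finite_dv {N : ℤi} (hN : N ≠ 0) : (dv N).Finite := by
  rw [dv_eq_image]; exact (finite_divisors hN).image _

theorem ncard_dv_unit {N : ℤi} (h : IsUnit N) : (dv N).ncard ≤ 1 := by
  have : dv N ⊆ {1} := by
    intro a ha
    have h1 : Associates.mk N = 1 := Associates.mk_eq_one.2 h
    unfold dv at ha
    rw [Set.mem_ofPred_eq, h1] at ha
    rw [Set.mem_singleton_iff]
    exact Associates.isUnit_iff_eq_one _ |>.1 (isUnit_of_dvd_one ha)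
  exact (Set.ncard_le_ncard this (Set.finite_singleton _)).trans (by simp)

theorem ncard_dv_prime_pow {p : ℤi} (hp : Prime p) (i : ℕ) : (dv (p ^ i)).ncard ≤ i + 1 := by
  classical
  have : dv (p ^ i) ⊆ ((Finset.range (i+1)).image (fun j => Associates.mk (p ^ j)) : Finset _) := by
    intro a ha
    obtain ⟨d, rfl⟩ := Associates.mk_surjective a
    have hd : d ∣ p ^ i := Associates.mk_dvd_mk.1 ha
    obtain ⟨j, hj, hjd⟩ := (dvd_prime_pow hp i).1 hd
    rw [Finset.coe_image]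
    refine ⟨j, ?_, ?_⟩
    · simp; omega
    · exact (Associates.mk_eq_mk_iff_associated.2 hjd).symm
  refine (Set.ncard_le_ncard this (Finset.finite_toSet _)).trans ?_
  rw [Set.ncard_coe_finset]
  exact (Finset.card_image_le).trans (by simp)

theorem ncard_dv_mul {x y : ℤi} (hx : x ≠ 0) (hy : y ≠ 0) :
    (dv (x * y)).ncard ≤ (dv x).ncard * (dv y).ncard := by
  have : dv (x * y) ⊆ (fun p : Associates ℤi × Associates ℤi => p.1 * p.2) '' (dv x ×ˢ dv y) := by
    intro a ha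
    obtain ⟨d, rfl⟩ := Associates.mk_surjective a
    have hd : d ∣ x * y := Associates.mk_dvd_mk.1 ha
    obtain ⟨d1, d2, h1, h2, rfl⟩ := exists_dvd_and_dvd_of_dvd_mul hd
    refine ⟨(Associates.mk d1, Associates.mk d2), ⟨Associates.mk_dvd_mk.2 h1, Associates.mk_dvd_mk.2 h2⟩, ?_⟩
    exact Associates.mk_mul_mk
  have hf : (dv x ×ˢ dv y).Finite := (finite_dv hx).prod (finite_dv hy)
  refine (Set.ncard_le_ncard this (hf.image _)).trans ?_
  refine (Set.ncard_image_le hf).trans ?_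
  rw [Set.ncard_prod]

/-- small primes dividing `N` -/
noncomputable def sp (B : ℕ) (N : ℤi) : Finset ℤi := by
  classical
  exact (box B).filter (fun p => Prime p ∧ nr p < B ∧ p ∣ N)

theorem mem_sp {B : ℕ} {N p : ℤi} (hB : 1 ≤ B) : p ∈ sp B N ↔ Prime p ∧ nr p < B ∧ p ∣ N := by
  classical
  unfold sp
  rw [Finset.mem_filter]
  constructor
  · exact fun h => h.2
  · intro h
    refine ⟨mem_box ?_, h⟩
    have h1 : (1:ℝ) ≤ B := by exact_mod_cast hB
    nlinarith [h.2.1]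

theorem card_sp_le (B : ℕ) (N : ℤi) : (sp B N).card ≤ (2 * B + 1) ^ 2 := by
  classical
  unfold sp
  exact (Finset.card_filter_le _ _).trans (card_box B)

theorem sp_mul {B : ℕ} (hB : 1 ≤ B) {x y : ℤi} (h : IsRelPrime x y) :
    (sp B (x * y)).card = (sp B x).card + (sp B y).card := by
  classical
  have hd : Disjoint (sp B x) (sp B y) := by
    rw [Finset.disjoint_left]
    intro p h1 h2
    rw [mem_sp hB] at h1 h2
    exact h1.1.not_isUnit (h h1.2.2 h2.2.2)
  rw [← Finset.card_union_of_disjoint hd]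
  congr 1
  ext p
  rw [Finset.mem_union, mem_sp hB, mem_sp hB, mem_sp hB]
  constructor
  · rintro ⟨h1, h2, h3⟩
    rcases h1.dvd_or_dvd h3 with h4 | h4
    · exact Or.inl ⟨h1, h2, h4⟩
    · exact Or.inr ⟨h1, h2, h4⟩
  · rintro (⟨h1, h2, h3⟩ | ⟨h1, h2, h3⟩)
    · exact ⟨h1, h2, Dvd.dvd.mul_right h3 _⟩
    · exact ⟨h1, h2, Dvd.dvd.mul_left h3 _⟩

theorem main_ind {ε : ℝ} (hε : 0 < ε) {B : ℕ} (hB : 1 ≤ B) (hBε : 2 ≤ (B:ℝ) ^ ε) {C : ℝ} (hC : 1 ≤ C)
    (hC2 : ∀ i : ℕ, (i:ℝ) + 1 ≤ C * ((2:ℝ) ^ ε) ^ i) (N : ℤi) (hN : N ≠ 0) :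
    ((dv N).ncard : ℝ) ≤ C ^ (sp B N).card * nr N ^ ε := by
  revert hN
  refine UniqueFactorizationMonoid.induction_on_coprime (P := fun N => N ≠ 0 →
    ((dv N).ncard : ℝ) ≤ C ^ (sp B N).card * nr N ^ ε) N ?_ ?_ ?_ ?_
  · intro h; exact absurd rfl h
  · intro x hx _
    rw [nr_unit hx, Real.one_rpow, mul_one]
    have h1 : ((dv x).ncard : ℝ) ≤ 1 := by exact_mod_cast ncard_dv_unit hx
    exact h1.trans (one_le_pow₀ hC)
  · intro p i hp _
    have h1 : ((dv (p ^ i)).ncard : ℝ) ≤ i + 1 := by exact_mod_cast ncard_dv_prime_pow hp i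
    refine h1.trans ?_
    rcases Nat.eq_zero_or_pos i with h0 | h0
    · subst h0
      simp only [Nat.cast_zero, zero_add, pow_zero, nr_one, Real.one_rpow, mul_one]
      exact one_le_pow₀ hC
    have h2 := two_le_nr_prime hp
    have hswap : (nr p ^ i) ^ ε = (nr p ^ ε) ^ i := by
      rw [← Real.rpow_natCast, ← Real.rpow_natCast, ← Real.rpow_mul (nr_nonneg p),
        ← Real.rpow_mul (nr_nonneg p), mul_comm]
    rw [nr_pow, hswap]
    by_cases hpB : nr p < B
    · have hmem : p ∈ sp B (p ^ i) := by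
        rw [mem_sp hB]; exact ⟨hp, hpB, dvd_pow_self _ (by omega)⟩
      have hcard : 1 ≤ (sp B (p ^ i)).card := Finset.card_pos.2 ⟨p, hmem⟩
      have hCp : C ≤ C ^ (sp B (p ^ i)).card := le_self_pow₀ hC (by omega)
      have h3 : ((2:ℝ) ^ ε) ^ i ≤ (nr p ^ ε) ^ i := by
        apply pow_le_pow_left₀ (by positivity)
        exact Real.rpow_le_rpow (by norm_num) h2 hε.le
      calc (i:ℝ) + 1 ≤ C * ((2:ℝ) ^ ε) ^ i := hC2 i
        _ ≤ C ^ (sp B (p ^ i)).card * (nr p ^ ε) ^ i := by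
          apply mul_le_mul hCp h3 (by positivity) (by positivity)
    · push Not at hpB
      have h3 : (2:ℝ) ≤ nr p ^ ε := hBε.trans (Real.rpow_le_rpow (by positivity) hpB hε.le)
      have h4 : (2:ℝ) ^ i ≤ (nr p ^ ε) ^ i := pow_le_pow_left₀ (by norm_num) h3 i
      have h5 : (i:ℝ) + 1 ≤ 2 ^ i := by
        have : i + 1 ≤ 2 ^ i := Nat.succ_le_of_lt Nat.lt_two_pow_self
        exact_mod_cast this
      have h6 : 1 ≤ C ^ (sp B (p ^ i)).card := one_le_pow₀ hC
      calc (i:ℝ) + 1 ≤ 2 ^ i := h5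
        _ ≤ (nr p ^ ε) ^ i := h4
        _ ≤ C ^ (sp B (p ^ i)).card * (nr p ^ ε) ^ i := le_mul_of_one_le_left (by positivity) h6
  · intro x y hxy hx hy h0
    have hx0 : x ≠ 0 := left_ne_zero_of_mul h0
    have hy0 : y ≠ 0 := right_ne_zero_of_mul h0
    have h1 := hx hx0
    have h2 := hy hy0
    have h3 : ((dv (x * y)).ncard : ℝ) ≤ (dv x).ncard * (dv y).ncard := by
      exact_mod_cast ncard_dv_mul hx0 hy0
    rw [sp_mul hB hxy, pow_add, nr_mul, Real.mul_rpow (nr_nonneg x) (nr_nonneg y)]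
    calc ((dv (x * y)).ncard : ℝ) ≤ (dv x).ncard * (dv y).ncard := h3
      _ ≤ (C ^ (sp B x).card * nr x ^ ε) * (C ^ (sp B y).card * nr y ^ ε) := by
        apply mul_le_mul h1 h2 (by positivity)
        have := Real.rpow_nonneg (nr_nonneg x) ε
        positivity
      _ = _ := by ring

theorem dv_bound {ε : ℝ} (hε : 0 < ε) : ∃ C : ℝ, 1 ≤ C ∧ ∀ N : ℤi, N ≠ 0 →
    ((dv N).ncard : ℝ) ≤ C * nr N ^ ε := by
  obtain ⟨B, hB⟩ := exists_nat_ge ((2:ℝ) ^ (1/ε))
  have h2 : (1:ℝ) ≤ (2:ℝ) ^ (1/ε) := Real.one_le_rpow (by norm_num) (by positivity)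
  have hB1 : 1 ≤ B := by
    have : (1:ℝ) ≤ B := h2.trans hB
    exact_mod_cast this
  have hBε : (2:ℝ) ≤ (B:ℝ) ^ ε := by
    calc (2:ℝ) = ((2:ℝ) ^ (1/ε)) ^ ε := by
          rw [← Real.rpow_mul (by norm_num)]; rw [one_div, inv_mul_cancel₀ hε.ne']; simp
      _ ≤ (B:ℝ) ^ ε := Real.rpow_le_rpow (by positivity) hB hε.le
  set l : ℝ := Real.log 2 with hl
  have hlpos : 0 < l := Real.log_pos (by norm_num)
  set C : ℝ := 1 + 1 / (ε * l) with hCdef
  have hC : 1 ≤ C := by rw [hCdef]; have : 0 < 1 / (ε * l) := by positivity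
                        linarith
  have hC2 : ∀ i : ℕ, (i:ℝ) + 1 ≤ C * ((2:ℝ) ^ ε) ^ i := by
    intro i
    have h3 : ((2:ℝ) ^ ε) ^ i = Real.exp (ε * l * i) := by
      rw [← Real.rpow_natCast, ← Real.rpow_mul (by norm_num), Real.rpow_def_of_pos (by norm_num)]
      congr 1; rw [hl]; ring
    have h4 : ε * l * i + 1 ≤ Real.exp (ε * l * i) := Real.add_one_le_exp _
    have hi : (0:ℝ) ≤ i := Nat.cast_nonneg _
    have h5 : (i:ℝ) = 1 / (ε * l) * (ε * l * i) := by field_simp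
    have hpos : 0 < 1 / (ε * l) := by positivity
    rw [h3]
    have h6 : (1:ℝ) ≤ Real.exp (ε * l * i) := by
      have : 0 ≤ ε * l * i := by positivity
      linarith
    calc (i:ℝ) + 1 = 1 / (ε * l) * (ε * l * i) + 1 := by rw [← h5]
      _ ≤ 1 / (ε * l) * Real.exp (ε * l * i) + Real.exp (ε * l * i) := by
          have : 1 / (ε * l) * (ε * l * i) ≤ 1 / (ε * l) * Real.exp (ε * l * i) :=
            mul_le_mul_of_nonneg_left (by linarith) hpos.le
          linarith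
      _ = C * Real.exp (ε * l * i) := by rw [hCdef]; ring
  refine ⟨C ^ ((2 * B + 1) ^ 2), one_le_pow₀ hC, ?_⟩
  intro N hN
  refine (main_ind hε hB1 hBε hC hC2 N hN).trans ?_
  apply mul_le_mul_of_nonneg_right _ (Real.rpow_nonneg (nr_nonneg N) ε)
  exact pow_le_pow_right₀ hC (card_sp_le B N)

/-- number of divisors (units counted) is at most `9` times the number of divisors up to units -/
theorem ncard_divisors_le {N : ℤi} (hN : N ≠ 0) :
    ({d : ℤi | d ∣ N}.ncard : ℝ) ≤ 9 * (dv N).ncard := by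
  classical
  have hsub : {d : ℤi | d ∣ N} ⊆
      (fun p : ℤi × Associates ℤi => p.1 * Quot.out p.2) '' (((box 1 : Finset ℤi) : Set ℤi) ×ˢ dv N) := by
    intro d hd
    have h1 : Associated (Quot.out (Associates.mk d)) d := Associates.mk_quot_out (a := d) |> fun h => by
      exact Associates.mk_eq_mk_iff_associated.1 (by
        have := Associates.quot_out (Associates.mk d)
        exact this)
    obtain ⟨u, hu⟩ := h1
    refine ⟨((u : ℤi), Associates.mk d), ⟨?_, ?_⟩, ?_⟩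
    · apply Finset.mem_coe.2
      apply mem_box
      rw [nr_unit u.isUnit]; norm_num
    · exact Associates.mk_dvd_mk.2 hd
    · show (u : ℤi) * Quot.out (Associates.mk d) = d
      rw [mul_comm]; exact hu
  have hf : (((box 1 : Finset ℤi) : Set ℤi) ×ˢ dv N).Finite := (Finset.finite_toSet _).prod (finite_dv hN)
  have h1 : {d : ℤi | d ∣ N}.ncard ≤ 9 * (dv N).ncard := by
    refine (Set.ncard_le_ncard hsub (hf.image _)).trans ?_
    refine (Set.ncard_image_le hf).trans ?_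
    rw [Set.ncard_prod, Set.ncard_coe_finset]
    have := card_box 1
    exact Nat.mul_le_mul_right _ (by simpa using this)
  exact_mod_cast h1

/-- **Divisor bound in `ℤ[i]`.** -/
theorem divisor_bound {ε : ℝ} (hε : 0 < ε) : ∃ C : ℝ, 1 ≤ C ∧ ∀ N : ℤi, N ≠ 0 →
    ({d : ℤi | d ∣ N}.ncard : ℝ) ≤ C * nr N ^ ε := by
  obtain ⟨C, hC, h⟩ := dv_bound hε
  refine ⟨9 * C, by linarith, fun N hN => ?_⟩
  have h1 := h N hN
  have h2 := ncard_divisors_le hN
  nlinarith

end Crest.Agent.R2.Div701
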