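import Crest.Agent.R2.Div701

/-!
Energy of squares in the Gaussian integers.
-/

set_option autoImplicit false

namespace Crest.Agent.R2.Div701

open Zsqrtd GaussianInt

local notation "ℤi" => GaussianInt

/-- divisor bound with the complex norm -/
theorem divisor_bound_norm {ε : ℝ} (hε : 0 < ε) : ∃ C : ℝ, 1 ≤ C ∧ ∀ N : ℤi, N ≠ 0 →
    ({d : ℤi | d ∣ N}.ncard : ℝ) ≤ C * ‖(N : ℂ)‖ ^ ε := by
  obtain ⟨C, hC, h⟩ := divisor_bound (ε := ε / 2) (by positivity)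
  refine ⟨C, hC, fun N hN => ?_⟩
  have h1 := h N hN
  rw [nr_eq_norm_sq, ← Real.rpow_natCast, ← Real.rpow_mul (_root_.norm_nonneg _)] at h1
  have h2 : ((2:ℕ):ℝ) * (ε / 2) = ε := by push_cast; ring
  rwa [h2] at h1

theorem two_mul_inj {a b : ℤi} (h : 2 * a = 2 * b) : a = b := by
  have : (2:ℤi) ≠ 0 := by
    intro h
    have := congrArg Zsqrtd.re h
    simp at this
  exact mul_left_cancel₀ this h

/-- pairs in a finset with prescribed nonzero product -/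
theorem card_prod_le (P : Finset (ℤi × ℤi)) {N : ℤi} (hN : N ≠ 0) (h : ∀ p ∈ P, p.1 * p.2 = N) :
    P.card ≤ {d : ℤi | d ∣ N}.ncard := by
  classical
  rw [← Set.ncard_coe_finset]
  refine Set.ncard_le_ncard_of_injOn (fun p => p.1) ?_ ?_ (finite_divisors hN)
  · intro p hp
    exact ⟨p.2, (h p hp).symm⟩
  · intro p hp q hq hpq
    have h1 := h p hp
    have h2 := h q hq
    simp only at hpq
    have hp1 : p.1 ≠ 0 := by
      intro h0; apply hN; rw [← h1, h0, zero_mul]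
    have : p.1 * p.2 = p.1 * q.2 := by rw [h1, ← h2, hpq]
    exact Prod.ext hpq (mul_left_cancel₀ hp1 this)

/-- pairs in a finset with prescribed nonzero difference of squares -/
theorem card_diffsq_le (P : Finset (ℤi × ℤi)) {N : ℤi} (hN : N ≠ 0)
    (h : ∀ p ∈ P, p.1 ^ 2 - p.2 ^ 2 = N) :
    P.card ≤ {d : ℤi | d ∣ N}.ncard := by
  classical
  have hinj : Set.InjOn (fun p : ℤi × ℤi => (p.1 - p.2, p.1 + p.2)) (P : Set (ℤi × ℤi)) := by
    intro p _ q _ hpq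
    simp only [Prod.mk.injEq] at hpq
    obtain ⟨h1, h2⟩ := hpq
    have ha : p.1 = q.1 := two_mul_inj (by linear_combination h1 + h2)
    have hb : p.2 = q.2 := two_mul_inj (by linear_combination h2 - h1)
    exact Prod.ext ha hb
  rw [← Finset.card_image_of_injOn hinj]
  apply card_prod_le _ hN
  intro p hp
  rw [Finset.mem_image] at hp
  obtain ⟨q, hq, rfl⟩ := hp
  rw [← h q hq]; ring

/-- pairs with equal squares -/
theorem card_sqeq_le (Q : Finset ℤi) (P : Finset (ℤi × ℤi)) (hP : P ⊆ Q ×ˢ Q)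
    (h : ∀ p ∈ P, p.1 ^ 2 - p.2 ^ 2 = 0) : P.card ≤ 2 * Q.card := by
  classical
  have hsub : P ⊆ (Q.image (fun q => (q, q))) ∪ (Q.image (fun q => (q, -q))) := by
    intro p hp
    have h1 := h p hp
    have h2 := hP hp
    rw [Finset.mem_product] at h2
    have h3 : (p.1 - p.2) * (p.1 + p.2) = 0 := by rw [← h1]; ring
    rw [Finset.mem_union, Finset.mem_image, Finset.mem_image]
    rcases mul_eq_zero.1 h3 with h4 | h4
    · left
      exact ⟨p.1, h2.1, Prod.ext rfl (sub_eq_zero.1 h4)⟩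
    · right
      refine ⟨p.1, h2.1, Prod.ext rfl ?_⟩
      exact (eq_neg_of_add_eq_zero_right h4).symm
  refine (Finset.card_le_card hsub).trans ((Finset.card_union_le _ _).trans ?_)
  have h1 : (Q.image (fun q => (q, q))).card ≤ Q.card := Finset.card_image_le
  have h2 : (Q.image (fun q => (q, -q))).card ≤ Q.card := Finset.card_image_le
  omega

theorem norm_sq_sub_le {R : ℝ} {a b : ℤi} (ha : ‖(a : ℂ)‖ ≤ R) (hb : ‖(b : ℂ)‖ ≤ R) :
    ‖((a ^ 2 - b ^ 2 : ℤi) : ℂ)‖ ≤ 2 * R ^ 2 := by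
  have h1 : ((a ^ 2 - b ^ 2 : ℤi) : ℂ) = (a:ℂ) ^ 2 - (b : ℂ) ^ 2 := by
    rw [map_sub, map_pow, map_pow]
  rw [h1]
  refine (norm_sub_le _ _).trans ?_
  rw [norm_pow, norm_pow]
  have h2 : ‖(a:ℂ)‖ ^ 2 ≤ R ^ 2 := pow_le_pow_left₀ (_root_.norm_nonneg _) ha 2
  have h3 : ‖(b:ℂ)‖ ^ 2 ≤ R ^ 2 := pow_le_pow_left₀ (_root_.norm_nonneg _) hb 2
  linarith

/-- counting with an abstract divisor bound `D` -/
theorem energy_abs (Q : Finset ℤi) {R : ℝ} (hQ : ∀ q ∈ Q, ‖(q : ℂ)‖ ≤ R) {D : ℕ} (hD1 : 1 ≤ D)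
    (hD : ∀ N : ℤi, N ≠ 0 → ‖(N : ℂ)‖ ≤ 2 * R ^ 2 → {d : ℤi | d ∣ N}.ncard ≤ D) (n : ℤi)
    (T : Finset ((ℤi × ℤi) × (ℤi × ℤi))) (hT : T ⊆ (Q ×ˢ Q) ×ˢ (Q ×ˢ Q))
    (hTn : ∀ t ∈ T, t.1.1 ^ 2 - t.1.2 ^ 2 = n + (t.2.1 ^ 2 - t.2.2 ^ 2)) :
    T.card ≤ 5 * D * Q.card ^ 2 := by
  classical
  -- split T according to whether `t.1.1 ^ 2 - t.1.2 ^ 2 = n`
  set T0 := T.filter (fun t => t.1.1 ^ 2 - t.1.2 ^ 2 = n) with hT0
  set T1 := T.filter (fun t => ¬ t.1.1 ^ 2 - t.1.2 ^ 2 = n) with hT1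
  have hsplit : T.card = T0.card + T1.card := (Finset.card_filter_add_card_filter_not _).symm
  -- T1: fibre over the first pair
  have hfib1 : T1.card ≤ D * (Q ×ˢ Q).card := by
    refine Finset.card_le_mul_card_image_of_maps_to (f := fun t => t.1) (t := Q ×ˢ Q) ?_ D ?_
    · intro t ht
      have := hT (Finset.mem_filter.1 ht).1
      exact (Finset.mem_product.1 this).1
    · intro p _
      -- fibre
      by_cases hne : (T1.filter (fun t => t.1 = p)).Nonempty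
      · obtain ⟨t0, ht0⟩ := hne
        rw [Finset.mem_filter] at ht0
        obtain ⟨ht0a, ht0b⟩ := ht0
        obtain ⟨ht0T, ht0n⟩ := Finset.mem_filter.1 ht0a
        have hN : p.1 ^ 2 - p.2 ^ 2 - n ≠ 0 := by
          intro h; apply ht0n; rw [ht0b]; linear_combination h
        have h0 := hTn t0 ht0T
        have hmem := hT ht0T
        rw [Finset.mem_product, Finset.mem_product, Finset.mem_product] at hmem
        have hbd : ‖((p.1 ^ 2 - p.2 ^ 2 - n : ℤi) : ℂ)‖ ≤ 2 * R ^ 2 := by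
          have : p.1 ^ 2 - p.2 ^ 2 - n = t0.2.1 ^ 2 - t0.2.2 ^ 2 := by
            rw [← ht0b]; linear_combination h0
          rw [this]
          exact norm_sq_sub_le (hQ _ hmem.2.1) (hQ _ hmem.2.2)
        have hinj : Set.InjOn (fun t : (ℤi × ℤi) × (ℤi × ℤi) => t.2)
            ((T1.filter (fun t => t.1 = p) : Finset _) : Set _) := by
          intro a ha b hb hab
          have h1 := (Finset.mem_filter.1 ha).2
          have h2 := (Finset.mem_filter.1 hb).2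
          exact Prod.ext (h1.trans h2.symm) hab
        rw [← Finset.card_image_of_injOn hinj]
        refine (card_diffsq_le _ hN ?_).trans (hD _ hN hbd)
        intro q hq
        rw [Finset.mem_image] at hq
        obtain ⟨t, ht, rfl⟩ := hq
        rw [Finset.mem_filter] at ht
        have h1 := hTn t (Finset.mem_filter.1 ht.1).1
        rw [← ht.2]; linear_combination -h1
      · rw [Finset.not_nonempty_iff_eq_empty] at hne
        rw [hne]; simp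
  -- T0: both pairs
  have hsub0 : T0 ⊆ (((Q ×ˢ Q).filter (fun p => p.1 ^ 2 - p.2 ^ 2 = n)) ×ˢ
      ((Q ×ˢ Q).filter (fun p => p.1 ^ 2 - p.2 ^ 2 = 0))) := by
    intro t ht
    obtain ⟨h1, h2⟩ := Finset.mem_filter.1 ht
    have h3 := hT h1
    rw [Finset.mem_product] at h3
    have h4 := hTn t h1
    rw [Finset.mem_product, Finset.mem_filter, Finset.mem_filter]
    refine ⟨⟨h3.1, h2⟩, ⟨h3.2, ?_⟩⟩
    rw [h2] at h4
    linear_combination -h4
  have hcard0b : ((Q ×ˢ Q).filter (fun p => p.1 ^ 2 - p.2 ^ 2 = 0)).card ≤ 2 * Q.card :=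
    card_sqeq_le Q _ (Finset.filter_subset _ _) (fun p hp => (Finset.mem_filter.1 hp).2)
  have hcard0 : T0.card ≤ ((Q ×ˢ Q).filter (fun p => p.1 ^ 2 - p.2 ^ 2 = n)).card * (2 * Q.card) := by
    refine (Finset.card_le_card hsub0).trans ?_
    rw [Finset.card_product]
    exact Nat.mul_le_mul_left _ hcard0b
  have hQQ : (Q ×ˢ Q).card = Q.card ^ 2 := by rw [Finset.card_product, sq]
  rw [hQQ] at hfib1
  by_cases hQe : Q.card = 0
  · have : T ⊆ ∅ := by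
      intro t ht
      have := hT ht
      rw [Finset.card_eq_zero.1 hQe] at this
      simp at this
    rw [Finset.subset_empty.1 this]; simp
  have hQ1 : 1 ≤ Q.card := Nat.one_le_iff_ne_zero.2 hQe
  by_cases hn : n = 0
  · have h1 : ((Q ×ˢ Q).filter (fun p => p.1 ^ 2 - p.2 ^ 2 = n)).card ≤ 2 * Q.card := by
      rw [hn]; exact hcard0b
    have h2 : T0.card ≤ (2 * Q.card) * (2 * Q.card) := hcard0.trans (Nat.mul_le_mul_right _ h1)
    rw [hsplit]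
    have h3 : (2 * Q.card) * (2 * Q.card) = 4 * Q.card ^ 2 := by ring
    have h4 : 4 * Q.card ^ 2 ≤ 4 * (D * Q.card ^ 2) := by
      apply Nat.mul_le_mul_left; exact Nat.le_mul_of_pos_left _ hD1
    have h5 : 5 * D * Q.card ^ 2 = 4 * (D * Q.card ^ 2) + D * Q.card ^ 2 := by ring
    omega
  · have h1 : ((Q ×ˢ Q).filter (fun p => p.1 ^ 2 - p.2 ^ 2 = n)).card ≤ D := by
      by_cases hne : ((Q ×ˢ Q).filter (fun p => p.1 ^ 2 - p.2 ^ 2 = n)).Nonempty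
      · obtain ⟨p, hp⟩ := hne
        obtain ⟨hp1, hp2⟩ := Finset.mem_filter.1 hp
        rw [Finset.mem_product] at hp1
        refine (card_diffsq_le _ hn (fun q hq => (Finset.mem_filter.1 hq).2)).trans (hD _ hn ?_)
        rw [← hp2]
        exact norm_sq_sub_le (hQ _ hp1.1) (hQ _ hp1.2)
      · rw [Finset.not_nonempty_iff_eq_empty] at hne
        rw [hne]; simp
    have h2 : T0.card ≤ D * (2 * Q.card) := hcard0.trans (Nat.mul_le_mul_right _ h1)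
    rw [hsplit]
    have h3 : D * (2 * Q.card) ≤ 4 * (D * Q.card ^ 2) := by
      have : Q.card ≤ Q.card ^ 2 := by nlinarith
      nlinarith
    have h5 : 5 * D * Q.card ^ 2 = 4 * (D * Q.card ^ 2) + D * Q.card ^ 2 := by ring
    omega

/-- **Energy of squares**: `q₁² + q₂² - q₃² - q₄² = n` has `≤ C R^ε |Q|²` solutions in `Q`. -/
theorem energy {ε : ℝ} (hε : 0 < ε) : ∃ C : ℝ, 1 ≤ C ∧ ∀ (Q : Finset ℤi) (R : ℝ), 1 ≤ R →
    (∀ q ∈ Q, ‖(q : ℂ)‖ ≤ R) → ∀ (n : ℤi) (T : Finset (ℤi × ℤi × ℤi × ℤi)),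
    (∀ t ∈ T, t.1 ∈ Q ∧ t.2.1 ∈ Q ∧ t.2.2.1 ∈ Q ∧ t.2.2.2 ∈ Q ∧
      t.1 ^ 2 + t.2.1 ^ 2 - t.2.2.1 ^ 2 - t.2.2.2 ^ 2 = n) →
    (T.card : ℝ) ≤ C * R ^ ε * (Q.card : ℝ) ^ 2 := by
  classical
  obtain ⟨C, hC, h⟩ := divisor_bound_norm (ε := ε / 2) (by positivity)
  have h2p : (1:ℝ) ≤ (2:ℝ) ^ (ε / 2) := Real.one_le_rpow (by norm_num) (by positivity)
  refine ⟨10 * C * 2 ^ (ε / 2), by nlinarith, ?_⟩
  intro Q R hR hQ n T hT
  have hRε : (1:ℝ) ≤ R ^ ε := Real.one_le_rpow hR hε.le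
  set x : ℝ := C * 2 ^ (ε / 2) * R ^ ε with hx
  have hx1 : 1 ≤ x := by
    rw [hx]
    have : 1 ≤ C * 2 ^ (ε / 2) := by nlinarith
    nlinarith
  set D : ℕ := ⌊x⌋₊ with hDdef
  have hD1 : 1 ≤ D := by rw [hDdef]; exact (Nat.one_le_floor_iff x).2 hx1
  have hD : ∀ N : ℤi, N ≠ 0 → ‖(N : ℂ)‖ ≤ 2 * R ^ 2 → {d : ℤi | d ∣ N}.ncard ≤ D := by
    intro N hN hb
    rw [hDdef]
    apply Nat.le_floor
    refine (h N hN).trans ?_
    have h1 : ‖(N : ℂ)‖ ^ (ε / 2) ≤ (2 * R ^ 2) ^ (ε / 2) :=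
      Real.rpow_le_rpow (_root_.norm_nonneg _) hb (by positivity)
    have h3 : (2 * R ^ 2) ^ (ε / 2) = 2 ^ (ε / 2) * R ^ ε := by
      rw [Real.mul_rpow (by norm_num) (by positivity), ← Real.rpow_natCast R 2, ← Real.rpow_mul (by linarith)]
      congr 2; push_cast; ring
    rw [h3] at h1
    calc C * ‖(N : ℂ)‖ ^ (ε / 2) ≤ C * (2 ^ (ε / 2) * R ^ ε) := by
          apply mul_le_mul_of_nonneg_left h1 (by linarith)
      _ = x := by rw [hx]; ring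
  -- rearrange: `(q₁, q₃), (q₄, q₂)`
  set f : (ℤi × ℤi × ℤi × ℤi) → ((ℤi × ℤi) × (ℤi × ℤi)) :=
    fun t => ((t.1, t.2.2.1), (t.2.2.2, t.2.1)) with hf
  have hfinj : Function.Injective f := by
    intro a b hab
    simp only [hf, Prod.mk.injEq] at hab
    obtain ⟨⟨h1, h2⟩, h3, h4⟩ := hab
    exact Prod.ext h1 (Prod.ext h4 (Prod.ext h2 h3))
  have hcard : (T.image f).card = T.card := Finset.card_image_of_injective _ hfinj
  have hmain := energy_abs Q hQ hD1 hD n (T.image f) (by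
      intro s hs
      rw [Finset.mem_image] at hs
      obtain ⟨t, ht, rfl⟩ := hs
      obtain ⟨h1, h2, h3, h4, _⟩ := hT t ht
      simp only [hf, Finset.mem_product]
      exact ⟨⟨h1, h3⟩, h4, h2⟩) (by
      intro s hs
      rw [Finset.mem_image] at hs
      obtain ⟨t, ht, rfl⟩ := hs
      obtain ⟨_, _, _, _, h5⟩ := hT t ht
      simp only [hf]
      linear_combination h5)
  rw [hcard] at hmain
  have h1 : (T.card : ℝ) ≤ 5 * D * (Q.card : ℝ) ^ 2 := by exact_mod_cast hmain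
  have h2 : (D : ℝ) ≤ x := Nat.floor_le (by linarith)
  calc (T.card : ℝ) ≤ 5 * D * (Q.card : ℝ) ^ 2 := h1
    _ ≤ 5 * x * (Q.card : ℝ) ^ 2 := by
        apply mul_le_mul_of_nonneg_right _ (by positivity)
        linarith
    _ ≤ 10 * C * 2 ^ (ε / 2) * R ^ ε * (Q.card : ℝ) ^ 2 := by
        apply mul_le_mul_of_nonneg_right _ (by positivity)
        have : 0 ≤ x := by linarith
        have h3 : 10 * C * 2 ^ (ε / 2) * R ^ ε = 10 * x := by rw [hx]; ring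
        rw [h3]; linarith

/-- the number of Gaussian integers of norm `≤ r` -/
theorem card_ball_le (r : ℝ) (hr : 0 ≤ r) (S : Finset ℤi) (hS : ∀ z ∈ S, ‖(z : ℂ)‖ ≤ r) :
    (S.card : ℝ) ≤ (2 * r + 1) ^ 2 := by
  have hsub : S ⊆ box ⌊r⌋₊ := by
    intro z hz
    have h1 := hS z hz
    have hre : |(z.re : ℝ)| ≤ r := by
      have h2 : |(z : ℂ).re| ≤ ‖(z : ℂ)‖ := Complex.abs_re_le_norm _
      rw [← GaussianInt.intCast_re] at h2
      linarith
    have him : |(z.im : ℝ)| ≤ r := by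
      have h2 : |(z : ℂ).im| ≤ ‖(z : ℂ)‖ := Complex.abs_im_le_norm _
      rw [← GaussianInt.intCast_im] at h2
      linarith
    have key : ∀ m : ℤ, |(m : ℝ)| ≤ r → m ∈ Finset.Icc (-((⌊r⌋₊ : ℕ) : ℤ)) ((⌊r⌋₊ : ℕ) : ℤ) := by
      intro m hm
      have h3 : ((m.natAbs : ℕ) : ℝ) ≤ r := by
        rw [Nat.cast_natAbs]; push_cast; exact hm
      have h4 : m.natAbs ≤ ⌊r⌋₊ := Nat.le_floor h3
      rw [Finset.mem_Icc]; omega
    unfold box
    rw [Finset.mem_image]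
    exact ⟨(z.re, z.im), Finset.mem_product.2 ⟨key _ hre, key _ him⟩, rfl⟩
  have h1 : S.card ≤ (2 * ⌊r⌋₊ + 1) ^ 2 := (Finset.card_le_card hsub).trans (card_box _)
  have h2 : (S.card : ℝ) ≤ (2 * (⌊r⌋₊ : ℝ) + 1) ^ 2 := by exact_mod_cast h1
  have h3 : (⌊r⌋₊ : ℝ) ≤ r := Nat.floor_le hr
  have h4 : (0:ℝ) ≤ (⌊r⌋₊ : ℝ) := Nat.cast_nonneg _
  refine h2.trans ?_
  apply pow_le_pow_left₀ (by positivity)
  linarith

/-- **Energy of squares, window form**: `‖q₁² + q₂² - q₃² - q₄²‖ ≤ r`. -/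
theorem energy_window {ε : ℝ} (hε : 0 < ε) : ∃ C : ℝ, 1 ≤ C ∧ ∀ (Q : Finset ℤi) (R : ℝ), 1 ≤ R →
    (∀ q ∈ Q, ‖(q : ℂ)‖ ≤ R) → ∀ (r : ℝ), 0 ≤ r → ∀ (T : Finset (ℤi × ℤi × ℤi × ℤi)),
    (∀ t ∈ T, t.1 ∈ Q ∧ t.2.1 ∈ Q ∧ t.2.2.1 ∈ Q ∧ t.2.2.2 ∈ Q ∧
      ‖((t.1 ^ 2 + t.2.1 ^ 2 - t.2.2.1 ^ 2 - t.2.2.2 ^ 2 : ℤi) : ℂ)‖ ≤ r) →
    (T.card : ℝ) ≤ C * R ^ ε * (2 * r + 1) ^ 2 * (Q.card : ℝ) ^ 2 := by
  classical
  obtain ⟨C, hC, h⟩ := energy hε
  refine ⟨C, hC, ?_⟩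
  intro Q R hR hQ r hr T hT
  set g : (ℤi × ℤi × ℤi × ℤi) → ℤi := fun t => t.1 ^ 2 + t.2.1 ^ 2 - t.2.2.1 ^ 2 - t.2.2.2 ^ 2 with hg
  have h1 : T.card = ∑ n ∈ T.image g, (T.filter (fun t => g t = n)).card :=
    Finset.card_eq_sum_card_image g T
  have h2 : (((T.image g).card : ℕ) : ℝ) ≤ (2 * r + 1) ^ 2 := by
    apply card_ball_le r hr
    intro z hz
    rw [Finset.mem_image] at hz
    obtain ⟨t, ht, rfl⟩ := hz
    exact (hT t ht).2.2.2.2
  have h3 : ∀ n ∈ T.image g, ((T.filter (fun t => g t = n)).card : ℝ) ≤ C * R ^ ε * (Q.card : ℝ) ^ 2 := by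
    intro n _
    apply h Q R hR hQ n
    intro t ht
    obtain ⟨ht1, ht2⟩ := Finset.mem_filter.1 ht
    obtain ⟨ha, hb, hc, hd, _⟩ := hT t ht1
    exact ⟨ha, hb, hc, hd, ht2⟩
  have h4 : (T.card : ℝ) ≤ ((T.image g).card : ℝ) * (C * R ^ ε * (Q.card : ℝ) ^ 2) := by
    rw [h1]; push_cast
    calc ∑ n ∈ T.image g, ((T.filter (fun t => g t = n)).card : ℝ)
        ≤ ∑ n ∈ T.image g, C * R ^ ε * (Q.card : ℝ) ^ 2 := Finset.sum_le_sum h3
      _ = _ := by rw [Finset.sum_const, nsmul_eq_mul]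
  have hpos : 0 ≤ C * R ^ ε * (Q.card : ℝ) ^ 2 := by
    have : 0 ≤ R ^ ε := Real.rpow_nonneg (by linarith) _
    positivity
  calc (T.card : ℝ) ≤ ((T.image g).card : ℝ) * (C * R ^ ε * (Q.card : ℝ) ^ 2) := h4
    _ ≤ (2 * r + 1) ^ 2 * (C * R ^ ε * (Q.card : ℝ) ^ 2) := mul_le_mul_of_nonneg_right h2 hpos
    _ = _ := by ring

end Crest.Agent.R2.Div701
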