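import Mathlib

/-!
# R2 (Gaussian moat), Theorem S, end game: definitions and elementary lemmas

* `chi v x = exp (2 pi i Re (v x))`, `mhat A m x = sum_{z in A} m z * chi z x`
* counting Gaussian integers in discs
* Cauchy-Schwarz: many large Fourier coefficients give a large coefficient at a difference
-/

set_option autoImplicit false

namespace Crest.Agent.R2.E717

open Finset

/-- absolute value of a Gaussian integer -/
noncomputable abbrev N (z : GaussianInt) : ℝ := ‖(z : ℂ)‖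

/-- the characters of `ℤ[i]` -/
noncomputable def chi (v : GaussianInt) (x : ℂ) : ℂ :=
  Complex.exp (2 * Real.pi * (((v : ℂ) * x).re : ℂ) * Complex.I)

/-- Fourier transform of a finitely supported weight on `ℤ[i]` -/
noncomputable def mhat (A : Finset GaussianInt) (m : GaussianInt → ℝ) (x : ℂ) : ℂ :=
  ∑ z ∈ A, (m z : ℂ) * chi z x

theorem norm_chi (v : GaussianInt) (x : ℂ) : ‖chi v x‖ = 1 := by
  unfold chi
  have : (2 * (Real.pi : ℂ) * (((v : ℂ) * x).re : ℂ) * Complex.I)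
      = ((2 * Real.pi * ((v : ℂ) * x).re : ℝ) : ℂ) * Complex.I := by push_cast; ring
  rw [this, Complex.norm_exp_ofReal_mul_I]

theorem chi_sub (v : GaussianInt) (x y : ℂ) :
    chi v (x - y) = chi v x * (starRingEnd ℂ) (chi v y) := by
  unfold chi
  rw [← Complex.exp_conj, ← Complex.exp_add]
  congr 1
  simp only [map_mul, Complex.conj_ofReal, Complex.conj_I, map_ofNat, mul_sub, Complex.sub_re,
    Complex.ofReal_sub]
  ring

theorem chi_zero (v : GaussianInt) : chi v 0 = 1 := by simp [chi]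

theorem norm_mhat_le (A : Finset GaussianInt) (m : GaussianInt → ℝ) (hm : ∀ z ∈ A, 0 ≤ m z)
    (x : ℂ) : ‖mhat A m x‖ ≤ ∑ z ∈ A, m z := by
  unfold mhat
  refine (norm_sum_le _ _).trans (Finset.sum_le_sum fun z hz => ?_)
  rw [norm_mul, norm_chi, mul_one, Complex.norm_real, Real.norm_eq_abs, abs_of_nonneg (hm z hz)]

/-- Cauchy-Schwarz in `L²(m)`. -/
theorem exists_pair {ι : Type*} [DecidableEq ι] (A : Finset GaussianInt) (m : GaussianInt → ℝ)
    (hm : ∀ z ∈ A, 0 ≤ m z) (hsum : ∑ z ∈ A, m z = 1) (T : Finset ι) (x : ι → ℂ) (τ : ℝ)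
    (hτ0 : 0 < τ) (hT : ∀ i ∈ T, τ ≤ ‖mhat A m (x i)‖) (hcard : 4 / τ ^ 2 ≤ (T.card : ℝ)) :
    ∃ i ∈ T, ∃ j ∈ T, i ≠ j ∧ τ ^ 2 / 2 ≤ ‖mhat A m (x i - x j)‖ := by
  classical
  by_contra hcon
  push Not at hcon
  -- unimodular signs
  have hex : ∀ i : ι, ∃ s : ℂ, ‖s‖ ≤ 1 ∧ s * mhat A m (x i) = (‖mhat A m (x i)‖ : ℂ) := by
    intro i
    by_cases h0 : mhat A m (x i) = 0
    · exact ⟨0, by simp, by simp [h0]⟩
    · refine ⟨(starRingEnd ℂ) (mhat A m (x i)) / (‖mhat A m (x i)‖ : ℂ), ?_, ?_⟩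
      · rw [norm_div, RCLike.norm_conj, Complex.norm_real, norm_norm,
          div_self (norm_ne_zero_iff.mpr h0)]
      · have h1 : (‖mhat A m (x i)‖ : ℂ) ≠ 0 := by
          exact_mod_cast norm_ne_zero_iff.mpr h0
        rw [div_mul_eq_mul_div, div_eq_iff h1, mul_comm, Complex.mul_conj,
          Complex.normSq_eq_norm_sq]
        push_cast; ring
  choose s hs1 hs2 using hex
  set S : GaussianInt → ℂ := fun z => ∑ i ∈ T, s i * chi z (x i) with hS
  have h1 : (∑ i ∈ T, (‖mhat A m (x i)‖ : ℂ)) = ∑ z ∈ A, (m z : ℂ) * S z := by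
    calc (∑ i ∈ T, (‖mhat A m (x i)‖ : ℂ)) = ∑ i ∈ T, s i * mhat A m (x i) :=
          Finset.sum_congr rfl fun i _ => (hs2 i).symm
      _ = ∑ i ∈ T, ∑ z ∈ A, (m z : ℂ) * (s i * chi z (x i)) := by
          refine Finset.sum_congr rfl fun i _ => ?_
          unfold mhat
          rw [Finset.mul_sum]
          exact Finset.sum_congr rfl fun z _ => by ring
      _ = ∑ z ∈ A, (m z : ℂ) * S z := by
          rw [Finset.sum_comm]
          refine Finset.sum_congr rfl fun z _ => ?_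
          rw [hS, Finset.mul_sum]
  have h2 : τ * T.card ≤ ∑ z ∈ A, m z * ‖S z‖ := by
    have h3 : τ * T.card ≤ ∑ i ∈ T, ‖mhat A m (x i)‖ := by
      have := Finset.card_nsmul_le_sum T (fun i => ‖mhat A m (x i)‖) τ hT
      rw [nsmul_eq_mul] at this
      linarith [mul_comm τ (T.card : ℝ)]
    have h4 : ∑ i ∈ T, ‖mhat A m (x i)‖ = ‖∑ i ∈ T, (‖mhat A m (x i)‖ : ℂ)‖ := by
      rw [← Complex.ofReal_sum, Complex.norm_real, Real.norm_eq_abs, abs_of_nonneg]
      exact Finset.sum_nonneg fun i _ => norm_nonneg _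
    rw [h4, h1] at h3
    refine h3.trans ((norm_sum_le _ _).trans (Finset.sum_le_sum fun z hz => ?_))
    rw [norm_mul, Complex.norm_real, Real.norm_eq_abs, abs_of_nonneg (hm z hz)]
  -- Cauchy-Schwarz
  have h5 : (∑ z ∈ A, m z * ‖S z‖) ^ 2 ≤ ∑ z ∈ A, m z * ‖S z‖ ^ 2 := by
    have := Finset.sum_mul_sq_le_sq_mul_sq A (fun z => Real.sqrt (m z))
      (fun z => Real.sqrt (m z) * ‖S z‖)
    have e1 : ∑ z ∈ A, Real.sqrt (m z) * (Real.sqrt (m z) * ‖S z‖) = ∑ z ∈ A, m z * ‖S z‖ :=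
      Finset.sum_congr rfl fun z hz => by
        rw [← mul_assoc, Real.mul_self_sqrt (hm z hz)]
    have e2 : ∑ z ∈ A, Real.sqrt (m z) ^ 2 = 1 := by
      rw [← hsum]
      exact Finset.sum_congr rfl fun z hz => Real.sq_sqrt (hm z hz)
    have e3 : ∑ z ∈ A, (Real.sqrt (m z) * ‖S z‖) ^ 2 = ∑ z ∈ A, m z * ‖S z‖ ^ 2 :=
      Finset.sum_congr rfl fun z hz => by
        rw [mul_pow, Real.sq_sqrt (hm z hz)]
    rw [e1, e2, e3, one_mul] at this
    exact this
  have h6 : ((∑ z ∈ A, m z * ‖S z‖ ^ 2 : ℝ) : ℂ)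
      = ∑ i ∈ T, ∑ j ∈ T, s i * (starRingEnd ℂ) (s j) * mhat A m (x i - x j) := by
    have h7 : ∀ z, ((‖S z‖ ^ 2 : ℝ) : ℂ)
        = ∑ i ∈ T, ∑ j ∈ T, s i * (starRingEnd ℂ) (s j) * chi z (x i - x j) := by
      intro z
      rw [← Complex.normSq_eq_norm_sq, ← Complex.mul_conj, hS]
      simp only [map_sum, map_mul]
      rw [Finset.sum_mul_sum]
      refine Finset.sum_congr rfl fun i _ => Finset.sum_congr rfl fun j _ => ?_
      rw [chi_sub]; ring
    push_cast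
    have h8 : ∀ z, (m z : ℂ) * (‖S z‖ : ℂ) ^ 2
        = ∑ i ∈ T, ∑ j ∈ T, s i * (starRingEnd ℂ) (s j) * ((m z : ℂ) * chi z (x i - x j)) := by
      intro z
      have := h7 z
      push_cast at this
      rw [this, Finset.mul_sum]
      refine Finset.sum_congr rfl fun i _ => ?_
      rw [Finset.mul_sum]
      exact Finset.sum_congr rfl fun j _ => by ring
    rw [Finset.sum_congr rfl fun z _ => h8 z, Finset.sum_comm]
    refine Finset.sum_congr rfl fun i _ => ?_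
    rw [Finset.sum_comm]
    refine Finset.sum_congr rfl fun j _ => ?_
    unfold mhat
    rw [Finset.mul_sum]
  have h9 : ∑ z ∈ A, m z * ‖S z‖ ^ 2 ≤ ∑ i ∈ T, ∑ j ∈ T, ‖mhat A m (x i - x j)‖ := by
    have e0 : 0 ≤ ∑ z ∈ A, m z * ‖S z‖ ^ 2 :=
      Finset.sum_nonneg fun z hz => mul_nonneg (hm z hz) (by positivity)
    have e1 : ∑ z ∈ A, m z * ‖S z‖ ^ 2 = ‖((∑ z ∈ A, m z * ‖S z‖ ^ 2 : ℝ) : ℂ)‖ := by
      rw [Complex.norm_real, Real.norm_eq_abs, abs_of_nonneg e0]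
    rw [e1, h6]
    refine (norm_sum_le _ _).trans (Finset.sum_le_sum fun i _ => ?_)
    refine (norm_sum_le _ _).trans (Finset.sum_le_sum fun j _ => ?_)
    rw [norm_mul, norm_mul, RCLike.norm_conj]
    have := mul_le_one₀ (hs1 i) (norm_nonneg _) (hs1 j)
    exact mul_le_of_le_one_left (norm_nonneg _) this
  have h10 : ∑ i ∈ T, ∑ j ∈ T, ‖mhat A m (x i - x j)‖ ≤ T.card + τ ^ 2 / 2 * T.card ^ 2 := by
    have e1 : ∀ i ∈ T, ∑ j ∈ T, ‖mhat A m (x i - x j)‖ ≤ 1 + τ ^ 2 / 2 * T.card := by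
      intro i hi
      rw [← Finset.add_sum_erase T _ hi]
      have e2 : ‖mhat A m (x i - x i)‖ ≤ 1 := by
        have := norm_mhat_le A m hm (x i - x i)
        rwa [hsum] at this
      have e3 : ∑ j ∈ T.erase i, ‖mhat A m (x i - x j)‖ ≤ τ ^ 2 / 2 * T.card := by
        have e4 : ∑ j ∈ T.erase i, ‖mhat A m (x i - x j)‖ ≤ ∑ j ∈ T.erase i, τ ^ 2 / 2 := by
          refine Finset.sum_le_sum fun j hj => ?_
          rw [Finset.mem_erase] at hj
          exact (hcon i hi j hj.2 (Ne.symm hj.1)).le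
        rw [Finset.sum_const, nsmul_eq_mul] at e4
        have e5 : ((T.erase i).card : ℝ) ≤ T.card := by
          exact_mod_cast Finset.card_erase_le
        nlinarith [sq_nonneg τ]
      linarith
    have e2 := Finset.sum_le_card_nsmul T _ _ e1
    rw [nsmul_eq_mul] at e2
    nlinarith [e2]
  have hTpos : (0 : ℝ) < T.card := lt_of_lt_of_le (by positivity) hcard
  have h11 : (τ * T.card) ^ 2 ≤ T.card + τ ^ 2 / 2 * T.card ^ 2 := by
    have e1 : (τ * T.card) ^ 2 ≤ (∑ z ∈ A, m z * ‖S z‖) ^ 2 :=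
      pow_le_pow_left₀ (by positivity) h2 2
    linarith
  have h12 : τ ^ 2 / 2 * (T.card : ℝ) ^ 2 ≤ T.card := by nlinarith
  have h13 : τ ^ 2 / 2 * (T.card : ℝ) ≤ 1 := by
    by_contra h
    push Not at h
    nlinarith
  have h14 : 4 ≤ τ ^ 2 * (T.card : ℝ) := by
    rw [div_le_iff₀ (by positivity)] at hcard
    linarith
  linarith

end Crest.Agent.R2.E717
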