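import Crest.Agent.R2.End717a

/-!
# R2 (Gaussian moat), Theorem S, end game: counting Gaussian integers in discs, pigeonhole
-/

set_option autoImplicit false

namespace Crest.Agent.R2.E717

open Finset

theorem abs_re_le (z : GaussianInt) : |(z.re : ℝ)| ≤ N z := by
  have := Complex.abs_re_le_norm (z : ℂ)
  rwa [← GaussianInt.intCast_re] at this

theorem abs_im_le (z : GaussianInt) : |(z.im : ℝ)| ≤ N z := by
  have := Complex.abs_im_le_norm (z : ℂ)
  rwa [← GaussianInt.intCast_im] at this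

theorem N_sq (z : GaussianInt) : N z ^ 2 = (z.re : ℝ) ^ 2 + (z.im : ℝ) ^ 2 := by
  unfold N
  rw [← Complex.normSq_eq_norm_sq, Complex.normSq_apply, ← GaussianInt.intCast_re,
    ← GaussianInt.intCast_im]
  ring

theorem N_mul (z w : GaussianInt) : N (z * w) = N z * N w := by
  unfold N; rw [GaussianInt.toComplex_mul, norm_mul]

theorem N_pow (z : GaussianInt) (k : ℕ) : N (z ^ k) = N z ^ k := by
  unfold N; rw [map_pow, norm_pow]

theorem N_zero : N 0 = 0 := by unfold N; simp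

theorem N_eq_zero {z : GaussianInt} : N z = 0 ↔ z = 0 := by
  unfold N; rw [norm_eq_zero, GaussianInt.toComplex_eq_zero]

theorem N_nonneg (z : GaussianInt) : 0 ≤ N z := norm_nonneg _

theorem N_sub_comm (z w : GaussianInt) : N (z - w) = N (w - z) := by
  unfold N; rw [GaussianInt.toComplex_sub, GaussianInt.toComplex_sub, norm_sub_rev]

theorem N_sub_le (z w : GaussianInt) : N (z - w) ≤ N z + N w := by
  unfold N; rw [GaussianInt.toComplex_sub]; exact norm_sub_le _ _

theorem N_sub_le_sub (a b c : GaussianInt) : N (a - c) ≤ N (a - b) + N (b - c) := by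
  unfold N; simp only [GaussianInt.toComplex_sub]; exact norm_sub_le_norm_sub_add_norm_sub _ _ _

theorem one_le_N {z : GaussianInt} (h : z ≠ 0) : 1 ≤ N z := by
  have h1 : N z ^ 2 = (((z.re ^ 2 + z.im ^ 2 : ℤ)) : ℝ) := by rw [N_sq]; push_cast; ring
  have h2 : 0 < N z ^ 2 := by
    have : N z ≠ 0 := fun h0 => h (N_eq_zero.mp h0)
    positivity
  have h3 : (1 : ℝ) ≤ N z ^ 2 := by
    rw [h1] at h2 ⊢
    exact_mod_cast (by exact_mod_cast h2 : 0 < (z.re ^ 2 + z.im ^ 2 : ℤ))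
  nlinarith [N_nonneg z]

/-- the box `|re|, |im| ≤ k` -/
noncomputable def box (k : ℤ) : Finset GaussianInt :=
  (Finset.Icc (-k) k ×ˢ Finset.Icc (-k) k : Finset (ℤ × ℤ)).map
    ⟨fun p => (⟨p.1, p.2⟩ : GaussianInt), by
      intro p q h
      have h1 : p.1 = q.1 := congrArg Zsqrtd.re h
      have h2 : p.2 = q.2 := congrArg Zsqrtd.im h
      exact Prod.ext h1 h2⟩

theorem mem_box {k : ℤ} {z : GaussianInt} :
    z ∈ box k ↔ (-k ≤ z.re ∧ z.re ≤ k) ∧ (-k ≤ z.im ∧ z.im ≤ k) := by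
  unfold box
  simp only [Finset.mem_map, Finset.mem_product, Finset.mem_Icc, Prod.exists]
  constructor
  · rintro ⟨a, b, h, rfl⟩
    exact h
  · intro h
    exact ⟨z.re, z.im, h, rfl⟩

theorem card_box {k : ℤ} (hk : 0 ≤ k) : ((box k).card : ℝ) = (2 * k + 1 : ℝ) ^ 2 := by
  unfold box
  rw [Finset.card_map, Finset.card_product, Int.card_Icc]
  have h : ((k + 1 - -k).toNat : ℝ) = 2 * k + 1 := by
    have h1 : ((k + 1 - -k).toNat : ℤ) = k + 1 - -k := Int.toNat_of_nonneg (by omega)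
    have h2 : (((k + 1 - -k).toNat : ℤ) : ℝ) = ((k + 1 - -k : ℤ) : ℝ) := by rw [h1]
    push_cast at h2
    linarith
  push_cast
  rw [h]; ring

/-- Gaussian integers of absolute value `≤ T` -/
noncomputable def disc (T : ℝ) : Finset GaussianInt := by
  classical exact (box ⌊T⌋).filter (fun z => N z ≤ T)

theorem mem_disc {T : ℝ} {z : GaussianInt} : z ∈ disc T ↔ N z ≤ T := by
  classical
  unfold disc
  rw [Finset.mem_filter, mem_box]
  refine ⟨fun h => h.2, fun h => ⟨?_, h⟩⟩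
  have h1 := (abs_re_le z).trans h
  have h2 := (abs_im_le z).trans h
  rw [abs_le] at h1 h2
  have f1 : z.re ≤ ⌊T⌋ := Int.le_floor.mpr h1.2
  have f2 : z.im ≤ ⌊T⌋ := Int.le_floor.mpr h2.2
  have f3 : -z.re ≤ ⌊T⌋ := Int.le_floor.mpr (by push_cast; linarith [h1.1])
  have f4 : -z.im ≤ ⌊T⌋ := Int.le_floor.mpr (by push_cast; linarith [h2.1])
  omega

theorem card_disc_le {T : ℝ} (hT : 1 ≤ T) : ((disc T).card : ℝ) ≤ 9 * T ^ 2 := by
  classical
  have h0 : 0 ≤ ⌊T⌋ := Int.floor_nonneg.mpr (by linarith)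
  have h1 : ((disc T).card : ℝ) ≤ (box ⌊T⌋).card := by
    unfold disc
    exact_mod_cast Finset.card_filter_le _ _
  rw [card_box h0] at h1
  have h2 : ((⌊T⌋ : ℤ) : ℝ) ≤ T := Int.floor_le T
  have h3 : (0 : ℝ) ≤ (⌊T⌋ : ℝ) := by exact_mod_cast h0
  nlinarith

theorem le_card_disc {T : ℝ} (hT : 2 ≤ T) : T ^ 2 / 4 ≤ ((disc T).card : ℝ) := by
  classical
  have h0 : 0 ≤ ⌊T / 2⌋ := Int.floor_nonneg.mpr (by linarith)
  have hsub : box ⌊T / 2⌋ ⊆ disc T := by
    intro z hz
    rw [mem_box] at hz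
    rw [mem_disc]
    have h2 : ((⌊T / 2⌋ : ℤ) : ℝ) ≤ T / 2 := Int.floor_le _
    have a1 : (z.re : ℝ) ≤ T / 2 := le_trans (by exact_mod_cast hz.1.2) h2
    have a2 : (z.im : ℝ) ≤ T / 2 := le_trans (by exact_mod_cast hz.2.2) h2
    have a3 : -(T / 2) ≤ (z.re : ℝ) := by
      have : ((-⌊T / 2⌋ : ℤ) : ℝ) ≤ z.re := by exact_mod_cast hz.1.1
      push_cast at this
      linarith
    have a4 : -(T / 2) ≤ (z.im : ℝ) := by
      have : ((-⌊T / 2⌋ : ℤ) : ℝ) ≤ z.im := by exact_mod_cast hz.2.1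
      push_cast at this
      linarith
    have h5 : N z ^ 2 ≤ T ^ 2 := by
      rw [N_sq]
      nlinarith [mul_nonneg (by linarith : 0 ≤ T / 2 - (z.re : ℝ)) (by linarith : 0 ≤ T / 2 + (z.re : ℝ)),
        mul_nonneg (by linarith : 0 ≤ T / 2 - (z.im : ℝ)) (by linarith : 0 ≤ T / 2 + (z.im : ℝ))]
    exact le_of_sq_le_sq h5 (by linarith)
  have h1 : ((box ⌊T / 2⌋).card : ℝ) ≤ (disc T).card := by
    exact_mod_cast Finset.card_le_card hsub
  rw [card_box h0] at h1
  have h3 : T / 2 - 1 < ⌊T / 2⌋ := Int.sub_one_lt_floor _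
  nlinarith

/-- pigeonhole with real bounds -/
theorem exists_fiber {α β : Type*} [DecidableEq β] (s : Finset α) (t : Finset β) (f : α → β)
    (hf : ∀ a ∈ s, f a ∈ t) (b : ℝ) (hb : b * t.card ≤ s.card) (ht : t.Nonempty) :
    ∃ y ∈ t, b ≤ ((s.filter fun a => f a = y).card : ℝ) := by
  have := Finset.exists_le_card_fiber_of_nsmul_le_card_of_maps_to (M := ℝ) hf ht (b := b)
    (by rw [nsmul_eq_mul]; linarith [mul_comm b (t.card : ℝ)])
  exact this

/-- existence of a maximal `R`-separated subset -/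
theorem exists_separated (MM : Finset GaussianInt) (R : ℝ) (hR : 0 ≤ R) :
    ∃ S ⊆ MM, (∀ a ∈ S, ∀ b ∈ S, a ≠ b → R < N (a - b)) ∧ ∀ a ∈ MM, ∃ b ∈ S, N (a - b) ≤ R := by
  classical
  set F : Finset (Finset GaussianInt) :=
    MM.powerset.filter (fun S => ∀ a ∈ S, ∀ b ∈ S, a ≠ b → R < N (a - b)) with hF
  have hne : F.Nonempty := ⟨∅, by simp [hF]⟩
  obtain ⟨S, hS, hmax⟩ := Finset.exists_max_image F Finset.card hne
  rw [hF, Finset.mem_filter, Finset.mem_powerset] at hS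
  refine ⟨S, hS.1, hS.2, fun a ha => ?_⟩
  by_contra hcon
  push Not at hcon
  have haS : a ∉ S := by
    intro h
    have := hcon a h
    rw [sub_self, N_zero] at this
    linarith
  have hins : insert a S ∈ F := by
    rw [hF, Finset.mem_filter, Finset.mem_powerset]
    refine ⟨Finset.insert_subset ha hS.1, ?_⟩
    intro b hb d hd hbd
    rw [Finset.mem_insert] at hb hd
    rcases hb with rfl | hb <;> rcases hd with rfl | hd
    · exact absurd rfl hbd
    · exact hcon d hd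
    · rw [N_sub_comm]; exact hcon b hb
    · exact hS.2 b hb d hd hbd
  have := hmax _ hins
  rw [Finset.card_insert_of_notMem haS] at this
  omega

end Crest.Agent.R2.E717
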