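import Crest.Agent.R2.End717c

/-!
# R2 (Gaussian moat), Theorem S, end game, step (S4): the squares appear
-/

set_option autoImplicit false

namespace Crest.Agent.R2.E717

open Finset

/-- (S3) consequence: some ball of radius `ℓ²/E⁴` contains many of the `M`. -/
theorem exists_ball (ℓ E : ℝ) (hE : 10 ^ 4 ≤ E) (hℓ : E ^ 10 ≤ ℓ)
    (MM : Finset GaussianInt) (c : GaussianInt) (hc0 : c ≠ 0) (hc : N c ≤ E)
    (hlow : ∀ M ∈ MM, ℓ ^ 4 / E ≤ N M) (hup : ∀ M ∈ MM, N M ≤ ℓ ^ 4 * E)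
    (hcard : ℓ ^ 4 / E ≤ (MM.card : ℝ))
    (A : Finset GaussianInt) (m : GaussianInt → ℝ)
    (hA : ∀ z ∈ A, N z ≤ ℓ ^ 6)
    (hP1 : ∀ v : GaussianInt, ∀ B ⊆ A, (∀ z ∈ B, N (z - v) ≤ ℓ ^ 4) → ∑ z ∈ B, m z ≤ E / ℓ ^ 2)
    (hbig : ∀ M ∈ MM, 1 / E ≤ ‖mhat A m ((c : ℂ) / M)‖)
    (hspec : Spec1 A m) :
    ∃ M0 ∈ MM, ∃ T ⊆ MM, (∀ M ∈ T, N (M - M0) ≤ ℓ ^ 2 / E ^ 4) ∧
      ℓ ^ 2 / E ^ 22 ≤ (T.card : ℝ) := by
  classical
  have hE0 : 0 < E := by linarith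
  have hE1 : 1 ≤ E := by linarith
  have hℓ0 : 0 < ℓ := lt_of_lt_of_le (by positivity) hℓ
  obtain ⟨S, hSM, hsep, hmax⟩ := exists_separated MM (ℓ ^ 2 / E ^ 4) (by positivity)
  have hS := separated_card_le ℓ E hE hℓ S c hc0 hc (fun M hM => hlow M (hSM hM))
    (fun M hM => hup M (hSM hM)) hsep A m hA hP1 (fun M hM => hbig M (hSM hM)) hspec
  choose! f hf1 hf2 using hmax
  have hMMpos : (0 : ℝ) < MM.card := lt_of_lt_of_le (by positivity) hcard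
  have hne : MM.Nonempty := Finset.card_pos.mp (by exact_mod_cast hMMpos)
  obtain ⟨M1, hM1⟩ := hne
  obtain ⟨M0, hM0, hT⟩ := exists_fiber MM S f hf1 (ℓ ^ 2 / E ^ 22) (by
    have h1 : ℓ ^ 2 / E ^ 22 * (S.card : ℝ) ≤ ℓ ^ 2 / E ^ 22 * (E ^ 21 * ℓ ^ 2) :=
      mul_le_mul_of_nonneg_left hS (by positivity)
    have h2 : ℓ ^ 2 / E ^ 22 * (E ^ 21 * ℓ ^ 2) = ℓ ^ 4 / E := by
      field_simp
    linarith) ⟨f M1, hf1 M1 hM1⟩
  refine ⟨M0, hSM hM0, _, Finset.filter_subset _ _, ?_, hT⟩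
  intro M hM
  rw [Finset.mem_filter] at hM
  rw [← hM.2]
  exact hf2 M hM.1

/-- approximation of `x = c a q² / (M M')` by `ζ q²`, `ζ = c a / M0²` -/
theorem approx_bound (c a q M M' M0 : GaussianInt) (E b R : ℝ) (hb : 0 < b) (hR : 0 ≤ R)
    (hc : N c ≤ E) (hM : b ≤ N M) (hM' : b ≤ N M') (hM0 : b ≤ N M0)
    (h1 : N (M - M0) ≤ R) (h2 : N (M' - M0) ≤ R) (haq : M' - M = q ^ 2 * a) :
    ‖(c : ℂ) / M - c / M' - (c * a / M0 ^ 2 : ℂ) * (q : ℂ) ^ 2‖ ≤ 4 * E * R ^ 2 / b ^ 3 ∧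
      ‖(c : ℂ) / M - c / M'‖ ≤ 2 * E * R / b ^ 2 := by
  have hE : 0 ≤ E := (N_nonneg c).trans hc
  have hMp : 0 < N M := lt_of_lt_of_le hb hM
  have hM'p : 0 < N M' := lt_of_lt_of_le hb hM'
  have hM0p : 0 < N M0 := lt_of_lt_of_le hb hM0
  have hMne : (M : ℂ) ≠ 0 := norm_pos_iff.mp hMp
  have hM'ne : (M' : ℂ) ≠ 0 := norm_pos_iff.mp hM'p
  have hM0ne : (M0 : ℂ) ≠ 0 := norm_pos_iff.mp hM0p
  have hD : ((M' : ℂ) - M) = (q : ℂ) ^ 2 * a := by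
    rw [← GaussianInt.toComplex_sub, haq, GaussianInt.toComplex_mul, map_pow]
  have hDn : ‖(M' : ℂ) - M‖ ≤ 2 * R := by
    have := N_sub_le_sub M' M0 M
    rw [N_sub_comm M0 M] at this
    have h3 : N (M' - M) = ‖(M' : ℂ) - M‖ := by unfold N; rw [GaussianInt.toComplex_sub]
    rw [h3] at this
    linarith
  have e1 : ‖(M0 : ℂ) - M‖ ≤ R := by
    rw [← GaussianInt.toComplex_sub]
    change N (M0 - M) ≤ R
    rwa [N_sub_comm]
  have e2 : ‖(M0 : ℂ) - M'‖ ≤ R := by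
    rw [← GaussianInt.toComplex_sub]
    change N (M0 - M') ≤ R
    rwa [N_sub_comm]
  have hx : (c : ℂ) / M - c / M' = c * ((M' : ℂ) - M) * ((M : ℂ)⁻¹ * (M' : ℂ)⁻¹) := by
    field_simp
  have i1 : ‖(M : ℂ)⁻¹‖ ≤ b⁻¹ := by
    rw [norm_inv]; exact inv_anti₀ hb hM
  have i2 : ‖(M' : ℂ)⁻¹‖ ≤ b⁻¹ := by
    rw [norm_inv]; exact inv_anti₀ hb hM'
  have i3 : ‖(M0 : ℂ)⁻¹‖ ≤ b⁻¹ := by
    rw [norm_inv]; exact inv_anti₀ hb hM0
  have hbi : 0 < b⁻¹ := inv_pos.mpr hb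
  constructor
  · have hdiff : (c : ℂ) / M - c / M' - (c * a / M0 ^ 2 : ℂ) * (q : ℂ) ^ 2
        = c * ((M' : ℂ) - M) * ((((M0 : ℂ) - M) * ((M : ℂ)⁻¹ * (M' : ℂ)⁻¹ * (M0 : ℂ)⁻¹))
          + ((M0 : ℂ) - M') * ((M' : ℂ)⁻¹ * (M0 : ℂ)⁻¹ * (M0 : ℂ)⁻¹)) := by
      have h3 : (c * a / M0 ^ 2 : ℂ) * (q : ℂ) ^ 2 = c * ((M' : ℂ) - M) / M0 ^ 2 := by
        rw [hD]; ring
      rw [h3, hx]
      field_simp
      ring
    rw [hdiff, norm_mul, norm_mul]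
    have g1 : ‖(((M0 : ℂ) - M) * ((M : ℂ)⁻¹ * (M' : ℂ)⁻¹ * (M0 : ℂ)⁻¹))
          + ((M0 : ℂ) - M') * ((M' : ℂ)⁻¹ * (M0 : ℂ)⁻¹ * (M0 : ℂ)⁻¹)‖ ≤ 2 * R * b⁻¹ ^ 3 := by
      refine (norm_add_le _ _).trans ?_
      simp only [norm_mul]
      have k1 : ‖(M0 : ℂ) - M‖ * (‖(M : ℂ)⁻¹‖ * ‖(M' : ℂ)⁻¹‖ * ‖(M0 : ℂ)⁻¹‖)
          ≤ R * (b⁻¹ * b⁻¹ * b⁻¹) := by gcongr
      have k2 : ‖(M0 : ℂ) - M'‖ * (‖(M' : ℂ)⁻¹‖ * ‖(M0 : ℂ)⁻¹‖ * ‖(M0 : ℂ)⁻¹‖)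
          ≤ R * (b⁻¹ * b⁻¹ * b⁻¹) := by gcongr
      calc _ ≤ R * (b⁻¹ * b⁻¹ * b⁻¹) + R * (b⁻¹ * b⁻¹ * b⁻¹) := add_le_add k1 k2
        _ = 2 * R * b⁻¹ ^ 3 := by ring
    calc ‖(c : ℂ)‖ * ‖(M' : ℂ) - M‖ * _ ≤ E * (2 * R) * (2 * R * b⁻¹ ^ 3) := by
          refine mul_le_mul (mul_le_mul hc hDn (norm_nonneg _) hE) g1 (norm_nonneg _) (by positivity)
      _ = 4 * E * R ^ 2 / b ^ 3 := by field_simp; ring
  · rw [hx, norm_mul, norm_mul, norm_mul]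
    calc ‖(c : ℂ)‖ * ‖(M' : ℂ) - M‖ * (‖(M : ℂ)⁻¹‖ * ‖(M' : ℂ)⁻¹‖)
        ≤ E * (2 * R) * (b⁻¹ * b⁻¹) := by
          refine mul_le_mul (mul_le_mul hc hDn (norm_nonneg _) hE)
            (mul_le_mul i1 i2 (norm_nonneg _) hbi.le) (by positivity) (by positivity)
      _ = 2 * E * R / b ^ 2 := by field_simp

/-- (S4) -/
theorem squares_appear (ℓ E : ℝ) (hE : 10 ^ 4 ≤ E) (hℓ : E ^ 20 ≤ ℓ)
    (T : Finset GaussianInt) (M0 c : GaussianInt) (hc0 : c ≠ 0) (hc : N c ≤ E)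
    (hlow : ∀ M ∈ T, ℓ ^ 4 / E ≤ N M) (hM0low : ℓ ^ 4 / E ≤ N M0) (hM0up : N M0 ≤ ℓ ^ 4 * E)
    (hTball : ∀ M ∈ T, N (M - M0) ≤ ℓ ^ 2 / E ^ 4)
    (hT : ℓ ^ 2 / E ^ 22 ≤ (T.card : ℝ))
    (q : GaussianInt → GaussianInt)
    (hq1 : ∀ M ∈ T, ℓ / E ^ 14 ≤ N (q M)) (hq2 : ∀ M ∈ T, N (q M) ≤ E * (ℓ / E ^ 14))
    (hgcd : ∀ M ∈ T, ∀ M' ∈ T, q M = q M' → (q M) ^ 2 ∣ M' - M)
    (A : Finset GaussianInt) (m : GaussianInt → ℝ)
    (hm : ∀ z ∈ A, 0 ≤ m z) (hsum : ∑ z ∈ A, m z = 1)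
    (hbig : ∀ M ∈ T, 1 / E ≤ ‖mhat A m ((c : ℂ) / M)‖) :
    ∃ (X : Finset GaussianInt) (x : GaussianInt → ℂ) (ζ : ℂ),
      (∀ u ∈ X, N u ≤ ℓ) ∧ (∀ u ∈ X, 1 / (2 * E ^ 2) ≤ ‖mhat A m (x u)‖) ∧
      (∀ u ∈ X, ‖x u‖ ≤ 1 / (20 * ℓ ^ 6)) ∧ (∀ u ∈ X, ‖x u - ζ * (u : ℂ) ^ 2‖ ≤ 1 / (8 * ℓ ^ 8)) ∧
      1 / (ℓ ^ 8 * E ^ 2) ≤ ‖ζ‖ ∧ ℓ ^ 2 / E ^ 120 ≤ (X.card : ℝ) := by
  classical
  have hE0 : 0 < E := by linarith
  have hE1 : 1 ≤ E := by linarith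
  have hℓ1 : 1 ≤ ℓ := le_trans (one_le_pow₀ hE1) hℓ
  have hℓ0 : 0 < ℓ := by linarith
  set Q : ℝ := ℓ / E ^ 14 with hQ
  have hQE : 1 ≤ Q := by
    rw [hQ, le_div_iff₀ (by positivity), one_mul]
    exact le_trans (pow_le_pow_right₀ hE1 (by norm_num)) hℓ
  have hQ0 : 0 < Q := by linarith
  set W : Finset GaussianInt := disc (E * Q) with hW
  have hWcard : (W.card : ℝ) ≤ 9 * (E * Q) ^ 2 := card_disc_le (by nlinarith)
  have hqW : ∀ M ∈ T, q M ∈ W := fun M hM => mem_disc.mpr (hq2 M hM)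
  have hMne : ∀ M ∈ T, M ≠ 0 := by
    intro M hM h0
    have := hlow M hM
    rw [h0, N_zero] at this
    have h2 : 0 < ℓ ^ 4 / E := by positivity
    linarith
  -- size of `a`
  have hTT : ∀ M ∈ T, ∀ M' ∈ T, N (M' - M) ≤ 2 * (ℓ ^ 2 / E ^ 4) := by
    intro M hM M' hM'
    have h1 := N_sub_le_sub M' M0 M
    rw [N_sub_comm M0 M] at h1
    have h2 := hTball M hM
    have h3 := hTball M' hM'
    linarith
  have ha : ∀ M ∈ T, ∀ M' ∈ T, ∀ a : GaussianInt, M' - M = (q M) ^ 2 * a → N a ≤ 2 * E ^ 24 := by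
    intro M hM M' hM' a h
    have h1 := hTT M hM M' hM'
    rw [h, N_mul, N_pow] at h1
    have h2 := hq1 M hM
    have h3 : Q ^ 2 ≤ N (q M) ^ 2 := pow_le_pow_left₀ hQ0.le h2 2
    have h4 : Q ^ 2 * N a ≤ 2 * (ℓ ^ 2 / E ^ 4) :=
      (mul_le_mul_of_nonneg_right h3 (N_nonneg a)).trans h1
    have h5 : Q ^ 2 * (2 * E ^ 24) = 2 * (ℓ ^ 2 / E ^ 4) := by
      rw [hQ]; field_simp
    rw [← h5] at h4
    exact le_of_mul_le_mul_left h4 (by positivity)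
  -- fibres
  set Tq : GaussianInt → Finset GaussianInt := fun u => T.filter (fun M => q M = u) with hTq
  have hDcard : ((disc (2 * E ^ 24)).card : ℝ) ≤ 36 * E ^ 48 := by
    have h1 : 1 ≤ 2 * E ^ 24 := by
      have := one_le_pow₀ (n := 24) hE1
      linarith
    refine (card_disc_le h1).trans (le_of_eq (by ring))
  have hfib : ∀ u : GaussianInt, ((Tq u).card : ℝ) ≤ 36 * E ^ 48 := by
    intro u
    rcases (Tq u).eq_empty_or_nonempty with h0 | ⟨M1, hM1⟩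
    · rw [h0]; simp; positivity
    · refine le_trans ?_ hDcard
      rw [hTq, Finset.mem_filter] at hM1
      have hex : ∀ M ∈ Tq u, ∃ a : GaussianInt, M - M1 = u ^ 2 * a := by
        intro M hM
        rw [hTq, Finset.mem_filter] at hM
        have := hgcd M1 hM1.1 M hM.1 (by rw [hM1.2, hM.2])
        rw [hM1.2] at this
        exact this
      choose! g hg using hex
      have : (Tq u).card ≤ (disc (2 * E ^ 24)).card := by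
        refine Finset.card_le_card_of_injOn g ?_ ?_
        · intro M hM
          have h1 := hg M hM
          have hM' : M ∈ T := (Finset.mem_filter.mp hM).1
          rw [Finset.mem_coe, mem_disc]
          refine ha M1 hM1.1 M hM' (g M) ?_
          rw [hM1.2]; exact h1
        · intro M hM M' hM' h
          have h1 := hg M hM
          have h2 := hg M' hM'
          rw [h, ← h2] at h1
          exact sub_left_injective h1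
      exact_mod_cast this
  -- good `u`
  set Good : Finset GaussianInt := W.filter (fun u => 4 * E ^ 2 ≤ ((Tq u).card : ℝ)) with hGood
  have hsumT : (T.card : ℝ) = ∑ u ∈ W, ((Tq u).card : ℝ) := by
    rw [Finset.card_eq_sum_card_fiberwise (f := q) (t := W) (fun M hM => hqW M hM)]
    push_cast
    rfl
  have hGoodcard : ℓ ^ 2 / E ^ 71 ≤ (Good.card : ℝ) := by
    have h1 : ∑ u ∈ W, ((Tq u).card : ℝ)
        ≤ ∑ u ∈ W, (4 * E ^ 2 + if u ∈ Good then 36 * E ^ 48 else 0) := by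
      refine Finset.sum_le_sum fun u hu => ?_
      by_cases hg : u ∈ Good
      · rw [if_pos hg]
        have := hfib u
        have : 0 ≤ 4 * E ^ 2 := by positivity
        linarith
      · rw [if_neg hg]
        have : ¬ (4 * E ^ 2 ≤ ((Tq u).card : ℝ)) := by
          intro h
          exact hg (by rw [hGood, Finset.mem_filter]; exact ⟨hu, h⟩)
        linarith
    rw [Finset.sum_add_distrib, Finset.sum_const, nsmul_eq_mul, ← Finset.sum_filter] at h1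
    have h2 : W.filter (fun u => u ∈ Good) = Good := by
      ext u
      rw [Finset.mem_filter, hGood, Finset.mem_filter]
      tauto
    rw [h2, Finset.sum_const, nsmul_eq_mul, ← hsumT] at h1
    have h3 : (W.card : ℝ) * (4 * E ^ 2) ≤ 36 * ℓ ^ 2 / E ^ 24 := by
      calc (W.card : ℝ) * (4 * E ^ 2) ≤ 9 * (E * Q) ^ 2 * (4 * E ^ 2) :=
            mul_le_mul_of_nonneg_right hWcard (by positivity)
        _ = 36 * ℓ ^ 2 / E ^ 24 := by rw [hQ]; field_simp; ring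
    have h4 : 36 * ℓ ^ 2 / E ^ 24 ≤ (ℓ ^ 2 / E ^ 22) / 2 := by
      rw [div_le_iff₀ (by positivity)]
      have : ℓ ^ 2 / E ^ 22 / 2 * E ^ 24 = ℓ ^ 2 * E ^ 2 / 2 := by field_simp
      rw [this]
      have h5 : 72 ≤ E ^ 2 := by nlinarith
      have h6 : 0 < ℓ ^ 2 := by positivity
      nlinarith
    have h5 : ℓ ^ 2 / E ^ 22 / 2 ≤ (Good.card : ℝ) * (36 * E ^ 48) := by linarith
    have h6 : ℓ ^ 2 / E ^ 71 * (36 * E ^ 48) ≤ ℓ ^ 2 / E ^ 22 / 2 := by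
      have h7 : ℓ ^ 2 / E ^ 71 * (36 * E ^ 48) = (ℓ ^ 2 / E ^ 22 / 2) * (72 / E) := by
        field_simp; ring
      rw [h7]
      refine mul_le_of_le_one_right (by positivity) ?_
      rw [div_le_one hE0]
      linarith
    exact le_of_mul_le_mul_right (h6.trans h5) (by positivity)
  -- pairs
  have hpair : ∀ u ∈ Good, ∃ M ∈ T, ∃ M' ∈ T, ∃ a : GaussianInt, a ≠ 0 ∧ N a ≤ 2 * E ^ 24 ∧
      M' - M = u ^ 2 * a ∧ 1 / (2 * E ^ 2) ≤ ‖mhat A m ((c : ℂ) / M - c / M')‖ := by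
    intro u hu
    rw [hGood, Finset.mem_filter] at hu
    obtain ⟨M, hM, M', hM', hne, hbound⟩ := exists_pair A m hm hsum (Tq u)
      (fun M => (c : ℂ) / M) (1 / E) (by positivity)
      (fun M hM => hbig M (Finset.mem_filter.mp hM).1)
      (by
        have : 4 / (1 / E) ^ 2 = 4 * E ^ 2 := by field_simp
        rw [this]; exact hu.2)
    rw [hTq, Finset.mem_filter] at hM hM'
    obtain ⟨a, haa⟩ := hgcd M hM.1 M' hM'.1 (by rw [hM.2, hM'.2])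
    refine ⟨M, hM.1, M', hM'.1, a, ?_, ha M hM.1 M' hM'.1 a haa, ?_, ?_⟩
    · rintro rfl
      rw [mul_zero, sub_eq_zero] at haa
      exact hne haa.symm
    · rw [haa, hM.2]
    · refine le_trans (le_of_eq ?_) hbound
      field_simp
  choose! f1 hf1 f2 hf2 fa hfa0 hfa1 hfa2 hfa3 using hpair
  have hGne : (0 : ℝ) < Good.card := lt_of_lt_of_le (by positivity) hGoodcard
  obtain ⟨u0, hu0⟩ : Good.Nonempty := Finset.card_pos.mp (by exact_mod_cast hGne)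
  obtain ⟨a0, ha0, hX⟩ := exists_fiber Good (disc (2 * E ^ 24)) fa
    (fun u hu => mem_disc.mpr (hfa1 u hu)) (ℓ ^ 2 / E ^ 120) (by
      calc ℓ ^ 2 / E ^ 120 * ((disc (2 * E ^ 24)).card : ℝ) ≤ ℓ ^ 2 / E ^ 120 * (36 * E ^ 48) :=
            mul_le_mul_of_nonneg_left hDcard (by positivity)
        _ = ℓ ^ 2 / E ^ 71 * (36 / E) := by field_simp
        _ ≤ ℓ ^ 2 / E ^ 71 := by
            refine mul_le_of_le_one_right (by positivity) ?_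
            rw [div_le_one hE0]; linarith
        _ ≤ (Good.card : ℝ) := hGoodcard) ⟨fa u0, mem_disc.mpr (hfa1 u0 hu0)⟩
  have hXsub : ∀ u ∈ Good.filter (fun u => fa u = a0), u ∈ Good ∧ fa u = a0 := by
    intro u hu; exact Finset.mem_filter.mp hu
  have hbpos : 0 < ℓ ^ 4 / E := by positivity
  have happ : ∀ u ∈ Good.filter (fun u => fa u = a0),
      ‖(c : ℂ) / f1 u - c / f2 u - (c * a0 / M0 ^ 2 : ℂ) * (u : ℂ) ^ 2‖
        ≤ 4 * E * (ℓ ^ 2 / E ^ 4) ^ 2 / (ℓ ^ 4 / E) ^ 3 ∧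
      ‖(c : ℂ) / f1 u - c / f2 u‖ ≤ 2 * E * (ℓ ^ 2 / E ^ 4) / (ℓ ^ 4 / E) ^ 2 := by
    intro u hu
    obtain ⟨hu1, hu2⟩ := hXsub u hu
    refine approx_bound c a0 u (f1 u) (f2 u) M0 E (ℓ ^ 4 / E) (ℓ ^ 2 / E ^ 4) hbpos
      (by positivity) hc (hlow _ (hf1 u hu1)) (hlow _ (hf2 u hu1)) hM0low
      (hTball _ (hf1 u hu1)) (hTball _ (hf2 u hu1)) ?_
    rw [hfa2 u hu1, hu2]
  refine ⟨Good.filter (fun u => fa u = a0), fun u => (c : ℂ) / f1 u - c / f2 u,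
    (c * a0 / M0 ^ 2 : ℂ), ?_, ?_, ?_, ?_, ?_, hX⟩
  · intro u hu
    obtain ⟨hu1, hu2⟩ := hXsub u hu
    have h1 : u ∈ W := (Finset.mem_filter.mp hu1).1
    rw [hW, mem_disc] at h1
    refine h1.trans ?_
    rw [hQ, mul_div_assoc', div_le_iff₀ (by positivity)]
    have h2 : E ^ 1 ≤ E ^ 14 := pow_le_pow_right₀ hE1 (by norm_num)
    rw [pow_one] at h2
    nlinarith
  · intro u hu
    exact hfa3 u (hXsub u hu).1
  · intro u hu
    refine (happ u hu).2.trans ?_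
    have h1 : 2 * E * (ℓ ^ 2 / E ^ 4) / (ℓ ^ 4 / E) ^ 2 = (1 / (20 * ℓ ^ 6)) * (40 / E) := by
      field_simp; ring
    rw [h1]
    refine mul_le_of_le_one_right (by positivity) ?_
    rw [div_le_one hE0]; linarith
  · intro u hu
    refine (happ u hu).1.trans ?_
    have h1 : 4 * E * (ℓ ^ 2 / E ^ 4) ^ 2 / (ℓ ^ 4 / E) ^ 3 = (1 / (8 * ℓ ^ 8)) * (32 / E ^ 4) := by
      field_simp; ring
    rw [h1]
    refine mul_le_of_le_one_right (by positivity) ?_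
    rw [div_le_one (by positivity)]
    have h2 : E ^ 1 ≤ E ^ 4 := pow_le_pow_right₀ hE1 (by norm_num)
    rw [pow_one] at h2
    linarith
  · rw [norm_div, norm_mul, norm_pow]
    have h1 := one_le_N hc0
    have ha0ne : a0 ≠ 0 := by
      obtain ⟨u, hu⟩ : (Good.filter (fun u => fa u = a0)).Nonempty := by
        refine Finset.card_pos.mp ?_
        have : (0 : ℝ) < (Good.filter (fun u => fa u = a0)).card :=
          lt_of_lt_of_le (by positivity) hX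
        exact_mod_cast this
      obtain ⟨hu1, hu2⟩ := hXsub u hu
      rw [← hu2]
      exact hfa0 u hu1
    have h2 := one_le_N ha0ne
    have hM0p : 0 < N M0 := lt_of_lt_of_le hbpos hM0low
    have h3 : N M0 ^ 2 ≤ (ℓ ^ 4 * E) ^ 2 := pow_le_pow_left₀ hM0p.le hM0up 2
    change 1 / (ℓ ^ 8 * E ^ 2) ≤ N c * N a0 / N M0 ^ 2
    rw [div_le_div_iff₀ (by positivity) (by positivity), one_mul]
    have h4 : 1 ≤ N c * N a0 := by nlinarith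
    have h5 : (ℓ ^ 4 * E) ^ 2 = ℓ ^ 8 * E ^ 2 := by ring
    rw [h5] at h3
    have h6 : 0 ≤ ℓ ^ 8 * E ^ 2 := by positivity
    nlinarith

end Crest.Agent.R2.E717
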