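import Crest.Agent.R2.Tri289

/-!
# R2 (Gaussian moat), blocks S0 (POS) and S2 (spectral lemma, both bounds)
(helper289)
-/

set_option autoImplicit false

namespace Crest.Agent.R2.Tri

open Finset

/-- weighted second moment of an exponential sum = quadratic form of the majorant. -/
theorem hasSum_wt_sq {ι : Type*} {r : ℝ} (hr : 0 < r) (hr2 : r ≤ 1 / 2) (T : Finset ι)
    (c : ι → ℂ) (y : ι → ℂ) :
    HasSum (fun v : GaussianInt => ((wt r v * ‖∑ a ∈ T, c a * chi v (y a)‖ ^ 2 : ℝ) : ℂ))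
      (∑ a ∈ T, ∑ b ∈ T, c a * (starRingEnd ℂ) (c b) * ((phi r (y a - y b) : ℝ) : ℂ)) := by
  have h : HasSum (fun v : GaussianInt => ∑ a ∈ T, ∑ b ∈ T,
      c a * (starRingEnd ℂ) (c b) * ((wt r v : ℂ) * chi v (y a - y b)))
      (∑ a ∈ T, ∑ b ∈ T, c a * (starRingEnd ℂ) (c b) * ((phi r (y a - y b) : ℝ) : ℂ)) := by
    apply hasSum_sum
    intro a _
    apply hasSum_sum
    intro b _
    exact (hasSum_phi hr hr2 (y a - y b)).mul_left _
  have hf : (fun v : GaussianInt => ((wt r v * ‖∑ a ∈ T, c a * chi v (y a)‖ ^ 2 : ℝ) : ℂ)) =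
      fun v : GaussianInt => ∑ a ∈ T, ∑ b ∈ T,
      c a * (starRingEnd ℂ) (c b) * ((wt r v : ℂ) * chi v (y a - y b)) := by
    funext v
    push_cast
    rw [← Complex.mul_conj', map_sum, Finset.sum_mul_sum, Finset.mul_sum]
    apply Finset.sum_congr rfl
    intro a _
    rw [Finset.mul_sum]
    apply Finset.sum_congr rfl
    intro b _
    rw [chi_sub_right, map_mul]
    ring
  rw [hf]
  exact h

theorem tsum_wt_sq_le {ι : Type*} {r : ℝ} (hr : 0 < r) (hr2 : r ≤ 1 / 2) (T : Finset ι)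
    (c : ι → ℂ) (y : ι → ℂ) (hc : ∀ a ∈ T, ‖c a‖ ≤ 1) (V : Finset GaussianInt) :
    ∑ v ∈ V, wt r v * ‖∑ a ∈ T, c a * chi v (y a)‖ ^ 2 ≤
      ∑ a ∈ T, ∑ b ∈ T, phi r (y a - y b) := by
  have h := hasSum_wt_sq hr hr2 T c y
  have h2 := (Complex.hasSum_iff _ _).mp h
  have h3 := h2.1
  simp only [Complex.ofReal_re] at h3
  refine le_trans (sum_le_hasSum V (fun v _ => ?_) h3) ?_
  · exact mul_nonneg (wt_nonneg _ _) (by positivity)
  · refine le_trans (Complex.re_le_norm _) ?_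
    refine le_trans (norm_sum_le _ _) ?_
    apply Finset.sum_le_sum
    intro a ha
    refine le_trans (norm_sum_le _ _) ?_
    apply Finset.sum_le_sum
    intro b hb
    rw [norm_mul, norm_mul, RCLike.norm_conj, Complex.norm_real, Real.norm_eq_abs,
      abs_of_nonneg (phi_nonneg hr _)]
    have h4 : ‖c a‖ * ‖c b‖ ≤ 1 := mul_le_one₀ (hc a ha) (norm_nonneg _) (hc b hb)
    calc ‖c a‖ * ‖c b‖ * phi r (y a - y b) ≤ 1 * phi r (y a - y b) := by
          gcongr
          exact phi_nonneg hr _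
      _ = phi r (y a - y b) := one_mul _

open Classical in
/-- (S2b), second moment form. -/
theorem upper_sq {ι : Type*} {R : ℝ} (hR : 1 ≤ R) (T : Finset ι)
    (c : ι → ℂ) (y : ι → ℂ) (hc : ∀ a ∈ T, ‖c a‖ ≤ 1) (V : Finset GaussianInt)
    (hV : ∀ v ∈ V, |(v.re : ℝ)| ≤ R ∧ |(v.im : ℝ)| ≤ R) :
    ∑ v ∈ V, ‖∑ a ∈ T, c a * chi v (y a)‖ ^ 2 ≤
      40 * R ^ 2 * (((T ×ˢ T).filter fun p => inR (1 / (2 * R)) (y p.1 - y p.2)).card : ℝ) := by
  set r : ℝ := 1 / (2 * R) with hrdef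
  have hr : 0 < r := by positivity
  have hr2 : r ≤ 1 / 2 := by
    rw [hrdef]
    apply one_div_le_one_div_of_le (by norm_num)
    linarith
  have hrR : 1 / (2 * r) = R := by rw [hrdef]; field_simp
  have h1 := tsum_wt_sq_le hr hr2 T c y hc V
  have h2 : ∑ v ∈ V, ‖∑ a ∈ T, c a * chi v (y a)‖ ^ 2 ≤
      10 * ∑ v ∈ V, wt r v * ‖∑ a ∈ T, c a * chi v (y a)‖ ^ 2 := by
    rw [Finset.mul_sum]
    apply Finset.sum_le_sum
    intro v hv
    have h3 := wt_lower hr v (by rw [hrR]; exact (hV v hv).1) (by rw [hrR]; exact (hV v hv).2)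
    have h4 : 0 ≤ ‖∑ a ∈ T, c a * chi v (y a)‖ ^ 2 := by positivity
    nlinarith
  have h5 : ∑ a ∈ T, ∑ b ∈ T, phi r (y a - y b) ≤
      4 * R ^ 2 * (((T ×ˢ T).filter fun p => inR r (y p.1 - y p.2)).card : ℝ) := by
    rw [← Finset.sum_product', Finset.card_filter]
    push_cast
    rw [Finset.mul_sum]
    apply Finset.sum_le_sum
    intro p _
    by_cases hp : inR r (y p.1 - y p.2)
    · rw [if_pos hp]
      refine le_trans (phi_le hr _) (le_of_eq ?_)
      rw [hrdef]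
      field_simp
      ring
    · rw [if_neg hp]
      have : phi r (y p.1 - y p.2) = 0 := by
        by_contra hne
        exact hp (phi_support hr hne)
      rw [this]
      simp
  calc _ ≤ _ := h2
    _ ≤ 10 * (4 * R ^ 2 * (((T ×ˢ T).filter fun p => inR r (y p.1 - y p.2)).card : ℝ)) := by
      gcongr
      exact h1.trans h5
    _ = _ := by ring

theorem chi_sum_right {ι : Type*} (T : Finset ι) (v : GaussianInt) (f : ι → ℂ) :
    chi v (∑ i ∈ T, f i) = ∏ i ∈ T, chi v (f i) := by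
  classical
  induction T using Finset.induction_on with
  | empty => simp
  | insert a s ha ih => rw [Finset.sum_insert ha, Finset.prod_insert ha, chi_add_right, ih]

theorem chi_sum_left {ι : Type*} (T : Finset ι) (x : ℂ) (f : ι → GaussianInt) :
    chi (∑ i ∈ T, f i) x = ∏ i ∈ T, chi (f i) x := by
  classical
  induction T using Finset.induction_on with
  | empty => simp
  | insert a s ha ih => rw [Finset.sum_insert ha, Finset.prod_insert ha, chi_add_left, ih]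

/-- expansion of the `j`-th power of an exponential sum -/
theorem sum_chi_pow {ι : Type*} [DecidableEq ι] (X : Finset ι) (s : ι → ℂ) (x : ι → ℂ) (j : ℕ)
    (v : GaussianInt) :
    (∑ q ∈ X, s q * chi v (x q)) ^ j =
      ∑ a ∈ Fintype.piFinset (fun _ : Fin j => X), (∏ i, s (a i)) * chi v (∑ i, x (a i)) := by
  have h := Finset.prod_univ_sum (fun _ : Fin j => X) (fun _ q => s q * chi v (x q))
  rw [Finset.prod_const, Finset.card_univ, Fintype.card_fin] at h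
  rw [h]
  apply Finset.sum_congr rfl
  intro a _
  rw [Finset.prod_mul_distrib, chi_sum_right]

open Classical in
/-- (S2b): upper bound for the `2j`-th moment of an exponential sum over a box of Gaussian integers
by the number of near-coincidences of `j`-fold sums. -/
theorem upper_pow {ι : Type*} {R : ℝ} (hR : 1 ≤ R) (X : Finset ι)
    (s : ι → ℂ) (x : ι → ℂ) (hs : ∀ q ∈ X, ‖s q‖ ≤ 1) (j : ℕ) (V : Finset GaussianInt)
    (hV : ∀ v ∈ V, |(v.re : ℝ)| ≤ R ∧ |(v.im : ℝ)| ≤ R) :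
    ∑ v ∈ V, ‖∑ q ∈ X, s q * chi v (x q)‖ ^ (2 * j) ≤
      40 * R ^ 2 * (((Fintype.piFinset (fun _ : Fin j => X) ×ˢ
        Fintype.piFinset (fun _ : Fin j => X)).filter
          fun p => inR (1 / (2 * R)) (∑ i, x (p.1 i) - ∑ i, x (p.2 i))).card : ℝ) := by
  have h := upper_sq hR (Fintype.piFinset (fun _ : Fin j => X)) (fun a => ∏ i, s (a i))
    (fun a => ∑ i, x (a i)) (by
      intro a ha
      rw [norm_prod]
      apply Finset.prod_le_one
      · intro i _; exact norm_nonneg _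
      · intro i _; exact hs _ (Fintype.mem_piFinset.mp ha i)) V hV
  refine le_trans (le_of_eq ?_) h
  apply Finset.sum_congr rfl
  intro v _
  rw [← sum_chi_pow, norm_pow, ← pow_mul, mul_comm 2 j]

/-- Fourier transform of a finite weight. -/
noncomputable def ft (A : Finset GaussianInt) (m : GaussianInt → ℝ) (x : ℂ) : ℂ :=
  ∑ z ∈ A, (m z : ℂ) * chi z x

/-- for every complex number there is a unimodular number rotating it to its modulus -/
theorem exists_unimodular (z : ℂ) : ∃ s : ℂ, ‖s‖ = 1 ∧ s * z = (‖z‖ : ℂ) := by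
  by_cases hz : z = 0
  · exact ⟨1, by simp, by simp [hz]⟩
  · have hn : (‖z‖ : ℂ) ≠ 0 := by exact_mod_cast norm_ne_zero_iff.mpr hz
    refine ⟨(starRingEnd ℂ) z / ‖z‖, ?_, ?_⟩
    · rw [norm_div, RCLike.norm_conj, Complex.norm_real, norm_norm, div_self]
      exact norm_ne_zero_iff.mpr hz
    · rw [div_mul_eq_mul_div, Complex.conj_mul', sq, mul_div_assoc, div_self hn, mul_one]

theorem cos_lower {u : ℝ} (hu : |u| ≤ 1 / 20) : 1 / 2 ≤ Real.cos (2 * Real.pi * u) := by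
  have h := Real.one_sub_sq_div_two_le_cos (x := 2 * Real.pi * u)
  refine le_trans ?_ h
  have hpi : Real.pi < 3.15 := Real.pi_lt_d2
  have hpi0 := Real.pi_pos
  have h1 : u ^ 2 ≤ (1 / 20) ^ 2 := sq_le_sq' (by linarith [abs_le.mp hu]) (by linarith [abs_le.mp hu])
  have h2 : Real.pi ^ 2 ≤ 10 := by nlinarith
  have h3 : (2 * Real.pi * u) ^ 2 = 4 * (Real.pi ^ 2 * u ^ 2) := by ring
  rw [h3]
  have h4 : Real.pi ^ 2 * u ^ 2 ≤ 10 * (1 / 20) ^ 2 := by
    apply mul_le_mul h2 h1 (by positivity) (by norm_num)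
  linarith

open Classical in
/-- (S2a): lower bound.  `m` a probability weight on the finite set `A` of Gaussian integers whose
Fourier transform is `≥ t` in modulus at the points `x q`, `q ∈ X`, all in the ball of radius `r0`;
`B` a finite set of Gaussian integers with `|Re (y * x q)| ≤ 1/20`;
`g` bounds the mass of all the translates `v - B`. -/
theorem lower_pow {ι : Type*} (A : Finset GaussianInt) (m : GaussianInt → ℝ)
    (hm : ∀ z ∈ A, 0 ≤ m z) (hm1 : ∑ z ∈ A, m z = 1)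
    (X : Finset ι) (x : ι → ℂ) {t : ℝ} (ht : 0 ≤ t) (hX : ∀ q ∈ X, t ≤ ‖ft A m (x q)‖)
    (B : Finset GaussianInt)
    (hB : ∀ y ∈ B, ∀ q ∈ X, |(GaussianInt.toComplex y * x q).re| ≤ 1 / 20)
    {g : ℝ} (hg : ∀ v : GaussianInt, ∑ z ∈ A.filter (fun z => v - z ∈ B), m z ≤ g)
    (V : Finset GaussianInt) (hV : ∀ z ∈ A, ∀ y ∈ B, z + y ∈ V) :
    ∃ s : ι → ℂ, (∀ q, ‖s q‖ = 1) ∧ ∀ j : ℕ,
      (t / 2) ^ (2 * j) * (X.card : ℝ) ^ (2 * j) * (B.card : ℝ) ≤
        g * ∑ v ∈ V, ‖∑ q ∈ X, s q * chi v (x q)‖ ^ (2 * j) := by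
  choose s hs1 hs2 using fun q => exists_unimodular (ft A m (x q))
  refine ⟨s, hs1, ?_⟩
  intro j
  set S : GaussianInt → ℂ := fun v => ∑ q ∈ X, s q * chi v (x q) with hS
  -- pointwise lower bound
  have h1 : ∀ y ∈ B, t / 2 * X.card ≤ ∑ z ∈ A, m z * ‖S (z + y)‖ := by
    intro y hy
    have e1 : ∑ z ∈ A, (m z : ℂ) * S (z + y) = ∑ q ∈ X, (‖ft A m (x q)‖ : ℂ) * chi y (x q) := by
      simp only [hS, Finset.mul_sum]
      rw [Finset.sum_comm]
      apply Finset.sum_congr rfl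
      intro q _
      rw [← hs2 q, ft, Finset.mul_sum, Finset.sum_mul]
      apply Finset.sum_congr rfl
      intro z _
      rw [chi_add_left]
      ring
    have e2 : t / 2 * X.card ≤ (∑ q ∈ X, (‖ft A m (x q)‖ : ℂ) * chi y (x q)).re := by
      rw [Complex.re_sum]
      have : t / 2 * X.card = ∑ q ∈ X, t / 2 := by
        rw [Finset.sum_const, nsmul_eq_mul]; ring
      rw [this]
      apply Finset.sum_le_sum
      intro q hq
      rw [Complex.re_ofReal_mul, chi_eq_re, ee_re]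
      have h2 := cos_lower (hB y hy q hq)
      have h3 := hX q hq
      nlinarith
    calc t / 2 * X.card ≤ (∑ q ∈ X, (‖ft A m (x q)‖ : ℂ) * chi y (x q)).re := e2
      _ ≤ ‖∑ q ∈ X, (‖ft A m (x q)‖ : ℂ) * chi y (x q)‖ := Complex.re_le_norm _
      _ = ‖∑ z ∈ A, (m z : ℂ) * S (z + y)‖ := by rw [e1]
      _ ≤ ∑ z ∈ A, ‖(m z : ℂ) * S (z + y)‖ := norm_sum_le _ _
      _ = ∑ z ∈ A, m z * ‖S (z + y)‖ := by
        apply Finset.sum_congr rfl
        intro z hz
        rw [norm_mul, Complex.norm_real, Real.norm_eq_abs, abs_of_nonneg (hm z hz)]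
  -- Jensen
  have h2 : ∀ y ∈ B, (t / 2) ^ (2 * j) * (X.card : ℝ) ^ (2 * j) ≤
      ∑ z ∈ A, m z * ‖S (z + y)‖ ^ (2 * j) := by
    intro y hy
    rw [← mul_pow]
    refine le_trans (pow_le_pow_left₀ (by positivity) (h1 y hy) _) ?_
    exact Real.pow_arith_mean_le_arith_mean_pow A m (fun z => ‖S (z + y)‖) hm hm1
      (fun z _ => norm_nonneg _) _
  calc (t / 2) ^ (2 * j) * (X.card : ℝ) ^ (2 * j) * (B.card : ℝ)
      = ∑ y ∈ B, (t / 2) ^ (2 * j) * (X.card : ℝ) ^ (2 * j) := by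
        rw [Finset.sum_const, nsmul_eq_mul]; ring
    _ ≤ ∑ y ∈ B, ∑ z ∈ A, m z * ‖S (z + y)‖ ^ (2 * j) := Finset.sum_le_sum h2
    _ = ∑ z ∈ A, ∑ y ∈ B, m z * ‖S (z + y)‖ ^ (2 * j) := Finset.sum_comm
    _ ≤ ∑ z ∈ A, ∑ v ∈ V, if v - z ∈ B then m z * ‖S v‖ ^ (2 * j) else 0 := by
        apply Finset.sum_le_sum
        intro z hz
        rw [← Finset.sum_filter]
        have hinj : ∑ y ∈ B, m z * ‖S (z + y)‖ ^ (2 * j) =
            ∑ v ∈ B.image (fun y => z + y), m z * ‖S v‖ ^ (2 * j) := by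
          rw [Finset.sum_image]
          intro a _ b _ hab
          exact add_left_cancel hab
        rw [hinj]
        apply Finset.sum_le_sum_of_subset_of_nonneg
        · intro v hv
          rw [Finset.mem_image] at hv
          obtain ⟨y, hy, rfl⟩ := hv
          rw [Finset.mem_filter]
          exact ⟨hV z hz y hy, by simpa using hy⟩
        · intro v _ _
          exact mul_nonneg (hm z hz) (by positivity)
    _ = ∑ v ∈ V, ∑ z ∈ A, if v - z ∈ B then m z * ‖S v‖ ^ (2 * j) else 0 := Finset.sum_comm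
    _ = ∑ v ∈ V, (∑ z ∈ A.filter (fun z => v - z ∈ B), m z) * ‖S v‖ ^ (2 * j) := by
        apply Finset.sum_congr rfl
        intro v _
        rw [← Finset.sum_filter, Finset.sum_mul]
    _ ≤ ∑ v ∈ V, g * ‖S v‖ ^ (2 * j) := by
        apply Finset.sum_le_sum
        intro v _
        exact mul_le_mul_of_nonneg_right (hg v) (by positivity)
    _ = g * ∑ v ∈ V, ‖S v‖ ^ (2 * j) := by rw [Finset.mul_sum]

/-! ### (POS): positivity lower bound -/

theorem chi_sub_left (v w : GaussianInt) (x : ℂ) :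
    chi (v - w) x = chi v x * (starRingEnd ℂ) (chi w x) := by
  rw [sub_eq_add_neg, chi_add_left, chi_neg_left]

/-- (POS), general form. `P` a weight on the finite sample space `T`, `Φ : Ω → ℂ` a random point
all of whose Fourier coefficients `q w` are `≥ 0`; `∑ d i * chi (z i)` a trigonometric polynomial
with nonnegative coefficients.  Then one may drop all but finitely many of the terms. -/
theorem pos_lower {Ω ι : Type*} {r : ℝ} (hr : 0 < r) (hr2 : r ≤ 1 / 2) (T : Finset Ω) (P : Ω → ℝ)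
    (Φ : Ω → ℂ) (q : GaussianInt → ℝ) (hq0 : ∀ w, 0 ≤ q w)
    (hq : ∀ w, ∑ ω ∈ T, (P ω : ℂ) * chi w (Φ ω) = (q w : ℂ))
    (I : Finset ι) (d : ι → ℝ) (hd : ∀ i ∈ I, 0 ≤ d i) (z : ι → GaussianInt)
    (Y : Finset GaussianInt) :
    ∑ y ∈ Y, wt r y * ∑ i ∈ I, d i * q (y + z i) ≤
      (∑ ω ∈ T, (P ω : ℂ) * ((phi r (Φ ω) : ℝ) : ℂ) * ∑ i ∈ I, (d i : ℂ) * chi (z i) (Φ ω)).re := by
  have h : HasSum (fun v : GaussianInt => ∑ ω ∈ T, ∑ i ∈ I,
      ((P ω : ℂ) * ((d i : ℂ) * chi (z i) (Φ ω))) * ((wt r v : ℂ) * chi v (Φ ω)))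
      (∑ ω ∈ T, ∑ i ∈ I, ((P ω : ℂ) * ((d i : ℂ) * chi (z i) (Φ ω))) *
        ((phi r (Φ ω) : ℝ) : ℂ)) := by
    apply hasSum_sum
    intro ω _
    apply hasSum_sum
    intro i _
    exact (hasSum_phi hr hr2 (Φ ω)).mul_left _
  have hf : (fun v : GaussianInt => ∑ ω ∈ T, ∑ i ∈ I,
      ((P ω : ℂ) * ((d i : ℂ) * chi (z i) (Φ ω))) * ((wt r v : ℂ) * chi v (Φ ω))) =
      fun v : GaussianInt => ((wt r v * ∑ i ∈ I, d i * q (v + z i) : ℝ) : ℂ) := by
    funext v
    rw [Finset.sum_comm]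
    push_cast
    rw [Finset.mul_sum]
    apply Finset.sum_congr rfl
    intro i _
    rw [← hq, Finset.mul_sum, Finset.mul_sum]
    apply Finset.sum_congr rfl
    intro ω _
    rw [chi_add_left]
    ring
  have hv : (∑ ω ∈ T, ∑ i ∈ I, ((P ω : ℂ) * ((d i : ℂ) * chi (z i) (Φ ω))) *
        ((phi r (Φ ω) : ℝ) : ℂ)) =
      ∑ ω ∈ T, (P ω : ℂ) * ((phi r (Φ ω) : ℝ) : ℂ) * ∑ i ∈ I, (d i : ℂ) * chi (z i) (Φ ω) := by
    apply Finset.sum_congr rfl
    intro ω _
    rw [Finset.mul_sum]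
    apply Finset.sum_congr rfl
    intro i _
    ring
  rw [hf, hv] at h
  have h2 := (Complex.hasSum_iff _ _).mp h
  have h3 := h2.1
  simp only [Complex.ofReal_re] at h3
  refine sum_le_hasSum Y (fun v _ => ?_) h3
  exact mul_nonneg (wt_nonneg _ _)
    (Finset.sum_nonneg fun i hi => mul_nonneg (hd i hi) (hq0 _))

theorem ft_sq (A : Finset GaussianInt) (a : GaussianInt → ℝ) (x : ℂ) :
    ((‖ft A a x‖ ^ 2 : ℝ) : ℂ) =
      ∑ p ∈ A ×ˢ A, ((a p.1 * a p.2 : ℝ) : ℂ) * chi (p.1 - p.2) x := by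
  push_cast
  rw [← Complex.mul_conj', ft, map_sum, Finset.sum_mul_sum, ← Finset.sum_product']
  apply Finset.sum_congr rfl
  intro p _
  rw [chi_sub_left, map_mul, Complex.conj_ofReal]
  ring

/-- (POS) in the shape used for Theorem S: `q` is the (nonnegative) characteristic function of the
random point `Φ`. -/
theorem pos_lower_two {Ω : Type*} {r : ℝ} (hr : 0 < r) (hr2 : r ≤ 1 / 2) (T : Finset Ω) (P : Ω → ℝ)
    (Φ : Ω → ℂ) (q : GaussianInt → ℝ) (hq0 : ∀ w, 0 ≤ q w)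
    (hq : ∀ w, ∑ ω ∈ T, (P ω : ℂ) * chi w (Φ ω) = (q w : ℂ))
    (A B : Finset GaussianInt) (a b : GaussianInt → ℝ)
    (ha : ∀ z ∈ A, 0 ≤ a z) (hb : ∀ z ∈ B, 0 ≤ b z) (Y : Finset GaussianInt) :
    ∑ y ∈ Y, wt r y * ∑ p ∈ A ×ˢ A, ∑ p' ∈ B ×ˢ B,
        (a p.1 * a p.2) * (b p'.1 * b p'.2) * q (y + ((p.1 - p.2) + (p'.1 - p'.2))) ≤
      ∑ ω ∈ T, P ω * phi r (Φ ω) * (‖ft A a (Φ ω)‖ ^ 2 * ‖ft B b (Φ ω)‖ ^ 2) := by
  have h := pos_lower hr hr2 T P Φ q hq0 hq ((A ×ˢ A) ×ˢ (B ×ˢ B))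
    (fun i => (a i.1.1 * a i.1.2) * (b i.2.1 * b i.2.2)) (by
      intro i hi
      simp only [Finset.mem_product] at hi
      have h1 := ha _ hi.1.1
      have h2 := ha _ hi.1.2
      have h3 := hb _ hi.2.1
      have h4 := hb _ hi.2.2
      positivity)
    (fun i => (i.1.1 - i.1.2) + (i.2.1 - i.2.2)) Y
  refine le_trans (le_of_eq ?_) (le_trans h (le_of_eq ?_))
  · apply Finset.sum_congr rfl
    intro y _
    rw [← Finset.sum_product']
  · have e : (∑ ω ∈ T, (P ω : ℂ) * ((phi r (Φ ω) : ℝ) : ℂ) *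
        ∑ i ∈ (A ×ˢ A) ×ˢ (B ×ˢ B), (((a i.1.1 * a i.1.2) * (b i.2.1 * b i.2.2) : ℝ) : ℂ) *
          chi ((i.1.1 - i.1.2) + (i.2.1 - i.2.2)) (Φ ω)) =
        ((∑ ω ∈ T, P ω * phi r (Φ ω) * (‖ft A a (Φ ω)‖ ^ 2 * ‖ft B b (Φ ω)‖ ^ 2) : ℝ) : ℂ) := by
      push_cast
      apply Finset.sum_congr rfl
      intro ω _
      have h1 := ft_sq A a (Φ ω)
      have h2 := ft_sq B b (Φ ω)
      push_cast at h1 h2
      rw [h1, h2, Finset.sum_mul_sum, Finset.sum_product]
      congr 1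
      apply Finset.sum_congr rfl
      intro p _
      apply Finset.sum_congr rfl
      intro p' _
      rw [chi_add_left]
      push_cast
      ring
    rw [e, Complex.ofReal_re]

end Crest.Agent.R2.Tri
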