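import Crest.Agent.R2.End717c
import Crest.Agent.R2.Spec289

/-!
# R2 (Gaussian moat), Theorem S, end game: the spectral lemmas `Spec1`, `Spec2`
(bridge to helper289's `Spec289.lean`)
-/

set_option autoImplicit false

namespace Crest.Agent.R2.E717

open Finset

theorem chi_eq_tri (v : GaussianInt) (x : ℂ) : chi v x = Tri.chi v x := by
  rw [Tri.chi_eq_re]
  rfl

theorem mhat_eq_ft (A : Finset GaussianInt) (m : GaussianInt → ℝ) (x : ℂ) :
    mhat A m x = Tri.ft A m x := by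
  unfold mhat Tri.ft
  exact Finset.sum_congr rfl fun z _ => by rw [chi_eq_tri]

theorem inR_of_tri {r : ℝ} {x : ℂ} (h : Tri.inR r x) : inR r x := by
  obtain ⟨z, h1, h2⟩ := h
  refine ⟨z, ?_, ?_⟩
  · rw [Complex.sub_re, ← GaussianInt.intCast_re]; exact h1
  · rw [Complex.sub_im, ← GaussianInt.intCast_im]; exact h2

theorem spec_general (A : Finset GaussianInt) (m : GaussianInt → ℝ) (hm : ∀ z ∈ A, 0 ≤ m z)
    (hsum : ∑ z ∈ A, m z = 1) (I : Finset GaussianInt) (x : GaussianInt → ℂ)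
    (t r0 G g ρ : ℝ) (ht : 0 < t) (hG : 0 < G) (hr0 : 20 * r0 * G ≤ 1) (hρ : 1 ≤ ρ)
    (hx : ∀ i ∈ I, ‖x i‖ ≤ r0) (hbig : ∀ i ∈ I, t ≤ ‖mhat A m (x i)‖)
    (hg : ∀ v : GaussianInt, ∀ B ⊆ A, (∀ z ∈ B, N (z - v) ≤ G) → ∑ z ∈ B, m z ≤ g)
    (hA : ∀ z ∈ A, N z + G ≤ ρ) (j : ℕ) (C : ℝ)
    (hC : ∀ P : Finset ((Fin j → GaussianInt) × (Fin j → GaussianInt)),
      (∀ p ∈ P, ((∀ i, p.1 i ∈ I) ∧ (∀ i, p.2 i ∈ I)) ∧
        inR (1 / (2 * ρ)) (∑ i, x (p.1 i) - ∑ i, x (p.2 i))) → (P.card : ℝ) ≤ C) :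
    (t / 2) ^ (2 * j) * (I.card : ℝ) ^ (2 * j) * (disc G).card ≤ g * (40 * ρ ^ 2) * C := by
  classical
  have hV : ∀ z ∈ A, ∀ y ∈ disc G, z + y ∈ disc ρ := by
    intro z hz y hy
    rw [mem_disc] at hy ⊢
    have h1 := hA z hz
    have h2 : N (z + y) ≤ N z + N y := by
      unfold N; rw [GaussianInt.toComplex_add]; exact norm_add_le _ _
    linarith
  have hg0 : 0 ≤ g := by
    have := hg 0 ∅ (Finset.empty_subset _) (by simp)
    simpa using this
  obtain ⟨s, hs1, hs2⟩ := Tri.lower_pow A m hm hsum I x ht.le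
    (fun q hq => by rw [← mhat_eq_ft]; exact hbig q hq) (disc G)
    (by
      intro y hy q hq
      rw [mem_disc] at hy
      refine (Complex.abs_re_le_norm _).trans ?_
      rw [norm_mul]
      have h1 := hx q hq
      have h2 : N y * ‖x q‖ ≤ G * r0 := mul_le_mul hy h1 (norm_nonneg _) hG.le
      change N y * ‖x q‖ ≤ 1 / 20
      linarith)
    (g := g)
    (by
      intro v
      refine hg v _ (Finset.filter_subset _ _) ?_
      intro z hz
      rw [Finset.mem_filter, mem_disc] at hz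
      rw [N_sub_comm]
      exact hz.2)
    (disc ρ) hV
  have h1 := hs2 j
  have h2 := Tri.upper_pow hρ I s x (fun q _ => (hs1 q).le) j (disc ρ)
    (by
      intro v hv
      rw [mem_disc] at hv
      exact ⟨(abs_re_le v).trans hv, (abs_im_le v).trans hv⟩)
  refine h1.trans ?_
  rw [mul_assoc]
  refine mul_le_mul_of_nonneg_left (h2.trans ?_) hg0
  refine mul_le_mul_of_nonneg_left ?_ (by positivity)
  refine hC _ ?_
  intro p hp
  rw [Finset.mem_filter, Finset.mem_product, Fintype.mem_piFinset, Fintype.mem_piFinset] at hp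
  exact ⟨hp.1, inR_of_tri hp.2⟩

theorem spec1 (A : Finset GaussianInt) (m : GaussianInt → ℝ) (hm : ∀ z ∈ A, 0 ≤ m z)
    (hsum : ∑ z ∈ A, m z = 1) : Spec1 A m := by
  intro I x t r0 G g ρ C ht hG hr0 hρ hx hbig hg hA hC
  have := spec_general A m hm hsum I x t r0 G g ρ ht hG hr0 hρ hx hbig hg hA 1 C ?_
  · simpa using this
  · intro P hP
    have hinj : Set.InjOn (fun p : (Fin 1 → GaussianInt) × (Fin 1 → GaussianInt) =>
        (p.1 0, p.2 0)) (P : Set ((Fin 1 → GaussianInt) × (Fin 1 → GaussianInt))) := by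
      intro p _ q _ h
      simp only [Prod.mk.injEq] at h
      refine Prod.ext ?_ ?_
      · funext i; rw [Subsingleton.elim i 0]; exact h.1
      · funext i; rw [Subsingleton.elim i 0]; exact h.2
    rw [← Finset.card_image_of_injOn hinj]
    refine hC _ ?_
    intro p hp
    rw [Finset.mem_image] at hp
    obtain ⟨q, hq, rfl⟩ := hp
    obtain ⟨⟨a1, a2⟩, a3⟩ := hP q hq
    refine ⟨⟨a1 0, a2 0⟩, ?_⟩
    simpa using a3

theorem spec2 (A : Finset GaussianInt) (m : GaussianInt → ℝ) (hm : ∀ z ∈ A, 0 ≤ m z)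
    (hsum : ∑ z ∈ A, m z = 1) : Spec2 A m := by
  intro I x t r0 G g ρ C ht hG hr0 hρ hx hbig hg hA hC
  have := spec_general A m hm hsum I x t r0 G g ρ ht hG hr0 hρ hx hbig hg hA 2 C ?_
  · simpa using this
  · intro P hP
    have hinj : Set.InjOn (fun p : (Fin 2 → GaussianInt) × (Fin 2 → GaussianInt) =>
        ((p.1 0, p.1 1), (p.2 0, p.2 1)))
        (P : Set ((Fin 2 → GaussianInt) × (Fin 2 → GaussianInt))) := by
      intro p _ q _ h
      simp only [Prod.mk.injEq] at h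
      refine Prod.ext ?_ ?_
      · funext i; fin_cases i
        · exact h.1.1
        · exact h.1.2
      · funext i; fin_cases i
        · exact h.2.1
        · exact h.2.2
    rw [← Finset.card_image_of_injOn hinj]
    refine hC _ ?_
    intro p hp
    rw [Finset.mem_image] at hp
    obtain ⟨q, hq, rfl⟩ := hp
    obtain ⟨⟨a1, a2⟩, a3⟩ := hP q hq
    refine ⟨⟨a1 0, a1 1, a2 0, a2 1⟩, ?_⟩
    rw [Fin.sum_univ_two, Fin.sum_univ_two, ← sub_sub] at a3
    exact a3

end Crest.Agent.R2.E717
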