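import Crest.Agent.R2.End717d
import Crest.Agent.R2.End717s

/-!
# R2 (Gaussian moat), Theorem S, end game: the contradiction

`ℓ = e^{U/4}`, `E = e^{O(ε) U}`.
-/

set_option autoImplicit false

namespace Crest.Agent.R2.E717

open Finset

/-- (END) -/
theorem end_contradiction (ℓ E : ℝ) (hE : 10 ^ 4 ≤ E) (hℓ : E ^ 130 ≤ ℓ)
    (X : Finset GaussianInt) (x : GaussianInt → ℂ) (ζ : ℂ)
    (hX1 : ∀ u ∈ X, N u ≤ ℓ) 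
    (A : Finset GaussianInt) (m : GaussianInt → ℝ)
    (hX2 : ∀ u ∈ X, 1 / (2 * E ^ 2) ≤ ‖mhat A m (x u)‖)
    (hX3 : ∀ u ∈ X, ‖x u‖ ≤ 1 / (20 * ℓ ^ 6))
    (hX4 : ∀ u ∈ X, ‖x u - ζ * (u : ℂ) ^ 2‖ ≤ 1 / (8 * ℓ ^ 8))
    (hζ : 1 / (ℓ ^ 8 * E ^ 2) ≤ ‖ζ‖) (hX : ℓ ^ 2 / E ^ 120 ≤ (X.card : ℝ))
    (hA : ∀ z ∈ A, N z ≤ ℓ ^ 8)
    (hP1 : ∀ v : GaussianInt, ∀ B ⊆ A, (∀ z ∈ B, N (z - v) ≤ ℓ ^ 6) → ∑ z ∈ B, m z ≤ E / ℓ ^ 2)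
    (hspec : Spec2 A m)
    (hEn : ∀ X : Finset GaussianInt, (∀ u ∈ X, N u ≤ ℓ) →
      ∀ P : Finset ((GaussianInt × GaussianInt) × (GaussianInt × GaussianInt)),
      (∀ p ∈ P, (p.1.1 ∈ X ∧ p.1.2 ∈ X ∧ p.2.1 ∈ X ∧ p.2.2 ∈ X) ∧
        N (p.1.1 ^ 2 + p.1.2 ^ 2 - p.2.1 ^ 2 - p.2.2 ^ 2) ≤ E ^ 2) →
      (P.card : ℝ) ≤ E ^ 6 * (X.card : ℝ) ^ 2) : False := by
  have hE0 : 0 < E := by linarith
  have hE1 : 1 ≤ E := by linarith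
  have hℓE : E ≤ ℓ := by
    have : E ^ 1 ≤ E ^ 130 := pow_le_pow_right₀ hE1 (by norm_num)
    linarith
  have hℓ0 : 0 < ℓ := by linarith
  have hℓ1 : 1 ≤ ℓ := by linarith
  have h61 : 1 ≤ ℓ ^ 6 := one_le_pow₀ hℓ1
  have h81 : 1 ≤ ℓ ^ 8 := one_le_pow₀ hℓ1
  have h68 : ℓ ^ 6 ≤ ℓ ^ 8 := pow_le_pow_right₀ hℓ1 (by norm_num)
  have hsmall : 1 / (20 * ℓ ^ 6) ≤ 1 / 8 := by
    rw [div_le_div_iff₀ (by positivity) (by norm_num)]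
    linarith
  have key := hspec X x (1 / (2 * E ^ 2)) (1 / (20 * ℓ ^ 6)) (ℓ ^ 6) (E / ℓ ^ 2) (2 * ℓ ^ 8)
    (E ^ 6 * (X.card : ℝ) ^ 2) (by positivity) (by positivity)
    (le_of_eq (by field_simp)) (by linarith) hX3 hX2 hP1
    (by intro z hz; have := hA z hz; linarith) ?_
  · have hd : (ℓ ^ 6) ^ 2 / 4 ≤ ((disc (ℓ ^ 6)).card : ℝ) := by
      refine le_card_disc ?_
      have : ℓ ^ 1 ≤ ℓ ^ 6 := pow_le_pow_right₀ hℓ1 (by norm_num)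
      linarith
    have h1 : (1 / (2 * E ^ 2) / 2) ^ 4 * (X.card : ℝ) ^ 4 * ((ℓ ^ 6) ^ 2 / 4)
        ≤ E / ℓ ^ 2 * (40 * (2 * ℓ ^ 8) ^ 2) * (E ^ 6 * (X.card : ℝ) ^ 2) :=
      le_trans (mul_le_mul_of_nonneg_left hd (by positivity)) key
    have hXpos : (0 : ℝ) < X.card := lt_of_lt_of_le (by positivity) hX
    have h2 : (1 / (2 * E ^ 2) / 2) ^ 4 * (X.card : ℝ) ^ 4 * ((ℓ ^ 6) ^ 2 / 4)
        = (X.card : ℝ) ^ 2 * ((X.card : ℝ) ^ 2 * ℓ ^ 12 / (1024 * E ^ 8)) := by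
      field_simp
      ring
    have h3 : E / ℓ ^ 2 * (40 * (2 * ℓ ^ 8) ^ 2) * (E ^ 6 * (X.card : ℝ) ^ 2)
        = (X.card : ℝ) ^ 2 * (160 * E ^ 7 * ℓ ^ 14) := by
      field_simp
      ring
    rw [h2, h3] at h1
    have h4 := le_of_mul_le_mul_left h1 (by positivity)
    rw [div_le_iff₀ (by positivity)] at h4
    have h5 : (ℓ ^ 2 / E ^ 120) ^ 2 ≤ (X.card : ℝ) ^ 2 :=
      pow_le_pow_left₀ (by positivity) hX 2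
    have h6 : (ℓ ^ 2 / E ^ 120) ^ 2 * ℓ ^ 12 ≤ 160 * E ^ 7 * ℓ ^ 14 * (1024 * E ^ 8) :=
      (mul_le_mul_of_nonneg_right h5 (by positivity)).trans h4
    have h7 : (ℓ ^ 2 / E ^ 120) ^ 2 * ℓ ^ 12 = ℓ ^ 16 / E ^ 240 := by
      field_simp
    rw [h7, div_le_iff₀ (by positivity)] at h6
    have h8 : ℓ ^ 14 * ℓ ^ 2 ≤ ℓ ^ 14 * (163840 * E ^ 255) := by
      calc ℓ ^ 14 * ℓ ^ 2 = ℓ ^ 16 := by ring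
        _ ≤ _ := h6
        _ = ℓ ^ 14 * (163840 * E ^ 255) := by ring
    have h9 := le_of_mul_le_mul_left h8 (by positivity)
    have h10 : (E ^ 130) ^ 2 ≤ ℓ ^ 2 := pow_le_pow_left₀ (by positivity) hℓ 2
    have h11 : E ^ 255 * E ^ 5 ≤ E ^ 255 * 163840 := by
      calc E ^ 255 * E ^ 5 = (E ^ 130) ^ 2 := by ring
        _ ≤ ℓ ^ 2 := h10
        _ ≤ 163840 * E ^ 255 := h9
        _ = E ^ 255 * 163840 := by ring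
    have h12 := le_of_mul_le_mul_left h11 (by positivity)
    have h13 : (10 ^ 4 : ℝ) ^ 5 ≤ E ^ 5 := pow_le_pow_left₀ (by norm_num) hE 5
    norm_num at h13
    linarith
  · intro P hP
    refine hEn X hX1 P ?_
    intro p hp
    obtain ⟨⟨a1, a2, a3, a4⟩, hin⟩ := hP p hp
    refine ⟨⟨a1, a2, a3, a4⟩, ?_⟩
    have n1 := hX3 _ a1
    have n2 := hX3 _ a2
    have n3 := hX3 _ a3
    have n4 := hX3 _ a4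
    have h1 : ‖x p.1.1 + x p.1.2 - x p.2.1 - x p.2.2‖ < 2 * (1 / (2 * (2 * ℓ ^ 8))) := by
      refine norm_le_of_inR ?_ ?_ hin
      · rw [div_le_div_iff₀ (by positivity) (by norm_num)]
        linarith
      · refine (norm_sub_le _ _).trans ?_
        have e1 := norm_sub_le (x p.1.1 + x p.1.2) (x p.2.1)
        have e2 := norm_add_le (x p.1.1) (x p.1.2)
        linarith
    have m1 := hX4 _ a1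
    have m2 := hX4 _ a2
    have m3 := hX4 _ a3
    have m4 := hX4 _ a4
    have hid : ζ * ((p.1.1 ^ 2 + p.1.2 ^ 2 - p.2.1 ^ 2 - p.2.2 ^ 2 : GaussianInt) : ℂ)
        = (x p.1.1 + x p.1.2 - x p.2.1 - x p.2.2)
          - (((x p.1.1 - ζ * (p.1.1 : ℂ) ^ 2) + (x p.1.2 - ζ * (p.1.2 : ℂ) ^ 2))
            - (x p.2.1 - ζ * (p.2.1 : ℂ) ^ 2) - (x p.2.2 - ζ * (p.2.2 : ℂ) ^ 2)) := by
      simp only [GaussianInt.toComplex_sub, GaussianInt.toComplex_add, map_pow]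
      ring
    have h2 : ‖ζ * ((p.1.1 ^ 2 + p.1.2 ^ 2 - p.2.1 ^ 2 - p.2.2 ^ 2 : GaussianInt) : ℂ)‖
        ≤ 1 / ℓ ^ 8 := by
      rw [hid]
      refine (norm_sub_le _ _).trans ?_
      have e1 := norm_sub_le (((x p.1.1 - ζ * (p.1.1 : ℂ) ^ 2) + (x p.1.2 - ζ * (p.1.2 : ℂ) ^ 2))
            - (x p.2.1 - ζ * (p.2.1 : ℂ) ^ 2)) (x p.2.2 - ζ * (p.2.2 : ℂ) ^ 2)
      have e2 := norm_sub_le ((x p.1.1 - ζ * (p.1.1 : ℂ) ^ 2) + (x p.1.2 - ζ * (p.1.2 : ℂ) ^ 2))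
            (x p.2.1 - ζ * (p.2.1 : ℂ) ^ 2)
      have e3 := norm_add_le (x p.1.1 - ζ * (p.1.1 : ℂ) ^ 2) (x p.1.2 - ζ * (p.1.2 : ℂ) ^ 2)
      have e4 : 2 * (1 / (2 * (2 * ℓ ^ 8))) = 1 / (2 * ℓ ^ 8) := by field_simp
      have e5 : 1 / (2 * ℓ ^ 8) + 4 * (1 / (8 * ℓ ^ 8)) = 1 / ℓ ^ 8 := by field_simp; ring
      linarith
    rw [norm_mul] at h2
    change ‖ζ‖ * N (p.1.1 ^ 2 + p.1.2 ^ 2 - p.2.1 ^ 2 - p.2.2 ^ 2) ≤ 1 / ℓ ^ 8 at h2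
    have h3 : 1 / (ℓ ^ 8 * E ^ 2) * N (p.1.1 ^ 2 + p.1.2 ^ 2 - p.2.1 ^ 2 - p.2.2 ^ 2)
        ≤ 1 / ℓ ^ 8 :=
      (mul_le_mul_of_nonneg_right hζ (N_nonneg _)).trans h2
    have h4 : 1 / (ℓ ^ 8 * E ^ 2) * E ^ 2 = 1 / ℓ ^ 8 := by field_simp
    rw [← h4] at h3
    exact le_of_mul_le_mul_left h3 (by positivity)

/-- **End game of Theorem S**: everything after the set `MM` exists. -/
theorem endgame (ℓ E : ℝ) (hE : 10 ^ 4 ≤ E) (hℓ : E ^ 130 ≤ ℓ)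
    (MM : Finset GaussianInt) (c : GaussianInt) (hc0 : c ≠ 0) (hc : N c ≤ E)
    (hlow : ∀ M ∈ MM, ℓ ^ 4 / E ≤ N M) (hup : ∀ M ∈ MM, N M ≤ ℓ ^ 4 * E)
    (hcard : ℓ ^ 4 / E ≤ (MM.card : ℝ))
    (Dv : GaussianInt → GaussianInt → Prop)
    (hdiv : ∀ M ∈ MM, ∀ Q : ℝ, 1 ≤ Q → Q ≤ ℓ → ∃ q, Dv q M ∧ Q ≤ N q ∧ N q ≤ E * Q)
    (hgcd : ∀ M ∈ MM, ∀ M' ∈ MM, ∀ q, Dv q M → Dv q M' → q ^ 2 ∣ M - M')
    (A3 : Finset GaussianInt) (m3 : GaussianInt → ℝ)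
    (hm3 : ∀ z ∈ A3, 0 ≤ m3 z) (hsum3 : ∑ z ∈ A3, m3 z = 1) (hA3 : ∀ z ∈ A3, N z ≤ ℓ ^ 6)
    (hP3 : ∀ v : GaussianInt, ∀ B ⊆ A3, (∀ z ∈ B, N (z - v) ≤ ℓ ^ 4) →
      ∑ z ∈ B, m3 z ≤ E / ℓ ^ 2)
    (hbig3 : ∀ M ∈ MM, 1 / E ≤ ‖mhat A3 m3 ((c : ℂ) / M)‖)
    (A2 : Finset GaussianInt) (m2 : GaussianInt → ℝ)
    (hm2 : ∀ z ∈ A2, 0 ≤ m2 z) (hsum2 : ∑ z ∈ A2, m2 z = 1) (hA2 : ∀ z ∈ A2, N z ≤ ℓ ^ 8)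
    (hP2 : ∀ v : GaussianInt, ∀ B ⊆ A2, (∀ z ∈ B, N (z - v) ≤ ℓ ^ 6) →
      ∑ z ∈ B, m2 z ≤ E / ℓ ^ 2)
    (hbig2 : ∀ M ∈ MM, 1 / E ≤ ‖mhat A2 m2 ((c : ℂ) / M)‖)
    (hEn : ∀ X : Finset GaussianInt, (∀ u ∈ X, N u ≤ ℓ) →
      ∀ P : Finset ((GaussianInt × GaussianInt) × (GaussianInt × GaussianInt)),
      (∀ p ∈ P, (p.1.1 ∈ X ∧ p.1.2 ∈ X ∧ p.2.1 ∈ X ∧ p.2.2 ∈ X) ∧
        N (p.1.1 ^ 2 + p.1.2 ^ 2 - p.2.1 ^ 2 - p.2.2 ^ 2) ≤ E ^ 2) →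
      (P.card : ℝ) ≤ E ^ 6 * (X.card : ℝ) ^ 2) : False := by
  have hE0 : 0 < E := by linarith
  have hE1 : 1 ≤ E := by linarith
  have hℓ10 : E ^ 10 ≤ ℓ := (pow_le_pow_right₀ hE1 (by norm_num)).trans hℓ
  have hℓ20 : E ^ 20 ≤ ℓ := (pow_le_pow_right₀ hE1 (by norm_num)).trans hℓ
  have hℓ0 : 0 < ℓ := lt_of_lt_of_le (by positivity) hℓ
  obtain ⟨M0, hM0, T, hTM, hTball, hT⟩ := exists_ball ℓ E hE hℓ10 MM c hc0 hc hlow hup hcard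
    A3 m3 hA3 hP3 hbig3 (spec1 A3 m3 hm3 hsum3)
  have hQ1 : 1 ≤ ℓ / E ^ 14 := by
    rw [le_div_iff₀ (by positivity), one_mul]
    exact le_trans (pow_le_pow_right₀ hE1 (by norm_num)) hℓ
  have hQ2 : ℓ / E ^ 14 ≤ ℓ := div_le_self hℓ0.le (one_le_pow₀ hE1)
  have hex : ∀ M ∈ T, ∃ q, Dv q M ∧ ℓ / E ^ 14 ≤ N q ∧ N q ≤ E * (ℓ / E ^ 14) :=
    fun M hM => hdiv M (hTM hM) _ hQ1 hQ2
  choose! q hqD hq1 hq2 using hex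
  obtain ⟨X, x, ζ, h1, h2, h3, h4, h5, h6⟩ := squares_appear ℓ E hE hℓ20 T M0 c hc0 hc
    (fun M hM => hlow M (hTM hM)) (hlow M0 hM0) (hup M0 hM0) hTball hT q hq1 hq2
    (fun M hM M' hM' hqq => hgcd M' (hTM hM') M (hTM hM) _ (by rw [hqq]; exact hqD M' hM')
      (hqD M hM)) A2 m2 hm2 hsum2 (fun M hM => hbig2 M (hTM hM))
  exact end_contradiction ℓ E hE hℓ X x ζ h1 A2 m2 h2 h3 h4 h5 h6 hA2 hP2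
    (spec2 A2 m2 hm2 hsum2) hEn

end Crest.Agent.R2.E717
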