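import Crest.Agent.R2.End717e
import Crest.Agent.R2.Gcd62
import Crest.Agent.R2.En701

/-!
# R2 (Gaussian moat), Theorem S, end game: glue with helper62's sets of primes and
helper701's energy bound.
-/

set_option autoImplicit false

namespace Crest.Agent.R2.E717

open Finset
open Crest.Agent.R2.Gcd62 (MM NN ab gcd_sq_dvd exists_sub_prod MM_injOn)

theorem energy_glue {ε : ℝ} (hε : 0 < ε) : ∃ E0 : ℝ, ∀ ℓ E : ℝ, E0 ≤ E → 1 ≤ ℓ → ℓ ^ ε ≤ E →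
    ∀ X : Finset GaussianInt, (∀ u ∈ X, N u ≤ ℓ) →
      ∀ P : Finset ((GaussianInt × GaussianInt) × (GaussianInt × GaussianInt)),
      (∀ p ∈ P, (p.1.1 ∈ X ∧ p.1.2 ∈ X ∧ p.2.1 ∈ X ∧ p.2.2 ∈ X) ∧
        N (p.1.1 ^ 2 + p.1.2 ^ 2 - p.2.1 ^ 2 - p.2.2 ^ 2) ≤ E ^ 2) →
      (P.card : ℝ) ≤ E ^ 6 * (X.card : ℝ) ^ 2 := by
  classical
  obtain ⟨C, hC, h⟩ := Div701.energy_window hε
  refine ⟨9 * C, fun ℓ E hE hℓ hℓE X hX P hP => ?_⟩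
  have hE9 : 9 ≤ E := by linarith
  have hE0 : 0 < E := by linarith
  set f : (GaussianInt × GaussianInt) × (GaussianInt × GaussianInt) →
      GaussianInt × GaussianInt × GaussianInt × GaussianInt :=
    fun p => (p.1.1, p.1.2, p.2.1, p.2.2) with hf
  have hinj : Set.InjOn f (P : Set ((GaussianInt × GaussianInt) × (GaussianInt × GaussianInt))) := by
    intro p _ q _ hpq
    simp only [hf, Prod.mk.injEq] at hpq
    exact Prod.ext (Prod.ext hpq.1 hpq.2.1) (Prod.ext hpq.2.2.1 hpq.2.2.2)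
  have h1 := h X ℓ hℓ hX (E ^ 2) (by positivity) (P.image f) (by
    intro t ht
    rw [Finset.mem_image] at ht
    obtain ⟨p, hp, rfl⟩ := ht
    obtain ⟨⟨a1, a2, a3, a4⟩, a5⟩ := hP p hp
    exact ⟨a1, a2, a3, a4, a5⟩)
  rw [Finset.card_image_of_injOn hinj] at h1
  refine h1.trans ?_
  refine mul_le_mul_of_nonneg_right ?_ (by positivity)
  have hℓε : 0 ≤ ℓ ^ ε := Real.rpow_nonneg (by linarith) _
  have h2 : (2 * E ^ 2 + 1) ^ 2 ≤ 9 * E ^ 4 := by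
    have h3 : 2 * E ^ 2 + 1 ≤ 3 * E ^ 2 := by nlinarith
    calc (2 * E ^ 2 + 1) ^ 2 ≤ (3 * E ^ 2) ^ 2 := pow_le_pow_left₀ (by positivity) h3 2
      _ = 9 * E ^ 4 := by ring
  calc C * ℓ ^ ε * (2 * E ^ 2 + 1) ^ 2 ≤ C * E * (9 * E ^ 4) := by
        refine mul_le_mul (mul_le_mul_of_nonneg_left hℓE (by linarith)) h2 (by positivity)
          (by positivity)
    _ = (9 * C) * E ^ 5 := by ring
    _ ≤ E * E ^ 5 := mul_le_mul_of_nonneg_right hE (by positivity)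
    _ = E ^ 6 := by ring

/-- **End game of Theorem S** in terms of a family `F` of sets of primes. -/
theorem endgame_sets {ε : ℝ} (hε : 0 < ε) : ∃ E0 : ℝ, ∀ ℓ E : ℝ, E0 ≤ E → E ^ 130 ≤ ℓ →
    ℓ ^ ε ≤ E →
    ∀ (G : Finset GaussianInt), (∀ p ∈ G, Prime p) →
    (∀ p ∈ G, ∀ q ∈ G, Associated p q → p = q) →
    ∀ (b : GaussianInt → GaussianInt), (∀ p ∈ G, ¬ p ∣ b p) →
    ∀ (w : ℝ), 1 ≤ w → 2 * w ≤ E → (∀ p ∈ G, ab p ≤ 2 * w) →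
    ∀ (c : GaussianInt), c ≠ 0 → ab c ≤ E →
    ∀ (F : Finset (Finset GaussianInt)), (∀ S ∈ F, S ⊆ G) → (∀ S ∈ F, MM S ∣ NN b S - c) →
    (∀ S ∈ F, ℓ ^ 4 / E ≤ ab (MM S)) → (∀ S ∈ F, ab (MM S) ≤ ℓ ^ 4 * E) →
    (ℓ ^ 4 / E ≤ (F.card : ℝ)) →
    ∀ (A3 : Finset GaussianInt) (m3 : GaussianInt → ℝ),
    (∀ z ∈ A3, 0 ≤ m3 z) → (∑ z ∈ A3, m3 z = 1) → (∀ z ∈ A3, N z ≤ ℓ ^ 6) →
    (∀ v : GaussianInt, ∀ B ⊆ A3, (∀ z ∈ B, N (z - v) ≤ ℓ ^ 4) → ∑ z ∈ B, m3 z ≤ E / ℓ ^ 2) →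
    (∀ S ∈ F, 1 / E ≤ ‖mhat A3 m3 ((c : ℂ) / (MM S : GaussianInt))‖) →
    ∀ (A2 : Finset GaussianInt) (m2 : GaussianInt → ℝ),
    (∀ z ∈ A2, 0 ≤ m2 z) → (∑ z ∈ A2, m2 z = 1) → (∀ z ∈ A2, N z ≤ ℓ ^ 8) →
    (∀ v : GaussianInt, ∀ B ⊆ A2, (∀ z ∈ B, N (z - v) ≤ ℓ ^ 6) → ∑ z ∈ B, m2 z ≤ E / ℓ ^ 2) →
    (∀ S ∈ F, 1 / E ≤ ‖mhat A2 m2 ((c : ℂ) / (MM S : GaussianInt))‖) → False := by
  classical
  obtain ⟨E0, h0⟩ := energy_glue hε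
  refine ⟨max E0 (10 ^ 4), ?_⟩
  intro ℓ E hE hℓ hℓE G hG hass b hb w hw1 hwE hw c hc0 hc F hF hFc hFlow hFup hFcard
    A3 m3 hm3 hsum3 hA3 hP3 hbig3 A2 m2 hm2 hsum2 hA2 hP2 hbig2
  have hE4 : 10 ^ 4 ≤ E := (le_max_right _ _).trans hE
  have hE00 : E0 ≤ E := (le_max_left _ _).trans hE
  have hE1 : 1 ≤ E := by linarith
  have hEpos : 0 < E := by linarith
  have hℓ1 : 1 ≤ ℓ := le_trans (one_le_pow₀ hE1) hℓ
  have hinj : Set.InjOn MM (F : Set (Finset GaussianInt)) := by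
    intro S hS S' hS' h
    exact MM_injOn hG hass (hF S hS) (hF S' hS') h
  refine endgame ℓ E hE4 hℓ (F.image MM) c hc0 hc ?_ ?_ ?_
    (fun q M => ∃ S ∈ F, ∃ D ⊆ S, M = MM S ∧ q = MM D) ?_ ?_
    A3 m3 hm3 hsum3 hA3 hP3 ?_ A2 m2 hm2 hsum2 hA2 hP2 ?_ (h0 ℓ E hE00 hℓ1 hℓE)
  · intro M hM
    rw [Finset.mem_image] at hM
    obtain ⟨S, hS, rfl⟩ := hM
    exact hFlow S hS
  · intro M hM
    rw [Finset.mem_image] at hM
    obtain ⟨S, hS, rfl⟩ := hM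
    exact hFup S hS
  · rw [Finset.card_image_of_injOn hinj]
    exact hFcard
  · intro M hM Q hQ1 hQℓ
    rw [Finset.mem_image] at hM
    obtain ⟨S, hS, rfl⟩ := hM
    have hQM : Q ≤ ab (MM S) := by
      refine hQℓ.trans (le_trans ?_ (hFlow S hS))
      rw [le_div_iff₀ hEpos]
      have h1 : E ≤ ℓ := by
        have : E ^ 1 ≤ E ^ 130 := pow_le_pow_right₀ hE1 (by norm_num)
        linarith
      have h2 : ℓ * E ≤ ℓ * ℓ := mul_le_mul_of_nonneg_left h1 (by linarith)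
      have h3 : ℓ ^ 2 ≤ ℓ ^ 4 := pow_le_pow_right₀ hℓ1 (by norm_num)
      nlinarith
    obtain ⟨D, hD, h1, h2⟩ := exists_sub_prod hw1 S (fun p hp => hw p (hF S hS hp)) hQ1 hQM
    refine ⟨MM D, ⟨S, hS, D, hD, rfl, rfl⟩, h1, h2.trans ?_⟩
    exact mul_le_mul_of_nonneg_right hwE (by linarith)
  · rintro M - M' - q ⟨S, hS, D, hD, rfl, rfl⟩ ⟨S', hS', D', hD', rfl, hDD⟩
    have hDeq : D = D' := MM_injOn hG hass (hD.trans (hF S hS)) (hD'.trans (hF S' hS')) hDD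
    subst hDeq
    exact gcd_sq_dvd hG hass hb (hF S hS) hD hD' (hFc S hS) (hFc S' hS')
  · intro M hM
    rw [Finset.mem_image] at hM
    obtain ⟨S, hS, rfl⟩ := hM
    exact hbig3 S hS
  · intro M hM
    rw [Finset.mem_image] at hM
    obtain ⟨S, hS, rfl⟩ := hM
    exact hbig2 S hS

end Crest.Agent.R2.E717
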