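import Crest.Agent.R2.End911
import Crest.Agent.R2.Closed62

/-!
# R2 (Gaussian moat), END: K0 plugged in (helper911)
-/

set_option autoImplicit false

namespace Crest.Agent.R2.End911

open Crest.Agent.R2.X149 (KacStmt)

theorem closedStmt : ClosedStmt := fun _D hD P hP => K0.exists_closed hD P hP

/-- What is left of S0002: K8, N, right half. -/
theorem sieveBlocked_of_three (hK8 : KacStmt) (hLS : LightStmt) (hRS : RightStmt) (D : ℝ) :
    SieveBlocked D := sieveBlocked_of_blocks closedStmt hK8 hLS hRS D

end Crest.Agent.R2.End911
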