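import Mathlib
import Crest.Agent.Lib.Mertens

/-!
# R2 (Gaussian moat), block Z1: supply of split primes (a): Mertens for primes = 1 mod 4
-/

set_option autoImplicit false

namespace Crest.Agent.R2.Z306

open Finset Crest.Agent.Lib

/-- the nontrivial character mod 4, real valued -/
noncomputable def chi (n : ℕ) : ℝ := if n % 4 = 1 then 1 else if n % 4 = 3 then -1 else 0

/-- its summatory function -/
noncomputable def cs (n : ℕ) : ℝ := if n % 4 = 2 ∨ n % 4 = 3 then 1 else 0

lemma cs_succ (n : ℕ) : cs (n + 1) - cs n = chi n := by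
  unfold cs chi
  have h : n % 4 = 0 ∨ n % 4 = 1 ∨ n % 4 = 2 ∨ n % 4 = 3 := by omega
  rcases h with h | h | h | h <;>
    (have h1 : (n + 1) % 4 = (n % 4 + 1) % 4 := by omega) <;>
    simp [h, h1]

lemma cs_mem (n : ℕ) : cs n = 0 ∨ cs n = 1 := by
  unfold cs
  split_ifs <;> simp

lemma chi_mul (m n : ℕ) : chi (m * n) = chi m * chi n := by
  unfold chi
  have h : m % 4 = 0 ∨ m % 4 = 1 ∨ m % 4 = 2 ∨ m % 4 = 3 := by omega
  have h' : n % 4 = 0 ∨ n % 4 = 1 ∨ n % 4 = 2 ∨ n % 4 = 3 := by omega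
  rcases h with h | h | h | h <;> rcases h' with h' | h' | h' | h' <;>
    simp [Nat.mul_mod, h, h']

lemma abs_chi_le (n : ℕ) : |chi n| ≤ 1 := by
  unfold chi
  split_ifs <;> simp

/-- alternating sum bound -/
lemma alt_bound (f : ℕ → ℝ) (a b : ℕ) (hab : a ≤ b) (hf : ∀ k, a ≤ k → f (k + 1) ≤ f k)
    (h0 : ∀ k, a ≤ k → 0 ≤ f k) : |∑ k ∈ Ico a b, chi k * f k| ≤ f a := by
  have key : ∑ k ∈ Ico a b, chi k * f k = f b * (cs b - cs a) +
      ∑ j ∈ Ico a b, (cs (j + 1) - cs a) * (f j - f (j + 1)) := by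
    induction b, hab using Nat.le_induction with
    | base => simp
    | succ n hn ih =>
      rw [sum_Ico_succ_top hn, sum_Ico_succ_top hn, ih, ← cs_succ n]
      ring
  rw [key]
  have hc : ∀ n, |cs n - cs a| ≤ 1 := by
    intro n
    rcases cs_mem n with h | h <;> rcases cs_mem a with h' | h' <;> rw [h, h'] <;> norm_num
  have h1 : |f b * (cs b - cs a)| ≤ f b := by
    rw [abs_mul, abs_of_nonneg (h0 b hab)]
    calc f b * |cs b - cs a| ≤ f b * 1 := mul_le_mul_of_nonneg_left (hc b) (h0 b hab)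
      _ = f b := mul_one _
  have h2 : |∑ j ∈ Ico a b, (cs (j + 1) - cs a) * (f j - f (j + 1))| ≤
      ∑ j ∈ Ico a b, (f j - f (j + 1)) := by
    refine (abs_sum_le_sum_abs _ _).trans (sum_le_sum fun j hj => ?_)
    have hj' := (mem_Ico.1 hj).1
    have h3 : 0 ≤ f j - f (j + 1) := sub_nonneg.2 (hf j hj')
    rw [abs_mul, abs_of_nonneg h3]
    calc |cs (j + 1) - cs a| * (f j - f (j + 1)) ≤ 1 * (f j - f (j + 1)) :=
          mul_le_mul_of_nonneg_right (hc _) h3
      _ = f j - f (j + 1) := one_mul _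
  have h3 : ∑ j ∈ Ico a b, (f j - f (j + 1)) = f a - f b := by
    have h4 : ∀ c, a ≤ c → ∑ j ∈ Ico a c, (f j - f (j + 1)) = f a - f c := by
      intro c hc'
      induction c, hc' using Nat.le_induction with
      | base => simp
      | succ n hn ih => rw [sum_Ico_succ_top hn, ih]; ring
    exact h4 b hab
  calc |f b * (cs b - cs a) + ∑ j ∈ Ico a b, (cs (j + 1) - cs a) * (f j - f (j + 1))|
      ≤ |f b * (cs b - cs a)| + |∑ j ∈ Ico a b, (cs (j + 1) - cs a) * (f j - f (j + 1))| :=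
        abs_add_le _ _
    _ ≤ f b + (f a - f b) := by rw [← h3]; exact add_le_add h1 h2
    _ = f a := by ring

/-- `∑_{m ≤ n} χ(m)/m` -/
noncomputable def Ac (n : ℕ) : ℝ := ∑ m ∈ Ioc 0 n, chi m / m

lemma Ac_sub (m n : ℕ) (hmn : m ≤ n) : |Ac n - Ac m| ≤ 1 / ((m : ℝ) + 1) := by
  have h1 : Ac n - Ac m = ∑ k ∈ Ico (m + 1) (n + 1), chi k * (1 / (k : ℝ)) := by
    unfold Ac
    have h2 : Ioc 0 n = Ioc 0 m ∪ Ico (m + 1) (n + 1) := by
      ext k; simp only [mem_Ioc, mem_union, mem_Ico]; omega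
    have h3 : Disjoint (Ioc 0 m) (Ico (m + 1) (n + 1)) := by
      rw [disjoint_left]; intro k hk hk'
      simp only [mem_Ioc, mem_Ico] at hk hk'; omega
    rw [h2, sum_union h3, add_sub_cancel_left]
    exact sum_congr rfl fun k _ => by ring
  rw [h1]
  have h := alt_bound (fun k : ℕ => 1 / (k : ℝ)) (m + 1) (n + 1) (by omega) ?_ ?_
  · simpa using h
  · intro k hk
    have hk0 : (0 : ℝ) < k := by exact_mod_cast (by omega : 0 < k)
    apply one_div_le_one_div_of_le hk0
    push_cast; linarith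
  · intro k _; positivity

lemma Ac_ge (n : ℕ) (hn : 1 ≤ n) : 2 / 3 ≤ Ac n := by
  have h1 : Ac 1 = 1 := by
    unfold Ac chi; simp
  have h2 : Ac 2 = 1 := by
    unfold Ac chi
    rw [show Ioc 0 2 = {1, 2} by ext k; simp only [mem_Ioc, mem_insert, mem_singleton]; omega]
    simp
  rcases Nat.lt_or_ge n 2 with h | h
  · have : n = 1 := by omega
    rw [this, h1]; norm_num
  · have := Ac_sub 2 n h
    rw [h2, abs_le] at this
    have h3 := this.1
    norm_num at h3
    linarith

/-- `∑_{n ≤ N} χ(n) log n / n` is bounded -/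
noncomputable def Bc (n : ℕ) : ℝ := ∑ m ∈ Ioc 0 n, chi m * (Real.log m / m)

lemma Bc_le (n : ℕ) : |Bc n| ≤ 1 := by
  have hlog3 : Real.log 3 / 3 ≤ 1 := by
    have := Real.log_le_sub_one_of_pos (show (0 : ℝ) < 3 by norm_num)
    linarith
  rcases Nat.lt_or_ge n 3 with h | h
  · have h3 : n = 0 ∨ n = 1 ∨ n = 2 := by omega
    rcases h3 with h3 | h3 | h3
    · rw [h3]; unfold Bc; simp
    · rw [h3]; unfold Bc; simp
    · rw [h3]; unfold Bc chi
      rw [show Ioc 0 2 = {1, 2} by ext k; simp only [mem_Ioc, mem_insert, mem_singleton]; omega]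
      simp
  · have h1 : Bc n = ∑ k ∈ Ico 3 (n + 1), chi k * (Real.log k / k) := by
      unfold Bc
      have h2 : Ioc 0 n = {1, 2} ∪ Ico 3 (n + 1) := by
        ext k; simp only [mem_Ioc, mem_union, mem_Ico, mem_insert, mem_singleton]; omega
      have h3 : Disjoint ({1, 2} : Finset ℕ) (Ico 3 (n + 1)) := by
        rw [disjoint_left]; intro k hk hk'
        simp only [mem_insert, mem_singleton, mem_Ico] at hk hk'; omega
      rw [h2, sum_union h3]
      simp [chi]
    rw [h1]
    have h := alt_bound (fun k : ℕ => Real.log k / (k : ℝ)) 3 (n + 1) (by omega) ?_ ?_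
    · refine h.trans ?_
      simpa using hlog3
    · intro k hk
      have he : Real.exp 1 ≤ 3 := by
        have := Real.exp_one_lt_d9; linarith
      have hk3 : (3 : ℝ) ≤ k := by exact_mod_cast hk
      have := Real.log_div_self_antitoneOn (a := (k : ℝ)) (b := ((k + 1 : ℕ) : ℝ))
        (by show Real.exp 1 ≤ (k : ℝ); linarith)
        (by show Real.exp 1 ≤ ((k + 1 : ℕ) : ℝ); push_cast; linarith) (by push_cast; linarith)
      exact this
    · intro k _
      exact div_nonneg (Real.log_natCast_nonneg k) (Nat.cast_nonneg k)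

end Crest.Agent.R2.Z306
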