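import Mathlib
import Crest.Agent.Lib.Mertens
import Crest.Agent.R2.Split306a

/-!
# R2 (Gaussian moat), block Z1: supply of split primes (b): Mertens for primes = 1 mod 4
-/

set_option autoImplicit false

namespace Crest.Agent.R2.Z306

open Finset Crest.Agent.Lib ArithmeticFunction

/-- `χ(m)/m` as an arithmetic function -/
noncomputable def gf : ArithmeticFunction ℝ := ⟨fun m => chi m / m, by simp [chi]⟩

/-- `χ(d) Λ(d)/d` as an arithmetic function -/
noncomputable def ff : ArithmeticFunction ℝ :=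
  ⟨fun d => chi d * vonMangoldt d / d, by simp [chi]⟩

lemma gf_apply (m : ℕ) : gf m = chi m / m := rfl
lemma ff_apply (m : ℕ) : ff m = chi m * vonMangoldt m / m := rfl

lemma ff_mul_gf (n : ℕ) : (ff * gf) n = chi n * (Real.log n / n) := by
  rw [mul_apply]
  have h1 : ∀ x ∈ n.divisorsAntidiagonal,
      ff x.1 * gf x.2 = vonMangoldt x.1 * (chi n / n) := by
    intro x hx
    have h2 := Nat.mem_divisorsAntidiagonal.1 hx
    have hx1 : (x.1 : ℝ) ≠ 0 := by
      have : x.1 ≠ 0 := by rintro h; apply h2.2; rw [← h2.1, h]; simp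
      exact_mod_cast this
    have hx2 : (x.2 : ℝ) ≠ 0 := by
      have : x.2 ≠ 0 := by rintro h; apply h2.2; rw [← h2.1, h]; simp
      exact_mod_cast this
    rw [ff_apply, gf_apply, ← h2.1, chi_mul]
    push_cast
    field_simp
  rw [sum_congr rfl h1, ← sum_mul]
  have h3 : ∑ x ∈ n.divisorsAntidiagonal, vonMangoldt x.1 = Real.log n := by
    rw [← vonMangoldt_sum (n := n)]
    exact Nat.sum_divisorsAntidiagonal (fun i _ => (vonMangoldt i : ℝ))
  rw [h3]
  ring

/-- `∑_{m ≤ N} χ(m)Λ(m)/m` -/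
noncomputable def Sc (n : ℕ) : ℝ := ∑ m ∈ Ioc 0 n, chi m * vonMangoldt m / m

lemma psi_nat (N : ℕ) : ∑ m ∈ Ioc 0 N, vonMangoldt m ≤ (Real.log 4 + 4) * N := by
  have h := Chebyshev.psi_le_const_mul_self (x := (N : ℝ)) (Nat.cast_nonneg N)
  unfold Chebyshev.psi at h
  simpa using h

lemma log4_le : Real.log 4 ≤ 1.5 := by
  have h : Real.log 4 = 2 * Real.log 2 := by
    rw [show (4 : ℝ) = 2 ^ 2 by norm_num, Real.log_pow]; norm_num
  rw [h]
  have := Real.log_two_lt_d9
  linarith

lemma Sc_le (N : ℕ) : |Sc N| ≤ 10 := by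
  rcases Nat.eq_zero_or_pos N with h0 | hN
  · rw [h0]; unfold Sc; simp
  have h1 : Bc N = ∑ d ∈ Ioc 0 N, chi d * vonMangoldt d / d * Ac (N / d) := by
    have h2 := sum_Ioc_mul_eq_sum_sum ff gf N
    have h3 : ∑ n ∈ Ioc 0 N, (ff * gf) n = Bc N := by
      unfold Bc; exact sum_congr rfl fun n _ => ff_mul_gf n
    rw [h3] at h2
    rw [h2]
    rfl
  have h2 : Bc N - Ac N * Sc N =
      ∑ d ∈ Ioc 0 N, chi d * vonMangoldt d / d * (Ac (N / d) - Ac N) := by
    rw [h1]; unfold Sc
    rw [mul_sum, ← sum_sub_distrib]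
    exact sum_congr rfl fun d _ => by ring
  have hNr : (0 : ℝ) < N := by exact_mod_cast hN
  have h3 : |Bc N - Ac N * Sc N| ≤ Real.log 4 + 4 := by
    rw [h2]
    calc |∑ d ∈ Ioc 0 N, chi d * vonMangoldt d / d * (Ac (N / d) - Ac N)|
        ≤ ∑ d ∈ Ioc 0 N, |chi d * vonMangoldt d / d * (Ac (N / d) - Ac N)| :=
          abs_sum_le_sum_abs _ _
      _ ≤ ∑ d ∈ Ioc 0 N, vonMangoldt d / N := by
          refine sum_le_sum fun d hd => ?_
          have hd1 := (mem_Ioc.1 hd).1
          have hd2 := (mem_Ioc.1 hd).2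
          have hdr : (0 : ℝ) < d := by exact_mod_cast hd1
          have hL : (0 : ℝ) ≤ vonMangoldt d := vonMangoldt_nonneg
          have h4 : |Ac (N / d) - Ac N| ≤ 1 / (((N / d : ℕ) : ℝ) + 1) := by
            rw [abs_sub_comm]
            exact Ac_sub _ _ (Nat.div_le_self _ _)
          have h5 : 1 / (((N / d : ℕ) : ℝ) + 1) ≤ d / N := by
            rw [div_le_div_iff₀ (by positivity) hNr]
            have h6 : N < (N / d + 1) * d := by
              have := Nat.lt_div_mul_add (a := N) hd1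
              nlinarith
            have h7 : (N : ℝ) < (((N / d : ℕ) : ℝ) + 1) * d := by exact_mod_cast h6
            linarith [mul_comm (((N / d : ℕ) : ℝ) + 1) (d : ℝ)]
          rw [abs_mul, abs_div, abs_mul, abs_of_nonneg hL, abs_of_pos hdr]
          calc |chi d| * vonMangoldt d / d * |Ac (N / d) - Ac N|
              ≤ 1 * vonMangoldt d / d * (d / N) := by
                apply mul_le_mul
                · apply div_le_div_of_nonneg_right _ hdr.le
                  exact mul_le_mul_of_nonneg_right (abs_chi_le d) hL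
                · exact h4.trans h5
                · exact abs_nonneg _
                · positivity
            _ = vonMangoldt d / N := by field_simp
      _ = (∑ d ∈ Ioc 0 N, vonMangoldt d) / N := by rw [sum_div]
      _ ≤ Real.log 4 + 4 := by
          rw [div_le_iff₀ hNr]; exact psi_nat N
  have h4 := Bc_le N
  have h5 := Ac_ge N hN
  have h6 := log4_le
  have h7 : |Ac N * Sc N| ≤ 6.5 := by
    have : Ac N * Sc N = Bc N - (Bc N - Ac N * Sc N) := by ring
    rw [this]
    refine (abs_sub _ _).trans ?_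
    linarith
  rw [abs_mul, abs_of_pos (by linarith)] at h7
  nlinarith [abs_nonneg (Sc N)]

/-- `∑_{m ≤ N} Λ(m)/m ≤ log N + C` -/
lemma sum_mangoldt_div_le (N : ℕ) (hN : 1 ≤ N) :
    ∑ m ∈ Ioc 0 N, vonMangoldt m / m ≤ Real.log N + 5.5 := by
  have hNr : (0 : ℝ) < N := by exact_mod_cast hN
  have h1 := sum_Ioc_mul_zeta_eq_sum (R := ℝ) vonMangoldt N
  have h2 : ∑ n ∈ Ioc 0 N, ((vonMangoldt * (zeta : ArithmeticFunction ℝ)) n : ℝ) =
      ∑ n ∈ Ioc 0 N, Real.log n := by
    refine sum_congr rfl fun n _ => ?_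
    rw [vonMangoldt_mul_zeta]; rfl
  rw [h2] at h1
  have h3 : ∑ n ∈ Ioc 0 N, Real.log n ≤ N * Real.log N := by
    calc ∑ n ∈ Ioc 0 N, Real.log n ≤ ∑ n ∈ Ioc 0 N, Real.log N := by
          refine sum_le_sum fun n hn => ?_
          have hn1 := (mem_Ioc.1 hn).1
          have hn2 := (mem_Ioc.1 hn).2
          exact Real.log_le_log (by exact_mod_cast hn1) (by exact_mod_cast hn2)
      _ = N * Real.log N := by simp
  have h4 : ∑ m ∈ Ioc 0 N, vonMangoldt m * ((N : ℝ) / m - 1) ≤
      ∑ m ∈ Ioc 0 N, vonMangoldt m * ((N / m : ℕ) : ℝ) := by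
    refine sum_le_sum fun m hm => ?_
    have hm1 := (mem_Ioc.1 hm).1
    have hmr : (0 : ℝ) < m := by exact_mod_cast hm1
    refine mul_le_mul_of_nonneg_left ?_ vonMangoldt_nonneg
    have h6 : N < (N / m + 1) * m := by
      have := Nat.lt_div_mul_add (a := N) hm1
      nlinarith
    have h7 : (N : ℝ) < (((N / m : ℕ) : ℝ) + 1) * m := by exact_mod_cast h6
    have h8 : (N : ℝ) / m ≤ ((N / m : ℕ) : ℝ) + 1 := by
      rw [div_le_iff₀ hmr]; exact h7.le
    linarith
  have h5 : ∑ m ∈ Ioc 0 N, vonMangoldt m * ((N : ℝ) / m - 1) =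
      N * (∑ m ∈ Ioc 0 N, vonMangoldt m / m) - ∑ m ∈ Ioc 0 N, vonMangoldt m := by
    rw [mul_sum, ← sum_sub_distrib]
    exact sum_congr rfl fun m _ => by ring
  rw [h5] at h4
  have h6 := psi_nat N
  have h7 := log4_le
  have h8 : (N : ℝ) * (∑ m ∈ Ioc 0 N, vonMangoldt m / m) ≤ N * (Real.log N + 5.5) := by
    nlinarith
  exact le_of_mul_le_mul_left h8 hNr

/-- prime part of `S` -/
noncomputable def Sp (N : ℕ) : ℝ := ∑ p ∈ Nat.primesLE N, chi p * (Real.log p / p)

lemma Sp_le (N : ℕ) (hN : 1 ≤ N) : |Sp N| ≤ 19 := by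
  have hsub : Nat.primesLE N = (Ioc 0 N).filter Nat.Prime := by
    rw [Nat.primesLE_eq_filter_Ioc_zero]
  have h1 : Sc N = Sp N + ∑ m ∈ (Ioc 0 N).filter (fun m => ¬ m.Prime),
      chi m * vonMangoldt m / m := by
    unfold Sc Sp
    rw [hsub, ← sum_filter_add_sum_filter_not (Ioc 0 N) Nat.Prime]
    congr 1
    refine sum_congr rfl fun p hp => ?_
    rw [vonMangoldt_apply_prime (mem_filter.1 hp).2]
    ring
  have h2 : ∑ m ∈ Ioc 0 N, vonMangoldt m / m = Mertens.A N +
      ∑ m ∈ (Ioc 0 N).filter (fun m => ¬ m.Prime), vonMangoldt m / (m : ℝ) := by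
    unfold Mertens.A
    rw [hsub, ← sum_filter_add_sum_filter_not (Ioc 0 N) Nat.Prime]
    congr 1
    refine sum_congr rfl fun p hp => ?_
    rw [vonMangoldt_apply_prime (mem_filter.1 hp).2]
  have h3 : |∑ m ∈ (Ioc 0 N).filter (fun m => ¬ m.Prime), chi m * vonMangoldt m / m| ≤
      ∑ m ∈ (Ioc 0 N).filter (fun m => ¬ m.Prime), vonMangoldt m / (m : ℝ) := by
    refine (abs_sum_le_sum_abs _ _).trans (sum_le_sum fun m _ => ?_)
    have hL : (0 : ℝ) ≤ vonMangoldt m := vonMangoldt_nonneg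
    rw [abs_div, abs_mul, abs_of_nonneg hL, abs_of_nonneg (Nat.cast_nonneg (α := ℝ) m)]
    apply div_le_div_of_nonneg_right _ (Nat.cast_nonneg m)
    calc |chi m| * vonMangoldt m ≤ 1 * vonMangoldt m :=
          mul_le_mul_of_nonneg_right (abs_chi_le m) hL
      _ = vonMangoldt m := one_mul _
  have h4 := sum_mangoldt_div_le N hN
  have h5 := Mertens.mertens_one N hN
  have h6 := Sc_le N
  rw [abs_le] at h3 h5 h6 ⊢
  constructor <;> linarith [h3.1, h3.2, h5.1, h5.2, h6.1, h6.2]

/-- `∑_{p ≤ N, p = 1 mod 4} log p / p` -/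
noncomputable def P1 (N : ℕ) : ℝ :=
  ∑ p ∈ (Nat.primesLE N).filter (fun p => p % 4 = 1), Real.log p / p

theorem mertens_nat (N : ℕ) (hN : 1 ≤ N) : |P1 N - Real.log N / 2| ≤ 12 := by
  have h1 : 2 * P1 N = Mertens.A N + Sp N -
      ∑ p ∈ (Nat.primesLE N).filter (fun p => p = 2), Real.log p / p := by
    unfold P1 Mertens.A Sp
    rw [sum_filter, sum_filter, mul_sum, ← sum_add_distrib, ← sum_sub_distrib]
    refine sum_congr rfl fun p hp => ?_
    have hp' : p.Prime := (Nat.mem_primesLE.1 hp).2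
    by_cases h2 : p = 2
    · subst h2; simp [chi]
    · have hodd : p % 2 = 1 := by
        rcases hp'.eq_two_or_odd with h | h
        · exact absurd h h2
        · exact h
      have h4 : p % 4 = 1 ∨ p % 4 = 3 := by omega
      rcases h4 with h4 | h4 <;> simp [chi, h4, h2]
      ring
  have h2 : 0 ≤ ∑ p ∈ (Nat.primesLE N).filter (fun p => p = 2), Real.log p / (p : ℝ) :=
    sum_nonneg fun p _ => div_nonneg (Real.log_natCast_nonneg p) (Nat.cast_nonneg p)
  have h3 : ∑ p ∈ (Nat.primesLE N).filter (fun p => p = 2), Real.log p / (p : ℝ) ≤ 1 := by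
    calc ∑ p ∈ (Nat.primesLE N).filter (fun p => p = 2), Real.log p / (p : ℝ)
        ≤ ∑ p ∈ ({2} : Finset ℕ), Real.log p / (p : ℝ) := by
          refine sum_le_sum_of_subset_of_nonneg ?_ fun p _ _ =>
            div_nonneg (Real.log_natCast_nonneg p) (Nat.cast_nonneg p)
          intro p hp
          rw [mem_singleton]
          exact (mem_filter.1 hp).2
      _ ≤ 1 := by
          simp only [sum_singleton, Nat.cast_ofNat]
          have := Real.log_two_lt_d9
          linarith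
  have h5 := Mertens.mertens_one N hN
  have h6 := Sp_le N hN
  rw [abs_le] at h5 h6 ⊢
  constructor <;> linarith [h5.1, h5.2, h6.1, h6.2]

end Crest.Agent.R2.Z306
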