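import Mathlib
import Crest.Agent.R2.Split306b

/-!
# R2 (Gaussian moat), block Z1: supply of split primes (c): windows
-/

set_option autoImplicit false

namespace Crest.Agent.R2.Z306

open Finset Crest.Agent.Lib

/-- primes `= 1 mod 4` in `(a, b]` (real ends) -/
noncomputable def win (a b : ℝ) : Finset ℕ :=
  (Ioc ⌊a⌋₊ ⌊b⌋₊).filter (fun p => p.Prime ∧ p % 4 = 1)

lemma mem_win {a b : ℝ} {p : ℕ} (ha : 0 ≤ a) (hb : 0 ≤ b) :
    p ∈ win a b ↔ (a < p ∧ (p : ℝ) ≤ b) ∧ p.Prime ∧ p % 4 = 1 := by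
  unfold win
  rw [mem_filter, mem_Ioc, Nat.floor_lt ha, Nat.le_floor_iff hb]

/-- weighted sum over a window -/
noncomputable def ws (a b : ℝ) : ℝ := ∑ p ∈ win a b, Real.log p / p

lemma P1_sub (M N : ℕ) (h : M ≤ N) : P1 N - P1 M =
    ∑ p ∈ (Ioc M N).filter (fun p => p.Prime ∧ p % 4 = 1), Real.log p / (p : ℝ) := by
  unfold P1
  rw [Nat.primesLE_eq_filter_Ioc_zero, Nat.primesLE_eq_filter_Ioc_zero, filter_filter, filter_filter]
  have h2 : (Ioc 0 N).filter (fun p => p.Prime ∧ p % 4 = 1) =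
      (Ioc 0 M).filter (fun p => p.Prime ∧ p % 4 = 1) ∪
      (Ioc M N).filter (fun p => p.Prime ∧ p % 4 = 1) := by
    rw [← filter_union]
    congr 1
    ext k; simp only [mem_Ioc, mem_union]; omega
  have h3 : Disjoint ((Ioc 0 M).filter (fun p => p.Prime ∧ p % 4 = 1))
      ((Ioc M N).filter (fun p => p.Prime ∧ p % 4 = 1)) := by
    rw [disjoint_left]; intro k hk hk'
    simp only [mem_filter, mem_Ioc] at hk hk'; omega
  rw [h2, sum_union h3, add_sub_cancel_left]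

lemma ws_eq {a b : ℝ} (ha : 0 ≤ a) (hab : a ≤ b) : ws a b = P1 ⌊b⌋₊ - P1 ⌊a⌋₊ := by
  rw [P1_sub _ _ (Nat.floor_le_floor hab)]
  rfl

lemma ws_add {a b c : ℝ} (ha : 0 ≤ a) (hab : a ≤ b) (hbc : b ≤ c) : ws a c = ws a b + ws b c := by
  rw [ws_eq ha (hab.trans hbc), ws_eq ha hab, ws_eq (ha.trans hab) hbc]; ring

lemma log_floor_ge {x : ℝ} (hx : 1 ≤ x) : Real.log x - 1 ≤ Real.log (⌊x⌋₊ : ℝ) := by
  have hn : 1 ≤ ⌊x⌋₊ := Nat.le_floor (by exact_mod_cast hx)
  have hn0 : (0 : ℝ) < (⌊x⌋₊ : ℝ) := by exact_mod_cast hn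
  have h1 : x ≤ 2 * (⌊x⌋₊ : ℝ) := by
    have := (Nat.lt_floor_add_one x).le
    have h2 : (1 : ℝ) ≤ (⌊x⌋₊ : ℝ) := by exact_mod_cast hn
    linarith
  have h2 : Real.log x ≤ Real.log 2 + Real.log (⌊x⌋₊ : ℝ) := by
    rw [← Real.log_mul (by norm_num) hn0.ne']
    exact Real.log_le_log (by linarith) h1
  have := Real.log_two_lt_d9
  linarith

/-- (Z1a) Mertens' first theorem for primes `= 1 mod 4` -/
theorem mertens {x : ℝ} (hx : 1 ≤ x) : |P1 ⌊x⌋₊ - Real.log x / 2| ≤ 13 := by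
  have hn : 1 ≤ ⌊x⌋₊ := Nat.le_floor (by exact_mod_cast hx)
  have hn0 : (0 : ℝ) < (⌊x⌋₊ : ℝ) := by exact_mod_cast hn
  have h1 := mertens_nat ⌊x⌋₊ hn
  have h2 := log_floor_ge hx
  have h3 : Real.log (⌊x⌋₊ : ℝ) ≤ Real.log x :=
    Real.log_le_log hn0 (Nat.floor_le (by linarith))
  rw [abs_le] at h1 ⊢
  constructor <;> linarith [h1.1, h1.2]

lemma ws_big {X : ℝ} (hX : 1 ≤ X) : 1 ≤ ws X (2 ^ 80 * X) := by
  have h80 : X ≤ 2 ^ 80 * X := by nlinarith [show (1 : ℝ) ≤ 2 ^ 80 by norm_num]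
  rw [ws_eq (by linarith) h80]
  have h1 := mertens hX
  have h2 := mertens (hX.trans h80)
  have h3 : Real.log (2 ^ 80 * X) = 80 * Real.log 2 + Real.log X := by
    rw [Real.log_mul (by positivity) (by linarith), Real.log_pow]; norm_num
  rw [h3] at h2
  have h5 := Real.log_two_gt_d9
  rw [abs_le] at h1 h2
  have h6 := h1.2
  have h7 := h2.1
  generalize P1 ⌊2 ^ 80 * X⌋₊ = A at *
  generalize P1 ⌊X⌋₊ = B at *
  generalize Real.log X = C at *
  generalize Real.log 2 = D at *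
  linarith

lemma ws_pow {X : ℝ} (hX : 1 ≤ X) (n : ℕ) :
    ws X (2 ^ n * X) = ∑ i ∈ range n, ws (2 ^ i * X) (2 ^ (i + 1) * X) := by
  induction n with
  | zero => simp [ws, win]
  | succ n ih =>
    rw [sum_range_succ, ← ih]
    have h1 : X ≤ 2 ^ n * X := by nlinarith [one_le_pow₀ (M₀ := ℝ) (a := 2) (by norm_num) (n := n)]
    exact ws_add (by linarith) h1 (by rw [pow_succ]; nlinarith)

lemma ws_le_card {w : ℝ} (hw : 1 ≤ w) :
    ws w (2 * w) ≤ (win w (2 * w)).card * (Real.log (2 * w) / w) := by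
  unfold ws
  rw [← nsmul_eq_mul]
  refine sum_le_card_nsmul _ _ _ fun p hp => ?_
  have hp' := (mem_win (by linarith) (by linarith)).1 hp
  apply div_le_div₀ (Real.log_nonneg (by linarith)) _ (by linarith) hp'.1.1.le
  exact Real.log_le_log (by linarith [hp'.1.1]) hp'.1.2

/-- (Z1b) windows with many primes `= 1 mod 4` -/
theorem windows {X : ℝ} (hX : 2 ≤ X) : ∃ w : ℝ, X ≤ w ∧ w ≤ 2 ^ 80 * X ∧
    w / (160 * Real.log w) ≤ (win w (2 * w)).card := by
  have h1 := ws_big (X := X) (by linarith)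
  rw [ws_pow (by linarith)] at h1
  obtain ⟨i, hi, h2⟩ : ∃ i ∈ range 80, (1 : ℝ) / 80 ≤ ws (2 ^ i * X) (2 ^ (i + 1) * X) := by
    by_contra hcon
    push Not at hcon
    have h3 : ∑ i ∈ range 80, ws (2 ^ i * X) (2 ^ (i + 1) * X) < ∑ i ∈ range 80, (1 : ℝ) / 80 :=
      sum_lt_sum_of_nonempty ⟨0, by simp⟩ hcon
    rw [sum_const, card_range] at h3
    norm_num at h3
    linarith
  have hi' : i < 80 := mem_range.1 hi
  have hpow : (1 : ℝ) ≤ 2 ^ i := one_le_pow₀ (by norm_num)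
  have hw : X ≤ 2 ^ i * X := by nlinarith
  refine ⟨2 ^ i * X, hw, ?_, ?_⟩
  · apply mul_le_mul_of_nonneg_right _ (by linarith)
    exact pow_le_pow_right₀ (by norm_num) (by omega)
  · have h3 : 2 ^ (i + 1) * X = 2 * (2 ^ i * X) := by ring
    rw [h3] at h2
    generalize 2 ^ i * X = w at *
    have hw2 : 2 ≤ w := hX.trans hw
    have h4 := h2.trans (ws_le_card (w := w) (by linarith))
    have hlw : 0 < Real.log w := Real.log_pos (by linarith)
    have h5 : Real.log (2 * w) ≤ 2 * Real.log w := by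
      rw [Real.log_mul (by norm_num) (by linarith)]
      have := Real.log_le_log (by norm_num) hw2
      linarith
    have h6 : (1 : ℝ) / 80 ≤ (win w (2 * w)).card * (2 * Real.log w / w) := by
      refine h4.trans (mul_le_mul_of_nonneg_left ?_ (Nat.cast_nonneg _))
      exact div_le_div_of_nonneg_right h5 (by linarith)
    rw [div_le_iff₀ (by positivity)]
    have h7 : ((win w (2 * w)).card : ℝ) * (2 * Real.log w / w) * w =
        (win w (2 * w)).card * (2 * Real.log w) := by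
      field_simp
    have h8 : (1 : ℝ) / 80 * w ≤ (win w (2 * w)).card * (2 * Real.log w) := by
      rw [← h7]
      exact mul_le_mul_of_nonneg_right h6 (by linarith)
    linarith

end Crest.Agent.R2.Z306
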