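import Mathlib
import Crest.Agent.R2.Split306c

/-!
# R2 (Gaussian moat), block Z1: supply of split primes (d): Gaussian primes
-/

set_option autoImplicit false

namespace Crest.Agent.R2.Z306

open Finset Crest.Agent.Lib

lemma gauss_norm (a b : ℤ) : (⟨a, b⟩ : GaussianInt).norm = a ^ 2 + b ^ 2 := by
  rw [Zsqrtd.norm_def]; ring

lemma exists_gp (p : ℕ) (hp : p.Prime) (h4 : p % 4 = 1) :
    ∃ z : GaussianInt, z.norm = p := by
  haveI : Fact p.Prime := ⟨hp⟩
  obtain ⟨a, b, hab⟩ := Nat.Prime.sq_add_sq (p := p) (by omega)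
  refine ⟨⟨a, b⟩, ?_⟩
  rw [gauss_norm, ← hab]; push_cast; ring

open Classical in
/-- a chosen Gaussian prime above `p = 1 mod 4` -/
noncomputable def gp (p : ℕ) : GaussianInt :=
  if h : p.Prime ∧ p % 4 = 1 then (exists_gp p h.1 h.2).choose else 0

lemma norm_gp {p : ℕ} (hp : p.Prime) (h4 : p % 4 = 1) : (gp p).norm = p := by
  unfold gp
  rw [dif_pos ⟨hp, h4⟩]
  exact (exists_gp p hp h4).choose_spec

lemma prime_of_norm {z : GaussianInt} {p : ℕ} (hp : p.Prime) (hz : z.norm = p) : Prime z := by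
  have hirr : Irreducible z := by
    constructor
    · intro hu
      have := (Zsqrtd.norm_eq_one_iff (x := z)).2 hu
      rw [hz] at this
      simp only [Int.natAbs_natCast] at this
      exact hp.one_lt.ne' this
    · intro a b hab
      have h1 : a.norm.natAbs * b.norm.natAbs = p := by
        rw [← Int.natAbs_mul, ← Zsqrtd.norm_mul, ← hab, hz, Int.natAbs_natCast]
      rcases (Nat.prime_mul_iff.1 (h1 ▸ hp)) with h | h
      · right; exact Zsqrtd.norm_eq_one_iff.1 h.2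
      · left; exact Zsqrtd.norm_eq_one_iff.1 h.2
  exact hirr.prime

lemma norm_eq_of_assoc {z w : GaussianInt} (h : Associated z w) : z.norm = w.norm := by
  obtain ⟨u, rfl⟩ := h
  have h1 : (u : GaussianInt).norm.natAbs = 1 := Zsqrtd.norm_eq_one_iff.2 u.isUnit
  have h2 : 0 ≤ (u : GaussianInt).norm := GaussianInt.norm_nonneg _
  have h3 : (u : GaussianInt).norm = 1 := by omega
  rw [Zsqrtd.norm_mul, h3, mul_one]

lemma norm_star (z : GaussianInt) : (star z).norm = z.norm := by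
  rw [Zsqrtd.norm_def, Zsqrtd.norm_def]
  simp

/-- a prime above `p = 1 mod 4` is not associated with its conjugate -/
lemma not_assoc_star {z : GaussianInt} {p : ℕ} (hp : p.Prime) (h4 : p % 4 = 1)
    (hz : z.norm = p) : ¬ Associated z (star z) := by
  intro h
  have hzp : Prime z := prime_of_norm hp hz
  -- `z ∣ z + star z = 2 re z` and `z ∣ z - star z = 2 i im z`
  have h1 : z ∣ star z := h.dvd
  have h2 : z ∣ ((2 * z.re : ℤ) : GaussianInt) := by
    have : ((2 * z.re : ℤ) : GaussianInt) = z + star z := by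
      ext <;> simp [two_mul]
    rw [this]; exact dvd_add dvd_rfl h1
  have h3 : (z.norm : ℤ) ∣ (2 * z.re) ^ 2 := by
    obtain ⟨c, hc⟩ := h2
    have h5 := congrArg Zsqrtd.norm hc
    rw [Zsqrtd.norm_mul, Zsqrtd.norm_intCast] at h5
    exact ⟨c.norm, by rw [← h5]; ring⟩
  rw [hz] at h3
  have hpZ : Prime (p : ℤ) := Nat.prime_iff_prime_int.1 hp
  have h6 : (p : ℤ) ∣ 2 * z.re := hpZ.dvd_of_dvd_pow h3
  have h7 : ¬ (p : ℤ) ∣ 2 := by
    intro h
    have : p ∣ 2 := by exact_mod_cast h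
    have := Nat.le_of_dvd (by norm_num) this
    have := hp.two_le
    omega
  have h8 : (p : ℤ) ∣ z.re := (hpZ.dvd_or_dvd h6).resolve_left h7
  have h9 : z.re ^ 2 + z.im ^ 2 = p := by
    rw [← hz, Zsqrtd.norm_def]; ring
  obtain ⟨c, hc⟩ := h8
  have hp2 : (2 : ℤ) ≤ p := by exact_mod_cast hp.two_le
  by_cases hc0 : c = 0
  · rw [hc0, mul_zero] at hc
    rw [hc] at h9
    -- p is a square
    have h10 : z.im ^ 2 = p := by linarith
    have h11 : (p : ℤ) ∣ z.im := hpZ.dvd_of_dvd_pow (n := 2) (by rw [h10])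
    obtain ⟨e, he⟩ := h11
    rw [he] at h10
    have h12 : (p : ℤ) * (p * e ^ 2 - 1) = 0 := by linear_combination h10
    rcases mul_eq_zero.1 h12 with h13 | h13
    · omega
    · have h14 : (p : ℤ) * e ^ 2 = 1 := by linarith
      have h15 : (p : ℤ) ∣ 1 := ⟨e ^ 2, h14.symm⟩
      have := Int.le_of_dvd one_pos h15
      omega
  · have h10 : 1 ≤ c ^ 2 := by
      have := sq_nonneg c
      have h11 : c ^ 2 ≠ 0 := pow_ne_zero 2 hc0
      omega
    rw [hc] at h9
    nlinarith [sq_nonneg z.im, mul_pos (show (0 : ℤ) < p by linarith) (show (0 : ℤ) < p by linarith)]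

/-- properties of a good set of Gaussian primes in the window `(w, 2w]` of norms -/
structure Good (w : ℝ) (G : Finset GaussianInt) : Prop where
  prime : ∀ p ∈ G, Prime p
  lo : ∀ p ∈ G, w < (p.norm : ℝ)
  hi : ∀ p ∈ G, (p.norm : ℝ) ≤ 2 * w
  rat : ∀ p ∈ G, (p.norm.natAbs).Prime ∧ p.norm.natAbs % 4 = 1
  inj : ∀ p ∈ G, ∀ q ∈ G, p.norm = q.norm → p = q

lemma Good.assoc {w : ℝ} {G : Finset GaussianInt} (h : Good w G) {p q : GaussianInt}
    (hp : p ∈ G) (hq : q ∈ G) (hpq : Associated p q) : p = q :=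
  h.inj p hp q hq (norm_eq_of_assoc hpq)

lemma Good.not_star {w : ℝ} {G : Finset GaussianInt} (h : Good w G) {p q : GaussianInt}
    (hp : p ∈ G) (hq : q ∈ G) : ¬ Associated p (star q) := by
  intro hpq
  have h1 := norm_eq_of_assoc hpq
  rw [norm_star] at h1
  have h2 := h.inj p hp q hq h1
  subst h2
  have h3 : p.norm = (p.norm.natAbs : ℤ) := by
    rw [Int.natCast_natAbs, abs_of_nonneg (GaussianInt.norm_nonneg p)]
  exact not_assoc_star (h.rat p hp).1 (h.rat p hp).2 h3 hpq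

lemma Good.subset {w : ℝ} {G G' : Finset GaussianInt} (h : Good w G) (hs : G' ⊆ G) :
    Good w G' :=
  ⟨fun p hp => h.prime p (hs hp), fun p hp => h.lo p (hs hp), fun p hp => h.hi p (hs hp),
    fun p hp => h.rat p (hs hp), fun p hp q hq => h.inj p (hs hp) q (hs hq)⟩

/-- the Gaussian primes chosen above the window `(w, 2w]` -/
noncomputable def gw (w : ℝ) : Finset GaussianInt := (win w (2 * w)).image gp

lemma good_gw {w : ℝ} (hw : 0 ≤ w) : Good w (gw w) := by
  have key : ∀ p ∈ gw w, ∃ n : ℕ, n.Prime ∧ n % 4 = 1 ∧ w < n ∧ (n : ℝ) ≤ 2 * w ∧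
      p = gp n ∧ p.norm = n := by
    intro p hp
    obtain ⟨n, hn, rfl⟩ := mem_image.1 hp
    have h1 := (mem_win hw (by linarith)).1 hn
    exact ⟨n, h1.2.1, h1.2.2, h1.1.1, h1.1.2, rfl, norm_gp h1.2.1 h1.2.2⟩
  refine ⟨?_, ?_, ?_, ?_, ?_⟩
  · intro p hp
    obtain ⟨n, h1, _, _, _, _, h6⟩ := key p hp
    exact prime_of_norm h1 h6
  · intro p hp
    obtain ⟨n, _, _, h3, _, _, h6⟩ := key p hp
    rw [h6]; exact_mod_cast h3
  · intro p hp
    obtain ⟨n, _, _, _, h4, _, h6⟩ := key p hp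
    rw [h6]; exact_mod_cast h4
  · intro p hp
    obtain ⟨n, h1, h2, _, _, _, h6⟩ := key p hp
    rw [h6, Int.natAbs_natCast]; exact ⟨h1, h2⟩
  · intro p hp q hq hpq
    obtain ⟨n, _, _, _, _, h5, h6⟩ := key p hp
    obtain ⟨n', _, _, _, _, h5', h6'⟩ := key q hq
    rw [h6, h6'] at hpq
    have : n = n' := by exact_mod_cast hpq
    rw [h5, h5', this]

lemma card_gw {w : ℝ} (hw : 0 ≤ w) : (gw w).card = (win w (2 * w)).card := by
  unfold gw
  refine card_image_of_injOn ?_
  intro a ha b hb hab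
  have h1 := (mem_win hw (by linarith)).1 (mem_coe.1 ha)
  have h2 := (mem_win hw (by linarith)).1 (mem_coe.1 hb)
  have h3 := congrArg Zsqrtd.norm hab
  simp only [norm_gp h1.2.1 h1.2.2, norm_gp h2.2.1 h2.2.2] at h3
  exact_mod_cast h3

/-- (Z1c) supply of Gaussian primes -/
theorem supply {X : ℝ} (hX : 2 ≤ X) : ∃ (w : ℝ) (G : Finset GaussianInt),
    X ≤ w ∧ w ≤ 2 ^ 80 * X ∧ Good w G ∧ w / (160 * Real.log w) ≤ G.card := by
  obtain ⟨w, h1, h2, h3⟩ := windows hX
  exact ⟨w, gw w, h1, h2, good_gw (by linarith), by rw [card_gw (by linarith)]; exact h3⟩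

/-- elements of good sets of disjoint windows are not associated, even up to conjugation -/
lemma Good.disjoint {w w' : ℝ} {G G' : Finset GaussianInt} (h : Good w G) (h' : Good w' G')
    (hw : 2 * w ≤ w') {p q : GaussianInt} (hp : p ∈ G) (hq : q ∈ G') :
    ¬ Associated p q ∧ ¬ Associated p (star q) ∧ ¬ Associated (star p) q := by
  have h1 := h.hi p hp
  have h2 := h'.lo q hq
  refine ⟨fun ha => ?_, fun ha => ?_, fun ha => ?_⟩
  · have := norm_eq_of_assoc ha
    rw [this] at h1; linarith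
  · have := norm_eq_of_assoc ha
    rw [norm_star] at this
    rw [this] at h1; linarith
  · have := norm_eq_of_assoc ha
    rw [norm_star] at this
    rw [this] at h1; linarith

/-- (Z1d) lacunary sequences of good windows: `K` the ratio (any real `≥ 2`), the `k`-th window
is in `[K^k, 2^80 K^k]`. -/
theorem lacunary (K : ℝ) (hK : 2 ≤ K) : ∃ (w : ℕ → ℝ) (G : ℕ → Finset GaussianInt),
    ∀ k, 1 ≤ k → K ^ k ≤ w k ∧ w k ≤ 2 ^ 80 * K ^ k ∧ Good (w k) (G k) ∧
      w k / (160 * Real.log (w k)) ≤ (G k).card := by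
  have h : ∀ k : ℕ, ∃ (w : ℝ) (G : Finset GaussianInt), 1 ≤ k → K ^ k ≤ w ∧
      w ≤ 2 ^ 80 * K ^ k ∧ Good w G ∧ w / (160 * Real.log w) ≤ G.card := by
    intro k
    by_cases hk : 1 ≤ k
    · have h2 : 2 ≤ K ^ k := by
        calc (2 : ℝ) ≤ K := hK
          _ = K ^ 1 := (pow_one K).symm
          _ ≤ K ^ k := pow_le_pow_right₀ (by linarith) hk
      obtain ⟨w, G, h⟩ := supply h2
      exact ⟨w, G, fun _ => h⟩
    · exact ⟨0, ∅, fun h => absurd h hk⟩
  choose w G hw using h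
  exact ⟨w, G, hw⟩

/-- version with cardinality divisible by `m`: `m ∣ #G`, at least half of the primes kept -/
lemma Good.exists_dvd {w : ℝ} {G : Finset GaussianInt} (h : Good w G) (m : ℕ) (hm : 1 ≤ m)
    (hcard : 2 * m ≤ G.card) : ∃ G' ⊆ G, Good w G' ∧ m ∣ G'.card ∧ G.card ≤ 2 * G'.card := by
  obtain ⟨G', h1, h2⟩ := exists_subset_card_eq (s := G) (n := m * (G.card / m))
    (Nat.mul_div_le _ _)
  refine ⟨G', h1, h.subset h1, ?_, ?_⟩
  · rw [h2]; exact dvd_mul_right _ _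
  · rw [h2]
    have h3 := Nat.div_add_mod G.card m
    have h4 := Nat.mod_lt G.card hm
    omega

end Crest.Agent.R2.Z306
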