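import Mathlib

/-!
# R2 (Gaussian moat), block T1: the tree of helper149 #11312 (3.0) and its regularity
-/

set_option autoImplicit false

namespace Crest.Agent.R2.T1

open Finset

/-- From every point of `E` there are `D`-paths inside `E` of every displacement. -/
def PathRich (E : Set GaussianInt) (D : ℝ) : Prop :=
  ∀ x ∈ E, ∀ X : ℝ, ∃ (n : ℕ) (γ : ℕ → GaussianInt), γ 0 = x ∧ (∀ i ≤ n, γ i ∈ E) ∧
    (∀ i < n, ‖GaussianInt.toComplex (γ (i + 1) - γ i)‖ ≤ D) ∧
    X ≤ ‖GaussianInt.toComplex (γ n - x)‖

/-- One point at distance about `r`. -/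
theorem exists_at {E : Set GaussianInt} {D : ℝ} (hE : PathRich E D) {x : GaussianInt} (hx : x ∈ E)
    {r : ℝ} (hr : 0 < r) :
    ∃ y ∈ E, r ≤ ‖GaussianInt.toComplex (y - x)‖ ∧ ‖GaussianInt.toComplex (y - x)‖ < r + D := by
  classical
  obtain ⟨n, γ, h0, hmem, hstep, hfar⟩ := hE x hx r
  have hex : ∃ i, i ≤ n ∧ r ≤ ‖GaussianInt.toComplex (γ i - x)‖ := ⟨n, le_rfl, hfar⟩
  obtain ⟨hin, hir⟩ := Nat.find_spec hex
  set i := Nat.find hex with hi
  have hi0 : i ≠ 0 := by
    intro h
    rw [h, h0] at hir
    simp at hir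
    linarith
  obtain ⟨j, hj⟩ := Nat.exists_eq_succ_of_ne_zero hi0
  have hlt : ¬ (j ≤ n ∧ r ≤ ‖GaussianInt.toComplex (γ j - x)‖) := Nat.find_min hex (by omega)
  push Not at hlt
  have hlt' := hlt (by omega)
  refine ⟨γ i, hmem i hin, hir, ?_⟩
  have hs := hstep j (by omega)
  have : γ i - x = (γ (j + 1) - γ j) + (γ j - x) := by rw [hj]; ring
  rw [this, map_add]
  calc _ ≤ _ := norm_add_le _ _
    _ < r + D := by linarith

/-- The radii. -/
def TT (N : ℕ) (T0 : ℝ) (j : ℕ) : ℝ := (3 * (N : ℝ) + 2) ^ j * T0

theorem TT_zero (N : ℕ) (T0 : ℝ) : TT N T0 0 = T0 := by simp [TT]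

theorem TT_succ (N : ℕ) (T0 : ℝ) (j : ℕ) : TT N T0 (j + 1) = (3 * (N : ℝ) + 2) * TT N T0 j := by
  simp only [TT]; ring

theorem TT_pos (N : ℕ) {T0 : ℝ} (h : 0 < T0) (j : ℕ) : 0 < TT N T0 j := by
  simp only [TT]; positivity

theorem TT_mono (N : ℕ) {T0 : ℝ} (h : 0 < T0) {i j : ℕ} (hij : i ≤ j) : TT N T0 i ≤ TT N T0 j := by
  simp only [TT]
  have h1 : (1 : ℝ) ≤ 3 * (N : ℝ) + 2 := by
    have : (0 : ℝ) ≤ (N : ℝ) := Nat.cast_nonneg N
    linarith
  exact mul_le_mul_of_nonneg_right (pow_le_pow_right₀ h1 hij) h.le

open Classical in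
/-- The children of `x` at scale `T`. -/
noncomputable def ch (E : Set GaussianInt) (D : ℝ) (T : ℝ) (x : GaussianInt) (a : ℕ) : GaussianInt :=
  if h : ∃ y ∈ E, 3 * ((a : ℝ) + 1) * T ≤ ‖GaussianInt.toComplex (y - x)‖ ∧
      ‖GaussianInt.toComplex (y - x)‖ < 3 * ((a : ℝ) + 1) * T + D then h.choose else x

theorem ch_spec {E : Set GaussianInt} {D : ℝ} (hE : PathRich E D) {x : GaussianInt} (hx : x ∈ E)
    {T : ℝ} (hT : 0 < T) (a : ℕ) :
    ch E D T x a ∈ E ∧ 3 * ((a : ℝ) + 1) * T ≤ ‖GaussianInt.toComplex (ch E D T x a - x)‖ ∧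
      ‖GaussianInt.toComplex (ch E D T x a - x)‖ < 3 * ((a : ℝ) + 1) * T + D := by
  classical
  have h : ∃ y ∈ E, 3 * ((a : ℝ) + 1) * T ≤ ‖GaussianInt.toComplex (y - x)‖ ∧
      ‖GaussianInt.toComplex (y - x)‖ < 3 * ((a : ℝ) + 1) * T + D :=
    exists_at hE hx (by positivity)
  unfold ch
  rw [dif_pos h]
  exact h.choose_spec

/-- The tree of height `j` rooted at `x`. -/
noncomputable def tr (E : Set GaussianInt) (D : ℝ) (N : ℕ) (T0 : ℝ) :
    ℕ → GaussianInt → List (Fin N) → GaussianInt
  | 0, x, _ => x
  | _ + 1, x, [] => x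
  | j + 1, x, a :: w => tr E D N T0 j (ch E D (TT N T0 j) x a) w

theorem tr_nil (E : Set GaussianInt) (D : ℝ) (N : ℕ) (T0 : ℝ) (j : ℕ) (x : GaussianInt) :
    tr E D N T0 j x [] = x := by
  cases j <;> rfl

section
variable {E : Set GaussianInt} {D : ℝ} {N : ℕ} {T0 : ℝ}

theorem tr_mem (hE : PathRich E D) (hT0 : 0 < T0) (j : ℕ) :
    ∀ x ∈ E, ∀ w : List (Fin N), tr E D N T0 j x w ∈ E := by
  induction j with
  | zero => intro x hx w; exact hx
  | succ j ih =>
    intro x hx w
    cases w with
    | nil => exact hx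
    | cons a w => exact ih _ (ch_spec hE hx (TT_pos N hT0 j) a).1 w

theorem tr_near (hE : PathRich E D) (hT0 : 0 < T0) (hD : D ≤ T0) (j : ℕ) :
    ∀ x ∈ E, ∀ w : List (Fin N), w.length ≤ j →
      ‖GaussianInt.toComplex (tr E D N T0 j x w - x)‖ ≤ TT N T0 j - TT N T0 (j - w.length) := by
  induction j with
  | zero =>
    intro x hx w hw
    simp [tr]
  | succ j ih =>
    intro x hx w hw
    cases w with
    | nil => simp [tr_nil]
    | cons a w =>
      have hc := ch_spec hE hx (TT_pos N hT0 j) (a : ℕ)
      have h1 := ih _ hc.1 w (by simpa using hw)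
      have h2 : tr E D N T0 (j + 1) x (a :: w) - x =
          (tr E D N T0 j (ch E D (TT N T0 j) x a) w - ch E D (TT N T0 j) x a) +
            (ch E D (TT N T0 j) x a - x) := by
        simp only [tr]; ring
      rw [h2, map_add]
      have h3 : ((a : ℕ) : ℝ) + 1 ≤ N := by exact_mod_cast a.2
      have h4 : D ≤ TT N T0 j := le_trans hD (by
        have := TT_mono N hT0 (Nat.zero_le j); rwa [TT_zero] at this)
      have h5 : (j + 1) - (a :: w).length = j - w.length := by simp
      rw [h5, TT_succ]
      have hTp := TT_pos N hT0 j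
      have h6 : 3 * (((a : ℕ) : ℝ) + 1) * TT N T0 j ≤ 3 * (N : ℝ) * TT N T0 j := by
        have : 3 * (((a : ℕ) : ℝ) + 1) ≤ 3 * (N : ℝ) := by linarith
        exact mul_le_mul_of_nonneg_right this hTp.le
      calc _ ≤ _ := norm_add_le _ _
        _ ≤ (TT N T0 j - TT N T0 (j - w.length)) + (3 * (N : ℝ) * TT N T0 j + TT N T0 j) := by
            refine add_le_add h1 ?_
            linarith [hc.2.2]
        _ = _ := by ring

theorem tr_append (j : ℕ) :
    ∀ (x : GaussianInt) (w v : List (Fin N)), w.length ≤ j →
      tr E D N T0 j x (w ++ v) = tr E D N T0 (j - w.length) (tr E D N T0 j x w) v := by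
  induction j with
  | zero =>
    intro x w v hw
    obtain rfl : w = [] := by
      cases w with
      | nil => rfl
      | cons a w => simp at hw
    rfl
  | succ j ih =>
    intro x w v hw
    cases w with
    | nil => simp [tr_nil]
    | cons a w =>
      have h5 : (j + 1) - (a :: w).length = j - w.length := by simp
      rw [h5]
      simp only [List.cons_append, tr]
      exact ih _ w v (by simpa using hw)

theorem tr_sep (hE : PathRich E D) (hT0 : 0 < T0) (hD : D ≤ T0) (j : ℕ) :
    ∀ x ∈ E, ∀ w w' : List (Fin N), w.length = w'.length → w.length ≤ j → w ≠ w' →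
      2 * TT N T0 (j - w.length) ≤
        ‖GaussianInt.toComplex (tr E D N T0 j x w - tr E D N T0 j x w')‖ := by
  induction j with
  | zero =>
    intro x hx w w' h1 h2 h3
    exfalso
    apply h3
    cases w with
    | nil => cases w' with
      | nil => rfl
      | cons a w' => simp at h1
    | cons a w => simp at h2
  | succ j ih =>
    intro x hx w w' h1 h2 h3
    cases w with
    | nil =>
      exfalso
      apply h3
      cases w' with
      | nil => rfl
      | cons a w' => simp at h1
    | cons a u =>
      cases w' with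
      | nil => simp at h1
      | cons b u' =>
        have h5 : (j + 1) - (a :: u).length = j - u.length := by simp
        have hlen : u.length = u'.length := by simpa using h1
        have huj : u.length ≤ j := by simpa using h2
        have hTp := TT_pos N hT0 j
        have hca := ch_spec hE hx hTp (a : ℕ)
        have hcb := ch_spec hE hx hTp (b : ℕ)
        rw [h5]
        simp only [tr]
        by_cases hab : a = b
        · subst hab
          refine ih _ hca.1 u u' hlen huj ?_
          intro h; apply h3; rw [h]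
        · -- different children
          have h4 : D ≤ TT N T0 j := le_trans hD (by
            have := TT_mono N hT0 (Nat.zero_le j); rwa [TT_zero] at this)
          have hna := tr_near (N := N) hE hT0 hD j _ hca.1 u huj
          have hnb := tr_near (N := N) hE hT0 hD j _ hcb.1 u' (by omega)
          rw [← hlen] at hnb
          set ca := ch E D (TT N T0 j) x a with hcadef
          set cb := ch E D (TT N T0 j) x b with hcbdef
          set A := tr E D N T0 j ca u with hA
          set B := tr E D N T0 j cb u' with hB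
          have hdist : 3 * TT N T0 j - D ≤ ‖GaussianInt.toComplex (ca - cb)‖ := by
            have e1 : GaussianInt.toComplex (ca - x) =
                GaussianInt.toComplex (ca - cb) + GaussianInt.toComplex (cb - x) := by
              rw [← map_add]; congr 1; ring
            have e2 : GaussianInt.toComplex (cb - x) =
                -GaussianInt.toComplex (ca - cb) + GaussianInt.toComplex (ca - x) := by
              rw [← map_neg, ← map_add]; congr 1; ring
            have t1 : ‖GaussianInt.toComplex (ca - x)‖ ≤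
                ‖GaussianInt.toComplex (ca - cb)‖ + ‖GaussianInt.toComplex (cb - x)‖ := by
              rw [e1]; exact norm_add_le _ _
            have t2 : ‖GaussianInt.toComplex (cb - x)‖ ≤
                ‖GaussianInt.toComplex (ca - cb)‖ + ‖GaussianInt.toComplex (ca - x)‖ := by
              rw [e2]
              refine le_trans (norm_add_le _ _) ?_
              rw [norm_neg]
            have hne : (a : ℕ) ≠ (b : ℕ) := fun h => hab (Fin.ext h)
            rcases Nat.lt_or_gt_of_ne hne with hlt | hgt
            · have : ((a : ℕ) : ℝ) + 1 ≤ ((b : ℕ) : ℝ) := by exact_mod_cast hlt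
              have h7 : 3 * (((a : ℕ) : ℝ) + 1) * TT N T0 j + 3 * TT N T0 j ≤
                  3 * (((b : ℕ) : ℝ) + 1) * TT N T0 j := by nlinarith
              linarith [hca.2.2, hcb.2.1]
            · have : ((b : ℕ) : ℝ) + 1 ≤ ((a : ℕ) : ℝ) := by exact_mod_cast hgt
              have h7 : 3 * (((b : ℕ) : ℝ) + 1) * TT N T0 j + 3 * TT N T0 j ≤
                  3 * (((a : ℕ) : ℝ) + 1) * TT N T0 j := by nlinarith
              linarith [hcb.2.2, hca.2.1]
          have e3 : GaussianInt.toComplex (ca - cb) = GaussianInt.toComplex (A - B) +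
              (-GaussianInt.toComplex (A - ca) + GaussianInt.toComplex (B - cb)) := by
            rw [← map_neg, ← map_add, ← map_add]; congr 1; ring
          have t3 : ‖GaussianInt.toComplex (ca - cb)‖ ≤ ‖GaussianInt.toComplex (A - B)‖ +
              (‖GaussianInt.toComplex (A - ca)‖ + ‖GaussianInt.toComplex (B - cb)‖) := by
            rw [e3]
            refine le_trans (norm_add_le _ _) ?_
            refine add_le_add le_rfl (le_trans (norm_add_le _ _) ?_)
            rw [norm_neg]
          linarith

end

/-- A tree of height `J`: nodes are indexed by words of length `≤ J`. -/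
structure IsTree (E : Set GaussianInt) (N : ℕ) (T : ℕ → ℝ) (J : ℕ) (x : GaussianInt)
    (node : List (Fin N) → GaussianInt) : Prop where
  root : node [] = x
  mem : ∀ w, w.length ≤ J → node w ∈ E
  near : ∀ w v, w.length + v.length ≤ J →
    ‖GaussianInt.toComplex (node (w ++ v) - node w)‖ ≤
      T (J - w.length) - T (J - w.length - v.length)
  sep : ∀ w w', w.length = w'.length → w.length ≤ J → w ≠ w' →
    2 * T (J - w.length) ≤ ‖GaussianInt.toComplex (node w - node w')‖

/-- **Existence of the tree.** -/
theorem exists_tree {E : Set GaussianInt} {D : ℝ} (hE : PathRich E D) (N : ℕ) {T0 : ℝ}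
    (hT0 : 0 < T0) (hD : D ≤ T0) (J : ℕ) {x : GaussianInt} (hx : x ∈ E) :
    ∃ node, IsTree E N (TT N T0) J x node := by
  refine ⟨tr E D N T0 J x, tr_nil _ _ _ _ _ _, fun w _ => tr_mem hE hT0 J x hx w, ?_, ?_⟩
  · intro w v hwv
    rw [tr_append J x w v (by omega)]
    exact tr_near hE hT0 hD (J - w.length) _ (tr_mem hE hT0 J x hx w) v (by omega)
  · intro w w' h1 h2 h3
    exact tr_sep hE hT0 hD J x hx w w' h1 h2 h3

/-- The subtree below a node. -/
theorem IsTree.sub {E : Set GaussianInt} {N : ℕ} {T : ℕ → ℝ} {J : ℕ} {x : GaussianInt}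
    {node : List (Fin N) → GaussianInt} (h : IsTree E N T J x node) (w : List (Fin N))
    (hw : w.length ≤ J) :
    IsTree E N T (J - w.length) (node w) (fun v => node (w ++ v)) := by
  refine ⟨by simp, ?_, ?_, ?_⟩
  · intro v hv
    exact h.mem _ (by simp; omega)
  · intro v u hvu
    have := h.near (w ++ v) u (by simp; omega)
    simp only [List.length_append, List.append_assoc] at this
    rw [Nat.sub_add_eq] at this
    exact this
  · intro v v' h1 h2 h3
    have := h.sep (w ++ v) (w ++ v') (by simp [h1]) (by simp; omega) (by simpa using h3)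
    simp only [List.length_append] at this
    rw [Nat.sub_add_eq] at this
    exact this

/-- A `2T`-separated family in a ball of radius `2T` has at most `25` members. -/
theorem card_le_25 {ι : Type*} (S : Finset ι) (f : ι → ℂ) (c : ℂ) {T : ℝ} (hT : 0 < T)
    (hball : ∀ i ∈ S, ‖f i - c‖ ≤ 2 * T)
    (hsep : ∀ i ∈ S, ∀ j ∈ S, i ≠ j → 2 * T ≤ ‖f i - f j‖) : #S ≤ 25 := by
  classical
  set g : ι → ℤ × ℤ := fun i => (⌊((f i).re - c.re) / T⌋, ⌊((f i).im - c.im) / T⌋) with hg
  have hmap : ∀ i ∈ S, g i ∈ (Finset.Icc (-2 : ℤ) 2 ×ˢ Finset.Icc (-2 : ℤ) 2) := by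
    intro i hi
    have h := hball i hi
    have hre : |(f i).re - c.re| ≤ 2 * T := by
      have := Complex.abs_re_le_norm (f i - c)
      rw [Complex.sub_re] at this
      linarith
    have him : |(f i).im - c.im| ≤ 2 * T := by
      have := Complex.abs_im_le_norm (f i - c)
      rw [Complex.sub_im] at this
      linarith
    have aux : ∀ t : ℝ, |t| ≤ 2 * T → ⌊t / T⌋ ∈ Finset.Icc (-2 : ℤ) 2 := by
      intro t ht
      rw [abs_le] at ht
      have h1 : (-2 : ℝ) ≤ t / T := by rw [le_div_iff₀ hT]; linarith
      have h2 : t / T ≤ 2 := by rw [div_le_iff₀ hT]; linarith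
      rw [Finset.mem_Icc]
      constructor
      · rw [Int.le_floor]; push_cast; exact h1
      · have : (⌊t / T⌋ : ℝ) ≤ 2 := le_trans (Int.floor_le _) h2
        exact_mod_cast this
    simp only [hg, Finset.mem_product]
    exact ⟨aux _ hre, aux _ him⟩
  have hinj : Set.InjOn g S := by
    intro i hi j hj hij
    by_contra hne
    have hs := hsep i hi j hj hne
    simp only [hg, Prod.mk.injEq] at hij
    have aux : ∀ s t : ℝ, ⌊s / T⌋ = ⌊t / T⌋ → |s - t| < T := by
      intro s t hst
      have := Int.abs_sub_lt_one_of_floor_eq_floor hst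
      rw [← sub_div, abs_div, abs_of_pos hT, div_lt_one hT] at this
      exact this
    have h1 := aux _ _ hij.1
    have h2 := aux _ _ hij.2
    have h1' : |(f i - f j).re| < T := by
      rw [Complex.sub_re]
      have : (f i).re - c.re - ((f j).re - c.re) = (f i).re - (f j).re := by ring
      rwa [this] at h1
    have h2' : |(f i - f j).im| < T := by
      rw [Complex.sub_im]
      have : (f i).im - c.im - ((f j).im - c.im) = (f i).im - (f j).im := by ring
      rwa [this] at h2
    have h3 := Complex.norm_le_abs_re_add_abs_im (f i - f j)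
    linarith
  calc #S ≤ #(Finset.Icc (-2 : ℤ) 2 ×ˢ Finset.Icc (-2 : ℤ) 2) :=
        Finset.card_le_card_of_injOn g hmap hinj
    _ = 25 := by decide

/-- The leaf of a word. -/
def leaf {N : ℕ} (node : List (Fin N) → GaussianInt) {J : ℕ} (f : Fin J → Fin N) : GaussianInt :=
  node (List.ofFn f)

section
variable {E : Set GaussianInt} {N : ℕ} {T : ℕ → ℝ} {J : ℕ} {x : GaussianInt}
  {node : List (Fin N) → GaussianInt}

theorem IsTree.leaf_mem (h : IsTree E N T J x node) (f : Fin J → Fin N) : leaf node f ∈ E :=
  h.mem _ (by simp)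

theorem IsTree.leaf_sep (h : IsTree E N T J x node) {f g : Fin J → Fin N} (hfg : f ≠ g) :
    2 * T 0 ≤ ‖GaussianInt.toComplex (leaf node f - leaf node g)‖ := by
  have := h.sep (List.ofFn f) (List.ofFn g) (by simp) (by simp) (by
    intro hh; exact hfg (List.ofFn_injective hh))
  simpa [leaf] using this

theorem IsTree.leaf_injective (h : IsTree E N T J x node) (hT : 0 < T 0) :
    Function.Injective (leaf node : (Fin J → Fin N) → GaussianInt) := by
  intro f g hfg
  by_contra hne
  have := h.leaf_sep hne
  rw [hfg] at this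
  simp at this
  linarith

theorem IsTree.leaf_near (h : IsTree E N T J x node) (f : Fin J → Fin N) :
    ‖GaussianInt.toComplex (leaf node f - x)‖ ≤ T J - T 0 := by
  have := h.near [] (List.ofFn f) (by simp)
  simpa [h.root, leaf] using this

theorem IsTree.leaf_near_node {k i : ℕ} (h : IsTree E N T (k + i) x node)
    (f : Fin (k + i) → Fin N) :
    ‖GaussianInt.toComplex (leaf node f - node (List.ofFn fun a : Fin k => f (Fin.castAdd i a)))‖ ≤
      T i - T 0 := by
  have := h.near (List.ofFn fun a : Fin k => f (Fin.castAdd i a))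
    (List.ofFn fun b : Fin i => f (Fin.natAdd k b)) (by simp)
  have e : (List.ofFn fun a : Fin k => f (Fin.castAdd i a)) ++
      (List.ofFn fun b : Fin i => f (Fin.natAdd k b)) = List.ofFn f := List.ofFn_add.symm
  rw [e] at this
  simpa [leaf] using this

/-- **Regularity**: the number of leaves within `T i + T 0` of a point `c` is `≤ 25 N^i`. -/
theorem IsTree.card_leaves {k i : ℕ} (h : IsTree E N T (k + i) x node) (hT : 0 < T i) (c : ℂ)
    (S : Finset (Fin (k + i) → Fin N))
    (hS : ∀ f ∈ S, ‖GaussianInt.toComplex (leaf node f) - c‖ ≤ T i + T 0) :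
    #S ≤ 25 * N ^ i := by
  classical
  set π : (Fin (k + i) → Fin N) → (Fin k → Fin N) := fun f a => f (Fin.castAdd i a) with hπ
  have hfib : ∀ u ∈ S.image π, #{f ∈ S | π f = u} ≤ N ^ i := by
    intro u _
    calc #{f ∈ S | π f = u} ≤ #(Finset.univ : Finset (Fin i → Fin N)) := by
          refine Finset.card_le_card_of_injOn (fun f b => f (Fin.natAdd k b))
            (fun _ _ => Finset.mem_coe.2 (Finset.mem_univ _)) ?_
          intro f hf g hg hfg
          simp only [Finset.coe_filter, Set.mem_ofPred_eq] at hf hg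
          funext a
          refine Fin.addCases (fun b => ?_) (fun b => ?_) a
          · have := congrFun (hf.2.trans hg.2.symm) b
            simpa [hπ] using this
          · exact congrFun hfg b
      _ = N ^ i := by simp
  have himg : #(S.image π) ≤ 25 := by
    refine card_le_25 (S.image π) (fun u => GaussianInt.toComplex (node (List.ofFn u))) c hT ?_ ?_
    · intro u hu
      obtain ⟨f, hf, rfl⟩ := Finset.mem_image.1 hu
      have h1 := h.leaf_near_node f
      have h2 := hS f hf
      have e : GaussianInt.toComplex (node (List.ofFn (π f))) - c =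
          -GaussianInt.toComplex (leaf node f - node (List.ofFn (π f))) +
            (GaussianInt.toComplex (leaf node f) - c) := by
        rw [map_sub]; ring
      rw [e]
      refine le_trans (norm_add_le _ _) ?_
      rw [norm_neg]
      have h1' : ‖GaussianInt.toComplex (leaf node f - node (List.ofFn (π f)))‖ ≤ T i - T 0 := h1
      linarith
    · intro u _ v _ huv
      have := h.sep (List.ofFn u) (List.ofFn v) (by simp) (by simp) (by
        intro hh; exact huv (List.ofFn_injective hh))
      rw [map_sub] at this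
      simpa using this
  calc #S ≤ N ^ i * #(S.image π) := Finset.card_le_mul_card_image S _ hfib
    _ ≤ N ^ i * 25 := Nat.mul_le_mul le_rfl himg
    _ = 25 * N ^ i := Nat.mul_comm _ _

end

end Crest.Agent.R2.T1
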