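import Crest.Agent.R2.Red62
import Crest.Agent.R2.Tree763
import Crest.Agent.R2.Defs149
import Crest.Agent.R2.Shape911
import Crest.Agent.R2.Split306d

/-!
# R2 (Gaussian moat), END: composition of the blocks (helper911)
-/

set_option autoImplicit false

namespace Crest.Agent.R2.End911

open Finset
open Crest.Agent.R055 (IsProb ent)
open Crest.Agent.R2.T1 (IsTree TT leaf PathRich)
open Crest.Agent.R2.X149 (Blk KacStmt ClosedE cl)
open Crest.Agent.R2.Gcd62 (ab)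

/-- **K0** -/
def ClosedStmt : Prop :=
  ∀ D : ℝ, ¬ SieveBlocked D → ∀ P : Finset GaussianInt, (∀ p ∈ P, Prime p) →
    ∃ E : Set GaussianInt, E.Nonempty ∧ ClosedE D E ∧ ∀ e ∈ E, ∀ p ∈ P, ¬ p ∣ e

/-- **N** : `X149.LightStmt` with indexed leaves and the shapes of `Shape911`. -/
def LightStmt : Prop :=
  ∀ (D c0 τ : ℝ) (mI : ℕ), 1 ≤ D → 0 < c0 → 0 < τ → τ ≤ 1 / 100 → 0 < mI →
  ∃ κ W0 H C : ℝ,
    ∀ (n : ℕ) (w : ℕ → ℝ) (G' : ℕ → Finset GaussianInt) (E : Set GaussianInt) (l : ℕ) (R : ℝ),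
      (∀ k < n, W0 ≤ w k) → (∀ k, k + 1 < n → κ * w k ≤ w (k + 1)) →
      (∀ k < n, Blk (w k) (G' k)) →
      (∀ k < n, c0 * w k / Real.log (w k) ≤ mI * (G' k).card) →
      (∀ k < n, ((G' k).card : ℝ) ≤ 2 * c0 * w k / Real.log (w k)) →
      H ≤ ∑ k ∈ Finset.range n, 1 / Real.log (w k) →
      1 ≤ R → (n : ℝ) * (2 * Real.log R + C) ≤ l → (∀ k < n, (2 * D * l) ^ 2 ≤ w k) →
      ClosedE D E → (∀ k < n, ∀ p ∈ G' k, ∀ x ∈ E, ¬ p ∣ x) →
      ∀ (Ω : Type) (_ : Fintype Ω) (P : Ω → ℝ) (z : Ω → GaussianInt), IsProb P →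
      (∀ ω, z ω ∈ E) →
      (∀ k < n, (1 - τ) * ∑ p ∈ G' k, Real.log (p.norm : ℝ) ≤
              ent P (fun ω => cl (∏ p ∈ G' k, p) (z ω))) →
      ∀ (ι : Type) (_ : Fintype ι) (_ : Nonempty ι) (lf : Ω → ι → GaussianInt),
      (∀ ω i, lf ω i ∈ E) → (∀ ω i, ab (lf ω i - z ω) ≤ R) →
      ∃ k < n, ∃ (ω : Ω) (C : ι → Finset GaussianInt) (c : ι → GaussianInt → ℝ),
        Clus (lf ω) (D * l) l C c ∧
        ∃ G'' ⊆ G' k, (G' k).card ≤ 2 * G''.card ∧
          ∀ p ∈ G'', LightAt (univ.biUnion C)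
            (fun v => (∑ i, c i v) / (Fintype.card ι : ℝ)) p ((p.norm : ℝ) ^ (1 - 8 * τ))

/-- **right half** (helper653) -/
def RightStmt : Prop :=
  ∃ eps2 : ℝ, 0 < eps2 ∧ ∃ N : ℕ, 1 ≤ N ∧ ∃ C2 : ℝ, 0 < C2 ∧ ∀ D : ℝ, 1 ≤ D → ∀ c : ℝ, 0 < c →
    ∀ C4 : ℝ, ∃ X0 : ℝ, ∀ w wmax : ℝ, X0 ≤ w → w ≤ wmax →
      c * Real.log wmax ≤ Real.log w → ∀ l : ℕ, 1 ≤ l → (l : ℝ) ≤ C4 * (Real.log wmax) ^ 2 →
      ∀ J : ℕ, TT N (2 * D * l) J ≤ Real.exp (2 * (C2 * Real.log wmax)) →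
      Real.exp (2 * (C2 * Real.log wmax)) < TT N (2 * D * l) (J + 1) →
      ∀ (E : Set GaussianInt) (x : GaussianInt) (node : List (Fin N) → GaussianInt),
      IsTree E N (TT N (2 * D * l)) J x node →
      ∀ (C : (Fin J → Fin N) → Finset GaussianInt) (c' : (Fin J → Fin N) → GaussianInt → ℝ),
      Clus (leaf node) (D * l) l C c' →
      ∀ G : Finset GaussianInt, Blk w G → c * w / Real.log w ≤ (#G : ℝ) →
      (∀ p ∈ G, LightAt (univ.biUnion C)
        (fun v => (∑ i, c' i v) / (Fintype.card (Fin J → Fin N) : ℝ)) p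
          ((p.norm : ℝ) ^ (1 - eps2))) → False

/-! ### small facts -/

theorem Blk.mono {w : ℝ} {G G' : Finset GaussianInt} (h : Blk w G) (hs : G' ⊆ G) : Blk w G' :=
  ⟨fun p hp => h.prime p (hs hp), fun p hp => h.lo p (hs hp), fun p hp => h.hi p (hs hp),
    fun p hp => h.rat p (hs hp), fun p hp q hq => h.conj p (hs hp) q (hs hq),
    fun p hp q hq => h.assoc p (hs hp) q (hs hq)⟩

theorem blk_of_good {w : ℝ} (hw : 0 ≤ w) {G : Finset GaussianInt} (h : Z306.Good w G) :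
    Blk w G where
  prime := h.prime
  lo := h.lo
  hi := fun p hp => (h.hi p hp).trans (by linarith)
  rat := fun p hp => (h.rat p hp).1
  conj := fun _ hp _ hq => h.not_star hp hq
  assoc := fun _ hp _ hq => h.assoc hp hq

/-- the level `J` of the tree -/
theorem exists_level (N : ℕ) {T0 : ℝ} (hT0 : 0 < T0) {S : ℝ} (hS : T0 ≤ S) :
    ∃ J : ℕ, TT N T0 J ≤ S ∧ S < TT N T0 (J + 1) := by
  have hN : (1 : ℝ) < 3 * (N : ℝ) + 2 := by
    have : (0 : ℝ) ≤ (N : ℝ) := Nat.cast_nonneg N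
    linarith
  have hex : ∃ j, S < TT N T0 j := by
    obtain ⟨j, hj⟩ := pow_unbounded_of_one_lt (S / T0) hN
    refine ⟨j, ?_⟩
    unfold TT
    rwa [div_lt_iff₀ hT0] at hj
  classical
  have hspec := Nat.find_spec hex
  set j := Nat.find hex with hj
  have hj0 : j ≠ 0 := by
    intro h
    rw [h, T1.TT_zero] at hspec
    linarith
  obtain ⟨i, hi⟩ := Nat.exists_eq_succ_of_ne_zero hj0
  refine ⟨i, ?_, ?_⟩
  · have : ¬ S < TT N T0 i := Nat.find_min hex (by omega)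
    linarith
  · rw [hi] at hspec
    exact hspec

/-- comparison with the logarithm -/
theorem sum_inv_ge {a Λ : ℝ} (ha : 0 < a) (hΛ : 0 < Λ) (n : ℕ) :
    (1 / Λ) * Real.log (1 + n * Λ / a) ≤ ∑ k ∈ range n, 1 / (a + k * Λ) := by
  induction n with
  | zero => simp
  | succ n ih =>
    rw [Finset.sum_range_succ]
    have hn : (0 : ℝ) ≤ (n : ℝ) := Nat.cast_nonneg n
    have h1 : 0 < a + n * Λ := by positivity
    have h2 : Real.log (1 + Λ / (a + n * Λ)) ≤ Λ / (a + n * Λ) := by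
      have := Real.log_le_sub_one_of_pos (x := 1 + Λ / (a + n * Λ)) (by positivity)
      linarith
    have h3 : (1 + ((n + 1 : ℕ) : ℝ) * Λ / a) = (1 + n * Λ / a) * (1 + Λ / (a + n * Λ)) := by
      push_cast
      field_simp
      ring
    rw [h3, Real.log_mul (by positivity) (by positivity)]
    have h4 : (1 / Λ) * (Λ / (a + n * Λ)) = 1 / (a + n * Λ) := by
      field_simp
    have h5 : (1 / Λ) * Real.log (1 + Λ / (a + n * Λ)) ≤ 1 / (a + n * Λ) := by
      rw [← h4]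
      exact mul_le_mul_of_nonneg_left h2 (by positivity)
    rw [mul_add]
    linarith

/-- trimming a set of primes -/
theorem trim {w c1 : ℝ} {Q : ℕ} (hQ : 1 ≤ Q) {G : Finset GaussianInt}
    (hw : (Q : ℝ) ≤ c1 / 2 * w / Real.log w) (hG : c1 * w / Real.log w ≤ (#G : ℝ)) :
    ∃ G' ⊆ G, Q ∣ #G' ∧ c1 / 2 * w / Real.log w ≤ (#G' : ℝ) ∧
      (#G' : ℝ) ≤ 2 * (c1 / 2) * w / Real.log w := by
  have hQ' : (0 : ℝ) < Q := by exact_mod_cast hQ
  set y : ℝ := c1 * w / Real.log w with hy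
  have hy2 : c1 / 2 * w / Real.log w = y / 2 := by rw [hy]; ring
  have hy3 : 2 * (c1 / 2) * w / Real.log w = y := by rw [hy]; ring
  rw [hy2] at hw
  rw [hy2, hy3]
  have hy0 : 0 ≤ y := by linarith
  have h1 : (Q : ℝ) * (⌊y / Q⌋₊ : ℝ) ≤ y := by
    have := Nat.floor_le (show 0 ≤ y / Q by positivity)
    rw [le_div_iff₀ hQ'] at this
    linarith
  have h2 : y - Q < (Q : ℝ) * (⌊y / Q⌋₊ : ℝ) := by
    have := Nat.lt_floor_add_one (y / Q)
    rw [div_lt_iff₀ hQ'] at this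
    linarith
  have h3 : Q * ⌊y / Q⌋₊ ≤ #G := by
    have : ((Q * ⌊y / Q⌋₊ : ℕ) : ℝ) ≤ (#G : ℝ) := by push_cast; linarith
    exact_mod_cast this
  obtain ⟨G', hG', hc⟩ := Finset.exists_subset_card_eq h3
  refine ⟨G', hG', ⟨_, hc⟩, ?_, ?_⟩
  · rw [hc]; push_cast; linarith
  · rw [hc]; push_cast; linarith

theorem SieveBlocked.mono {D D' : ℝ} (h : D ≤ D') (hD : SieveBlocked D') : SieveBlocked D := by
  obtain ⟨P, R, hP, hb⟩ := hD
  exact ⟨P, R, hP, fun n x hx => hb n x fun i hi => (hx i hi).trans h⟩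

theorem rpow_quarter_pow {x : ℝ} (hx : 0 ≤ x) : (x ^ (1 / 4 : ℝ)) ^ 4 = x := by
  rw [← Real.rpow_natCast, ← Real.rpow_mul hx]
  norm_num

set_option maxHeartbeats 2000000 in
/-- **All the numbers** of the final choice. -/
theorem numbers {q K0 C2 D : ℝ} (hq : 2 ≤ q) (hK0 : 1 ≤ K0) (hC2 : 0 < C2) (hD : 1 ≤ D)
    (H C : ℝ) :
    ∃ c C4 : ℝ, 0 < c ∧ ∀ X1 : ℝ, ∃ (X : ℝ) (n l : ℕ) (wmax : ℝ), X1 ≤ X ∧ 2 ≤ X ∧ 1 ≤ l ∧
      (∀ w : ℕ → ℝ, (∀ k < n, q ^ k * X ≤ w k ∧ w k ≤ K0 * (q ^ k * X)) →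
        H ≤ ∑ k ∈ range n, 1 / Real.log (w k)) ∧
      (∀ k < n, K0 * (q ^ k * X) ≤ wmax) ∧ X ≤ wmax ∧
      c * Real.log wmax ≤ Real.log X ∧
      (l : ℝ) ≤ C4 * (Real.log wmax) ^ 2 ∧
      (n : ℝ) * (2 * (2 * (C2 * Real.log wmax)) + C) ≤ l ∧
      (2 * D * l) ^ 2 ≤ X ∧
      2 * D * l ≤ Real.exp (2 * (C2 * Real.log wmax)) := by
  set Λ : ℝ := Real.log q with hΛ
  have hΛ0 : 0 < Λ := Real.log_pos (by linarith)
  obtain ⟨M, hM1, hMH⟩ : ∃ M : ℝ, 1 ≤ M ∧ H ≤ (1 / Λ) * Real.log (1 + M * Λ / 2) := by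
    have ht : Filter.Tendsto (fun M : ℝ => (1 / Λ) * Real.log (1 + M * Λ / 2)) Filter.atTop
        Filter.atTop := by
      apply Filter.Tendsto.const_mul_atTop (by positivity)
      apply Real.tendsto_log_atTop.comp
      apply Filter.tendsto_atTop_add_const_left
      apply Filter.Tendsto.atTop_div_const (by norm_num)
      exact Filter.Tendsto.atTop_mul_const hΛ0 Filter.tendsto_id
    obtain ⟨M, h⟩ := ((ht.eventually_ge_atTop H).and (Filter.eventually_ge_atTop (1 : ℝ))).exists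
    exact ⟨M, h.2, h.1⟩
  set B : ℝ := 2 + 2 * M * Λ with hB
  have hB0 : 0 < B := by positivity
  set C5 : ℝ := 2 * M * (4 * C2 * B + |C|) + 1 with hC5
  have hC5' : 1 ≤ C5 := by
    have : 0 ≤ 2 * M * (4 * C2 * B + |C|) := by positivity
    linarith
  refine ⟨1 / B, 2 * C5, by positivity, ?_⟩
  intro X1
  -- eventually facts
  have e1 : ∀ᶠ X : ℝ in Filter.atTop, X1 ≤ X := Filter.eventually_ge_atTop _
  have e2 : ∀ᶠ X : ℝ in Filter.atTop, 2 ≤ X := Filter.eventually_ge_atTop _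
  have e3 : ∀ᶠ X : ℝ in Filter.atTop, max 1 (Real.log K0) ≤ Real.log X :=
    Real.tendsto_log_atTop.eventually_ge_atTop _
  have e4 : ∀ᶠ X : ℝ in Filter.atTop, (4 * D * C5) ^ 2 * (Real.log X) ^ 4 ≤ X := by
    have h1 := (isLittleO_log_rpow_atTop (show (0 : ℝ) < 1 / 4 by norm_num))
    have hpos : 0 < (4 * D * C5) ^ 2 := by positivity
    have h2 := h1.def (show 0 < (1 / ((4 * D * C5) ^ 2)) ^ (1 / 4 : ℝ) by positivity)
    filter_upwards [h2, e2, e3] with X hX hX2 hX3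
    have hL1 : 1 ≤ Real.log X := (le_max_left _ _).trans hX3
    have hX0 : 0 ≤ X := by linarith
    rw [Real.norm_of_nonneg (by linarith), Real.norm_of_nonneg (by positivity)] at hX
    have h3 : (Real.log X) ^ 4 ≤ ((1 / ((4 * D * C5) ^ 2)) ^ (1 / 4 : ℝ) * X ^ (1 / 4 : ℝ)) ^ 4 :=
      pow_le_pow_left₀ (by linarith) hX 4
    have h4 : ((1 / ((4 * D * C5) ^ 2)) ^ (1 / 4 : ℝ) * X ^ (1 / 4 : ℝ)) ^ 4
        = (1 / ((4 * D * C5) ^ 2)) * X := by
      rw [mul_pow, rpow_quarter_pow (by positivity), rpow_quarter_pow hX0]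
    rw [h4] at h3
    calc (4 * D * C5) ^ 2 * (Real.log X) ^ 4 ≤ (4 * D * C5) ^ 2 * ((1 / ((4 * D * C5) ^ 2)) * X) :=
          mul_le_mul_of_nonneg_left h3 hpos.le
      _ = X := by field_simp
  have e5 : ∀ᶠ X : ℝ in Filter.atTop, 4 * D * C5 * (Real.log X) ^ 2 ≤
      Real.exp (2 * (C2 * Real.log X)) := by
    have h1 : ∀ᶠ t : ℝ in Filter.atTop, 4 * D * C5 * t ^ 2 ≤ Real.exp (2 * (C2 * t)) := by
      have h2 := (isLittleO_pow_exp_pos_mul_atTop 2 (show (0 : ℝ) < 2 * C2 by positivity))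
      have h3 := h2.def (show 0 < 1 / (4 * D * C5) by positivity)
      filter_upwards [h3, Filter.eventually_ge_atTop (0 : ℝ)] with t ht ht0
      rw [Real.norm_of_nonneg (by positivity), Real.norm_of_nonneg (by positivity)] at ht
      calc 4 * D * C5 * t ^ 2 ≤ 4 * D * C5 * (1 / (4 * D * C5) * Real.exp (2 * C2 * t)) :=
            mul_le_mul_of_nonneg_left ht (by positivity)
        _ = Real.exp (2 * C2 * t) := by field_simp
        _ = Real.exp (2 * (C2 * t)) := by ring_nf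
    exact Real.tendsto_log_atTop.eventually h1
  obtain ⟨X, h1, h2, h3, h4, h5⟩ := (e1.and (e2.and (e3.and (e4.and e5)))).exists
  set L : ℝ := Real.log X with hL
  have hL1 : 1 ≤ L := (le_max_left _ _).trans h3
  have hLK : Real.log K0 ≤ L := (le_max_right _ _).trans h3
  have hX0 : 0 < X := by linarith
  set n : ℕ := ⌈M * L⌉₊ with hn
  have hn1 : M * L ≤ (n : ℝ) := Nat.le_ceil _
  have hn2 : (n : ℝ) ≤ 2 * M * L := by
    have := Nat.ceil_lt_add_one (show 0 ≤ M * L by positivity)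
    have hML : 1 ≤ M * L := by nlinarith
    linarith
  set l : ℕ := ⌈C5 * L ^ 2⌉₊ with hl
  have hCL : 1 ≤ C5 * L ^ 2 := by
    have : 1 ≤ L ^ 2 := one_le_pow₀ hL1
    nlinarith
  have hl1 : C5 * L ^ 2 ≤ (l : ℝ) := Nat.le_ceil _
  have hl2 : (l : ℝ) ≤ 2 * C5 * L ^ 2 := by
    have := Nat.ceil_lt_add_one (show 0 ≤ C5 * L ^ 2 by positivity)
    linarith
  set wmax : ℝ := K0 * (q ^ n * X) with hwm
  have hqn : 1 ≤ q ^ n := one_le_pow₀ (by linarith)
  have hlogw : Real.log wmax = Real.log K0 + (n * Λ + L) := by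
    rw [hwm, Real.log_mul (by positivity) (by positivity), Real.log_mul (by positivity) (by positivity),
      Real.log_pow]
  have hlogK : 0 ≤ Real.log K0 := Real.log_nonneg hK0
  have hn0 : (0 : ℝ) ≤ (n : ℝ) := Nat.cast_nonneg n
  have hlw1 : L ≤ Real.log wmax := by
    rw [hlogw]
    have : 0 ≤ (n : ℝ) * Λ := by positivity
    linarith
  have hlw2 : Real.log wmax ≤ B * L := by
    rw [hlogw, hB]
    have : (n : ℝ) * Λ ≤ 2 * M * L * Λ := mul_le_mul_of_nonneg_right hn2 hΛ0.le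
    nlinarith
  refine ⟨X, n, l, wmax, h1, h2, ?_, ?_, ?_, ?_, ?_, ?_, ?_, ?_, ?_⟩
  · have : (1 : ℝ) ≤ (l : ℝ) := by linarith
    exact_mod_cast this
  · intro w hw
    have ha : 0 < 2 * L := by linarith
    have hs := sum_inv_ge ha hΛ0 n
    have h6 : (1 / Λ) * Real.log (1 + M * Λ / 2) ≤ (1 / Λ) * Real.log (1 + n * Λ / (2 * L)) := by
      apply mul_le_mul_of_nonneg_left _ (by positivity)
      apply Real.log_le_log (by positivity)
      have : M * Λ / 2 ≤ n * Λ / (2 * L) := by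
        rw [div_le_div_iff₀ (by norm_num) (by positivity)]
        nlinarith
      linarith
    refine hMH.trans (h6.trans (hs.trans ?_))
    refine Finset.sum_le_sum fun k hk => ?_
    have hk' := hw k (Finset.mem_range.1 hk)
    have hqk : 1 ≤ q ^ k := one_le_pow₀ (by linarith)
    have hwk0 : X ≤ w k := by
      refine le_trans ?_ hk'.1
      nlinarith
    have hlog0 : 0 < Real.log (w k) := by
      have : L ≤ Real.log (w k) := Real.log_le_log hX0 hwk0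
      linarith
    apply one_div_le_one_div_of_le hlog0
    have h7 : Real.log (w k) ≤ Real.log (K0 * (q ^ k * X)) := Real.log_le_log (by linarith) hk'.2
    rw [Real.log_mul (by positivity) (by positivity), Real.log_mul (by positivity) (by positivity),
      Real.log_pow] at h7
    linarith
  · intro k hk
    rw [hwm]
    have : q ^ k ≤ q ^ n := pow_le_pow_right₀ (by linarith) hk.le
    gcongr
  · rw [hwm]
    nlinarith [mul_nonneg (sub_nonneg.2 hK0) (mul_nonneg (show 0 ≤ q ^ n by positivity) hX0.le)]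
  · rw [one_div, inv_mul_le_iff₀ hB0]
    exact hlw2
  · refine hl2.trans ?_
    have : L ^ 2 ≤ (Real.log wmax) ^ 2 := pow_le_pow_left₀ (by linarith) hlw1 2
    nlinarith
  · refine le_trans ?_ hl1
    have h8 : 2 * (2 * (C2 * Real.log wmax)) + C ≤ (4 * C2 * B + |C|) * L := by
      have h9 : C2 * Real.log wmax ≤ C2 * (B * L) := mul_le_mul_of_nonneg_left hlw2 hC2.le
      have h10 : C ≤ |C| * L := by
        have := le_abs_self C
        have h11 : |C| ≤ |C| * L := le_mul_of_one_le_right (abs_nonneg C) hL1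
        linarith
      nlinarith
    have h12 : 0 ≤ (4 * C2 * B + |C|) * L := by positivity
    calc (n : ℝ) * (2 * (2 * (C2 * Real.log wmax)) + C) ≤ (n : ℝ) * ((4 * C2 * B + |C|) * L) :=
          mul_le_mul_of_nonneg_left h8 hn0
      _ ≤ (2 * M * L) * ((4 * C2 * B + |C|) * L) := mul_le_mul_of_nonneg_right hn2 h12
      _ = (2 * M * (4 * C2 * B + |C|)) * L ^ 2 := by ring
      _ ≤ C5 * L ^ 2 := by
          apply mul_le_mul_of_nonneg_right _ (by positivity)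
          linarith
  · refine le_trans ?_ h4
    have h13 : 2 * D * l ≤ (4 * D * C5) * L ^ 2 := by nlinarith
    calc (2 * D * l) ^ 2 ≤ ((4 * D * C5) * L ^ 2) ^ 2 := pow_le_pow_left₀ (by positivity) h13 2
      _ = (4 * D * C5) ^ 2 * L ^ 4 := by ring
  · have h13 : 2 * D * l ≤ (4 * D * C5) * L ^ 2 := by nlinarith
    refine h13.trans (h5.trans ?_)
    apply Real.exp_le_exp.2
    nlinarith

end Crest.Agent.R2.End911
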