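import Mathlib
import Crest.Agent.R055.Ent

/-! R2 (Gaussian moat), block K5 = STEP 4 of #11294 (capacity + Ruzsa): entropy lemmas. -/

set_option autoImplicit false
open Finset Real

namespace Crest.Agent.R2.E839

open Crest.Agent.R055 (ent cls IsProb)

section
variable {Ω Ω' : Type*} [Fintype Ω] [Fintype Ω'] {S S' : Type*}

open Classical in
/-- mass of the value `x` -/
noncomputable def mass (P : Ω → ℝ) (X : Ω → S) (x : S) : ℝ := ∑ ω, if X ω = x then P ω else 0

lemma cls_eq_mass (P : Ω → ℝ) (X : Ω → S) (ω : Ω) : cls P X ω = mass P X (X ω) := by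
  unfold cls mass; rfl

lemma mass_nonneg {P : Ω → ℝ} (hP : ∀ ω, 0 ≤ P ω) (X : Ω → S) (x : S) : 0 ≤ mass P X x := by
  unfold mass
  apply Finset.sum_nonneg
  intro i _
  split_ifs
  · exact hP i
  · exact le_rfl

/-- entropy as a finite sum over the values -/
lemma ent_eq_sum (P : Ω → ℝ) (X : Ω → S) (T : Finset S) (hT : ∀ ω, X ω ∈ T) :
    ent P X = ∑ x ∈ T, negMulLog (mass P X x) := by
  classical
  unfold ent
  rw [← Finset.sum_fiberwise_of_maps_to (s := Finset.univ) (t := T) (g := X) (fun ω _ => hT ω)]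
  apply Finset.sum_congr rfl
  intro x _
  have h1 : ∀ ω ∈ Finset.univ.filter (fun ω => X ω = x),
      P ω * (-Real.log (cls P X ω)) = P ω * (-Real.log (mass P X x)) := by
    intro ω hω
    rw [cls_eq_mass, (Finset.mem_filter.mp hω).2]
  rw [Finset.sum_congr rfl h1, ← Finset.sum_mul]
  have h2 : ∑ ω ∈ Finset.univ.filter (fun ω => X ω = x), P ω = mass P X x := by
    unfold mass
    rw [Finset.sum_filter]
  rw [h2]
  unfold negMulLog
  ring

/-- entropy as a finite sum over the values, `T` contains the values of positive weight -/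
lemma sum_mass (P : Ω → ℝ) (X : Ω → S) (T : Finset S) (hT : ∀ ω, X ω ∈ T) :
    ∑ x ∈ T, mass P X x = ∑ ω, P ω := by
  classical
  unfold mass
  rw [Finset.sum_comm]
  apply Finset.sum_congr rfl
  intro ω _
  have : ∀ x ∈ T, (if X ω = x then P ω else 0) = if x = X ω then P ω else 0 := by
    intro x _
    by_cases h : X ω = x
    · simp [h]
    · rw [if_neg h, if_neg (fun h' => h h'.symm)]
  rw [Finset.sum_ite_eq T (X ω) (fun _ => P ω)]
  rw [if_pos (hT ω)]

lemma isProb_prod {P : Ω → ℝ} {Q : Ω' → ℝ} (hP : IsProb P) (hQ : IsProb Q) :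
    IsProb (fun x : Ω × Ω' => P x.1 * Q x.2) := by
  constructor
  · intro x; exact mul_nonneg (hP.nonneg _) (hQ.nonneg _)
  · rw [Fintype.sum_prod_type]
    simp only
    simp_rw [← Finset.mul_sum, hQ.sum_eq, mul_one]
    exact hP.sum_eq

lemma cls_prod (P : Ω → ℝ) (Q : Ω' → ℝ) (X : Ω → S) (Y : Ω' → S') (x : Ω × Ω') :
    cls (fun x : Ω × Ω' => P x.1 * Q x.2) (fun x => (X x.1, Y x.2)) x
      = cls P X x.1 * cls Q Y x.2 := by
  classical
  unfold cls
  rw [Fintype.sum_prod_type, Finset.sum_mul_sum]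
  apply Finset.sum_congr rfl
  intro a _
  apply Finset.sum_congr rfl
  intro b _
  by_cases h1 : X a = X x.1
  · by_cases h2 : Y b = Y x.2
    · simp [h1, h2]
    · simp [h2]
  · simp [h1]

/-- independence: the entropy of an independent pair is the sum -/
lemma ent_prod {P : Ω → ℝ} {Q : Ω' → ℝ} (hP : IsProb P) (hQ : IsProb Q) (X : Ω → S) (Y : Ω' → S') :
    ent (fun x : Ω × Ω' => P x.1 * Q x.2) (fun x => (X x.1, Y x.2)) = ent P X + ent Q Y := by
  classical
  unfold ent
  simp_rw [cls_prod]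
  rw [Fintype.sum_prod_type]
  have h1 : ∀ a : Ω, ∑ b : Ω', P a * Q b * -Real.log (cls P X a * cls Q Y b)
      = P a * (-Real.log (cls P X a)) + P a * ∑ b, Q b * (-Real.log (cls Q Y b)) := by
    intro a
    have h2 : ∀ b : Ω', P a * Q b * -Real.log (cls P X a * cls Q Y b)
        = P a * (-Real.log (cls P X a)) * Q b + P a * (Q b * (-Real.log (cls Q Y b))) := by
      intro b
      rcases (hP.nonneg a).lt_or_eq with ha | ha
      · rcases (hQ.nonneg b).lt_or_eq with hb | hb
        · rw [Real.log_mul (Crest.Agent.R055.cls_pos hP.nonneg X ha).ne'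
            (Crest.Agent.R055.cls_pos hQ.nonneg Y hb).ne']
          ring
        · rw [← hb]; ring
      · rw [← ha]; ring
    simp_rw [h2]
    rw [Finset.sum_add_distrib, ← Finset.mul_sum, ← Finset.mul_sum, hQ.sum_eq, mul_one]
  simp only at h1 ⊢
  simp_rw [h1]
  rw [Finset.sum_add_distrib, ← Finset.sum_mul, hP.sum_eq, one_mul]

lemma ent_const {P : Ω → ℝ} (hP : IsProb P) (c : S) : ent P (fun _ : Ω => c) = 0 := by
  classical
  unfold ent cls
  simp [hP.sum_eq]

lemma ent_prod_fst {P : Ω → ℝ} {Q : Ω' → ℝ} (hP : IsProb P) (hQ : IsProb Q) (X : Ω → S) :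
    ent (fun x : Ω × Ω' => P x.1 * Q x.2) (fun x => X x.1) = ent P X := by
  have h := ent_prod hP hQ X (fun _ => ())
  rw [ent_const hQ, add_zero] at h
  rw [← h]
  apply Crest.Agent.R055.ent_congr
  intro ω ω'
  simp

lemma ent_prod_snd {P : Ω → ℝ} {Q : Ω' → ℝ} (hP : IsProb P) (hQ : IsProb Q) (Y : Ω' → S') :
    ent (fun x : Ω × Ω' => P x.1 * Q x.2) (fun x => Y x.2) = ent Q Y := by
  have h := ent_prod hP hQ (fun _ => ()) Y
  rw [ent_const hP, zero_add] at h
  rw [← h]
  apply Crest.Agent.R055.ent_congr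
  intro ω ω'
  simp

/-- subadditivity -/
lemma ent_pair_le {P : Ω → ℝ} (hP : IsProb P) (X : Ω → S) (Y : Ω → S') :
    ent P (fun ω => (X ω, Y ω)) ≤ ent P X + ent P Y := by
  have h := Crest.Agent.R055.ent_submod hP X Y (fun _ => ())
  have h1 : ent P (fun _ : Ω => ()) = 0 := ent_const hP _
  have h2 : ent P (fun ω => (X ω, Y ω, ())) = ent P (fun ω => (X ω, Y ω)) :=
    Crest.Agent.R055.ent_congr (by intro ω ω'; simp)
  have h3 : ent P (fun ω => (X ω, ())) = ent P X := Crest.Agent.R055.ent_congr (by intro ω ω'; simp)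
  have h4 : ent P (fun ω => (Y ω, ())) = ent P Y := Crest.Agent.R055.ent_congr (by intro ω ω'; simp)
  linarith [h, h1, h2, h3, h4]

/-- `H(X) ≤ H(f(X)) + log K` when all fibres of `f` on `T` have at most `K` elements
(STEP 7, entropy half). -/
lemma ent_le_ent_comp_add_log {P : Ω → ℝ} (hP : IsProb P) (X : Ω → S) (f : S → S') (T : Finset S)
    (hT : ∀ ω, X ω ∈ T) (K : ℝ) [DecidableEq S']
    (hK : ∀ a, ((T.filter (fun x => f x = a)).card : ℝ) ≤ K) :
    ent P X ≤ ent P (fun ω => f (X ω)) + Real.log K := by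
  classical
  have h0 := hP.nonneg
  -- `K ≥ 1`
  have hΩ : ∃ ω : Ω, 0 < P ω := by
    by_contra hcon
    push Not at hcon
    have : ∑ ω, P ω ≤ 0 := Finset.sum_nonpos (fun ω _ => hcon ω)
    rw [hP.sum_eq] at this
    linarith
  obtain ⟨ω₀, -⟩ := hΩ
  have hK1 : 1 ≤ K := by
    refine le_trans ?_ (hK (f (X ω₀)))
    have : X ω₀ ∈ T.filter (fun x => f x = f (X ω₀)) := by simp [hT ω₀]
    exact_mod_cast Finset.card_pos.mpr ⟨_, this⟩
  have hKpos : 0 < K := by linarith
  -- pointwise ratio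
  set Y : Ω → S' := fun ω => f (X ω) with hY
  set r : Ω → ℝ := fun ω => cls P Y ω / (K * cls P X ω) with hr
  have hrpos : ∀ ω, 0 < P ω → 0 < r ω := by
    intro ω hω
    have h1 := Crest.Agent.R055.cls_pos h0 Y hω
    have h2 := Crest.Agent.R055.cls_pos h0 X hω
    simp only [hr]
    positivity
  have key : ∑ ω, P ω * r ω ≤ 1 := by
    -- sum over values
    have e1 : ∑ ω, P ω * r ω = ∑ x ∈ T, ∑ ω ∈ Finset.univ.filter (fun ω => X ω = x), P ω * r ω :=
      (Finset.sum_fiberwise_of_maps_to (s := Finset.univ) (t := T) (g := X)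
        (fun ω _ => hT ω) (fun ω => P ω * r ω)).symm
    have e2 : ∀ x ∈ T, ∑ ω ∈ Finset.univ.filter (fun ω => X ω = x), P ω * r ω
        ≤ mass P Y (f x) / K := by
      intro x _
      have h1 : ∀ ω ∈ Finset.univ.filter (fun ω => X ω = x),
          P ω * r ω = P ω * (mass P Y (f x) / (K * mass P X x)) := by
        intro ω hω
        have hx := (Finset.mem_filter.mp hω).2
        simp only [hr]
        rw [cls_eq_mass, cls_eq_mass, hx]
        simp only [hY, hx]
      rw [Finset.sum_congr rfl h1, ← Finset.sum_mul]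
      have h2 : ∑ ω ∈ Finset.univ.filter (fun ω => X ω = x), P ω = mass P X x := by
        unfold mass
        rw [Finset.sum_filter]
      rw [h2]
      have hm := mass_nonneg h0 X x
      have hm' := mass_nonneg h0 Y (f x)
      rcases hm.lt_or_eq with hpos | hz
      · rw [div_mul_eq_div_div, mul_div_assoc', mul_comm, mul_div_assoc, div_self hpos.ne', mul_one]
      · rw [← hz, zero_mul]
        positivity
    have e3 : ∑ x ∈ T, mass P Y (f x) / K ≤ 1 := by
      rw [← Finset.sum_div, div_le_one hKpos]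
      have e4 : ∑ x ∈ T, mass P Y (f x)
          = ∑ a ∈ T.image f, ∑ x ∈ T.filter (fun x => f x = a), mass P Y (f x) :=
        (Finset.sum_fiberwise_of_maps_to (s := T) (t := T.image f) (g := f)
          (fun x hx => Finset.mem_image_of_mem f hx) (fun x => mass P Y (f x))).symm
      rw [e4]
      have e5 : ∀ a ∈ T.image f, ∑ x ∈ T.filter (fun x => f x = a), mass P Y (f x)
          ≤ K * mass P Y a := by
        intro a _
        have : ∑ x ∈ T.filter (fun x => f x = a), mass P Y (f x)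
            = ∑ x ∈ T.filter (fun x => f x = a), mass P Y a := by
          apply Finset.sum_congr rfl
          intro x hx
          rw [(Finset.mem_filter.mp hx).2]
        rw [this, Finset.sum_const, nsmul_eq_mul]
        exact mul_le_mul_of_nonneg_right (hK a) (mass_nonneg h0 Y a)
      refine le_trans (Finset.sum_le_sum e5) ?_
      rw [← Finset.mul_sum, sum_mass P Y (T.image f) (fun ω => Finset.mem_image_of_mem f (hT ω)),
        hP.sum_eq, mul_one]
    rw [e1]
    exact le_trans (Finset.sum_le_sum e2) e3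
  have h5 := Crest.Agent.R055.sum_mul_log_le (w := P) (r := r) h0 hrpos
  rw [hP.sum_eq] at h5
  have h6 : ∑ ω, P ω * Real.log (r ω) = ent P X - ent P Y - Real.log K := by
    unfold ent
    have hlogK : Real.log K = ∑ ω, P ω * Real.log K := by
      rw [← Finset.sum_mul, hP.sum_eq, one_mul]
    rw [hlogK, ← Finset.sum_sub_distrib, ← Finset.sum_sub_distrib]
    apply Finset.sum_congr rfl
    intro ω _
    rcases (h0 ω).lt_or_eq with hi | hi
    · have h1 := Crest.Agent.R055.cls_pos h0 Y hi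
      have h2 := Crest.Agent.R055.cls_pos h0 X hi
      simp only [hr]
      rw [Real.log_div h1.ne' (by positivity), Real.log_mul hKpos.ne' h2.ne']
      ring
    · simp [← hi]
  linarith

/-- `H(X) ≤ log #T` when `X` has values in `T`. -/
lemma ent_le_log_card {P : Ω → ℝ} (hP : IsProb P) (X : Ω → S) (T : Finset S)
    (hT : ∀ ω, X ω ∈ T) : ent P X ≤ Real.log (T.card : ℝ) := by
  classical
  have h := ent_le_ent_comp_add_log hP X (fun _ => ()) T hT (T.card : ℝ) (by
    intro a
    exact_mod_cast Finset.card_le_card (Finset.filter_subset _ _))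
  rw [ent_const hP, zero_add] at h
  exact h

/-- uniform law -/
lemma ent_uniform [Nonempty Ω] (X : Ω → S) (hX : Function.Injective X) :
    ent (fun _ : Ω => (1 : ℝ) / Fintype.card Ω) X = Real.log (Fintype.card Ω) := by
  classical
  have hc : ∀ ω, cls (fun _ : Ω => (1 : ℝ) / Fintype.card Ω) X ω = 1 / Fintype.card Ω := by
    intro ω
    unfold cls
    have : ∀ ω', (if X ω' = X ω then (1 : ℝ) / Fintype.card Ω else 0)
        = if ω' = ω then (1 : ℝ) / Fintype.card Ω else 0 := by
      intro ω'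
      by_cases h : ω' = ω
      · simp [h]
      · rw [if_neg h, if_neg (fun h' => h (hX h'))]
    simp_rw [this]
    simp
  unfold ent
  simp_rw [hc]
  rw [Finset.sum_const, Finset.card_univ, nsmul_eq_mul]
  have hpos : (0 : ℝ) < Fintype.card Ω := by exact_mod_cast Fintype.card_pos
  rw [Real.log_div one_ne_zero hpos.ne', Real.log_one]
  field_simp
  ring

end

section group
variable {Ω : Type*} [Fintype Ω] {G : Type*} [AddCommGroup G]

/-- dependent Ruzsa: `H(A + Y) + H(A + Y') ≥ H(A) + H(Y - Y')`, `A` independent of `(Y, Y')`. -/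
lemma ruzsa {Ω' : Type*} [Fintype Ω'] {P : Ω → ℝ} {Q : Ω' → ℝ} (hP : IsProb P) (hQ : IsProb Q)
    (A : Ω → G) (Y Y' : Ω' → G) :
    ent P A + ent Q (fun x => Y x - Y' x) ≤
      ent (fun x : Ω × Ω' => P x.1 * Q x.2) (fun x => A x.1 + Y x.2) +
      ent (fun x : Ω × Ω' => P x.1 * Q x.2) (fun x => A x.1 + Y' x.2) := by
  set PQ : Ω × Ω' → ℝ := fun x => P x.1 * Q x.2 with hPQdef
  have hPQ : IsProb PQ := isProb_prod hP hQ
  have h1 := ent_pair_le hPQ (fun x => A x.1 + Y x.2) (fun x => A x.1 + Y' x.2)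
  have h2 : ent PQ (fun x => (A x.1 + Y x.2, A x.1 + Y' x.2))
      = ent PQ (fun x => (A x.1 + Y x.2, Y x.2 - Y' x.2)) := by
    apply Crest.Agent.R055.ent_congr
    intro ω ω'
    simp only [Prod.mk.injEq]
    constructor
    · rintro ⟨h, h'⟩
      refine ⟨h, ?_⟩
      have : (A ω'.1 + Y ω'.2) - (A ω'.1 + Y' ω'.2) = (A ω.1 + Y ω.2) - (A ω.1 + Y' ω.2) := by
        rw [h, h']
      simpa using this
    · rintro ⟨h, h'⟩
      refine ⟨h, ?_⟩
      have : (A ω'.1 + Y ω'.2) - (Y ω'.2 - Y' ω'.2) = (A ω.1 + Y ω.2) - (Y ω.2 - Y' ω.2) := by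
        rw [h, h']
      have e : ∀ a y y' : G, (a + y) - (y - y') = a + y' := by intro a y y'; abel
      rwa [e, e] at this
  have h3 := Crest.Agent.R055.ent_submod hPQ (fun x => A x.1 + Y x.2) (fun x => (Y x.2, Y' x.2))
    (fun x => Y x.2 - Y' x.2)
  have h4 : ent PQ (fun x => (A x.1 + Y x.2, (Y x.2, Y' x.2), Y x.2 - Y' x.2))
      = ent P A + ent Q (fun x => (Y x, Y' x)) := by
    rw [← ent_prod hP hQ]
    apply Crest.Agent.R055.ent_congr
    intro ω ω'
    simp only [Prod.mk.injEq]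
    constructor
    · rintro ⟨h, ⟨h', h''⟩, -⟩
      rw [h'] at h
      exact ⟨add_right_cancel h, h', h''⟩
    · rintro ⟨h, h', h''⟩
      rw [h, h', h'']
      exact ⟨rfl, ⟨rfl, rfl⟩, rfl⟩
  have h5 : ent PQ (fun x => ((Y x.2, Y' x.2), Y x.2 - Y' x.2)) = ent Q (fun x => (Y x, Y' x)) := by
    rw [← ent_prod_snd hP hQ (fun x => (Y x, Y' x))]
    apply Crest.Agent.R055.ent_congr
    intro ω ω'
    simp only [Prod.mk.injEq]
    constructor
    · rintro ⟨h, -⟩; exact h
    · rintro ⟨h, h'⟩; rw [h, h']; exact ⟨⟨rfl, rfl⟩, rfl⟩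
  have h6 : ent PQ (fun x => Y x.2 - Y' x.2) = ent Q (fun x => Y x - Y' x) :=
    ent_prod_snd hP hQ (fun x => Y x - Y' x)
  rw [h4, h5, h6] at h3
  rw [h2] at h1
  linarith

end group

end Crest.Agent.R2.E839
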