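import Mathlib
import Crest.Agent.R055.Ent
import Crest.Agent.R2.Ent839a

/-! R2 (Gaussian moat), block K5 = STEP 4 of #11294 (capacity + Ruzsa): greedy maximisation. -/

set_option autoImplicit false
set_option linter.unusedSectionVars false
set_option linter.style.haveILetI false
open Finset Real
open scoped Pointwise

namespace Crest.Agent.R2.E839

open Crest.Agent.R055 (ent cls IsProb)

section greedy
variable {G : Type*} [AddCommGroup G] [DecidableEq G]

/-- entropy of a weight on `G` carried by the finite set `T` -/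
noncomputable def hh (T : Finset G) (ρ : G → ℝ) : ℝ := ∑ x ∈ T, negMulLog (ρ x)

/-- a probability weight on `G` carried by the finite set `T` -/
structure PW (T : Finset G) (ρ : G → ℝ) : Prop where
  nonneg : ∀ x, 0 ≤ ρ x
  supp : ∀ x, x ∉ T → ρ x = 0
  sum_eq : ∑ x ∈ T, ρ x = 1

/-- convolution of `ρ` with a weight `ν` on the finite set `gam` -/
noncomputable def conv (gam : Finset G) (ρ : G → ℝ) (ν : G → ℝ) : G → ℝ :=
  fun x => ∑ y ∈ gam, ν y * ρ (x - y)

lemma PW.isProb {T : Finset G} {ρ : G → ℝ} (h : PW T ρ) : IsProb (fun x : T => ρ x) := by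
  constructor
  · intro x; exact h.nonneg x
  · rw [← h.sum_eq]
    exact Finset.sum_coe_sort T ρ

lemma PW.hh_eq {T : Finset G} {ρ : G → ℝ} (_h : PW T ρ) :
    hh T ρ = ent (fun x : T => ρ x) (fun x => (x : G)) := by
  classical
  rw [ent_eq_sum _ _ T (fun x => x.2)]
  unfold hh
  apply Finset.sum_congr rfl
  intro x hx
  congr 1
  unfold mass
  have : ∀ ω : T, (if (ω : G) = x then ρ ω else 0) = if ω = ⟨x, hx⟩ then ρ x else 0 := by
    intro ω
    by_cases h : ω = ⟨x, hx⟩
    · subst h; simp
    · rw [if_neg h, if_neg (fun h' => h (Subtype.ext h'))]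
  simp_rw [this]
  simp

lemma PW.mono {T T' : Finset G} {ρ : G → ℝ} (h : PW T ρ) (hTT : T ⊆ T') : PW T' ρ := by
  refine ⟨h.nonneg, fun x hx => h.supp x (fun hx' => hx (hTT hx')), ?_⟩
  rw [← h.sum_eq]
  exact (Finset.sum_subset hTT (fun x _ hx => h.supp x hx)).symm

lemma PW.hh_mono {T T' : Finset G} {ρ : G → ℝ} (h : PW T ρ) (hTT : T ⊆ T') : hh T' ρ = hh T ρ := by
  unfold hh
  refine (Finset.sum_subset hTT (fun x _ hx => ?_)).symm
  rw [h.supp x hx, negMulLog_zero]

lemma PW.hh_le_log {T : Finset G} {ρ : G → ℝ} (h : PW T ρ) : hh T ρ ≤ Real.log T.card := by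
  rw [h.hh_eq]
  exact ent_le_log_card h.isProb _ T (fun x => x.2)

lemma PW.hh_nonneg {T : Finset G} {ρ : G → ℝ} (h : PW T ρ) : 0 ≤ hh T ρ := by
  rw [h.hh_eq]
  exact Crest.Agent.R055.ent_nonneg h.isProb _

lemma conv_eq_mass {T gam : Finset G} {ρ ν : G → ℝ} (h : PW T ρ) (x : G) :
    conv gam ρ ν x = mass (fun w : T × gam => ρ w.1 * ν w.2) (fun w => (w.1 : G) + w.2) x := by
  classical
  unfold conv mass
  rw [Fintype.sum_prod_type_right, ← Finset.sum_coe_sort gam (fun y => ν y * ρ (x - y))]
  apply Finset.sum_congr rfl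
  intro y _
  by_cases hx : x - (y : G) ∈ T
  · rw [Finset.sum_eq_single (⟨x - y, hx⟩ : T)]
    · simp [mul_comm]
    · intro b _ hb
      rw [if_neg]
      intro h'
      apply hb
      apply Subtype.ext
      simp only at h' ⊢
      rw [← h']; abel
    · simp
  · rw [h.supp _ hx, mul_zero]
    symm
    apply Finset.sum_eq_zero
    intro b _
    rw [if_neg]
    intro h'
    apply hx
    simp only at h'
    have : x - (y : G) = b := by rw [← h']; abel
    rw [this]; exact b.2

lemma pw_conv {T gam : Finset G} {ρ ν : G → ℝ} (h : PW T ρ) (hν : PW gam ν) :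
    PW (T + gam) (conv gam ρ ν) := by
  classical
  have hQ : IsProb (fun w : T × gam => ρ w.1 * ν w.2) := isProb_prod h.isProb hν.isProb
  have hT : ∀ w : T × gam, (w.1 : G) + w.2 ∈ T + gam := fun w => Finset.add_mem_add w.1.2 w.2.2
  refine ⟨fun x => ?_, fun x hx => ?_, ?_⟩
  · rw [conv_eq_mass h]; exact mass_nonneg hQ.nonneg _ x
  · rw [conv_eq_mass h]
    unfold mass
    apply Finset.sum_eq_zero
    intro w _
    rw [if_neg]
    intro h'
    exact hx (h' ▸ hT w)
  · simp_rw [conv_eq_mass h]
    rw [sum_mass _ _ _ hT]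
    exact hQ.sum_eq

lemma hh_conv {T gam : Finset G} {ρ ν : G → ℝ} (h : PW T ρ) :
    hh (T + gam) (conv gam ρ ν)
      = ent (fun w : T × gam => ρ w.1 * ν w.2) (fun w => (w.1 : G) + w.2) := by
  classical
  rw [ent_eq_sum _ _ (T + gam) (fun w => Finset.add_mem_add w.1.2 w.2.2)]
  unfold hh
  apply Finset.sum_congr rfl
  intro x _
  rw [conv_eq_mass h]

/-- existence of a maximiser -/
lemma exists_max (T gam : Finset G) (hg : gam.Nonempty) (ρ : G → ℝ) :
    ∃ ν : G → ℝ, PW gam ν ∧ ∀ ν' : G → ℝ, PW gam ν' →
      hh (T + gam) (conv gam ρ ν') ≤ hh (T + gam) (conv gam ρ ν) := by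
  classical
  -- work on the simplex on `gam`
  let ext : (gam → ℝ) → (G → ℝ) := fun f x => if hx : x ∈ gam then f ⟨x, hx⟩ else 0
  have hext : ∀ f : gam → ℝ, f ∈ stdSimplex ℝ gam → PW gam (ext f) := by
    intro f hf
    refine ⟨fun x => ?_, fun x hx => ?_, ?_⟩
    · simp only [ext]
      split_ifs with hx
      · exact hf.1 _
      · exact le_rfl
    · simp only [ext]; rw [dif_neg hx]
    · rw [← Finset.sum_coe_sort gam (ext f)]
      rw [← hf.2]
      apply Finset.sum_congr rfl
      intro x _
      simp [ext]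
  have hcont : Continuous (fun f : gam → ℝ => hh (T + gam) (conv gam ρ (ext f))) := by
    unfold hh conv
    apply continuous_finsetSum
    intro x _
    apply Real.continuous_negMulLog.comp
    apply continuous_finsetSum
    intro y hy
    apply Continuous.mul _ continuous_const
    have : (fun f : gam → ℝ => ext f y) = fun f => f ⟨y, hy⟩ := by
      funext f; simp [ext, hy]
    rw [this]
    exact continuous_apply _
  haveI : Nonempty gam := ⟨⟨hg.choose, hg.choose_spec⟩⟩
  have hne : (stdSimplex ℝ gam).Nonempty := by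
    refine ⟨Pi.single (Classical.arbitrary gam) 1, ?_⟩
    exact single_mem_stdSimplex ℝ _
  obtain ⟨f, hf, hmax⟩ := (isCompact_stdSimplex ℝ gam).exists_isMaxOn hne hcont.continuousOn
  refine ⟨ext f, hext f hf, ?_⟩
  intro ν' hν'
  have h1 : (fun x : gam => ν' x) ∈ stdSimplex ℝ gam := by
    refine ⟨fun x => hν'.nonneg x, ?_⟩
    rw [← hν'.sum_eq]
    exact Finset.sum_coe_sort gam ν'
  have h2 := hmax h1
  simp only [Set.mem_ofPred_eq] at h2
  have h3 : ext (fun x : gam => ν' x) = ν' := by
    funext x
    simp only [ext]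
    split_ifs with hx
    · rfl
    · exact (hν'.supp x hx).symm
  rw [h3] at h2
  exact h2

/-- chosen maximiser -/
noncomputable def maxi (T gam : Finset G) (hg : gam.Nonempty) (ρ : G → ℝ) : G → ℝ :=
  (exists_max T gam hg ρ).choose

lemma maxi_pw (T gam : Finset G) (hg : gam.Nonempty) (ρ : G → ℝ) : PW gam (maxi T gam hg ρ) :=
  (exists_max T gam hg ρ).choose_spec.1

lemma maxi_le (T gam : Finset G) (hg : gam.Nonempty) (ρ : G → ℝ) (ν' : G → ℝ) (h : PW gam ν') :
    hh (T + gam) (conv gam ρ ν') ≤ hh (T + gam) (conv gam ρ (maxi T gam hg ρ)) :=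
  (exists_max T gam hg ρ).choose_spec.2 ν' h

/-- the capacity + Ruzsa inequality for one greedy step -/
lemma log_card_sub_le {T gam : Finset G} (hg : gam.Nonempty) {ρ : G → ℝ} (h : PW T ρ) :
    hh T ρ + Real.log ((gam - gam).card : ℝ) ≤
      2 * hh (T + gam) (conv gam ρ (maxi T gam hg ρ)) := by
  classical
  -- sections of the difference map
  have hsec : ∀ d : ↥(gam - gam), ∃ y y' : G, y ∈ gam ∧ y' ∈ gam ∧ y - y' = d := by
    rintro ⟨d, hd⟩
    obtain ⟨y, hy, y', hy', rfl⟩ := Finset.mem_sub.mp hd
    exact ⟨y, y', hy, hy', rfl⟩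
  choose s s' hs hs' hss using hsec
  haveI : Nonempty ↥(gam - gam) := by
    obtain ⟨a, ha⟩ := hg
    exact ⟨⟨a - a, Finset.sub_mem_sub ha ha⟩⟩
  set Q : ↥(gam - gam) → ℝ := fun _ => (1 : ℝ) / Fintype.card ↥(gam - gam) with hQdef
  have hcard : (0 : ℝ) < Fintype.card ↥(gam - gam) := by exact_mod_cast Fintype.card_pos
  have hQ : IsProb Q := by
    constructor
    · intro _; simp only [hQdef]; positivity
    · simp only [hQdef]
      rw [Finset.sum_const, Finset.card_univ, nsmul_eq_mul]
      field_simp
  have hP := h.isProb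
  have hr := ruzsa hP hQ (fun x : T => (x : G)) (fun d => s d) (fun d => s' d)
  have h1 : ent Q (fun x => s x - s' x) = Real.log ((gam - gam).card : ℝ) := by
    rw [hQdef, ent_uniform (fun x => s x - s' x)]
    · rw [Fintype.card_coe]
    · intro d d' hdd
      simp only [hss] at hdd
      exact Subtype.ext hdd
  -- each of the two terms is at most the maximum
  have h2 : ∀ t : ↥(gam - gam) → G, (∀ d, t d ∈ gam) →
      ent (fun x : T × ↥(gam - gam) => ρ x.1 * Q x.2) (fun x => (x.1 : G) + t x.2)
        ≤ hh (T + gam) (conv gam ρ (maxi T gam hg ρ)) := by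
    intro t ht
    -- law of `t`
    have hν : PW gam (mass Q t) := by
      refine ⟨fun x => mass_nonneg hQ.nonneg t x, fun x hx => ?_, ?_⟩
      · unfold mass
        apply Finset.sum_eq_zero
        intro d _
        rw [if_neg]
        intro h'
        exact hx (h' ▸ ht d)
      · rw [sum_mass Q t gam ht]; exact hQ.sum_eq
    refine le_trans (le_of_eq ?_) (maxi_le T gam hg ρ (mass Q t) hν)
    have hmem : ∀ x : T × ↥(gam - gam), (x.1 : G) + t x.2 ∈ T + gam :=
      fun x => Finset.add_mem_add x.1.2 (ht x.2)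
    rw [ent_eq_sum _ _ (T + gam) hmem]
    unfold hh
    apply Finset.sum_congr rfl
    intro x _
    congr 1
    unfold conv mass
    rw [Fintype.sum_prod_type_right]
    -- sum over d of Q d * ρ (x - t d)
    have e1 : ∀ d : ↥(gam - gam), ∑ a : T, (if (a : G) + t d = x then ρ a * Q d else 0)
        = Q d * ρ (x - t d) := by
      intro d
      by_cases hx : x - t d ∈ T
      · rw [Finset.sum_eq_single (⟨x - t d, hx⟩ : T)]
        · simp [mul_comm]
        · intro b _ hb
          rw [if_neg]
          intro h'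
          apply hb
          apply Subtype.ext
          have : (b : G) = x - t d := by rw [← h']; simp
          exact this
        · simp
      · rw [h.supp _ hx, mul_zero]
        apply Finset.sum_eq_zero
        intro b _
        rw [if_neg]
        intro h'
        apply hx
        have : x - t d = b := by rw [← h']; simp
        rw [this]; exact b.2
    simp only at e1 ⊢
    rw [Finset.sum_congr rfl (fun d _ => e1 d)]
    -- regroup by the value of t
    simp_rw [Finset.sum_mul]
    rw [Finset.sum_comm]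
    apply Finset.sum_congr rfl
    intro d _
    symm
    rw [Finset.sum_eq_single (t d)]
    · simp
    · intro y _ hy
      rw [if_neg (fun h' => hy h'.symm), zero_mul]
    · intro h'; exact absurd (ht d) h'
  have h3 := h2 s hs
  have h4 := h2 s' hs'
  rw [h1, ← h.hh_eq] at hr
  linarith

/-- the greedy sequence of laws -/
noncomputable def greedy (gam : Finset G) (hg : gam.Nonempty) : ℕ → (G → ℝ)
  | 0 => fun x => if x = 0 then 1 else 0
  | (j + 1) => conv gam (greedy gam hg j) (maxi (j • gam) gam hg (greedy gam hg j))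

lemma greedy_pw (gam : Finset G) (hg : gam.Nonempty) (j : ℕ) : PW (j • gam) (greedy gam hg j) := by
  classical
  induction j with
  | zero =>
    have h0 : (0 : ℕ) • gam = {0} := by rw [zero_nsmul]; rfl
    rw [h0]
    refine ⟨fun x => ?_, fun x hx => ?_, ?_⟩
    · simp only [greedy]; split_ifs <;> norm_num
    · simp only [greedy]
      rw [if_neg]
      simpa using hx
    · simp [greedy]
  | succ j ih =>
    rw [succ_nsmul]
    simp only [greedy]
    exact pw_conv ih (maxi_pw _ _ _ _)

/-- iterated convolution of the weights `μ 0, μ 1, ...` on `gam` -/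
noncomputable def cv (gam : Finset G) (μ : ℕ → G → ℝ) : ℕ → (G → ℝ)
  | 0 => fun x => if x = 0 then 1 else 0
  | (j + 1) => conv gam (cv gam μ j) (μ j)

lemma cv_pw (gam : Finset G) {μ : ℕ → G → ℝ} (hμ : ∀ i, PW gam (μ i)) (j : ℕ) :
    PW (j • gam) (cv gam μ j) := by
  classical
  induction j with
  | zero =>
    have h0 : (0 : ℕ) • gam = {0} := by rw [zero_nsmul]; rfl
    rw [h0]
    refine ⟨fun x => ?_, fun x hx => ?_, ?_⟩
    · simp only [cv]; split_ifs <;> norm_num
    · simp only [cv]
      rw [if_neg]
      simpa using hx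
    · simp [cv]
  | succ j ih =>
    rw [succ_nsmul]
    simp only [cv]
    exact pw_conv ih (hμ j)

lemma pw_delta {gam : Finset G} (h0 : (0 : G) ∈ gam) : PW gam (fun x => if x = 0 then (1 : ℝ) else 0) := by
  refine ⟨fun x => ?_, fun x hx => ?_, ?_⟩
  · split_ifs <;> norm_num
  · rw [if_neg]
    intro h; exact hx (h ▸ h0)
  · simp [h0]

lemma conv_delta {gam : Finset G} (h0 : (0 : G) ∈ gam) (ρ : G → ℝ) :
    conv gam ρ (fun x => if x = 0 then (1 : ℝ) else 0) = ρ := by
  funext x
  unfold conv
  rw [Finset.sum_eq_single (0 : G)]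
  · simp
  · intro b _ hb; simp [hb]
  · intro h; exact absurd h0 h

/-- **STEP 4** (capacity + Ruzsa). -/
theorem step4 (gam : Finset G) (h0 : (0 : G) ∈ gam) (r : ℕ) (hr : 1 ≤ r) :
    ∃ μ : ℕ → G → ℝ, (∀ i, PW gam (μ i)) ∧
      Real.log ((gam - gam).card : ℝ) - 2 * Real.log ((r • gam).card : ℝ) / r
        ≤ hh (r • gam) (cv gam μ r) := by
  classical
  have hg : gam.Nonempty := ⟨0, h0⟩
  set ρ := greedy gam hg with hρ
  set a : ℕ → ℝ := fun j => hh (j • gam) (ρ j) with ha
  set C : ℝ := Real.log ((r • gam).card : ℝ) / r with hC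
  have hrpos : (0 : ℝ) < r := by exact_mod_cast hr
  have ha0 : 0 ≤ a 0 := (greedy_pw gam hg 0).hh_nonneg
  have har : a r ≤ r * C := by
    have := (greedy_pw gam hg r).hh_le_log
    rw [hC]
    calc a r ≤ _ := this
      _ = r * (Real.log ((r • gam).card : ℝ) / r) := by field_simp
  -- some small increment
  obtain ⟨j, hj, hinc⟩ : ∃ j < r, a (j + 1) - a j ≤ C := by
    by_contra hcon
    push Not at hcon
    have h1 : ∀ n ≤ r, a 0 + n * C ≤ a n := by
      intro n
      induction n with
      | zero => intro _; simp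
      | succ n ih =>
        intro hn
        have := hcon n (by omega)
        have := ih (by omega)
        push_cast
        linarith
    have h2 : a 0 + r * C < a r := by
      obtain ⟨n, rfl⟩ : ∃ n, r = n + 1 := ⟨r - 1, by omega⟩
      have h3 := hcon n (by omega)
      have h4 := h1 n (by omega)
      push_cast
      linarith
    linarith
  -- the Ruzsa inequality at j
  have hruz := log_card_sub_le hg (greedy_pw gam hg j)
  have hnext : hh (j • gam + gam) (conv gam (greedy gam hg j) (maxi (j • gam) gam hg (greedy gam hg j)))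
      = a (j + 1) := by
    simp only [ha, hρ, greedy, succ_nsmul]
  rw [hnext] at hruz
  have hkey : Real.log ((gam - gam).card : ℝ) - 2 * C ≤ a j := by
    have : hh (j • gam) (greedy gam hg j) = a j := rfl
    rw [this] at hruz
    linarith
  -- the weights
  refine ⟨fun i => if i < j then maxi (i • gam) gam hg (ρ i) else fun x => if x = 0 then 1 else 0,
    fun i => ?_, ?_⟩
  · by_cases hi : i < j
    · simp only [hi, if_true]; exact maxi_pw _ _ _ _
    · simp only [hi, if_false]; exact pw_delta h0
  · set μ : ℕ → G → ℝ :=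
      fun i => if i < j then maxi (i • gam) gam hg (ρ i) else fun x => if x = 0 then 1 else 0 with hμ
    have e1 : ∀ n, n ≤ j → cv gam μ n = ρ n := by
      intro n
      induction n with
      | zero => intro _; rfl
      | succ n ih =>
        intro hn
        simp only [cv, hρ, greedy]
        rw [ih (by omega)]
        simp only [hμ]
        rw [if_pos (by omega)]
    have e2 : ∀ n, j ≤ n → cv gam μ n = ρ j := by
      intro n hn
      induction n, hn using Nat.le_induction with
      | base => exact e1 j le_rfl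
      | succ n hn ih =>
        simp only [cv]
        rw [ih]
        simp only [hμ]
        rw [if_neg (by omega)]
        exact conv_delta h0 _
    rw [e2 r hj.le]
    have hsub : j • gam ⊆ r • gam := Finset.nsmul_subset_nsmul_right h0 hj.le
    rw [(greedy_pw gam hg j).hh_mono hsub]
    have : hh (j • gam) (greedy gam hg j) = a j := rfl
    rw [this]
    have e3 : 2 * Real.log ((r • gam).card : ℝ) / r = 2 * C := by rw [hC]; ring
    rw [e3]
    exact hkey

end greedy

end Crest.Agent.R2.E839
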