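import Mathlib
import Crest.Agent.R055.Ent
import Crest.Agent.R2.Ent839b

/-! R2 (Gaussian moat), block K5 = STEP 4 (+ entropy half of STEP 7) of #11294, in terms of
independent random variables. -/

set_option autoImplicit false
set_option linter.unusedSectionVars false
set_option linter.style.haveILetI false
open Finset Real
open scoped Pointwise

namespace Crest.Agent.R2.E839

open Crest.Agent.R055 (ent cls IsProb)

section
variable {G : Type*} [AddCommGroup G] [DecidableEq G]

/-- product weight of `μ 0, ..., μ (r-1)` on `Fin r → gam` -/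
noncomputable def pwt (gam : Finset G) (μ : ℕ → G → ℝ) (r : ℕ) (ω : Fin r → gam) : ℝ :=
  ∏ i : Fin r, μ i (ω i)

lemma pwt_isProb {gam : Finset G} {μ : ℕ → G → ℝ} (hμ : ∀ i, PW gam (μ i)) (r : ℕ) :
    IsProb (pwt gam μ r) := by
  classical
  constructor
  · intro ω
    exact Finset.prod_nonneg (fun i _ => (hμ i).nonneg _)
  · unfold pwt
    have h := (Finset.prod_univ_sum (fun _ : Fin r => (Finset.univ : Finset gam))
      (fun (i : Fin r) (x : gam) => μ i x)).symm
    have h2 : ∀ i : Fin r, ∑ x : gam, μ i x = 1 := fun i => (hμ i).isProb.sum_eq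
    simp_rw [h2] at h
    simp only [Finset.prod_const_one, Fintype.piFinset_univ] at h
    exact h

/-- the iterated convolution is the law of the sum of independent variables -/
lemma cv_eq_mass {gam : Finset G} {μ : ℕ → G → ℝ} (hμ : ∀ i, PW gam (μ i)) (r : ℕ) (x : G) :
    cv gam μ r x = mass (pwt gam μ r) (fun ω : Fin r → gam => ∑ i, (ω i : G)) x := by
  classical
  induction r generalizing x with
  | zero =>
    unfold mass pwt
    simp [cv, eq_comm]
  | succ r ih =>
    have h1 : cv gam μ (r + 1) x = ∑ y ∈ gam, μ r y * cv gam μ r (x - y) := rfl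
    rw [h1]
    simp_rw [ih]
    unfold mass
    refine Eq.trans ?_ (Equiv.sum_comp (Fin.snocEquiv (fun _ : Fin (r + 1) => gam)) _)
    rw [Fintype.sum_prod_type, ← Finset.sum_coe_sort gam]
    apply Finset.sum_congr rfl
    intro y _
    rw [Finset.mul_sum]
    apply Finset.sum_congr rfl
    intro ω _
    simp only
    have e1 : ∑ i, (((Fin.snocEquiv (fun _ : Fin (r + 1) => gam)) (y, ω) i : gam) : G)
        = ∑ i, (ω i : G) + y := by
      rw [Fin.sum_univ_castSucc]
      simp [Fin.snocEquiv]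
    have e2 : pwt gam μ (r + 1) ((Fin.snocEquiv (fun _ : Fin (r + 1) => gam)) (y, ω))
        = μ r y * pwt gam μ r ω := by
      unfold pwt
      rw [Fin.prod_univ_castSucc]
      simp [Fin.snocEquiv, mul_comm]
    rw [e2]
    by_cases h : ∑ i, (ω i : G) = x - y
    · rw [if_pos h, if_pos (by rw [e1, h]; abel)]
    · rw [if_neg h, if_neg (fun h' => h (by rw [← h', e1]; abel)), mul_zero]

lemma sum_mem_nsmul (gam : Finset G) (r : ℕ) (ω : Fin r → gam) : ∑ i, (ω i : G) ∈ r • gam := by
  classical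
  induction r with
  | zero => simp
  | succ r ih =>
    rw [Fin.sum_univ_castSucc, succ_nsmul]
    exact Finset.add_mem_add (ih (fun i => ω i.castSucc)) (ω (Fin.last r)).2

lemma hh_cv_eq_ent {gam : Finset G} {μ : ℕ → G → ℝ} (hμ : ∀ i, PW gam (μ i)) (r : ℕ) :
    hh (r • gam) (cv gam μ r) = ent (pwt gam μ r) (fun ω : Fin r → gam => ∑ i, (ω i : G)) := by
  classical
  rw [ent_eq_sum _ _ (r • gam) (sum_mem_nsmul gam r)]
  unfold hh
  apply Finset.sum_congr rfl
  intro x _
  rw [cv_eq_mass hμ]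

/-- **STEP 4** in terms of independent random variables. -/
theorem step4_ent (gam : Finset G) (h0 : (0 : G) ∈ gam) (r : ℕ) (hr : 1 ≤ r) :
    ∃ μ : ℕ → G → ℝ, (∀ i, PW gam (μ i)) ∧
      Real.log ((gam - gam).card : ℝ) - 2 * Real.log ((r • gam).card : ℝ) / r
        ≤ ent (pwt gam μ r) (fun ω : Fin r → gam => ∑ i, (ω i : G)) := by
  obtain ⟨μ, hμ, h⟩ := step4 gam h0 r hr
  exact ⟨μ, hμ, by rw [← hh_cv_eq_ent hμ]; exact h⟩

/-- **STEP 4 + entropy half of STEP 7**: one choice of the weights works for all maps `f`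
(residues modulo `M_S`) at once. -/
theorem step7_ent (gam : Finset G) (h0 : (0 : G) ∈ gam) (r : ℕ) (hr : 1 ≤ r) :
    ∃ μ : ℕ → G → ℝ, (∀ i, PW gam (μ i)) ∧
      ∀ {S : Type} [DecidableEq S] (f : G → S) (T : Finset G), r • gam ⊆ T →
        ∀ K : ℝ, (∀ a : S, ((T.filter (fun x => f x = a)).card : ℝ) ≤ K) →
      Real.log ((gam - gam).card : ℝ) - 2 * Real.log (T.card : ℝ) / r - Real.log K
        ≤ ent (pwt gam μ r) (fun ω : Fin r → gam => f (∑ i, (ω i : G))) := by
  classical
  obtain ⟨μ, hμ, h⟩ := step4_ent gam h0 r hr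
  refine ⟨μ, hμ, ?_⟩
  intro S _ f T hT K hK
  have h1 := ent_le_ent_comp_add_log (pwt_isProb hμ r) (fun ω : Fin r → gam => ∑ i, (ω i : G)) f T
    (fun ω => hT (sum_mem_nsmul gam r ω)) K hK
  have hrpos : (0 : ℝ) < r := by exact_mod_cast hr
  have hne : (r • gam).Nonempty := ⟨_, sum_mem_nsmul gam r (fun _ => ⟨0, h0⟩)⟩
  have h2 : Real.log ((r • gam).card : ℝ) ≤ Real.log (T.card : ℝ) := by
    apply Real.log_le_log
    · exact_mod_cast hne.card_pos
    · exact_mod_cast Finset.card_le_card hT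
  have h3 : 2 * Real.log ((r • gam).card : ℝ) / r ≤ 2 * Real.log (T.card : ℝ) / r := by
    apply div_le_div_of_nonneg_right _ hrpos.le
    linarith
  linarith

end

end Crest.Agent.R2.E839
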