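import Mathlib

/-!
# Row 2 (Theorem S), FRONT part a: counting signed tuples with prescribed multiplicities (helper507)
-/

namespace Crest.Agent.R2.F507

open Finset

/-- signed multiplicity of `i` in the tuple `t` -/
def sm {ι : Type*} [DecidableEq ι] {J : Type*} [Fintype J] (sg : J → ℤ) (t : J → ι) (i : ι) : ℤ :=
  ∑ x, if t x = i then sg x else 0

theorem sm_abs_sum_le {ι : Type*} [Fintype ι] [DecidableEq ι] {J : Type*} [Fintype J]
    (sg : J → ℤ) (hsg : ∀ x, |sg x| = 1) (t : J → ι) :
    ∑ i, |sm sg t i| ≤ (Fintype.card J : ℤ) := by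
  calc ∑ i, |sm sg t i| ≤ ∑ i, ∑ x, |if t x = i then sg x else 0| :=
        Finset.sum_le_sum fun i _ => Finset.abs_sum_le_sum_abs _ _
    _ = ∑ x, ∑ i, |if t x = i then sg x else 0| := Finset.sum_comm
    _ = ∑ x : J, (1 : ℤ) := by
        refine Finset.sum_congr rfl fun x _ => ?_
        have : ∀ i, |if t x = i then sg x else 0| = if t x = i then (1 : ℤ) else 0 := by
          intro i
          split_ifs
          · exact hsg x
          · simp
        simp only [this, Finset.sum_ite_eq, Finset.mem_univ, if_true]
    _ = (Fintype.card J : ℤ) := by simp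

theorem sm_cons {ι : Type*} [DecidableEq ι] {K : ℕ} (sg : Fin (K + 1) → ℤ)
    (i₀ : ι) (t : Fin K → ι) (i : ι) :
    sm sg (Fin.cons i₀ t : Fin (K + 1) → ι) i
      = (if i₀ = i then sg 0 else 0) + sm (fun j => sg j.succ) t i := by
  unfold sm
  rw [Fin.sum_univ_succ]
  simp

theorem count_fin {ι : Type*} [Fintype ι] [DecidableEq ι] (s : ℝ) (hs : 1 ≤ s)
    (hcard : (Fintype.card ι : ℝ) ≤ s ^ 2) :
    ∀ (K : ℕ) (sg : Fin K → ℤ), (∀ j, |sg j| = 1) → ∀ m : ι → ℤ,
      ((univ.filter (fun t : Fin K → ι => ∀ i, sm sg t i = m i)).card : ℝ)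
        ≤ ((K + 1).factorial : ℝ) * s ^ ((K : ℤ) - ∑ i, |m i|) := by
  have hs0 : (0 : ℝ) < s := by linarith
  intro K
  induction K with
  | zero =>
    intro sg _ m
    by_cases hm : ∀ i, m i = 0
    · have h1 : ((univ.filter (fun t : Fin 0 → ι => ∀ i, sm sg t i = m i)).card : ℝ) ≤ 1 := by
        have : (univ.filter (fun t : Fin 0 → ι => ∀ i, sm sg t i = m i)).card
            ≤ Fintype.card (Fin 0 → ι) := Finset.card_le_univ _
        have h2 : Fintype.card (Fin 0 → ι) = 1 := by simp
        rw [h2] at this
        exact_mod_cast this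
      have h3 : ∑ i, |m i| = 0 := Finset.sum_eq_zero fun i _ => by simp [hm i]
      rw [h3]
      simpa using h1
    · push Not at hm
      obtain ⟨i, hi⟩ := hm
      have h1 : (univ.filter (fun t : Fin 0 → ι => ∀ i, sm sg t i = m i)) = ∅ := by
        apply Finset.filter_eq_empty_iff.mpr
        intro t _ h
        apply hi
        rw [← h i]
        simp [sm]
      rw [h1]
      simp only [Finset.card_empty, Nat.cast_zero]
      positivity
  | succ K ih =>
    intro sg hsg m
    by_cases hbig : ((K + 1 : ℕ) : ℤ) < ∑ i, |m i|
    · have h1 : (univ.filter (fun t : Fin (K + 1) → ι => ∀ i, sm sg t i = m i)) = ∅ := by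
        apply Finset.filter_eq_empty_iff.mpr
        intro t _ h
        have h2 := sm_abs_sum_le sg hsg t
        have h3 : ∑ i, |sm sg t i| = ∑ i, |m i| := Finset.sum_congr rfl fun i _ => by rw [h i]
        rw [h3] at h2
        simp only [Fintype.card_fin] at h2
        omega
      rw [h1]
      simp only [Finset.card_empty, Nat.cast_zero]
      positivity
    · push Not at hbig
      set L : ℤ := ∑ i, |m i| with hL
      -- decompose by the first coordinate
      have hdec : ((univ.filter (fun t : Fin (K + 1) → ι => ∀ i, sm sg t i = m i)).card : ℝ)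
          = ∑ i₀ : ι, ((univ.filter (fun t : Fin K → ι =>
              ∀ i, sm (fun j => sg j.succ) t i = m i - (if i₀ = i then sg 0 else 0))).card : ℝ) := by
        simp only [Finset.card_filter]
        push_cast
        rw [← (Fin.consEquiv (fun _ : Fin (K + 1) => ι)).sum_comp, Fintype.sum_prod_type]
        refine Finset.sum_congr rfl fun i₀ _ => Finset.sum_congr rfl fun t _ => ?_
        have : (∀ i, sm sg ((Fin.consEquiv (fun _ : Fin (K + 1) => ι)) (i₀, t)) i = m i) ↔
            (∀ i, sm (fun j => sg j.succ) t i = m i - (if i₀ = i then sg 0 else 0)) := by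
          refine forall_congr' fun i => ?_
          have := sm_cons sg i₀ t i
          constructor
          · intro h
            have h2 : sm sg (Fin.cons i₀ t : Fin (K + 1) → ι) i = m i := h
            rw [this] at h2
            linarith
          · intro h
            show sm sg (Fin.cons i₀ t : Fin (K + 1) → ι) i = m i
            rw [this, h]
            ring
        simp only [this]
      rw [hdec]
      -- the norms
      have hnorm : ∀ i₀ : ι, ∑ i, |m i - (if i₀ = i then sg 0 else 0)|
          = L - |m i₀| + |m i₀ - sg 0| := by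
        intro i₀
        have h1 : ∑ i, (|m i - (if i₀ = i then sg 0 else 0)| - |m i|)
            = |m i₀ - sg 0| - |m i₀| := by
          rw [Finset.sum_eq_single i₀]
          · simp
          · intro b _ hb
            rw [if_neg (Ne.symm hb)]
            simp
          · intro h
            exact absurd (Finset.mem_univ _) h
        rw [Finset.sum_sub_distrib] at h1
        rw [hL]
        linarith
      have hterm : ∀ i₀ : ι, ((univ.filter (fun t : Fin K → ι =>
              ∀ i, sm (fun j => sg j.succ) t i = m i - (if i₀ = i then sg 0 else 0))).card : ℝ)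
          ≤ ((K + 1).factorial : ℝ) *
            ((if m i₀ ≠ 0 then s ^ ((K : ℤ) + 1 - L) else 0) + s ^ ((K : ℤ) - 1 - L)) := by
        intro i₀
        refine (ih (fun j => sg j.succ) (fun j => hsg _) _).trans ?_
        rw [hnorm i₀]
        apply mul_le_mul_of_nonneg_left _ (by positivity)
        by_cases hm0 : m i₀ = 0
        · rw [hm0]
          have h1 : |(0 : ℤ) - sg 0| = 1 := by
            rw [zero_sub, abs_neg]
            exact hsg 0
          rw [h1]
          simp only [abs_zero, sub_zero, ne_eq, not_true_eq_false, if_false, zero_add]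
          apply le_of_eq
          congr 1
          ring
        · rw [if_pos hm0]
          have h1 : (K : ℤ) - (L - |m i₀| + |m i₀ - sg 0|) ≤ (K : ℤ) + 1 - L := by
            have h2 : |m i₀| ≤ |m i₀ - sg 0| + |sg 0| := by
              have := abs_add_le (m i₀ - sg 0) (sg 0)
              simpa using this
            rw [hsg 0] at h2
            linarith
          have h2 : s ^ ((K : ℤ) - (L - |m i₀| + |m i₀ - sg 0|)) ≤ s ^ ((K : ℤ) + 1 - L) :=
            zpow_le_zpow_right₀ hs h1
          have h3 : (0 : ℝ) ≤ s ^ ((K : ℤ) - 1 - L) := by positivity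
          linarith
      calc ∑ i₀ : ι, ((univ.filter (fun t : Fin K → ι =>
              ∀ i, sm (fun j => sg j.succ) t i = m i - (if i₀ = i then sg 0 else 0))).card : ℝ)
          ≤ ∑ i₀ : ι, ((K + 1).factorial : ℝ) *
            ((if m i₀ ≠ 0 then s ^ ((K : ℤ) + 1 - L) else 0) + s ^ ((K : ℤ) - 1 - L)) :=
            Finset.sum_le_sum fun i₀ _ => hterm i₀
        _ = ((K + 1).factorial : ℝ) *
            (((univ.filter (fun i : ι => m i ≠ 0)).card : ℝ) * s ^ ((K : ℤ) + 1 - L)
              + (Fintype.card ι : ℝ) * s ^ ((K : ℤ) - 1 - L)) := by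
            rw [← Finset.mul_sum, Finset.sum_add_distrib, ← Finset.sum_filter, Finset.sum_const,
              Finset.sum_const, nsmul_eq_mul, nsmul_eq_mul, Finset.card_univ]
        _ ≤ ((K + 1).factorial : ℝ) *
            (((K : ℝ) + 1) * s ^ ((K : ℤ) + 1 - L) + 1 * s ^ ((K : ℤ) + 1 - L)) := by
            apply mul_le_mul_of_nonneg_left _ (by positivity)
            have h1 : (((univ.filter (fun i : ι => m i ≠ 0)).card : ℝ)) ≤ (K : ℝ) + 1 := by
              have h2 : ((univ.filter (fun i : ι => m i ≠ 0)).card : ℤ) ≤ L := by
                rw [hL]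
                calc ((univ.filter (fun i : ι => m i ≠ 0)).card : ℤ)
                    = ∑ i ∈ univ.filter (fun i : ι => m i ≠ 0), (1 : ℤ) := by simp
                  _ ≤ ∑ i ∈ univ.filter (fun i : ι => m i ≠ 0), |m i| := by
                      refine Finset.sum_le_sum fun i hi => ?_
                      have := (Finset.mem_filter.mp hi).2
                      exact Int.one_le_abs this
                  _ ≤ ∑ i, |m i| := by
                      apply Finset.sum_le_sum_of_subset_of_nonneg (Finset.filter_subset _ _)
                      intro i _ _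
                      exact abs_nonneg _
              have h3 : ((univ.filter (fun i : ι => m i ≠ 0)).card : ℤ) ≤ ((K + 1 : ℕ) : ℤ) :=
                h2.trans hbig
              have h4 : (univ.filter (fun i : ι => m i ≠ 0)).card ≤ K + 1 := by exact_mod_cast h3
              exact_mod_cast h4
            have h5 : (Fintype.card ι : ℝ) * s ^ ((K : ℤ) - 1 - L) ≤ 1 * s ^ ((K : ℤ) + 1 - L) := by
              have h6 : s ^ ((K : ℤ) + 1 - L) = s ^ 2 * s ^ ((K : ℤ) - 1 - L) := by
                rw [← zpow_natCast, ← zpow_add₀ (ne_of_gt hs0)]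
                congr 1
                push_cast
                ring
              rw [h6, one_mul]
              exact mul_le_mul_of_nonneg_right hcard (by positivity)
            have h7 : (0 : ℝ) ≤ s ^ ((K : ℤ) + 1 - L) := by positivity
            have h8 := mul_le_mul_of_nonneg_right h1 h7
            linarith
        _ = ((K + 1 + 1).factorial : ℝ) * s ^ (((K + 1 : ℕ) : ℤ) - L) := by
            rw [Nat.factorial_succ (K + 1)]
            push_cast
            ring

/-- counting signed tuples with prescribed multiplicities, general index type -/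
theorem count_gen {ι : Type*} [Fintype ι] [DecidableEq ι] {J : Type*} [Fintype J] [DecidableEq J]
    (s : ℝ) (hs : 1 ≤ s)
    (hcard : (Fintype.card ι : ℝ) ≤ s ^ 2) (sg : J → ℤ) (hsg : ∀ j, |sg j| = 1) (m : ι → ℤ) :
      ((univ.filter (fun t : J → ι => ∀ i, sm sg t i = m i)).card : ℝ)
        ≤ ((Fintype.card J + 1).factorial : ℝ) * s ^ ((Fintype.card J : ℤ) - ∑ i, |m i|) := by
  have e : J ≃ Fin (Fintype.card J) := Fintype.equivFin J
  have h := count_fin s hs hcard (Fintype.card J) (fun j => sg (e.symm j)) (fun j => hsg _) m
  refine le_trans (le_of_eq ?_) h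
  congr 1
  apply Finset.card_bij (fun t _ => t ∘ e.symm)
  · intro t ht
    simp only [Finset.mem_filter, Finset.mem_univ, true_and] at ht ⊢
    intro i
    rw [← ht i]
    unfold sm
    rw [← e.symm.sum_comp]
    rfl
  · intro t _ t' _ h
    funext x
    have := congrFun h (e x)
    simpa using this
  · intro t ht
    refine ⟨t ∘ e, ?_, ?_⟩
    · simp only [Finset.mem_filter, Finset.mem_univ, true_and] at ht ⊢
      intro i
      rw [← ht i]
      unfold sm
      rw [← e.sum_comp]
      simp
    · funext x
      simp

end Crest.Agent.R2.F507
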