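import Crest.Agent.R2.Spec750

/-!
# Row 2 (Theorem S), FRONT part b: the Fourier lower bound (F1) (helper507)
-/

namespace Crest.Agent.R2.F507

open Finset Complex
open Crest.Agent.R2.M750


theorem ft_add_int (A : Finset GaussianInt) (m : GaussianInt → ℝ) (x : ℂ) (h : GaussianInt) :
    ft A m (x + GaussianInt.toComplex h) = ft A m x := by
  unfold ft
  exact Finset.sum_congr rfl fun z _ => by rw [chi_add_gaussian]

theorem ft_norm_le (A : Finset GaussianInt) (m : GaussianInt → ℝ) (hm : ∀ z ∈ A, 0 ≤ m z)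
    (x : ℂ) : ‖ft A m x‖ ≤ ∑ z ∈ A, m z := by
  unfold ft
  refine (norm_sum_le _ _).trans (Finset.sum_le_sum fun z hz => ?_)
  rw [norm_mul, norm_chi, mul_one, Complex.norm_real, Real.norm_eq_abs, abs_of_nonneg (hm z hz)]

theorem ft_sq (A : Finset GaussianInt) (m : GaussianInt → ℝ) (x : ℂ) :
    ((‖ft A m x‖ ^ 2 : ℝ) : ℂ) = ∑ z ∈ A, ∑ z' ∈ A, ((m z * m z' : ℝ) : ℂ) * chi (z - z') x := by
  have h1 : ((‖ft A m x‖ ^ 2 : ℝ) : ℂ) = ft A m x * (starRingEnd ℂ) (ft A m x) := by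
    rw [Complex.mul_conj, Complex.normSq_eq_norm_sq]
  rw [h1]
  unfold ft
  rw [map_sum, Finset.sum_mul_sum]
  refine Finset.sum_congr rfl fun z _ => Finset.sum_congr rfl fun z' _ => ?_
  rw [chi_sub_left, map_mul, Complex.conj_ofReal]
  push_cast
  ring

theorem ft_sq' (A : Finset GaussianInt) (m : GaussianInt → ℝ) (x : ℂ) :
    ((‖ft A m x‖ ^ 2 : ℝ) : ℂ)
      = ∑ z ∈ A ×ˢ A, ((m z.1 * m z.2 : ℝ) : ℂ) * chi (z.1 - z.2) x := by
  rw [ft_sq, Finset.sum_product]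

/-- signs on `Fin k × Bool` -/
def sgn (k : ℕ) (x : Fin k × Bool) : ℤ := if x.2 then 1 else -1

theorem sgn_abs (k : ℕ) (x : Fin k × Bool) : |sgn k x| = 1 := by
  unfold sgn
  split_ifs <;> simp

/-- the random sum -/
noncomputable def Phi {ι : Type*} (k : ℕ) (al : ι → ℂ) (t : Fin k × Bool → ι) : ℂ :=
  ∑ x, (sgn k x : ℂ) * al (t x)

noncomputable def Fs {ι : Type*} [Fintype ι] (al : ι → ℂ) (w : GaussianInt) : ℂ :=
  ∑ i, chi w (al i)

theorem sum_ch_Phi {ι : Type*} [Fintype ι] [DecidableEq ι] (k : ℕ) (al : ι → ℂ)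
    (w : GaussianInt) :
    ∑ t : Fin k × Bool → ι, chi w (Phi k al t) = ((‖Fs al w‖ ^ (2 * k) : ℝ) : ℂ) := by
  have h1 : ∀ t : Fin k × Bool → ι, chi w (Phi k al t)
      = ∏ x, chi w ((sgn k x : ℂ) * al (t x)) := by
    intro t
    unfold Phi
    rw [chi_sum_right]
  simp only [h1]
  have h2 : ∑ t : Fin k × Bool → ι, ∏ x, chi w ((sgn k x : ℂ) * al (t x))
      = ∏ x : Fin k × Bool, ∑ i, chi w ((sgn k x : ℂ) * al i) := by
    rw [Finset.prod_univ_sum]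
    simp
  rw [h2, Fintype.prod_prod_type]
  have h3 : ∀ j : Fin k, ∏ b : Bool, ∑ i, chi w ((sgn k (j, b) : ℂ) * al i)
      = ((‖Fs al w‖ ^ 2 : ℝ) : ℂ) := by
    intro j
    rw [Fintype.prod_bool]
    have h4 : ∑ i, chi w ((sgn k (j, true) : ℂ) * al i) = Fs al w := by
      unfold Fs sgn
      simp
    have h5 : ∑ i, chi w ((sgn k (j, false) : ℂ) * al i) = (starRingEnd ℂ) (Fs al w) := by
      unfold Fs sgn
      rw [map_sum]
      refine Finset.sum_congr rfl fun i _ => ?_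
      rw [← chi_neg_right]
      simp
    rw [h4, h5, Complex.mul_conj, Complex.normSq_eq_norm_sq]
  simp only [h3]
  rw [Finset.prod_const]
  simp only [Finset.card_univ, Fintype.card_fin]
  rw [← Complex.ofReal_pow, ← pow_mul]

/-- positivity: dropping terms -/
theorem W_lower {ι : Type*} [Fintype ι] [DecidableEq ι] (k : ℕ) (al : ι → ℂ)
    (phi : ℂ → ℝ) (c : GaussianInt → ℝ) (hc0 : ∀ y, 0 ≤ c y)
    (hS : ∀ x, HasSum (fun y => (c y : ℂ) * chi y x) (phi x : ℂ))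
    {β : Type*} (B : Finset β) (p : β → ℝ) (hp : ∀ b ∈ B, 0 ≤ p b) (v : β → GaussianInt)
    (Y : Finset GaussianInt) :
    ∑ y ∈ Y, c y * ∑ b ∈ B, p b * ‖Fs al (y + v b)‖ ^ (2 * k)
      ≤ (∑ t : Fin k × Bool → ι, (phi (Phi k al t) : ℂ) *
          ∑ b ∈ B, (p b : ℂ) * chi (v b) (Phi k al t)).re := by
  have h1 : HasSum (fun y : GaussianInt => ∑ t : Fin k × Bool → ι,
      ((c y : ℂ) * chi y (Phi k al t)) * ∑ b ∈ B, (p b : ℂ) * chi (v b) (Phi k al t))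
      (∑ t : Fin k × Bool → ι, (phi (Phi k al t) : ℂ) *
          ∑ b ∈ B, (p b : ℂ) * chi (v b) (Phi k al t)) := by
    apply hasSum_sum
    intro t _
    exact (hS (Phi k al t)).mul_right _
  have h2 : ∀ y : GaussianInt, (∑ t : Fin k × Bool → ι,
      ((c y : ℂ) * chi y (Phi k al t)) * ∑ b ∈ B, (p b : ℂ) * chi (v b) (Phi k al t))
      = ((c y * ∑ b ∈ B, p b * ‖Fs al (y + v b)‖ ^ (2 * k) : ℝ) : ℂ) := by
    intro y
    have h3 : ∀ t : Fin k × Bool → ι,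
        ((c y : ℂ) * chi y (Phi k al t)) * ∑ b ∈ B, (p b : ℂ) * chi (v b) (Phi k al t)
        = ∑ b ∈ B, ((c y : ℂ) * (p b : ℂ)) * chi (y + v b) (Phi k al t) := by
      intro t
      rw [Finset.mul_sum]
      refine Finset.sum_congr rfl fun b _ => ?_
      rw [chi_add_left]
      ring
    simp only [h3]
    rw [Finset.sum_comm]
    push_cast
    rw [Finset.mul_sum]
    refine Finset.sum_congr rfl fun b _ => ?_
    rw [← Finset.mul_sum, sum_ch_Phi]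
    push_cast
    ring
  simp only [h2] at h1
  have h4 : HasSum (fun y : GaussianInt => (((c y * ∑ b ∈ B, p b * ‖Fs al (y + v b)‖ ^ (2 * k)
      : ℝ) : ℂ)).re) _ := Complex.hasSum_re h1
  simp only [Complex.ofReal_re] at h4
  apply sum_le_hasSum Y _ h4
  intro y _
  apply mul_nonneg (hc0 y)
  exact Finset.sum_nonneg fun b hb => mul_nonneg (hp b hb) (by positivity)

/-- Jensen over a finite probability -/
theorem jensen_norm {β : Type*} (B : Finset β) (p : β → ℝ) (hp : ∀ b ∈ B, 0 ≤ p b)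
    (hp1 : ∑ b ∈ B, p b = 1) (f : β → ℂ) (n : ℕ) :
    ‖∑ b ∈ B, (p b : ℂ) * f b‖ ^ n ≤ ∑ b ∈ B, p b * ‖f b‖ ^ n := by
  have h1 : ‖∑ b ∈ B, (p b : ℂ) * f b‖ ≤ ∑ b ∈ B, p b * ‖f b‖ := by
    refine (norm_sum_le _ _).trans (le_of_eq (Finset.sum_congr rfl fun b hb => ?_))
    rw [norm_mul, Complex.norm_real, Real.norm_eq_abs, abs_of_nonneg (hp b hb)]
  calc ‖∑ b ∈ B, (p b : ℂ) * f b‖ ^ n ≤ (∑ b ∈ B, p b * ‖f b‖) ^ n :=
        pow_le_pow_left₀ (norm_nonneg _) h1 n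
    _ ≤ ∑ b ∈ B, p b * ‖f b‖ ^ n :=
        Real.pow_arith_mean_le_arith_mean_pow B p _ hp hp1 (fun b _ => norm_nonneg _) n

/-- **(F1)** -/
theorem W_lower' {ι : Type*} [Fintype ι] [DecidableEq ι] (k : ℕ) (al : ι → ℂ)
    (phi : ℂ → ℝ) (c : GaussianInt → ℝ) (hc0 : ∀ y, 0 ≤ c y)
    (hS : ∀ x, HasSum (fun y => (c y : ℂ) * chi y x) (phi x : ℂ))
    (A₁ A₂ A₃ : Finset GaussianInt) (m₁ m₂ m₃ : GaussianInt → ℝ)
    (hm₁ : ∀ z ∈ A₁, 0 ≤ m₁ z) (hm₂ : ∀ z ∈ A₂, 0 ≤ m₂ z) (hm₃ : ∀ z ∈ A₃, 0 ≤ m₃ z)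
    (hs₁ : ∑ z ∈ A₁, m₁ z = 1) (hs₂ : ∑ z ∈ A₂, m₂ z = 1) (hs₃ : ∑ z ∈ A₃, m₃ z = 1)
    (g : ℝ) (hg : ∀ z ∈ A₁, m₁ z ≤ g)
    (hc1 : ∀ z ∈ A₁, ∀ z' ∈ A₁, 1 / 10 ≤ c (z - z')) :
    (∑ i, ‖ft A₁ m₁ (al i)‖ ^ 2 * ‖ft A₂ m₂ (al i)‖ ^ 2 * ‖ft A₃ m₃ (al i)‖ ^ 2) ^ (2 * k)
      ≤ 10 * g * ∑ t : Fin k × Bool → ι, phi (Phi k al t) *
          (‖ft A₂ m₂ (Phi k al t)‖ ^ 2 * ‖ft A₃ m₃ (Phi k al t)‖ ^ 2) := by
  classical
  -- the combined measure
  set B : Finset ((GaussianInt × GaussianInt) × (GaussianInt × GaussianInt)) :=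
    (A₂ ×ˢ A₂) ×ˢ (A₃ ×ˢ A₃) with hB
  set p : (GaussianInt × GaussianInt) × (GaussianInt × GaussianInt) → ℝ :=
    fun b => (m₂ b.1.1 * m₂ b.1.2) * (m₃ b.2.1 * m₃ b.2.2) with hp
  set v : (GaussianInt × GaussianInt) × (GaussianInt × GaussianInt) → GaussianInt :=
    fun b => (b.1.1 - b.1.2) + (b.2.1 - b.2.2) with hv
  have hp0 : ∀ b ∈ B, 0 ≤ p b := by
    intro b hb
    simp only [hB, Finset.mem_product] at hb
    simp only [hp]
    exact mul_nonneg (mul_nonneg (hm₂ _ hb.1.1) (hm₂ _ hb.1.2))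
      (mul_nonneg (hm₃ _ hb.2.1) (hm₃ _ hb.2.2))
  have hp1 : ∑ b ∈ B, p b = 1 := by
    simp only [hB, hp]
    rw [Finset.sum_product]
    simp only [← Finset.mul_sum]
    rw [← Finset.sum_mul]
    rw [Finset.sum_product, Finset.sum_product]
    simp only [← Finset.mul_sum]
    rw [hs₂, hs₃]
    simp [hs₂, hs₃]
  have hH : ∀ x : ℂ, ∑ b ∈ B, (p b : ℂ) * chi (v b) x
      = ((‖ft A₂ m₂ x‖ ^ 2 * ‖ft A₃ m₃ x‖ ^ 2 : ℝ) : ℂ) := by
    intro x
    rw [Complex.ofReal_mul, ft_sq', ft_sq', Finset.sum_mul_sum]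
    simp only [hB, hp, hv]
    rw [Finset.sum_product]
    refine Finset.sum_congr rfl fun b _ => Finset.sum_congr rfl fun b' _ => ?_
    rw [chi_add_left]
    push_cast
    ring
  -- W
  have hW := fun Y => W_lower k al phi c hc0 hS B p hp0 v Y
  have hWre : (∑ t : Fin k × Bool → ι, (phi (Phi k al t) : ℂ) *
          ∑ b ∈ B, (p b : ℂ) * chi (v b) (Phi k al t)).re
      = ∑ t : Fin k × Bool → ι, phi (Phi k al t) *
          (‖ft A₂ m₂ (Phi k al t)‖ ^ 2 * ‖ft A₃ m₃ (Phi k al t)‖ ^ 2) := by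
    rw [Complex.re_sum]
    refine Finset.sum_congr rfl fun t _ => ?_
    rw [hH, ← Complex.ofReal_mul, Complex.ofReal_re]
  -- Y
  set Y : Finset GaussianInt := (A₁ ×ˢ A₁).image (fun z => z.1 - z.2) with hY
  set X : GaussianInt → ℝ := fun y => ∑ b ∈ B, p b * ‖Fs al (y + v b)‖ ^ (2 * k) with hX
  have hX0 : ∀ y, 0 ≤ X y := fun y =>
    Finset.sum_nonneg fun b hb => mul_nonneg (hp0 b hb) (by positivity)
  have hY2 := hW Y
  rw [hWre] at hY2
  have hstep : ∑ z ∈ A₁ ×ˢ A₁, (m₁ z.1 * m₁ z.2) * X (z.1 - z.2)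
      ≤ 10 * g * ∑ y ∈ Y, c y * X y := by
    have h1 : ∑ z ∈ A₁ ×ˢ A₁, (m₁ z.1 * m₁ z.2) * X (z.1 - z.2)
        = ∑ y ∈ Y, ∑ z ∈ (A₁ ×ˢ A₁).filter (fun z => z.1 - z.2 = y),
          (m₁ z.1 * m₁ z.2) * X (z.1 - z.2) := by
      rw [hY]
      rw [Finset.sum_fiberwise_of_maps_to]
      intro z hz
      exact Finset.mem_image_of_mem _ hz
    rw [h1, Finset.mul_sum]
    refine Finset.sum_le_sum fun y hy => ?_
    have h2 : ∑ z ∈ (A₁ ×ˢ A₁).filter (fun z => z.1 - z.2 = y),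
          (m₁ z.1 * m₁ z.2) * X (z.1 - z.2)
        = (∑ z ∈ (A₁ ×ˢ A₁).filter (fun z => z.1 - z.2 = y), m₁ z.1 * m₁ z.2) * X y := by
      rw [Finset.sum_mul]
      refine Finset.sum_congr rfl fun z hz => ?_
      rw [(Finset.mem_filter.mp hz).2]
    have h3 : ∑ z ∈ (A₁ ×ˢ A₁).filter (fun z => z.1 - z.2 = y), m₁ z.1 * m₁ z.2 ≤ g := by
      calc ∑ z ∈ (A₁ ×ˢ A₁).filter (fun z => z.1 - z.2 = y), m₁ z.1 * m₁ z.2
          ≤ ∑ z ∈ (A₁ ×ˢ A₁).filter (fun z => z.1 - z.2 = y), m₁ z.1 * g := by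
            refine Finset.sum_le_sum fun z hz => ?_
            have h4 := (Finset.mem_filter.mp hz).1
            rw [Finset.mem_product] at h4
            exact mul_le_mul_of_nonneg_left (hg _ h4.2) (hm₁ _ h4.1)
        _ = ∑ x ∈ ((A₁ ×ˢ A₁).filter (fun z => z.1 - z.2 = y)).image Prod.fst, m₁ x * g := by
            rw [Finset.sum_image]
            intro z hz z' hz' h
            have h5 := (Finset.mem_filter.mp hz).2
            have h6 := (Finset.mem_filter.mp hz').2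
            apply Prod.ext h
            have h7 : z.1 - z.2 = z'.1 - z'.2 := by rw [h5, h6]
            rw [h] at h7
            exact sub_right_injective h7
        _ ≤ ∑ x ∈ A₁, m₁ x * g := by
            apply Finset.sum_le_sum_of_subset_of_nonneg
            · intro x hx
              obtain ⟨z, hz, rfl⟩ := Finset.mem_image.mp hx
              exact (Finset.mem_product.mp (Finset.mem_filter.mp hz).1).1
            · intro x hx _
              exact mul_nonneg (hm₁ x hx) ((hm₁ x hx).trans (hg x hx))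
        _ = g := by rw [← Finset.sum_mul, hs₁, one_mul]
    have h5 : 1 / 10 ≤ c y := by
      obtain ⟨z, hz, rfl⟩ := Finset.mem_image.mp hy
      rw [Finset.mem_product] at hz
      exact hc1 _ hz.1 _ hz.2
    rw [h2]
    have hg0 : 0 ≤ g := le_trans (Finset.sum_nonneg fun z hz => by
      have h4 := (Finset.mem_filter.mp hz).1
      rw [Finset.mem_product] at h4
      exact mul_nonneg (hm₁ _ h4.1) (hm₁ _ h4.2)) h3
    calc (∑ z ∈ (A₁ ×ˢ A₁).filter (fun z => z.1 - z.2 = y), m₁ z.1 * m₁ z.2) * X y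
        ≤ g * X y := mul_le_mul_of_nonneg_right h3 (hX0 y)
      _ = 10 * g * (1 / 10 * X y) := by ring
      _ ≤ 10 * g * (c y * X y) := by
          apply mul_le_mul_of_nonneg_left _ (by positivity)
          exact mul_le_mul_of_nonneg_right h5 (hX0 y)
  -- Jensen
  set B' := (A₁ ×ˢ A₁) ×ˢ B with hB'
  have hp0' : ∀ b ∈ B', 0 ≤ (m₁ b.1.1 * m₁ b.1.2) * p b.2 := by
    intro b hb
    rw [hB', Finset.mem_product, Finset.mem_product] at hb
    exact mul_nonneg (mul_nonneg (hm₁ _ hb.1.1) (hm₁ _ hb.1.2)) (hp0 _ hb.2)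
  have hp1' : ∑ b ∈ B', (m₁ b.1.1 * m₁ b.1.2) * p b.2 = 1 := by
    rw [hB', Finset.sum_product]
    simp only [← Finset.mul_sum]
    rw [← Finset.sum_mul, hp1, Finset.sum_product]
    simp only [← Finset.mul_sum]
    simp [hs₁]
  have hJ := jensen_norm B' (fun b => (m₁ b.1.1 * m₁ b.1.2) * p b.2) hp0' hp1'
    (fun b => Fs al ((b.1.1 - b.1.2) + v b.2)) (2 * k)
  have hL : ∑ b ∈ B', (((m₁ b.1.1 * m₁ b.1.2) * p b.2 : ℝ) : ℂ) *
        Fs al ((b.1.1 - b.1.2) + v b.2)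
      = ((∑ i, ‖ft A₁ m₁ (al i)‖ ^ 2 * ‖ft A₂ m₂ (al i)‖ ^ 2 * ‖ft A₃ m₃ (al i)‖ ^ 2 : ℝ) :
        ℂ) := by
    unfold Fs
    simp only [Finset.mul_sum]
    rw [Finset.sum_comm]
    push_cast
    refine Finset.sum_congr rfl fun i _ => ?_
    have h1 := ft_sq' A₁ m₁ (al i)
    have h2 := hH (al i)
    push_cast at h1 h2
    rw [mul_assoc, ← h2, h1, Finset.sum_mul_sum, hB', Finset.sum_product]
    refine Finset.sum_congr rfl fun z _ => Finset.sum_congr rfl fun b _ => ?_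
    rw [chi_add_left]
    ring
  have hR : ∑ b ∈ B', ((m₁ b.1.1 * m₁ b.1.2) * p b.2) *
        ‖Fs al ((b.1.1 - b.1.2) + v b.2)‖ ^ (2 * k)
      = ∑ z ∈ A₁ ×ˢ A₁, (m₁ z.1 * m₁ z.2) * X (z.1 - z.2) := by
    rw [hB', Finset.sum_product]
    refine Finset.sum_congr rfl fun z _ => ?_
    simp only [hX]
    rw [Finset.mul_sum]
    refine Finset.sum_congr rfl fun b _ => ?_
    ring
  rw [hR] at hJ
  rw [hL, Complex.norm_real, Real.norm_eq_abs, abs_of_nonneg (by positivity)] at hJ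
  refine hJ.trans (hstep.trans ?_)
  have hg0 : 0 ≤ g := by
    have : ∃ z, z ∈ A₁ := by
      by_contra hne
      push Not at hne
      have : A₁ = ∅ := Finset.eq_empty_of_forall_notMem hne
      rw [this] at hs₁
      simp at hs₁
    obtain ⟨z, hz⟩ := this
    exact (hm₁ z hz).trans (hg z hz)
  exact mul_le_mul_of_nonneg_left hY2 (by positivity)

end Crest.Agent.R2.F507
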