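import Crest.Agent.R2.Front507a
import Crest.Agent.R2.Front507b
import Crest.Agent.R2.Gcd62

/-!
# Row 2 (Theorem S), FRONT part c: colouring pigeonhole and counting (helper507)
-/

namespace Crest.Agent.R2.F507

open Finset Complex
open Crest.Agent.R2.M750 Crest.Agent.R2.Gcd62

section colour

variable {ι : Type*} [Fintype ι] [DecidableEq ι] {J : Type*} [Fintype J] [DecidableEq J]

/-- the tuple agrees with the colouring -/
def Agr (sg : J → ℤ) (ν : ι → ℤ) (t : J → ι) : Prop := ∀ p, sm sg t p ≠ 0 → sm sg t p = ν p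

theorem sm_abs_le (sg : J → ℤ) (hsg : ∀ x, |sg x| = 1) (t : J → ι) (p : ι) :
    |sm sg t p| ≤ (Fintype.card J : ℤ) := by
  have h1 := sm_abs_sum_le sg hsg t
  have h2 : |sm sg t p| ≤ ∑ i, |sm sg t i| :=
    Finset.single_le_sum (f := fun i => |sm sg t i|) (fun i _ => abs_nonneg _) (Finset.mem_univ p)
  exact h2.trans h1

/-- support -/
def supp (sg : J → ℤ) (t : J → ι) : Finset ι := univ.filter (fun p => sm sg t p ≠ 0)

theorem supp_card_le (sg : J → ℤ) (hsg : ∀ x, |sg x| = 1) (t : J → ι) :
    (supp sg t).card ≤ Fintype.card J := by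
  have h1 := sm_abs_sum_le sg hsg t
  have h2 : ((supp sg t).card : ℤ) ≤ ∑ i, |sm sg t i| := by
    calc ((supp sg t).card : ℤ) = ∑ i ∈ supp sg t, (1 : ℤ) := by simp
      _ ≤ ∑ i ∈ supp sg t, |sm sg t i| := by
          refine Finset.sum_le_sum fun i hi => ?_
          exact Int.one_le_abs (Finset.mem_filter.mp hi).2
      _ ≤ ∑ i, |sm sg t i| := by
          apply Finset.sum_le_sum_of_subset_of_nonneg (Finset.subset_univ _)
          intro i _ _
          exact abs_nonneg _
  exact_mod_cast h2.trans h1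

open Classical in
theorem colour (sg : J → ℤ) (hsg : ∀ x, |sg x| = 1) (K : ℕ) (hK : Fintype.card J = K)
    (hK1 : 1 ≤ K) (E : Finset (J → ι)) (B : ℝ)
    (hB : ∀ ν : ι → ℤ, (∀ p, ν p ≠ 0 ∧ |ν p| ≤ (K : ℤ)) →
      ((E.filter (fun t => Agr sg ν t)).card : ℝ) ≤ B) :
    (E.card : ℝ) ≤ (2 * K : ℝ) ^ K * B := by
  set V : Finset ℤ := (Finset.Icc (-(K : ℤ)) K).erase 0 with hV
  have hVcard : V.card = 2 * K := by
    rw [hV, Finset.card_erase_of_mem (by simp), Int.card_Icc]
    have : ((K : ℤ) + 1 - (-(K : ℤ))).toNat = 2 * K + 1 := by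
      have : (K : ℤ) + 1 - (-(K : ℤ)) = ((2 * K + 1 : ℕ) : ℤ) := by push_cast; ring
      rw [this, Int.toNat_natCast]
    rw [this]
    simp
  set C : Finset (ι → ℤ) := Fintype.piFinset (fun _ : ι => V) with hC
  have hCcard : (C.card : ℝ) = (2 * K : ℝ) ^ (Fintype.card ι) := by
    rw [hC, Fintype.card_piFinset, Finset.prod_const, hVcard, Finset.card_univ]
    push_cast
    ring
  have hK0 : (0 : ℝ) < 2 * K := by
    have : (1 : ℝ) ≤ K := by exact_mod_cast hK1
    linarith
  have hC0 : (0 : ℝ) < (C.card : ℝ) := by rw [hCcard]; positivity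
  -- lower bound for the number of agreeing colourings
  have hlow : ∀ t : J → ι, (C.card : ℝ)
      ≤ (2 * K : ℝ) ^ K * ((C.filter (fun ν => Agr sg ν t)).card : ℝ) := by
    intro t
    set f : ι → Finset ℤ := fun p => if sm sg t p ≠ 0 then {sm sg t p} else V with hf
    have hsub : Fintype.piFinset f ⊆ C.filter (fun ν => Agr sg ν t) := by
      intro ν hν
      rw [Fintype.mem_piFinset] at hν
      rw [Finset.mem_filter]
      constructor
      · rw [hC, Fintype.mem_piFinset]
        intro p
        have h1 := hν p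
        simp only [hf] at h1
        split_ifs at h1 with h2
        · rw [Finset.mem_singleton] at h1
          rw [h1, hV, Finset.mem_erase]
          refine ⟨h2, ?_⟩
          have h3 := sm_abs_le sg hsg t p
          rw [hK, abs_le] at h3
          exact Finset.mem_Icc.mpr h3
        · exact h1
      · intro p hp
        have h1 := hν p
        simp only [hf] at h1
        rw [if_pos hp, Finset.mem_singleton] at h1
        exact h1.symm
    have hcard1 : ((Fintype.piFinset f).card : ℝ)
        = ∏ p : ι, (if sm sg t p ≠ 0 then (1 : ℝ) else 2 * K) := by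
      rw [Fintype.card_piFinset]
      push_cast
      refine Finset.prod_congr rfl fun p _ => ?_
      simp only [hf]
      split_ifs with h2
      · simp
      · rw [hVcard]; push_cast; ring
    have hcard2 : (2 * K : ℝ) ^ ((supp sg t).card)
        = ∏ p : ι, (if sm sg t p ≠ 0 then (2 * K : ℝ) else 1) := by
      rw [Finset.prod_ite]
      simp only [Finset.prod_const_one, mul_one, Finset.prod_const]
      rfl
    have hcard3 : (C.card : ℝ) = (2 * K : ℝ) ^ ((supp sg t).card) * ((Fintype.piFinset f).card : ℝ) := by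
      rw [hcard1, hcard2, ← Finset.prod_mul_distrib, hCcard]
      rw [← Finset.card_univ, ← Finset.prod_const]
      refine Finset.prod_congr rfl fun p _ => ?_
      split_ifs <;> ring
    rw [hcard3]
    have h4 : (2 * K : ℝ) ^ ((supp sg t).card) ≤ (2 * K : ℝ) ^ K := by
      apply pow_le_pow_right₀
      · have : (1 : ℝ) ≤ K := by exact_mod_cast hK1
        linarith
      · rw [← hK]
        exact supp_card_le sg hsg t
    have h5 : ((Fintype.piFinset f).card : ℝ) ≤ ((C.filter (fun ν => Agr sg ν t)).card : ℝ) := by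
      exact_mod_cast Finset.card_le_card hsub
    exact mul_le_mul h4 h5 (by positivity) (by positivity)
  -- double counting
  have hdc : ∑ t ∈ E, ((C.filter (fun ν => Agr sg ν t)).card : ℝ)
      = ∑ ν ∈ C, ((E.filter (fun t => Agr sg ν t)).card : ℝ) := by
    simp only [Finset.card_filter]
    push_cast
    rw [Finset.sum_comm]
  have hup : ∑ ν ∈ C, ((E.filter (fun t => Agr sg ν t)).card : ℝ) ≤ (C.card : ℝ) * B := by
    calc ∑ ν ∈ C, ((E.filter (fun t => Agr sg ν t)).card : ℝ) ≤ ∑ ν ∈ C, B := by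
          refine Finset.sum_le_sum fun ν hν => hB ν fun p => ?_
          rw [hC, Fintype.mem_piFinset] at hν
          have h1 := hν p
          rw [hV, Finset.mem_erase, Finset.mem_Icc] at h1
          exact ⟨h1.1, abs_le.mpr h1.2⟩
      _ = (C.card : ℝ) * B := by rw [Finset.sum_const, nsmul_eq_mul]
  have hfin : (C.card : ℝ) * (E.card : ℝ) ≤ (C.card : ℝ) * ((2 * K : ℝ) ^ K * B) := by
    calc (C.card : ℝ) * (E.card : ℝ) = ∑ t ∈ E, (C.card : ℝ) := by
          rw [Finset.sum_const, nsmul_eq_mul]; ring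
      _ ≤ ∑ t ∈ E, (2 * K : ℝ) ^ K * ((C.filter (fun ν => Agr sg ν t)).card : ℝ) :=
          Finset.sum_le_sum fun t _ => hlow t
      _ = (2 * K : ℝ) ^ K * ∑ ν ∈ C, ((E.filter (fun t => Agr sg ν t)).card : ℝ) := by
          rw [← Finset.mul_sum, hdc]
      _ ≤ (2 * K : ℝ) ^ K * ((C.card : ℝ) * B) := by
          apply mul_le_mul_of_nonneg_left hup (by positivity)
      _ = (C.card : ℝ) * ((2 * K : ℝ) ^ K * B) := by ring
  exact le_of_mul_le_mul_left hfin hC0

open Classical in
theorem count_agr (s : ℝ) (hs : 1 ≤ s) (hcard : (Fintype.card ι : ℝ) ≤ s ^ 2) (sg : J → ℤ)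
    (hsg : ∀ x, |sg x| = 1) (ν : ι → ℤ) (hν : ∀ p, ν p ≠ 0) (S : Finset ι) :
    ((univ.filter (fun t : J → ι => Agr sg ν t ∧ supp sg t = S)).card : ℝ)
      ≤ ((Fintype.card J + 1).factorial : ℝ) * s ^ ((Fintype.card J : ℤ) - (S.card : ℤ)) := by
  have h1 := count_gen s hs hcard sg hsg (fun p => if p ∈ S then ν p else 0)
  have hsub : (univ.filter (fun t : J → ι => Agr sg ν t ∧ supp sg t = S))
      ⊆ (univ.filter (fun t : J → ι => ∀ i, sm sg t i = (fun p => if p ∈ S then ν p else 0) i)) := by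
    intro t ht
    simp only [Finset.mem_filter, Finset.mem_univ, true_and] at ht ⊢
    intro i
    by_cases hi : i ∈ S
    · rw [if_pos hi]
      rw [← ht.2] at hi
      exact ht.1 i (Finset.mem_filter.mp hi).2
    · rw [if_neg hi]
      rw [← ht.2] at hi
      by_contra hne
      exact hi (Finset.mem_filter.mpr ⟨Finset.mem_univ _, hne⟩)
  have h2 : ((univ.filter (fun t : J → ι => Agr sg ν t ∧ supp sg t = S)).card : ℝ)
      ≤ ((univ.filter (fun t : J → ι => ∀ i, sm sg t i
        = (fun p => if p ∈ S then ν p else 0) i)).card : ℝ) := by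
    exact_mod_cast Finset.card_le_card hsub
  refine h2.trans (h1.trans ?_)
  apply mul_le_mul_of_nonneg_left _ (by positivity)
  apply zpow_le_zpow_right₀ hs
  have h3 : (S.card : ℤ) ≤ ∑ i, |(fun p => if p ∈ S then ν p else 0) i| := by
    calc (S.card : ℤ) = ∑ i ∈ S, (1 : ℤ) := by simp
      _ ≤ ∑ i ∈ S, |(fun p => if p ∈ S then ν p else 0) i| := by
          refine Finset.sum_le_sum fun i hi => ?_
          simp only [if_pos hi]
          exact Int.one_le_abs (hν i)
      _ ≤ ∑ i, |(fun p => if p ∈ S then ν p else 0) i| := by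
          apply Finset.sum_le_sum_of_subset_of_nonneg (Finset.subset_univ _)
          intro i _ _
          exact abs_nonneg _
  linarith

end colour

theorem Phi_eq {ι : Type*} [Fintype ι] [DecidableEq ι] (k : ℕ) (al : ι → ℂ)
    (t : Fin k × Bool → ι) :
    Phi k al t = ∑ p, (sm (sgn k) t p : ℂ) * al p := by
  unfold Phi sm
  have h1 : ∀ p : ι, ((∑ x, if t x = p then sgn k x else 0 : ℤ) : ℂ) * al p
      = ∑ x, if t x = p then (sgn k x : ℂ) * al p else 0 := by
    intro p
    push_cast
    rw [Finset.sum_mul]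
    refine Finset.sum_congr rfl fun x _ => ?_
    split_ifs <;> simp
  simp only [h1]
  rw [Finset.sum_comm]
  refine Finset.sum_congr rfl fun x _ => ?_
  rw [Finset.sum_ite_eq]
  simp

/-- extension of a colouring of `G` to all Gaussian integers -/
noncomputable def ext (G : Finset GaussianInt) (ν : ↥G → ℤ) (g : GaussianInt) : ℤ :=
  open Classical in if h : g ∈ G then ν ⟨g, h⟩ else 1

theorem ext_coe (G : Finset GaussianInt) (ν : ↥G → ℤ) (p : ↥G) : ext G ν p = ν p := by
  unfold ext
  rw [dif_pos p.2]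

/-- the numerators `ν_p a_p` -/
noncomputable def bb (G : Finset GaussianInt) (ν : ↥G → ℤ) (a : GaussianInt → GaussianInt)
    (g : GaussianInt) : GaussianInt := ((ext G ν g : ℤ) : GaussianInt) * a g

/-- support as a set of Gaussian integers -/
noncomputable def Sv (G : Finset GaussianInt) {k : ℕ} (t : Fin k × Bool → ↥G) :
    Finset GaussianInt :=
  open Classical in (supp (sgn k) t).map (Function.Embedding.subtype _)

theorem Sv_subset (G : Finset GaussianInt) {k : ℕ} (t : Fin k × Bool → ↥G) : Sv G t ⊆ G := by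
  intro g hg
  unfold Sv at hg
  rw [Finset.mem_map] at hg
  obtain ⟨p, _, rfl⟩ := hg
  exact p.2

noncomputable def al (G : Finset GaussianInt) (a : GaussianInt → GaussianInt) (p : ↥G) : ℂ :=
  GaussianInt.toComplex (a p) / GaussianInt.toComplex p

open Classical in
theorem Phi_agr (G : Finset GaussianInt) (a : GaussianInt → GaussianInt) {k : ℕ}
    (t : Fin k × Bool → ↥G) (ν : ↥G → ℤ) (h : Agr (sgn k) ν t) :
    Phi k (al G a) t
      = ∑ p ∈ Sv G t, GaussianInt.toComplex (bb G ν a p) / GaussianInt.toComplex p := by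
  rw [Phi_eq]
  unfold Sv
  rw [Finset.sum_map]
  unfold supp
  rw [Finset.sum_filter]
  refine Finset.sum_congr rfl fun p _ => ?_
  split_ifs with h1
  · rw [h p h1]
    unfold al bb
    simp only [Function.Embedding.subtype_apply]
    rw [ext_coe, map_mul]
    simp
    ring
  · simp only [not_not] at h1
    rw [h1]
    simp

/-- if `Φ` is a Gaussian integer then all multiplicities cancel -/
theorem supp_empty_of_int (G : Finset GaussianInt) (hG : ∀ p ∈ G, Prime p)
    (hass : ∀ p ∈ G, ∀ q ∈ G, Associated p q → p = q)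
    (a : GaussianInt → GaussianInt) {k : ℕ} (t : Fin k × Bool → ↥G)
    (hb : ∀ ν : ↥G → ℤ, (∀ p, ν p ≠ 0 ∧ |ν p| ≤ ((2 * k : ℕ) : ℤ)) → ∀ p ∈ G, ¬ p ∣ bb G ν a p)
    (hk : 1 ≤ k)
    (h : ∃ z : GaussianInt, Phi k (al G a) t = GaussianInt.toComplex z) :
    ∀ p, sm (sgn k) t p = 0 := by
  classical
  set ν : ↥G → ℤ := fun p => if sm (sgn k) t p ≠ 0 then sm (sgn k) t p else 1 with hν
  have hagr : Agr (sgn k) ν t := by
    intro p hp
    simp only [hν]
    rw [if_pos hp]
  have hν1 : ∀ p, ν p ≠ 0 ∧ |ν p| ≤ ((2 * k : ℕ) : ℤ) := by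
    intro p
    simp only [hν]
    split_ifs with h1
    · refine ⟨h1, ?_⟩
      have := sm_abs_le (sgn k) (sgn_abs k) t p
      simpa [mul_comm] using this
    · refine ⟨one_ne_zero, ?_⟩
      simp only [abs_one]
      push_cast
      omega
  obtain ⟨z, hz⟩ := h
  have hS : Sv G t = ∅ := by
    rw [← MM_dvd_NN_iff hG hass (hb ν hν1) (Sv_subset G t)]
    have hp : ∀ p ∈ Sv G t, Prime p := fun p hp => hG p (Sv_subset G t hp)
    have h1 := NN_div_MM (bb G ν a) hp
    rw [← Phi_agr G a t ν hagr, hz] at h1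
    have h2 : GaussianInt.toComplex (MM (Sv G t)) ≠ 0 := by
      rw [Ne, GaussianInt.toComplex_eq_zero]
      exact MM_ne_zero hp
    rw [div_eq_iff h2, ← map_mul] at h1
    have h3 := GaussianInt.toComplex_injective h1
    rw [h3]
    exact dvd_mul_left _ _
  intro p
  by_contra hne
  have : (p : GaussianInt) ∈ Sv G t := by
    unfold Sv
    rw [Finset.mem_map]
    exact ⟨p, Finset.mem_filter.mpr ⟨Finset.mem_univ _, hne⟩, rfl⟩
  rw [hS] at this
  simp at this

end Crest.Agent.R2.F507
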