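import Crest.Agent.R2.Front507c

/-!
# Row 2 (Theorem S), FRONT part d: the pigeonhole on colourings, numerators and supports (helper507)
-/

namespace Crest.Agent.R2.F507

open Finset Complex
open Crest.Agent.R2.M750 Crest.Agent.R2.Gcd62

theorem ab_MM_le (S : Finset GaussianInt) {w : ℝ} (hw : 0 ≤ w) (h : ∀ p ∈ S, ab p ≤ 2 * w) :
    ab (MM S) ≤ (2 * w) ^ S.card := by
  rw [ab_MM, ← Finset.prod_const]
  exact Finset.prod_le_prod (fun p _ => ab_nonneg p) h

theorem Sv_card_le (G : Finset GaussianInt) {k : ℕ} (t : Fin k × Bool → ↥G) :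
    (Sv G t).card ≤ 2 * k := by
  unfold Sv
  rw [Finset.card_map]
  have := supp_card_le (sgn k) (sgn_abs k) t
  simpa [mul_comm] using this

/-- the support determines the support in `↥G` -/
theorem supp_eq_of_Sv (G : Finset GaussianInt) {k : ℕ} (t t' : Fin k × Bool → ↥G)
    (h : Sv G t = Sv G t') : supp (sgn k) t = supp (sgn k) t' := by
  unfold Sv at h
  exact Finset.map_injective _ h

open Classical in
theorem pigeon (G : Finset GaussianInt) (hG : ∀ p ∈ G, Prime p)
    (a : GaussianInt → GaussianInt) {k : ℕ} (hk : 1 ≤ k)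
    (s : ℝ) (hs : 1 ≤ s) (hcard : (G.card : ℝ) ≤ s ^ 2)
    (w : ℝ) (hw1 : 1 ≤ w) (hw : ∀ p ∈ G, ab p ≤ 2 * w) (r : ℝ) (hr : 0 < r)
    (Z : ℝ) (hZ0 : 0 ≤ Z)
    (hZ : ∀ S ⊆ G, 1 / (2 * r) ≤ ab (MM S) → s ^ (((2 * k : ℕ) : ℤ) - (S.card : ℤ)) ≤ Z)
    (E : Finset (Fin k × Bool → ↥G))
    (hE : ∀ t ∈ E, inR r (Phi k (al G a) t) ∧
      ¬ ∃ z : GaussianInt, Phi k (al G a) t = GaussianInt.toComplex z)
    (L : ℝ) (hL0 : 0 ≤ L)
    (hL : ∀ ν : ↥G → ℤ, (∀ p, ν p ≠ 0 ∧ |ν p| ≤ ((2 * k : ℕ) : ℤ)) →
      ∀ c : GaussianInt, c ≠ 0 → ab c ≤ 2 * r * (2 * w) ^ (2 * k) →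
      ∀ F : Finset (Finset GaussianInt), (∀ S ∈ F, S ⊆ G ∧ MM S ∣ NN (bb G ν a) S - c ∧
        ab (MM S) ≤ (2 * w) ^ (2 * k) ∧ 1 / (2 * r) ≤ ab (MM S) ∧
        ∃ t ∈ E, ∃ h : GaussianInt, Phi k (al G a) t
          = GaussianInt.toComplex c / GaussianInt.toComplex (MM S) + GaussianInt.toComplex h) →
      (F.card : ℝ) ≤ L) :
    (E.card : ℝ) ≤ (4 * k : ℝ) ^ (2 * k) *
      (((ball (2 * r * (2 * w) ^ (2 * k))).card : ℝ) *
        (L * (((2 * k + 1).factorial : ℝ) * Z))) := by
  have hcardJ : Fintype.card (Fin k × Bool) = 2 * k := by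
    simp [mul_comm]
  have hcol := colour (ι := ↥G) (sgn k) (sgn_abs k) (2 * k) hcardJ (by omega) E
    (((ball (2 * r * (2 * w) ^ (2 * k))).card : ℝ) * (L * (((2 * k + 1).factorial : ℝ) * Z))) ?_
  · refine hcol.trans (le_of_eq ?_)
    push_cast
    ring_nf
  intro ν hν
  set Eν := E.filter (fun t => Agr (sgn k) ν t) with hEν
  -- numerators
  have hnum : ∀ t ∈ Eν, ∃ c : GaussianInt, c ≠ 0 ∧ ab c ≤ 2 * r * (2 * w) ^ (2 * k) ∧
      MM (Sv G t) ∣ NN (bb G ν a) (Sv G t) - c ∧ ab (MM (Sv G t)) ≤ (2 * w) ^ (2 * k) ∧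
      1 / (2 * r) ≤ ab (MM (Sv G t)) ∧
      ∃ h : GaussianInt, Phi k (al G a) t
          = GaussianInt.toComplex c / GaussianInt.toComplex (MM (Sv G t))
            + GaussianInt.toComplex h := by
    intro t ht
    have ht1 := Finset.mem_filter.mp ht
    obtain ⟨⟨h, hre, him⟩, hne⟩ := hE t ht1.1
    set x : ℂ := Phi k (al G a) t - GaussianInt.toComplex h with hx
    have hxn : ‖x‖ ≤ 2 * r := by
      have h1 : |x.re| < r := by
        rw [hx, Complex.sub_re, ← GaussianInt.intCast_re]
        exact hre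
      have h2 : |x.im| < r := by
        rw [hx, Complex.sub_im, ← GaussianInt.intCast_im]
        exact him
      have h3 := Complex.norm_le_abs_re_add_abs_im x
      linarith
    have hprime : ∀ p ∈ Sv G t, Prime p := fun p hp => hG p (Sv_subset G t hp)
    have hPhi := Phi_agr G a t ν ht1.2
    have hsum : ∑ p ∈ Sv G t, GaussianInt.toComplex (bb G ν a p) / GaussianInt.toComplex p
        = GaussianInt.toComplex h + x := by
      rw [← hPhi, hx]
      ring
    obtain ⟨c, hc1, hc2⟩ := exists_num (bb G ν a) hprime hsum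
    have hM0 : MM (Sv G t) ≠ 0 := MM_ne_zero hprime
    have hM0' : GaussianInt.toComplex (MM (Sv G t)) ≠ 0 := by
      rw [Ne, GaussianInt.toComplex_eq_zero]
      exact hM0
    have hx0 : x ≠ 0 := by
      intro h0
      apply hne
      refine ⟨h, ?_⟩
      have := sub_eq_zero.mp (hx.symm.trans h0)
      exact this
    have hc0 : c ≠ 0 := by
      intro h0
      rw [h0, map_zero] at hc1
      rcases mul_eq_zero.mp hc1.symm with h3 | h3
      · exact hx0 h3
      · exact hM0' h3
    have hMle : ab (MM (Sv G t)) ≤ (2 * w) ^ (2 * k) := by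
      refine (ab_MM_le (Sv G t) (by linarith) fun p hp => hw p (Sv_subset G t hp)).trans ?_
      exact pow_le_pow_right₀ (by linarith) (Sv_card_le G t)
    have habc : ab c = ‖x‖ * ab (MM (Sv G t)) := by
      unfold ab
      rw [hc1, norm_mul]
    have hMpos : 0 < ab (MM (Sv G t)) := by
      have := one_le_ab hM0
      linarith
    refine ⟨c, hc0, ?_, hc2, hMle, ?_, h, ?_⟩
    · rw [habc]
      exact mul_le_mul hxn hMle hMpos.le (by positivity)
    · have h1 := one_le_ab hc0
      rw [habc] at h1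
      rw [div_le_iff₀ (by positivity)]
      nlinarith
    · rw [hc1, mul_div_assoc, div_self hM0', mul_one, hx]
      ring
  choose! cc hcc0 hccle hccdvd hccY hccr hccPhi using hnum
  -- fibres over numerators
  have hmaps : ∀ t ∈ Eν, cc t ∈ ball (2 * r * (2 * w) ^ (2 * k)) := fun t ht =>
    mem_ball.2 (hccle t ht)
  have hfib : ∀ c ∈ ball (2 * r * (2 * w) ^ (2 * k)),
      ((Eν.filter (fun t => cc t = c)).card : ℝ) ≤ L * (((2 * k + 1).factorial : ℝ) * Z) := by
    intro c _
    by_cases hc0 : c = 0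
    · have : Eν.filter (fun t => cc t = c) = ∅ := by
        apply Finset.filter_eq_empty_iff.mpr
        intro t ht h
        exact hcc0 t ht (h.trans hc0)
      rw [this]
      simp only [Finset.card_empty, Nat.cast_zero]
      positivity
    · set Ec := Eν.filter (fun t => cc t = c) with hEc
      rcases Ec.eq_empty_or_nonempty with he | hne'
      · rw [he]
        simp only [Finset.card_empty, Nat.cast_zero]
        positivity
      set F : Finset (Finset GaussianInt) := Ec.image (Sv G) with hF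
      have hFL : (F.card : ℝ) ≤ L := by
        obtain ⟨t₀, ht₀⟩ := hne'
        have ht₁ := Finset.mem_filter.mp ht₀
        apply hL ν hν c hc0 (by rw [← ht₁.2]; exact hccle t₀ ht₁.1)
        intro S hS
        obtain ⟨t, ht, rfl⟩ := Finset.mem_image.mp hS
        have ht' := Finset.mem_filter.mp ht
        have hcct := ht'.2
        refine ⟨Sv_subset G t, ?_, hccY t ht'.1, hccr t ht'.1, t,
          (Finset.mem_filter.mp ht'.1).1, ?_⟩
        · rw [← hcct]
          exact hccdvd t ht'.1
        · rw [← hcct]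
          exact hccPhi t ht'.1
      have hfib2 : ∀ S ∈ F, ((Ec.filter (fun t => Sv G t = S)).card : ℝ)
          ≤ ((2 * k + 1).factorial : ℝ) * Z := by
        intro S hS
        obtain ⟨t₁, ht₁, hSt⟩ := Finset.mem_image.mp hS
        have ht₁' := Finset.mem_filter.mp ht₁
        have hsub : Ec.filter (fun t => Sv G t = S) ⊆
            univ.filter (fun t : Fin k × Bool → ↥G =>
              Agr (sgn k) ν t ∧ supp (sgn k) t = supp (sgn k) t₁) := by
          intro t ht
          rw [Finset.mem_filter] at ht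
          have h1 := Finset.mem_filter.mp ht.1
          have h2 := Finset.mem_filter.mp h1.1
          rw [Finset.mem_filter]
          refine ⟨Finset.mem_univ _, h2.2, ?_⟩
          apply supp_eq_of_Sv G
          rw [ht.2, hSt]
        have h3 := count_agr (ι := ↥G) s hs (by simpa using hcard) (sgn k) (sgn_abs k) ν
          (fun p => (hν p).1) (supp (sgn k) t₁)
        have h4 : ((Ec.filter (fun t => Sv G t = S)).card : ℝ)
            ≤ ((univ.filter (fun t : Fin k × Bool → ↥G =>
              Agr (sgn k) ν t ∧ supp (sgn k) t = supp (sgn k) t₁)).card : ℝ) := by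
          exact_mod_cast Finset.card_le_card hsub
        refine h4.trans (h3.trans ?_)
        rw [hcardJ]
        apply mul_le_mul_of_nonneg_left _ (by positivity)
        have h5 : (supp (sgn k) t₁).card = S.card := by
          rw [← hSt]
          unfold Sv
          rw [Finset.card_map]
        rw [h5]
        apply hZ S
        · rw [← hSt]
          exact Sv_subset G t₁
        · rw [← hSt]
          exact hccr t₁ ht₁'.1
      have hsumF : (Ec.card : ℝ) = ∑ S ∈ F, ((Ec.filter (fun t => Sv G t = S)).card : ℝ) := by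
        have := Finset.card_eq_sum_card_image (Sv G) Ec
        exact_mod_cast this
      rw [hsumF]
      calc ∑ S ∈ F, ((Ec.filter (fun t => Sv G t = S)).card : ℝ)
          ≤ ∑ S ∈ F, ((2 * k + 1).factorial : ℝ) * Z := Finset.sum_le_sum hfib2
        _ = (F.card : ℝ) * (((2 * k + 1).factorial : ℝ) * Z) := by
            rw [Finset.sum_const, nsmul_eq_mul]
        _ ≤ L * (((2 * k + 1).factorial : ℝ) * Z) :=
            mul_le_mul_of_nonneg_right hFL (by positivity)
  have hsum : (Eν.card : ℝ)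
      = ∑ c ∈ ball (2 * r * (2 * w) ^ (2 * k)), ((Eν.filter (fun t => cc t = c)).card : ℝ) := by
    have := Finset.card_eq_sum_card_fiberwise hmaps
    exact_mod_cast this
  rw [hsum]
  calc ∑ c ∈ ball (2 * r * (2 * w) ^ (2 * k)), ((Eν.filter (fun t => cc t = c)).card : ℝ)
      ≤ ∑ c ∈ ball (2 * r * (2 * w) ^ (2 * k)), L * (((2 * k + 1).factorial : ℝ) * Z) :=
        Finset.sum_le_sum hfib
    _ = _ := by rw [Finset.sum_const, nsmul_eq_mul]

end Crest.Agent.R2.F507
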