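import Crest.Agent.R2.Front507d

/-!
# Row 2 (Theorem S), FRONT part e: numbers (helper507)
-/

namespace Crest.Agent.R2.F507

open Finset Complex
open Crest.Agent.R2.M750 Crest.Agent.R2.Gcd62

/-- the choice of `k` -/
theorem exists_k (ε U w : ℝ) (hε : 0 < ε) (hε1 : ε ≤ 1 / 1000) (hUε : 100 ≤ ε * U)
    (hwlow : Real.log U ≤ ε * Real.log w) (hwup : Real.log w ≤ ε ^ 2 * U) :
    ∃ k : ℕ, 1 ≤ k ∧ (1 + 20 * ε) * U ≤ 2 * k * Real.log w ∧
      2 * k * Real.log w ≤ (1 + 21 * ε) * U ∧ (4 * k : ℝ) ≤ U ∧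
      2 * k * Real.log U ≤ 1.1 * ε * U ∧ 1 ≤ Real.log U ∧ 1 / ε ≤ Real.log w := by
  have hU : 100000 ≤ U := by
    by_contra h
    push Not at h
    have : ε * U < 1 / 1000 * 100000 := by
      have h0 : 0 ≤ ε := hε.le
      calc ε * U < ε * 100000 := by nlinarith
        _ ≤ 1 / 1000 * 100000 := by nlinarith
    linarith
  have hlogU : 1 ≤ Real.log U := by
    rw [Real.le_log_iff_exp_le (by linarith)]
    have := Real.exp_one_lt_d9
    linarith
  have hlw : 1 / ε ≤ Real.log w := by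
    rw [div_le_iff₀ hε]
    linarith
  have hlw1000 : 1000 ≤ Real.log w := by
    refine le_trans ?_ hlw
    rw [le_div_iff₀ hε]
    linarith
  set lam := Real.log w with hlam
  have hl0 : 0 < lam := by linarith
  set k := ⌈(1 + 20 * ε) * U / (2 * lam)⌉₊ with hk
  have hx0 : 0 < (1 + 20 * ε) * U / (2 * lam) := by positivity
  have h1 : (1 + 20 * ε) * U / (2 * lam) ≤ k := Nat.le_ceil _
  have h2 : (k : ℝ) < (1 + 20 * ε) * U / (2 * lam) + 1 := Nat.ceil_lt_add_one hx0.le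
  have hk1 : (1 + 20 * ε) * U ≤ 2 * k * lam := by
    rw [div_le_iff₀ (by positivity)] at h1
    linarith
  have hk2 : 2 * k * lam ≤ (1 + 21 * ε) * U := by
    have h3 : (k : ℝ) * (2 * lam) ≤ ((1 + 20 * ε) * U / (2 * lam) + 1) * (2 * lam) :=
      mul_le_mul_of_nonneg_right h2.le (by positivity)
    rw [add_mul, div_mul_cancel₀ _ (by positivity)] at h3
    have h4 : 2 * (ε ^ 2 * U) ≤ ε * U := by nlinarith [mul_pos hε (by linarith : 0 < U)]
    nlinarith
  have hk3 : 2 * (k : ℝ) ≤ (1 + 21 * ε) * U / lam := by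
    rw [le_div_iff₀ hl0]
    exact hk2
  refine ⟨k, ?_, hk1, hk2, ?_, ?_, hlogU, hlw⟩
  · exact Nat.one_le_iff_ne_zero.mpr (by
      intro h0
      rw [h0] at h1
      simp only [Nat.cast_zero] at h1
      linarith)
  · -- 4k ≤ U
    have h5 : 4 * (k : ℝ) * 1000 ≤ U * 1000 := by
      calc 4 * (k : ℝ) * 1000 ≤ 4 * (k : ℝ) * lam := by
            apply mul_le_mul_of_nonneg_left hlw1000 (by positivity)
        _ = 2 * (2 * k * lam) := by ring
        _ ≤ 2 * ((1 + 21 * ε) * U) := by linarith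
        _ ≤ U * 1000 := by nlinarith
    linarith
  · calc 2 * (k : ℝ) * Real.log U ≤ 2 * (k : ℝ) * (ε * lam) :=
          mul_le_mul_of_nonneg_left hwlow (by positivity)
      _ = ε * (2 * k * lam) := by ring
      _ ≤ ε * ((1 + 21 * ε) * U) := mul_le_mul_of_nonneg_left hk2 hε.le
      _ ≤ 1.1 * ε * U := by nlinarith [mul_pos hε (by linarith : 0 < U)]

theorem pow_le_exp {x U M : ℝ} {n : ℕ} (hx0 : 0 < x) (hxU : x ≤ U) (h : n * Real.log U ≤ M) :
    x ^ n ≤ Real.exp M := by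
  have hU : 0 < U := by linarith
  calc x ^ n ≤ U ^ n := pow_le_pow_left₀ hx0.le hxU n
    _ = Real.exp (n * Real.log U) := by
        rw [mul_comm, Real.exp_mul, Real.exp_log hU, Real.rpow_natCast]
    _ ≤ Real.exp M := Real.exp_le_exp.mpr h

end Crest.Agent.R2.F507
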