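import Crest.Agent.R2.Front507e

/-!
# Row 2 (Theorem S), FRONT: assembly (helper507)
-/

namespace Crest.Agent.R2.F507

open Finset Complex
open Crest.Agent.R2.M750 Crest.Agent.R2.Gcd62

theorem log_two_le_one : Real.log 2 ≤ 1 := by
  have := Real.log_two_lt_d9
  linarith

/-- size of the support of a large denominator -/
theorem card_S_ge {ε U w : ℝ} (hε : 0 < ε) (hU : 0 ≤ U) (hw : 0 < w)
    (hlw : 1 / ε ≤ Real.log w) (S : Finset GaussianInt)
    (hS : ∀ p ∈ S, ab p ≤ 2 * w) (h : Real.exp U ≤ ab (MM S)) :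
    (1 - ε) * U ≤ S.card * Real.log w := by
  have h1 := h.trans (ab_MM_le S hw.le hS)
  have h2 : U ≤ S.card * Real.log (2 * w) := by
    have h3 := Real.log_le_log (Real.exp_pos U) h1
    rwa [Real.log_exp, Real.log_pow] at h3
  rw [Real.log_mul (by norm_num) hw.ne'] at h2
  have hl0 : 0 < Real.log w := lt_of_lt_of_le (by positivity) hlw
  have h4 : Real.log 2 ≤ ε * Real.log w := by
    have := log_two_le_one
    rw [div_le_iff₀ hε] at hlw
    linarith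
  have hc0 : (0 : ℝ) ≤ S.card := by positivity
  set x := (S.card : ℝ) * Real.log w with hx
  have hx0 : 0 ≤ x := by positivity
  have h5 : U ≤ (1 + ε) * x := by
    calc U ≤ S.card * (Real.log 2 + Real.log w) := h2
      _ ≤ S.card * (ε * Real.log w + Real.log w) :=
          mul_le_mul_of_nonneg_left (by linarith) hc0
      _ = (1 + ε) * x := by rw [hx]; ring
  by_cases hε1 : ε ≤ 1
  · have h6 := mul_le_mul_of_nonneg_left h5 (sub_nonneg.mpr hε1)
    have h7 : (1 - ε) * ((1 + ε) * x) = x - ε ^ 2 * x := by ring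
    have h8 : 0 ≤ ε ^ 2 * x := by positivity
    linarith
  · push Not at hε1
    nlinarith

theorem Z_bound {ε U w n : ℝ} (hε : 0 < ε) (hε1 : ε ≤ 1 / 1000) (hU : 0 ≤ U) (hw : 0 < w)
    (hlw : 1 / ε ≤ Real.log w) {k : ℕ} (hk : (1 + 20 * ε) * U ≤ 2 * k * Real.log w)
    (hn : Real.exp ((2 - ε) * Real.log w) ≤ n)
    (S : Finset GaussianInt)
    (hS : ∀ p ∈ S, ab p ≤ 2 * w) (h : Real.exp U ≤ ab (MM S)) :
    Real.sqrt n ^ (((2 * k : ℕ) : ℤ) - (S.card : ℤ)) ≤ n ^ (2 * k) * Real.exp (-(2 * U)) := by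
  have hl0 : 0 < Real.log w := lt_of_lt_of_le (by positivity) hlw
  have hn0 : 0 < n := (Real.exp_pos _).trans_le hn
  have hs0 : 0 < Real.sqrt n := Real.sqrt_pos.mpr hn0
  have hsn : Real.sqrt n ^ 2 = n := Real.sq_sqrt hn0.le
  have hs1 : Real.exp ((1 - ε / 2) * Real.log w) ≤ Real.sqrt n := by
    apply Real.le_sqrt_of_sq_le
    refine le_trans (le_of_eq ?_) hn
    rw [← Real.exp_nat_mul]
    congr 1
    push_cast
    ring
  have hcS := card_S_ge hε hU hw hlw S hS h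
  have hpow : Real.exp (2 * U) ≤ Real.sqrt n ^ (2 * k + S.card) := by
    calc Real.exp (2 * U) ≤ Real.exp (((2 * k + S.card : ℕ) : ℝ) * ((1 - ε / 2) * Real.log w)) := by
          apply Real.exp_le_exp.mpr
          push_cast
          have h5 : (1 + 20 * ε) * U + (1 - ε) * U ≤ (2 * k + S.card) * Real.log w := by
            have h50 := add_le_add hk hcS
            have h51 : 2 * (k : ℝ) * Real.log w + S.card * Real.log w
                = (2 * k + S.card) * Real.log w := by ring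
            linarith
          have h6 : (1 - ε / 2) * ((1 + 20 * ε) * U + (1 - ε) * U)
              ≤ (1 - ε / 2) * ((2 * k + S.card) * Real.log w) :=
            mul_le_mul_of_nonneg_left h5 (by linarith)
          have h7 : 2 * U ≤ (1 - ε / 2) * ((1 + 20 * ε) * U + (1 - ε) * U) := by
            have h8 : (1 - ε / 2) * ((1 + 20 * ε) * U + (1 - ε) * U)
                = 2 * U + ε * U * (18 - 19 / 2 * ε) := by ring
            rw [h8]
            have : 0 ≤ ε * U * (18 - 19 / 2 * ε) := by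
              apply mul_nonneg (by positivity)
              linarith
            linarith
          calc 2 * U ≤ _ := h7
            _ ≤ _ := h6
            _ = _ := by ring
      _ = (Real.exp ((1 - ε / 2) * Real.log w)) ^ (2 * k + S.card) := by
          rw [← Real.exp_nat_mul]
      _ ≤ Real.sqrt n ^ (2 * k + S.card) := pow_le_pow_left₀ (Real.exp_pos _).le hs1 _
  have heq : Real.sqrt n ^ (((2 * k : ℕ) : ℤ) - (S.card : ℤ)) * Real.sqrt n ^ (2 * k + S.card)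
      = n ^ (2 * k) := by
    rw [← zpow_natCast (Real.sqrt n) (2 * k + S.card), ← zpow_add₀ hs0.ne']
    have : (((2 * k : ℕ) : ℤ) - (S.card : ℤ)) + ((2 * k + S.card : ℕ) : ℤ)
        = ((2 * (2 * k) : ℕ) : ℤ) := by
      push_cast
      ring
    rw [this, zpow_natCast, pow_mul, hsn]
  rw [Real.exp_neg, ← div_eq_mul_inv, le_div_iff₀ (Real.exp_pos _), ← heq]
  apply mul_le_mul_of_nonneg_left hpow
  positivity

/-- Gaussian primes of `G` do not divide the numerators -/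
theorem bb_ok {U w : ℝ} {k : ℕ} (G : Finset GaussianInt) (hG : ∀ p ∈ G, Prime p)
    (hwl : ∀ p ∈ G, w ≤ ab p) (hk : (4 * k : ℝ) ≤ U) (hk1 : 1 ≤ k) (hUw : U ≤ w)
    (a : GaussianInt → GaussianInt) (ha : ∀ p ∈ G, ¬ p ∣ a p) :
    ∀ ν : ↥G → ℤ, (∀ p, ν p ≠ 0 ∧ |ν p| ≤ ((2 * k : ℕ) : ℤ)) → ∀ p ∈ G, ¬ p ∣ bb G ν a p := by
  intro ν hν p hp
  unfold bb
  have h1 : ext G ν p = ν ⟨p, hp⟩ := ext_coe G ν ⟨p, hp⟩
  rw [h1]
  apply not_dvd_mul (hG p hp) (hwl p hp) (hν ⟨p, hp⟩).1 _ (ha p hp)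
  have h2 := (hν ⟨p, hp⟩).2
  have h3 : ((|ν ⟨p, hp⟩| : ℤ) : ℝ) ≤ ((2 * k : ℕ) : ℝ) := by exact_mod_cast h2
  push_cast at h3
  have h4 : (1 : ℝ) ≤ k := by exact_mod_cast hk1
  linarith

theorem ft_norm_le_one (A : Finset GaussianInt) (m : GaussianInt → ℝ) (hm : ∀ z ∈ A, 0 ≤ m z)
    (hs : ∑ z ∈ A, m z = 1) (x : ℂ) : ‖ft A m x‖ ≤ 1 := (ft_norm_le A m hm x).trans hs.le

open Classical in
/-- splitting of `W` -/
theorem W_upper (G : Finset GaussianInt) (a : GaussianInt → GaussianInt) (k : ℕ)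
    (r τ : ℝ) (hr : 0 < r)
    (A₂ A₃ : Finset GaussianInt) (m₂ m₃ : GaussianInt → ℝ)
    (hm₂ : ∀ z ∈ A₂, 0 ≤ m₂ z) (hm₃ : ∀ z ∈ A₃, 0 ≤ m₃ z)
    (hs₂ : ∑ z ∈ A₂, m₂ z = 1) (hs₃ : ∑ z ∈ A₃, m₃ z = 1) :
    ∑ t : Fin k × Bool → ↥G, phi r (Phi k (al G a) t) *
          (‖ft A₂ m₂ (Phi k (al G a) t)‖ ^ 2 * ‖ft A₃ m₃ (Phi k (al G a) t)‖ ^ 2)
      ≤ 1 / r ^ 2 * (((univ.filter (fun t : Fin k × Bool → ↥G =>
            ∃ z : GaussianInt, Phi k (al G a) t = GaussianInt.toComplex z)).card : ℝ)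
        + τ ^ 2 * ((univ.filter (fun t : Fin k × Bool → ↥G =>
            inR r (Phi k (al G a) t) ∧
            ¬ ∃ z : GaussianInt, Phi k (al G a) t = GaussianInt.toComplex z)).card : ℝ)
        + ((univ.filter (fun t : Fin k × Bool → ↥G =>
            inR r (Phi k (al G a) t) ∧
            (¬ ∃ z : GaussianInt, Phi k (al G a) t = GaussianInt.toComplex z) ∧
            τ ≤ ‖ft A₂ m₂ (Phi k (al G a) t)‖ ∧ τ ≤ ‖ft A₃ m₃ (Phi k (al G a) t)‖)).card : ℝ)) := by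
  simp only [Finset.card_filter]
  push_cast
  rw [Finset.mul_sum, ← Finset.sum_add_distrib, ← Finset.sum_add_distrib, Finset.mul_sum]
  refine Finset.sum_le_sum fun t _ => ?_
  set x := Phi k (al G a) t with hx
  have hφ0 := phi_nonneg hr x
  have hφ1 := phi_le hr x
  have h2 := ft_norm_le_one A₂ m₂ hm₂ hs₂ x
  have h3 := ft_norm_le_one A₃ m₃ hm₃ hs₃ x
  have h20 := norm_nonneg (ft A₂ m₂ x)
  have h30 := norm_nonneg (ft A₃ m₃ x)
  have h22 : ‖ft A₂ m₂ x‖ ^ 2 ≤ 1 := pow_le_one₀ h20 h2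
  have h33 : ‖ft A₃ m₃ x‖ ^ 2 ≤ 1 := pow_le_one₀ h30 h3
  have hr2 : 0 < 1 / r ^ 2 := by positivity
  have hprod1 : ‖ft A₂ m₂ x‖ ^ 2 * ‖ft A₃ m₃ x‖ ^ 2 ≤ 1 :=
    mul_le_one₀ h22 (by positivity) h33
  by_cases hz : ∃ z : GaussianInt, x = GaussianInt.toComplex z
  · rw [if_pos hz, if_neg (by tauto), if_neg (by tauto)]
    simp only [mul_zero, add_zero, mul_one]
    calc phi r x * (‖ft A₂ m₂ x‖ ^ 2 * ‖ft A₃ m₃ x‖ ^ 2) ≤ 1 / r ^ 2 * 1 :=
          mul_le_mul hφ1 hprod1 (by positivity) hr2.le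
      _ = 1 / r ^ 2 := mul_one _
  · by_cases hin : inR r x
    · rw [if_neg hz, if_pos ⟨hin, hz⟩]
      by_cases hg : τ ≤ ‖ft A₂ m₂ x‖ ∧ τ ≤ ‖ft A₃ m₃ x‖
      · rw [if_pos ⟨hin, hz, hg⟩]
        have : phi r x * (‖ft A₂ m₂ x‖ ^ 2 * ‖ft A₃ m₃ x‖ ^ 2) ≤ 1 / r ^ 2 * 1 :=
          mul_le_mul hφ1 hprod1 (by positivity) hr2.le
        refine this.trans ?_
        apply mul_le_mul_of_nonneg_left _ hr2.le
        have : 0 ≤ τ ^ 2 * 1 := by positivity
        linarith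
      · rw [if_neg (by tauto)]
        have hsmall : ‖ft A₂ m₂ x‖ ^ 2 * ‖ft A₃ m₃ x‖ ^ 2 ≤ τ ^ 2 := by
          by_cases h4 : τ ≤ ‖ft A₂ m₂ x‖
          · have h5 : ‖ft A₃ m₃ x‖ < τ := by
              by_contra h6
              exact hg ⟨h4, not_lt.mp h6⟩
            have h6 : ‖ft A₃ m₃ x‖ ^ 2 ≤ τ ^ 2 := pow_le_pow_left₀ h30 h5.le 2
            calc ‖ft A₂ m₂ x‖ ^ 2 * ‖ft A₃ m₃ x‖ ^ 2 ≤ 1 * τ ^ 2 :=
                  mul_le_mul h22 h6 (by positivity) (by norm_num)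
              _ = τ ^ 2 := one_mul _
          · have h6 : ‖ft A₂ m₂ x‖ ^ 2 ≤ τ ^ 2 := pow_le_pow_left₀ h20 (not_le.mp h4).le 2
            calc ‖ft A₂ m₂ x‖ ^ 2 * ‖ft A₃ m₃ x‖ ^ 2 ≤ τ ^ 2 * 1 :=
                  mul_le_mul h6 h33 (by positivity) (by positivity)
              _ = τ ^ 2 := mul_one _
        have : phi r x * (‖ft A₂ m₂ x‖ ^ 2 * ‖ft A₃ m₃ x‖ ^ 2) ≤ 1 / r ^ 2 * τ ^ 2 :=
          mul_le_mul hφ1 hsmall (by positivity) hr2.le
        refine this.trans ?_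
        apply mul_le_mul_of_nonneg_left _ hr2.le
        linarith
    · have h0 := phi_eq_zero hr hin
      rw [h0, zero_mul]
      apply mul_nonneg hr2.le
      positivity

open Classical in
/-- tuples with `Φ ≡ 0` -/
theorem T0_card (G : Finset GaussianInt) (hG : ∀ p ∈ G, Prime p)
    (hass : ∀ p ∈ G, ∀ q ∈ G, Associated p q → p = q)
    (a : GaussianInt → GaussianInt) {k : ℕ}
    (hb : ∀ ν : ↥G → ℤ, (∀ p, ν p ≠ 0 ∧ |ν p| ≤ ((2 * k : ℕ) : ℤ)) → ∀ p ∈ G, ¬ p ∣ bb G ν a p)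
    (hk : 1 ≤ k) (s : ℝ) (hs : 1 ≤ s) (hcard : (G.card : ℝ) ≤ s ^ 2) :
    ((univ.filter (fun t : Fin k × Bool → ↥G =>
            ∃ z : GaussianInt, Phi k (al G a) t = GaussianInt.toComplex z)).card : ℝ)
      ≤ ((2 * k + 1).factorial : ℝ) * s ^ (2 * k) := by
  have h1 := count_gen (ι := ↥G) s hs (by simpa using hcard) (sgn k) (sgn_abs k) (fun _ => 0)
  have hsub : (univ.filter (fun t : Fin k × Bool → ↥G =>
            ∃ z : GaussianInt, Phi k (al G a) t = GaussianInt.toComplex z)) ⊆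
      (univ.filter (fun t : Fin k × Bool → ↥G => ∀ i, sm (sgn k) t i = (fun _ => (0 : ℤ)) i)) := by
    intro t ht
    rw [Finset.mem_filter] at ht ⊢
    refine ⟨Finset.mem_univ _, fun p => ?_⟩
    exact supp_empty_of_int G hG hass a t hb hk ht.2 p
  have h2 : ((univ.filter (fun t : Fin k × Bool → ↥G =>
            ∃ z : GaussianInt, Phi k (al G a) t = GaussianInt.toComplex z)).card : ℝ)
      ≤ ((univ.filter (fun t : Fin k × Bool → ↥G => ∀ i, sm (sgn k) t i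
        = (fun _ => (0 : ℤ)) i)).card : ℝ) := by
    exact_mod_cast Finset.card_le_card hsub
  refine h2.trans (h1.trans (le_of_eq ?_))
  have h3 : Fintype.card (Fin k × Bool) = 2 * k := by simp [mul_comm]
  rw [h3]
  simp only [abs_zero, Finset.sum_const_zero, sub_zero]
  rw [zpow_natCast]

end Crest.Agent.R2.F507
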