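import Mathlib

/-!
# R2 (Gaussian moat), STEP 5 of #11294: the torus lemma (algebraic proof)

If `α` is a unit-step path from `a` to `a + u` and `β` a unit-step path from `c` to `c + v` with
`det (u, v) ≠ 0`, then every class of `ℤ[i] / (ℤ u + ℤ v)` is of the form `α i + β j`.
-/

set_option autoImplicit false

namespace Crest.Agent.R2.T635

open AddMonoidAlgebra

/-- The determinant of two Gaussian integers. -/
def det (u v : GaussianInt) : ℤ := u.re * v.im - u.im * v.re

/-- One unit step inside `S`. -/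
def Stp (S : Set GaussianInt) (a b : GaussianInt) : Prop :=
  a ∈ S ∧ b ∈ S ∧ (b = a + 1 ∨ a = b + 1 ∨ b = a + ⟨0, 1⟩ ∨ a = b + ⟨0, 1⟩)

/-- Unit-step chains inside `S`. -/
def Chain (S : Set GaussianInt) : GaussianInt → GaussianInt → Prop :=
  Relation.ReflTransGen (Stp S)

section core

variable {Q : Type*} [AddCommGroup Q]

/-- Point mass in the group ring. -/
noncomputable abbrev pt (q : Q) : AddMonoidAlgebra ℤ Q := AddMonoidAlgebra.single q 1

/-- The augmentation. -/
noncomputable def aug : AddMonoidAlgebra ℤ Q →+* ℤ :=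
  ((AddMonoidAlgebra.lift ℤ ℤ Q) 1 : AddMonoidAlgebra ℤ Q →ₐ[ℤ] ℤ).toRingHom

theorem aug_single (q : Q) (c : ℤ) : aug (AddMonoidAlgebra.single q c) = c := by
  simp [aug, AddMonoidAlgebra.lift_single]

/-- Supported on the image of `S`. -/
def Sup (f : GaussianInt →+ Q) (S : Set GaussianInt) (x : AddMonoidAlgebra ℤ Q) : Prop :=
  ∀ q, x.coeff q ≠ 0 → ∃ s ∈ S, f s = q

theorem Sup.zero (f : GaussianInt →+ Q) (S : Set GaussianInt) : Sup f S 0 := by
  intro q hq; simp at hq

theorem Sup.add {f : GaussianInt →+ Q} {S : Set GaussianInt} {x y : AddMonoidAlgebra ℤ Q}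
    (hx : Sup f S x) (hy : Sup f S y) : Sup f S (x + y) := by
  intro q hq
  by_cases h : x.coeff q = 0
  · exact hy q (by intro h'; apply hq; simp [h, h'])
  · exact hx q h

theorem Sup.neg {f : GaussianInt →+ Q} {S : Set GaussianInt} {x : AddMonoidAlgebra ℤ Q}
    (hx : Sup f S x) : Sup f S (-x) := by
  intro q hq
  exact hx q (by intro h'; apply hq; simp [h'])

theorem Sup.pt {f : GaussianInt →+ Q} {S : Set GaussianInt} {s : GaussianInt} (hs : s ∈ S) :
    Sup f S (pt (f s)) := by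
  intro q hq
  refine ⟨s, hs, ?_⟩
  by_contra h
  apply hq
  simp [h]

/-- `(X-1) h + (Y-1) v = [b] - [a]` for a chain from `a` to `b`. -/
theorem chain_ring (f : GaussianInt →+ Q) (S : Set GaussianInt) {a b : GaussianInt}
    (hab : Chain S a b) :
    ∃ hh vv : AddMonoidAlgebra ℤ Q, Sup f S hh ∧ Sup f S vv ∧
      (pt (f 1) - 1) * hh + (pt (f ⟨0, 1⟩) - 1) * vv = pt (f b) - pt (f a) ∧
      aug hh = (b - a).re ∧ aug vv = (b - a).im := by
  induction hab with
  | refl => exact ⟨0, 0, Sup.zero f S, Sup.zero f S, by simp, by simp, by simp⟩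
  | @tail c b _ hcb ih =>
    obtain ⟨hh, vv, h1, h2, h3, h4, h5⟩ := ih
    obtain ⟨hc, hb, hstep⟩ := hcb
    have key : ∀ x y : Q, pt x * pt y = pt (x + y) := by
      intro x y; simp [pt, AddMonoidAlgebra.single_mul_single]
    rcases hstep with h | h | h | h
    · refine ⟨hh + pt (f c), vv, h1.add (Sup.pt hc), h2, ?_, ?_, ?_⟩
      · have : pt (f b) = pt (f 1) * pt (f c) := by rw [key, h, map_add, add_comm]
        rw [this]; linear_combination h3
      · rw [map_add, h4, aug_single, h]; simp; ring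
      · rw [h5, h]; simp
    · refine ⟨hh + -pt (f b), vv, h1.add (Sup.pt hb).neg, h2, ?_, ?_, ?_⟩
      · have : pt (f c) = pt (f 1) * pt (f b) := by rw [key, h, map_add, add_comm]
        rw [this] at h3; linear_combination h3
      · rw [map_add, map_neg, h4, aug_single, h]; simp; ring
      · rw [h5, h]; simp
    · refine ⟨hh, vv + pt (f c), h1, h2.add (Sup.pt hc), ?_, ?_, ?_⟩
      · have : pt (f b) = pt (f ⟨0, 1⟩) * pt (f c) := by rw [key, h, map_add, add_comm]
        rw [this]; linear_combination h3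
      · rw [h4, h]; simp
      · rw [map_add, h5, aug_single, h]; simp; ring
    · refine ⟨hh, vv + -pt (f b), h1, h2.add (Sup.pt hb).neg, ?_, ?_, ?_⟩
      · have : pt (f c) = pt (f ⟨0, 1⟩) * pt (f b) := by rw [key, h, map_add, add_comm]
        rw [this] at h3; linear_combination h3
      · rw [h4, h]; simp
      · rw [map_add, map_neg, h5, aug_single, h]; simp; ring

theorem Sup.mul {f : GaussianInt →+ Q} {S T : Set GaussianInt} {x y : AddMonoidAlgebra ℤ Q}
    (hx : Sup f S x) (hy : Sup f T y) {q : Q} (hq : (x * y).coeff q ≠ 0) :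
    ∃ s ∈ S, ∃ t ∈ T, f s + f t = q := by
  classical
  have h1 := AddMonoidAlgebra.support_coeff_mul_subset x y (Finsupp.mem_support_iff.2 hq)
  obtain ⟨a, ha, b, hb, hab⟩ := Finset.mem_add.1 h1
  obtain ⟨s, hs, hsa⟩ := hx a (Finsupp.mem_support_iff.1 ha)
  obtain ⟨t, ht, htb⟩ := hy b (Finsupp.mem_support_iff.1 hb)
  exact ⟨s, hs, t, ht, by rw [hsa, htb, hab]⟩

/-- An element killed by `X - 1` is invariant. -/
theorem coeff_of_mul_eq_zero {W : AddMonoidAlgebra ℤ Q} {x : Q} (h : (pt x - 1) * W = 0) (q : Q) :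
    W.coeff (q + x) = W.coeff q := by
  have h1 : pt x * W = W := by linear_combination h
  have h2 : (pt x * W).coeff (q + x) = W.coeff (q + x) := by rw [h1]
  rw [← h2]
  simp [pt]

theorem aug_eq_sum [Fintype Q] (W : AddMonoidAlgebra ℤ Q) : aug W = ∑ q, W.coeff q := by
  classical
  induction W using AddMonoidAlgebra.induction_linear with
  | zero => simp
  | add x y hx hy => simp [map_add, hx, hy, Finset.sum_add_distrib]
  | single a c => rw [aug_single]; simp [Finsupp.single_apply]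

/-- **Torus lemma**, finite quotient form. -/
theorem torus_core [Finite Q] (f : GaussianInt →+ Q) (hf : Function.Surjective f)
    (S T : Set GaussianInt) {a b c d : GaussianInt} (hab : Chain S a b) (hcd : Chain T c d)
    (hu : f b = f a) (hv : f d = f c) (hdet : det (b - a) (d - c) ≠ 0) (q : Q) :
    ∃ s ∈ S, ∃ t ∈ T, f s + f t = q := by
  classical
  obtain ⟨h1, v1, s1, s2, e1, a1, a2⟩ := chain_ring f S hab
  obtain ⟨h2, v2, s3, s4, e2, a3, a4⟩ := chain_ring f T hcd
  rw [hu, sub_self] at e1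
  rw [hv, sub_self] at e2
  set W : AddMonoidAlgebra ℤ Q := h1 * v2 - v1 * h2 with hW
  have hX : (pt (f 1) - 1) * W = 0 := by
    rw [hW]; linear_combination v2 * e1 - v1 * e2
  have hY : (pt (f ⟨0, 1⟩) - 1) * W = 0 := by
    rw [hW]; linear_combination h1 * e2 - h2 * e1
  have hinv : ∀ z : GaussianInt, ∀ q, W.coeff (q + f z) = W.coeff q := by
    have hone : ∀ q, W.coeff (q + f 1) = W.coeff q := coeff_of_mul_eq_zero hX
    have hI : ∀ q, W.coeff (q + f ⟨0, 1⟩) = W.coeff q := coeff_of_mul_eq_zero hY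
    have hn : ∀ (g : GaussianInt), (∀ q, W.coeff (q + f g) = W.coeff q) →
        ∀ n : ℤ, ∀ q, W.coeff (q + n • f g) = W.coeff q := by
      intro g hg n
      induction n with
      | zero => intro q; simp
      | succ n ih => intro q; rw [add_smul, one_smul, ← add_assoc, hg, ih]
      | pred n ih =>
        intro q
        have := hg (q + (-(n : ℤ) - 1) • f g)
        rw [← this, add_assoc, sub_smul, one_smul, sub_add_cancel, ih]
    intro z q
    have hz : f z = z.re • f 1 + z.im • f ⟨0, 1⟩ := by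
      rw [← map_zsmul, ← map_zsmul, ← map_add]
      congr 1
      ext <;> simp
    rw [hz, ← add_assoc, hn _ hI, hn _ hone]
  have hconst : ∀ q, W.coeff q = W.coeff 0 := by
    intro q
    obtain ⟨z, rfl⟩ := hf q
    have := hinv z 0
    rwa [zero_add] at this
  have : Fintype Q := Fintype.ofFinite Q
  have haug : aug W = det (b - a) (d - c) := by
    rw [hW, map_sub, map_mul, map_mul, a1, a2, a3, a4]; rfl
  have hne : W.coeff 0 ≠ 0 := by
    intro h0
    apply hdet
    rw [← haug, aug_eq_sum]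
    simp [hconst, h0]
  have hq : W.coeff q ≠ 0 := by rw [hconst]; exact hne
  by_cases h : (h1 * v2).coeff q = 0
  · have h' : (v1 * h2).coeff q ≠ 0 := by
      intro h'
      apply hq
      rw [hW]; simp [h, h']
    exact s2.mul s3 h'
  · exact s1.mul s4 h

end core

section quotient

/-- The lattice `ℤ u + ℤ v`. -/
def Lat (u v : GaussianInt) : AddSubgroup GaussianInt :=
  AddSubgroup.zmultiples u ⊔ AddSubgroup.zmultiples v

theorem mem_Lat {u v z : GaussianInt} : z ∈ Lat u v ↔ ∃ a b : ℤ, z = a • u + b • v := by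
  simp only [Lat, AddSubgroup.mem_sup, AddSubgroup.mem_zmultiples_iff]
  constructor
  · rintro ⟨y, ⟨a, rfl⟩, w, ⟨b, rfl⟩, rfl⟩; exact ⟨a, b, rfl⟩
  · rintro ⟨a, b, rfl⟩; exact ⟨_, ⟨a, rfl⟩, _, ⟨b, rfl⟩, rfl⟩

/-- The standard basis of `ℤ[i]`. -/
noncomputable def gbasis : Module.Basis (Fin 2) ℤ GaussianInt :=
  Module.Basis.ofEquivFun
    { toFun := fun z => ![z.re, z.im]
      map_add' := by intro x y; ext i; fin_cases i <;> simp
      map_smul' := by intro c x; ext i; fin_cases i <;> simp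
      invFun := fun w => ⟨w 0, w 1⟩
      left_inv := by intro x; ext <;> simp
      right_inv := by intro x; ext i; fin_cases i <;> simp }

/-- The parametrisation of the lattice. -/
def latMap (u v : GaussianInt) : (Fin 2 → ℤ) →ₗ[ℤ] (Lat u v) where
  toFun w := ⟨w 0 • u + w 1 • v, mem_Lat.2 ⟨w 0, w 1, rfl⟩⟩
  map_add' x y := by
    ext1
    simp only [Pi.add_apply, add_smul, AddSubgroup.coe_add]
    abel
  map_smul' c x := by
    ext1
    simp only [Pi.smul_apply, smul_eq_mul, mul_smul, RingHom.id_apply, AddSubgroup.coe_zsmul,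
      smul_add]

theorem latMap_bij {u v : GaussianInt} (h : det u v ≠ 0) : Function.Bijective (latMap u v) := by
  constructor
  · rw [injective_iff_map_eq_zero (latMap u v)]
    intro w hw
    have h1 : w 0 • u + w 1 • v = 0 := congrArg Subtype.val hw
    have hre : w 0 * u.re + w 1 * v.re = 0 := by
      have := congrArg Zsqrtd.re h1
      simpa using this
    have him : w 0 * u.im + w 1 * v.im = 0 := by
      have := congrArg Zsqrtd.im h1
      simpa using this
    have e0 : w 0 * det u v = 0 := by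
      unfold det; linear_combination v.im * hre - v.re * him
    have e1 : w 1 * det u v = 0 := by
      unfold det; linear_combination u.re * him - u.im * hre
    have f0 : w 0 = 0 := (mul_eq_zero.1 e0).resolve_right h
    have f1 : w 1 = 0 := (mul_eq_zero.1 e1).resolve_right h
    ext i; fin_cases i
    · exact f0
    · exact f1
  · rintro ⟨z, hz⟩
    obtain ⟨a, b, rfl⟩ := mem_Lat.1 hz
    exact ⟨![a, b], by ext1; simp [latMap]⟩

theorem index_Lat (u v : GaussianInt) (h : det u v ≠ 0) :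
    (Lat u v).index = (det u v).natAbs := by
  let e := LinearEquiv.ofBijective (latMap u v) (latMap_bij h)
  let bN : Module.Basis (Fin 2) ℤ (Lat u v) := (Pi.basisFun ℤ (Fin 2)).map e
  rw [AddSubgroup.index_eq_natAbs_det gbasis (Lat u v) bN]
  congr 1
  rw [Module.Basis.det_apply, Matrix.det_fin_two]
  have hb0 : ((bN 0 : Lat u v) : GaussianInt) = u := by
    simp [bN, e, latMap]
  have hb1 : ((bN 1 : Lat u v) : GaussianInt) = v := by
    simp [bN, e, latMap]
  simp only [Module.Basis.toMatrix_apply, hb0, hb1]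
  simp [gbasis, det]
  ring

theorem card_quotient (u v : GaussianInt) (h : det u v ≠ 0) :
    Nat.card (GaussianInt ⧸ Lat u v) = (det u v).natAbs := index_Lat u v h

theorem finite_quotient {u v : GaussianInt} (h : det u v ≠ 0) : Finite (GaussianInt ⧸ Lat u v) := by
  apply Nat.finite_of_card_ne_zero
  rw [card_quotient u v h]
  exact Int.natAbs_ne_zero.2 h

/-- **Torus lemma**, lattice form: every Gaussian integer is `s + t` modulo the lattice. -/
theorem torus_chain (S T : Set GaussianInt) {a b c d : GaussianInt} (hab : Chain S a b)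
    (hcd : Chain T c d) (hdet : det (b - a) (d - c) ≠ 0) (z : GaussianInt) :
    ∃ s ∈ S, ∃ t ∈ T, ∃ m n : ℤ, z = s + t + m • (b - a) + n • (d - c) := by
  have := finite_quotient hdet
  have hu : (QuotientAddGroup.mk' (Lat (b - a) (d - c))) b =
      (QuotientAddGroup.mk' (Lat (b - a) (d - c))) a := by
    rw [QuotientAddGroup.mk'_eq_mk']
    exact ⟨-(b - a), neg_mem (mem_Lat.2 ⟨1, 0, by simp⟩), by abel⟩
  have hv : (QuotientAddGroup.mk' (Lat (b - a) (d - c))) d =
      (QuotientAddGroup.mk' (Lat (b - a) (d - c))) c := by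
    rw [QuotientAddGroup.mk'_eq_mk']
    exact ⟨-(d - c), neg_mem (mem_Lat.2 ⟨0, 1, by simp⟩), by abel⟩
  obtain ⟨s, hs, t, ht, hst⟩ := torus_core (QuotientAddGroup.mk' (Lat (b - a) (d - c)))
    (QuotientAddGroup.mk'_surjective _) S T hab hcd hu hv hdet
    (QuotientAddGroup.mk' (Lat (b - a) (d - c)) z)
  refine ⟨s, hs, t, ht, ?_⟩
  rw [← map_add, QuotientAddGroup.mk'_eq_mk'] at hst
  obtain ⟨w, hw, hz⟩ := hst
  obtain ⟨m, n, rfl⟩ := mem_Lat.1 hw
  exact ⟨m, n, by rw [← hz]; abel⟩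

end quotient

section paths

theorem Stp.symm {S : Set GaussianInt} {a b : GaussianInt} (h : Stp S a b) : Stp S b a := by
  obtain ⟨ha, hb, h⟩ := h
  refine ⟨hb, ha, ?_⟩
  tauto

theorem Chain.symm {S : Set GaussianInt} {a b : GaussianInt} (h : Chain S a b) : Chain S b a := by
  induction h with
  | refl => exact Relation.ReflTransGen.refl
  | tail _ h ih => exact Relation.ReflTransGen.head h.symm ih

theorem Chain.trans {S : Set GaussianInt} {a b c : GaussianInt} (h : Chain S a b)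
    (h' : Chain S b c) : Chain S a c := Relation.ReflTransGen.trans h h'

theorem Chain.mono {S T : Set GaussianInt} (hST : S ⊆ T) {a b : GaussianInt} (h : Chain S a b) :
    Chain T a b := by
  induction h with
  | refl => exact Relation.ReflTransGen.refl
  | tail _ h ih => exact ih.tail ⟨hST h.1, hST h.2.1, h.2.2⟩

/-- (T5a) the torus lemma for unit-step paths. -/
theorem torus_paths (n m : ℕ) (α β : ℕ → GaussianInt)
    (hα : ∀ i < n, IsUnit (α (i + 1) - α i)) (hβ : ∀ j < m, IsUnit (β (j + 1) - β j))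
    (hdet : det (α n - α 0) (β m - β 0) ≠ 0) (z : GaussianInt) :
    ∃ i ≤ n, ∃ j ≤ m, ∃ a b : ℤ,
      z = α i + β j + a • (α n - α 0) + b • (β m - β 0) := by
  have key : ∀ (n : ℕ) (α : ℕ → GaussianInt), (∀ i < n, IsUnit (α (i + 1) - α i)) →
      Chain {w | ∃ i ≤ n, w = α i} (α 0) (α n) := by
    intro n α hα
    have : ∀ k ≤ n, Chain {w | ∃ i ≤ n, w = α i} (α 0) (α k) := by
      intro k
      induction k with
      | zero => intro _; exact Relation.ReflTransGen.refl
      | succ k ih =>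
        intro hk
        refine (ih (by omega)).tail ⟨⟨k, by omega, rfl⟩, ⟨k + 1, hk, rfl⟩, ?_⟩
        have hu := hα k (by omega)
        have hnorm : (α (k + 1) - α k).norm = 1 := by
          have h1 := (Zsqrtd.norm_eq_one_iff (x := α (k + 1) - α k)).2 hu
          have h2 := GaussianInt.norm_nonneg (α (k + 1) - α k)
          omega
        set w := α (k + 1) - α k with hw
        have hαk : α (k + 1) = α k + w := by rw [hw]; abel
        rw [Zsqrtd.norm_def] at hnorm
        have hre : w.re * w.re ≤ 1 := by nlinarith [mul_self_nonneg w.im]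
        have him : w.im * w.im ≤ 1 := by nlinarith [mul_self_nonneg w.re]
        have hre1 : w.re ≤ 1 := by nlinarith
        have hre2 : -1 ≤ w.re := by nlinarith
        have him1 : w.im ≤ 1 := by nlinarith
        have him2 : -1 ≤ w.im := by nlinarith
        have hcases : w = 1 ∨ w = -1 ∨ w = ⟨0, 1⟩ ∨ w = -⟨0, 1⟩ := by
          obtain ⟨x, y⟩ := w
          simp only at hnorm hre1 hre2 him1 him2
          interval_cases x <;> interval_cases y <;> first | (exfalso; omega) | decide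
        rcases hcases with h | h | h | h
        · left; rw [hαk, h]
        · right; left; rw [hαk, h]; ring
        · right; right; left; rw [hαk, h]
        · right; right; right; rw [hαk, h]; ring
    exact this n le_rfl
  obtain ⟨s, ⟨i, hi, rfl⟩, t, ⟨j, hj, rfl⟩, a, b, h⟩ :=
    torus_chain _ _ (key n α hα) (key m β hβ) hdet z
  exact ⟨i, hi, j, hj, a, b, h⟩

/-- The `K`-neighbourhood (sup norm) of a finite set. -/
def Nb (K : ℤ) (Γ : Finset GaussianInt) : Set GaussianInt :=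
  {z | ∃ g ∈ Γ, |z.re - g.re| ≤ K ∧ |z.im - g.im| ≤ K}

theorem hchain (S : Set GaussianInt) (x y : ℤ) (n : ℕ) (h : ∀ k : ℕ, k ≤ n → (⟨x + k, y⟩ : GaussianInt) ∈ S) :
    Chain S ⟨x, y⟩ ⟨x + n, y⟩ := by
  induction n with
  | zero => simp only [Nat.cast_zero, add_zero]; exact Relation.ReflTransGen.refl
  | succ n ih =>
    refine (ih (fun k hk => h k (by omega))).tail ⟨h n (by omega), h (n + 1) le_rfl, ?_⟩
    left
    ext <;> simp
    ring

theorem vchain (S : Set GaussianInt) (x y : ℤ) (n : ℕ) (h : ∀ k : ℕ, k ≤ n → (⟨x, y + k⟩ : GaussianInt) ∈ S) :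
    Chain S ⟨x, y⟩ ⟨x, y + n⟩ := by
  induction n with
  | zero => simp only [Nat.cast_zero, add_zero]; exact Relation.ReflTransGen.refl
  | succ n ih =>
    refine (ih (fun k hk => h k (by omega))).tail ⟨h n (by omega), h (n + 1) le_rfl, ?_⟩
    right; right; left
    ext <;> simp
    ring

theorem hchain' (S : Set GaussianInt) (x x' y : ℤ)
    (h : ∀ t : ℤ, min x x' ≤ t → t ≤ max x x' → (⟨t, y⟩ : GaussianInt) ∈ S) :
    Chain S ⟨x, y⟩ ⟨x', y⟩ := by
  rcases le_total x x' with hx | hx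
  · obtain ⟨n, hn⟩ := Int.le.dest hx
    have := hchain S x y n (fun k hk => h _ (by omega) (by omega))
    rwa [hn] at this
  · obtain ⟨n, hn⟩ := Int.le.dest hx
    have := hchain S x' y n (fun k hk => h _ (by omega) (by omega))
    rw [hn] at this
    exact this.symm

theorem vchain' (S : Set GaussianInt) (x y y' : ℤ)
    (h : ∀ t : ℤ, min y y' ≤ t → t ≤ max y y' → (⟨x, t⟩ : GaussianInt) ∈ S) :
    Chain S ⟨x, y⟩ ⟨x, y'⟩ := by
  rcases le_total y y' with hx | hx
  · obtain ⟨n, hn⟩ := Int.le.dest hx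
    have := vchain S x y n (fun k hk => h _ (by omega) (by omega))
    rwa [hn] at this
  · obtain ⟨n, hn⟩ := Int.le.dest hx
    have := vchain S x y' n (fun k hk => h _ (by omega) (by omega))
    rw [hn] at this
    exact this.symm

/-- Two close points of `Γ` are joined inside the neighbourhood. -/
theorem chain_close {K : ℤ} {Γ : Finset GaussianInt} {z w : GaussianInt} (hz : z ∈ Γ) (hw : w ∈ Γ)
    (hre : |w.re - z.re| ≤ K) (him : |w.im - z.im| ≤ K) : Chain (Nb K Γ) z w := by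
  have hK : 0 ≤ K := le_trans (abs_nonneg _) hre
  rw [abs_le] at hre him
  have h1 : Chain (Nb K Γ) ⟨z.re, z.im⟩ ⟨w.re, z.im⟩ := by
    apply hchain'
    intro t ht1 ht2
    refine ⟨z, hz, ?_, ?_⟩
    · rw [abs_le]; simp only; omega
    · simpa using hK
  have h2 : Chain (Nb K Γ) ⟨w.re, z.im⟩ ⟨w.re, w.im⟩ := by
    apply vchain'
    intro t ht1 ht2
    refine ⟨w, hw, ?_, ?_⟩
    · simpa using hK
    · rw [abs_le]; simp only; omega
  exact h1.trans h2

theorem abs_re_im_le {D : ℝ} {z : GaussianInt} (h : ‖GaussianInt.toComplex z‖ ≤ D) :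
    |z.re| ≤ (⌊D⌋₊ : ℤ) ∧ |z.im| ≤ (⌊D⌋₊ : ℤ) := by
  have hD : 0 ≤ D := le_trans (norm_nonneg _) h
  constructor
  · have h1 := Complex.abs_re_le_norm (GaussianInt.toComplex z)
    rw [← GaussianInt.intCast_re] at h1
    have h2 : ((z.re.natAbs : ℕ) : ℝ) ≤ D := by
      rw [Nat.cast_natAbs, Int.cast_abs]; linarith
    have h3 := Nat.le_floor h2
    rw [Int.abs_eq_natAbs]; exact_mod_cast h3
  · have h1 := Complex.abs_im_le_norm (GaussianInt.toComplex z)
    rw [← GaussianInt.intCast_im] at h1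
    have h2 : ((z.im.natAbs : ℕ) : ℝ) ≤ D := by
      rw [Nat.cast_natAbs, Int.cast_abs]; linarith
    have h3 := Nat.le_floor h2
    rw [Int.abs_eq_natAbs]; exact_mod_cast h3

/-- `γ` restricted to `0..N` is a `D`-path inside `Γ`. -/
def DPath (D : ℝ) (Γ : Finset GaussianInt) (N : ℕ) (γ : ℕ → GaussianInt) : Prop :=
  (∀ i < N, ‖GaussianInt.toComplex (γ (i + 1) - γ i)‖ ≤ D) ∧ ∀ i ≤ N, γ i ∈ Γ

theorem DPath.chain_le {D : ℝ} {Γ : Finset GaussianInt} {N : ℕ} {γ : ℕ → GaussianInt}
    (h : DPath D Γ N γ) {i j : ℕ} (hij : i ≤ j) (hj : j ≤ N) :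
    Chain (Nb ⌊D⌋₊ Γ) (γ i) (γ j) := by
  induction j, hij using Nat.le_induction with
  | base => exact Relation.ReflTransGen.refl
  | succ j hij ih =>
    have h1 := abs_re_im_le (h.1 j (by omega))
    have h2 := chain_close (K := ⌊D⌋₊) (h.2 j (by omega)) (h.2 (j + 1) hj)
      (by simpa using h1.1) (by simpa using h1.2)
    exact (ih (by omega)).trans h2

theorem DPath.chain {D : ℝ} {Γ : Finset GaussianInt} {N : ℕ} {γ : ℕ → GaussianInt}
    (h : DPath D Γ N γ) {i j : ℕ} (hi : i ≤ N) (hj : j ≤ N) :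
    Chain (Nb ⌊D⌋₊ Γ) (γ i) (γ j) := by
  rcases le_total i j with hij | hij
  · exact h.chain_le hij hj
  · exact (h.chain_le hij hi).symm

open scoped Pointwise in
/-- Counting form of the torus lemma. -/
theorem det_le_card {K : ℕ} (Γ₁ Γ₂ : Finset GaussianInt) {a b c d : GaussianInt}
    (hab : Chain (Nb K Γ₁) a b) (hcd : Chain (Nb K Γ₂) c d) :
    (det (b - a) (d - c)).natAbs ≤ (4 * K + 1) ^ 2 * (Γ₁ + Γ₂).card := by
  classical
  by_cases hdet : det (b - a) (d - c) = 0
  · rw [hdet]; simp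
  rw [← card_quotient _ _ hdet]
  have := finite_quotient hdet
  have := Fintype.ofFinite (GaussianInt ⧸ Lat (b - a) (d - c))
  set box : Finset (ℤ × ℤ) := Finset.Icc (-(2 * K : ℤ)) (2 * K) ×ˢ Finset.Icc (-(2 * K : ℤ)) (2 * K)
    with hbox
  have hcb : box.card = (4 * K + 1) ^ 2 := by
    rw [hbox, Finset.card_product, Int.card_Icc, sq]
    have : (2 * (K : ℤ) + 1 - -(2 * (K : ℤ))).toNat = 4 * K + 1 := by omega
    rw [this]
  rw [Nat.card_eq_fintype_card, ← Finset.card_univ, ← hcb, ← Finset.card_product]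
  refine Finset.card_le_card_of_surjOn
    (fun p : (ℤ × ℤ) × GaussianInt =>
      QuotientAddGroup.mk' (Lat (b - a) (d - c)) (p.2 + ⟨p.1.1, p.1.2⟩)) ?_
  intro q _
  obtain ⟨z, rfl⟩ := QuotientAddGroup.mk'_surjective _ q
  obtain ⟨s, ⟨g, hg, hg1, hg2⟩, t, ⟨g', hg', hg1', hg2'⟩, m, n, hz⟩ := torus_chain _ _ hab hcd hdet z
  refine ⟨((s.re - g.re + (t.re - g'.re), s.im - g.im + (t.im - g'.im)), g + g'), ?_, ?_⟩
  · simp only [Finset.coe_product, Set.mem_prod, hbox, Finset.coe_Icc, Set.mem_Icc,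
      Finset.mem_coe]
    rw [abs_le] at hg1 hg2 hg1' hg2'
    refine ⟨⟨⟨?_, ?_⟩, ⟨?_, ?_⟩⟩, Finset.add_mem_add hg hg'⟩ <;> omega
  · simp only
    rw [QuotientAddGroup.mk'_eq_mk']
    refine ⟨m • (b - a) + n • (d - c), mem_Lat.2 ⟨m, n, rfl⟩, ?_⟩
    have : g + g' + (⟨s.re - g.re + (t.re - g'.re), s.im - g.im + (t.im - g'.im)⟩ : GaussianInt)
        = s + t := by
      ext <;> simp <;> ring
    rw [this, hz]; abel

open scoped Pointwise in
/-- (T5b), two paths, sum form. -/
theorem dpath_det_le_add {D : ℝ} {Γ₁ Γ₂ : Finset GaussianInt} {N₁ N₂ : ℕ}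
    {γ₁ γ₂ : ℕ → GaussianInt} (h₁ : DPath D Γ₁ N₁ γ₁) (h₂ : DPath D Γ₂ N₂ γ₂) {i j k l : ℕ}
    (hi : i ≤ N₁) (hj : j ≤ N₁) (hk : k ≤ N₂) (hl : l ≤ N₂) :
    (det (γ₁ j - γ₁ i) (γ₂ l - γ₂ k)).natAbs ≤ (4 * ⌊D⌋₊ + 1) ^ 2 * (Γ₁ + Γ₂).card :=
  det_le_card Γ₁ Γ₂ (h₁.chain hi hj) (h₂.chain hk hl)

open scoped Pointwise in
theorem DPath.neg {D : ℝ} {Γ : Finset GaussianInt} {N : ℕ} {γ : ℕ → GaussianInt}
    (h : DPath D Γ N γ) : DPath D (-Γ) N (fun i => -γ i) := by
  refine ⟨fun i hi => ?_, fun i hi => Finset.neg_mem_neg (h.2 i hi)⟩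
  have : -γ (i + 1) - -γ i = -(γ (i + 1) - γ i) := by ring
  rw [this, map_neg, norm_neg]
  exact h.1 i hi

open scoped Pointwise in
/-- (T5b), two paths, difference form. -/
theorem dpath_det_le_sub {D : ℝ} {Γ₁ Γ₂ : Finset GaussianInt} {N₁ N₂ : ℕ}
    {γ₁ γ₂ : ℕ → GaussianInt} (h₁ : DPath D Γ₁ N₁ γ₁) (h₂ : DPath D Γ₂ N₂ γ₂) {i j k l : ℕ}
    (hi : i ≤ N₁) (hj : j ≤ N₁) (hk : k ≤ N₂) (hl : l ≤ N₂) :
    (det (γ₁ j - γ₁ i) (γ₂ l - γ₂ k)).natAbs ≤ (4 * ⌊D⌋₊ + 1) ^ 2 * (Γ₁ - Γ₂).card := by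
  have h := dpath_det_le_add h₁ h₂.neg hi hj hk hl
  have e : det (γ₁ j - γ₁ i) (-γ₂ l - -γ₂ k) = -det (γ₁ j - γ₁ i) (γ₂ l - γ₂ k) := by
    simp only [det, Zsqrtd.re_sub, Zsqrtd.im_sub, Zsqrtd.re_neg, Zsqrtd.im_neg]; ring
  rw [e, Int.natAbs_neg, ← sub_eq_add_neg] at h
  exact h

open scoped Pointwise in
/-- (T5b), one path: `|det (γ j - γ i, γ l - γ k)| ≤ C_D #(Γ - Γ)`. -/
theorem dpath_det_le {D : ℝ} {Γ : Finset GaussianInt} {N : ℕ} {γ : ℕ → GaussianInt}
    (h : DPath D Γ N γ) {i j k l : ℕ} (hi : i ≤ N) (hj : j ≤ N) (hk : k ≤ N) (hl : l ≤ N) :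
    |(det (γ j - γ i) (γ l - γ k) : ℝ)| ≤ (4 * ⌊D⌋₊ + 1) ^ 2 * ((Γ - Γ).card : ℝ) := by
  have := dpath_det_le_sub h h hi hj hk hl
  rw [← Int.cast_abs, ← Nat.cast_natAbs]
  exact_mod_cast this

theorem norm_le_aux {D : ℝ} (hD : 0 ≤ D) (γ : ℕ → GaussianInt) (n : ℕ) :
    ∀ (Γ : Finset GaussianInt) (i j : ℕ), Γ.card = n → i ≤ j →
      (∀ k, i ≤ k → k < j → ‖GaussianInt.toComplex (γ (k + 1) - γ k)‖ ≤ D) →
      (∀ k, i ≤ k → k ≤ j → γ k ∈ Γ) →
      ‖GaussianInt.toComplex (γ j - γ i)‖ ≤ D * n := by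
  classical
  induction n with
  | zero =>
    intro Γ i j hc hij _ hΓ
    have := hΓ i le_rfl hij
    rw [Finset.card_eq_zero] at hc
    rw [hc] at this; simp at this
  | succ n ih =>
    intro Γ i j hc hij hstep hΓ
    set k := Nat.findGreatest (fun k => γ k = γ i) j with hk
    have hkP : γ k = γ i := Nat.findGreatest_spec (P := fun k => γ k = γ i) hij rfl
    have hik : i ≤ k := Nat.le_findGreatest hij rfl
    have hkj : k ≤ j := Nat.findGreatest_le j
    rcases hkj.eq_or_lt with h | h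
    · rw [← h, hkP]; simp; positivity
    · have hnot : ∀ l, k < l → l ≤ j → γ l ≠ γ i := fun l h1 h2 =>
        Nat.findGreatest_is_greatest (P := fun k => γ k = γ i) h1 h2
      have h1 := ih (Γ.erase (γ i)) (k + 1) j (by
          rw [Finset.card_erase_of_mem (hΓ i le_rfl hij), hc]; rfl) h
        (fun l h1 h2 => hstep l (by omega) h2)
        (fun l h1 h2 => Finset.mem_erase.2 ⟨hnot l (by omega) h2, hΓ l (by omega) h2⟩)
      have h2 := hstep k hik h
      have e : γ j - γ i = (γ j - γ (k + 1)) + (γ (k + 1) - γ k) := by rw [hkP]; ring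
      rw [e, map_add]
      calc _ ≤ ‖GaussianInt.toComplex (γ j - γ (k + 1))‖ + ‖GaussianInt.toComplex (γ (k + 1) - γ k)‖ :=
            norm_add_le _ _
        _ ≤ D * n + D := add_le_add h1 h2
        _ = D * (n + 1 : ℕ) := by push_cast; ring

/-- A path of displacement `A` has at least `A / D` distinct points. -/
theorem DPath.norm_le {D : ℝ} (hD : 0 ≤ D) {Γ : Finset GaussianInt} {N : ℕ} {γ : ℕ → GaussianInt}
    (h : DPath D Γ N γ) {i j : ℕ} (hi : i ≤ N) (hj : j ≤ N) :
    ‖GaussianInt.toComplex (γ j - γ i)‖ ≤ D * (Γ.card : ℝ) := by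
  rcases le_total i j with hij | hij
  · exact norm_le_aux hD γ Γ.card Γ i j rfl hij (fun k _ h2 => h.1 k (by omega))
      (fun k _ h2 => h.2 k (by omega))
  · have := norm_le_aux hD γ Γ.card Γ j i rfl hij (fun k _ h2 => h.1 k (by omega))
      (fun k _ h2 => h.2 k (by omega))
    rw [← norm_neg, ← map_neg, neg_sub] at this
    exact this

end paths

end Crest.Agent.R2.T635
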