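import Crest.Agent.R2.Rect297
import Crest.Agent.R2.Torus635

/-!
# R2 (Gaussian moat), block K67 = torus lemma (K6, helper635) + rectangle count (K7).

For a `D`-path with set of points `Γ`, for all blocks `S` of primes except at most one, every residue
class modulo `M_S = ∏ p ∈ S, p` contains at most the fraction `K C_D / |M_S|²` of `Γ - Γ`.
-/

set_option autoImplicit false

namespace Crest.Agent.R2.Geo297

open Finset Crest.Agent.R2.Rect297 Crest.Agent.R2.T635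
open scoped Pointwise

/-- the constant of the torus lemma -/
noncomputable def CD (D : ℝ) : ℝ := (4 * (⌊D⌋₊ : ℝ) + 1) ^ 2 + D

theorem one_le_CD {D : ℝ} (hD : 0 ≤ D) : 1 ≤ CD D := by
  unfold CD
  have : (0 : ℝ) ≤ (⌊D⌋₊ : ℝ) := Nat.cast_nonneg _
  nlinarith

theorem det_eq (u v : GaussianInt) : Crest.Agent.R2.Rect297.det u v = Crest.Agent.R2.T635.det u v := rfl

theorem geo {ι : Type*} {D : ℝ} (hD : 0 ≤ D) {Γ : Finset GaussianInt} {N : ℕ} {γ : ℕ → GaussianInt}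
    (h : DPath D Γ N γ) (hsurj : ∀ x ∈ Γ, ∃ i ≤ N, γ i = x)
    (I : Finset ι) (S : ι → Finset GaussianInt)
    (hprime : ∀ i ∈ I, ∀ p ∈ S i, Prime p)
    (hass : ∀ i ∈ I, ∀ j ∈ I, i ≠ j → ∀ p ∈ S i, ∀ q ∈ S j, ¬ Associated p q)
    (hconj : ∀ i ∈ I, ∀ p ∈ S i, ∀ q ∈ S i, ¬ Associated p (star q))
    {K X : ℝ} (hK : 32 < K) (hX : 1 ≤ X) (hdiam : ∃ x ∈ Γ, ∃ y ∈ Γ, X ≤ ab (x - y))
    (hA1 : ∀ i ∈ I, ab (∏ p ∈ S i, p) ^ 2 ≤ X)
    (hA2 : ∀ i ∈ I, ∀ j ∈ I, i ≠ j → ab (∏ p ∈ S i, p) ^ 2 * ab (∏ p ∈ S j, p) ^ 2 ≤ X) :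
    ∃ i₀ : Option ι, ∀ i ∈ I, some i ≠ i₀ → ∀ (a : GaussianInt) (F : Finset GaussianInt),
      (∀ d ∈ F, d ∈ Γ - Γ ∧ (∏ p ∈ S i, p) ∣ d - a) →
      ab (∏ p ∈ S i, p) ^ 2 * (F.card : ℝ) ≤ K * CD D * ((Γ - Γ).card : ℝ) := by
  classical
  obtain ⟨x₁, hx₁, y₁, hy₁, hxy₁⟩ := hdiam
  have hne : (Γ - Γ).Nonempty := ⟨x₁ - y₁, Finset.sub_mem_sub hx₁ hy₁⟩
  -- the longest difference
  obtain ⟨u, huΓ, humax⟩ := Finset.exists_max_image (Γ - Γ) (fun d => ab d) hne
  have hXu : X ≤ ab u := hxy₁.trans (humax _ (Finset.sub_mem_sub hx₁ hy₁))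
  have hA0 : 0 < ab u := by linarith
  have hu : u ≠ 0 := by
    rintro rfl
    simp [ab] at hA0
  obtain ⟨d₀, hd₀, hd₀max⟩ := Finset.exists_max_image (Γ - Γ) (fun d => |(Rect297.det u d : ℝ)|) hne
  set hh : ℝ := max 1 (|(Rect297.det u d₀ : ℝ)| / ab u) with hhdef
  have hh1 : 1 ≤ hh := le_max_left _ _
  have hhbound : ∀ d ∈ Γ - Γ, |(Rect297.det u d : ℝ)| ≤ hh * ab u := by
    intro d hd
    have h1 := hd₀max d hd
    have h2 : |(Rect297.det u d₀ : ℝ)| / ab u ≤ hh := le_max_right _ _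
    rw [div_le_iff₀ hA0] at h2
    exact h1.trans h2
  -- lower bound for the number of differences
  have hcardpos : (1 : ℝ) ≤ (#(Γ - Γ) : ℝ) := by
    exact_mod_cast Finset.card_pos.2 hne
  have hlow : ab u * hh ≤ CD D * (#(Γ - Γ) : ℝ) := by
    rw [Finset.mem_sub] at huΓ
    obtain ⟨x, hx, y, hy, hxyu⟩ := huΓ
    obtain ⟨i, hi, hix⟩ := hsurj x hx
    obtain ⟨j, hj, hjy⟩ := hsurj y hy
    have hu' : u = γ i - γ j := by rw [hix, hjy, hxyu]
    rcases le_total (|(Rect297.det u d₀ : ℝ)| / ab u) 1 with hc | hc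
    · have hh' : hh = 1 := max_eq_left hc
      rw [hh', mul_one]
      have h1 : ab u ≤ D * (Γ.card : ℝ) := by
        rw [hu']
        exact DPath.norm_le hD h hj hi
      have h2 : (Γ.card : ℝ) ≤ (#(Γ - Γ) : ℝ) := by
        have h3 : Γ.image (fun z => z - y) ⊆ Γ - Γ := by
          intro z hz
          rw [Finset.mem_image] at hz
          obtain ⟨w, hw, rfl⟩ := hz
          exact Finset.sub_mem_sub hw hy
        have h4 := Finset.card_le_card h3
        rw [Finset.card_image_of_injective _ (fun a b hab => by simpa using hab)] at h4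
        exact_mod_cast h4
      have h5 : D ≤ CD D := by
        unfold CD; nlinarith [sq_nonneg (4 * (⌊D⌋₊ : ℝ) + 1)]
      calc ab u ≤ D * (Γ.card : ℝ) := h1
        _ ≤ D * (#(Γ - Γ) : ℝ) := mul_le_mul_of_nonneg_left h2 hD
        _ ≤ CD D * (#(Γ - Γ) : ℝ) := mul_le_mul_of_nonneg_right h5 (by linarith)
    · have hh' : hh = |(Rect297.det u d₀ : ℝ)| / ab u := max_eq_right hc
      rw [hh', mul_div_cancel₀ _ hA0.ne']
      rw [Finset.mem_sub] at hd₀
      obtain ⟨x', hx', y', hy', hxyd⟩ := hd₀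
      obtain ⟨k, hk, hkx⟩ := hsurj x' hx'
      obtain ⟨l, hl, hly⟩ := hsurj y' hy'
      have hd' : d₀ = γ k - γ l := by rw [hkx, hly, hxyd]
      have h1 := dpath_det_le h hj hi hl hk
      rw [← hu', ← hd', ← det_eq] at h1
      refine h1.trans (mul_le_mul_of_nonneg_right ?_ (by linarith))
      unfold CD
      linarith
  -- the claim
  obtain ⟨i₀, hi₀⟩ := claim I S hprime hass hconj hu (r := 1) (h := hh) (K := K) le_rfl hh1
    (by linarith) (fun i hi => by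
      have h1 := hA1 i hi
      have h2 : ab u ≤ K * ab u * hh := by
        have h3 : 1 ≤ K * hh := by nlinarith
        nlinarith
      linarith) (fun i hi j hj hij => by
      have h1 := hA2 i hi j hj hij
      have h2 : (32 : ℝ) * 1 ^ 2 * ab (∏ p ∈ S i, p) ^ 2 * ab (∏ p ∈ S j, p) ^ 2 ≤ 32 * ab u := by
        nlinarith
      have h3 : 32 * ab u < K ^ 2 * ab u := by
        apply mul_lt_mul_of_pos_right _ hA0
        nlinarith
      linarith)
  refine ⟨i₀, fun i hi hne a F hF => ?_⟩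
  have h1 := hi₀ i hi hne a F (by
    intro d hd
    refine ⟨⟨?_, ?_⟩, (hF d hd).2⟩
    · have := humax d (hF d hd).1
      linarith
    · have := hhbound d (hF d hd).1
      linarith)
  have hM : (∏ p ∈ S i, p) ≠ 0 := Finset.prod_ne_zero_iff.2 fun p hp => (hprime i hi p hp).ne_zero
  have hM1 := one_le_ab hM
  rw [le_div_iff₀ (by positivity)] at h1
  calc ab (∏ p ∈ S i, p) ^ 2 * (F.card : ℝ)
      = (F.card : ℝ) * ab (∏ p ∈ S i, p) ^ 2 := mul_comm _ _
    _ ≤ K * ab u * hh := h1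
    _ = K * (ab u * hh) := by ring
    _ ≤ K * (CD D * (#(Γ - Γ) : ℝ)) := mul_le_mul_of_nonneg_left hlow (by linarith)
    _ = _ := by ring

end Crest.Agent.R2.Geo297
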