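import Crest.Agent.R2.Gcd62

/-!
# R2 (Gaussian moat), block K8: shared definitions (near-full Kac)
-/

set_option autoImplicit false

namespace Crest.Agent.R2.K8

open Crest.Agent.R2.Gcd62 Classical

/-- From every point of `E` there are finite `D`-paths inside `E` of every displacement. -/
def ClosedE (D : ℝ) (E : Set GaussianInt) : Prop :=
  ∀ z ∈ E, ∀ X : ℝ, ∃ (n : ℕ) (γ : ℕ → GaussianInt), γ 0 = z ∧ (∀ i ≤ n, γ i ∈ E) ∧
    (∀ i < n, ab (γ (i + 1) - γ i) ≤ D) ∧ X ≤ ab (γ n - z)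

/-- The good pair kernel at the point `z` for the blocks `𝒮`: the difference is uniform on `F` and
no residue class modulo a block of `𝒮` (but one) is heavy. -/
def PairKernel (δ b : ℝ) (E : Set GaussianInt) (z : GaussianInt)
    (𝒮 : Finset (Finset GaussianInt)) : Prop :=
  ∃ (F : Finset GaussianInt) (y y' : GaussianInt → GaussianInt), F.Nonempty ∧
    (∀ d ∈ F, y d - y' d = d ∧ z + y d ∈ E ∧ z + y' d ∈ E ∧
      ab (y d) ≤ Real.exp (4 * b) ∧ ab (y' d) ≤ Real.exp (4 * b)) ∧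
    ∃ bad : Finset GaussianInt, ∀ S ∈ 𝒮, S ≠ bad → ∀ a : GaussianInt,
      ((F.filter fun d => (∏ p ∈ S, p) ∣ d - a).card : ℝ) * ∏ p ∈ S, ((p.norm : ℤ) : ℝ)
        ≤ Real.exp (δ * b) * (F.card : ℝ)

/-- Hypotheses on the blocks `𝒮` used by the pair kernel. -/
structure BlocksOK (𝒮 : Finset (Finset GaussianInt)) : Prop where
  prime : ∀ S ∈ 𝒮, ∀ p ∈ S, Prime p
  star : ∀ S ∈ 𝒮, ∀ S' ∈ 𝒮, ∀ p ∈ S, ∀ q ∈ S', ¬ Associated p (star q)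
  nonassoc : ∀ S ∈ 𝒮, ∀ S' ∈ 𝒮, ∀ p ∈ S, ∀ q ∈ S', Associated p q → p = q
  disj : ∀ S ∈ 𝒮, ∀ S' ∈ 𝒮, S ≠ S' → Disjoint S S'

/-- The per-point statement (owner: helper679). -/
def PairKernelStmt : Prop :=
  ∀ D : ℝ, 1 ≤ D → ∀ δ : ℝ, 0 < δ → ∃ b₀ : ℝ, ∀ b : ℝ, b₀ ≤ b → ∀ E : Set GaussianInt,
    ClosedE D E → ∀ z ∈ E, ∀ 𝒮 : Finset (Finset GaussianInt), BlocksOK 𝒮 →
    (∀ S ∈ 𝒮, ∏ p ∈ S, ((p.norm : ℤ) : ℝ) ≤ Real.exp b) → PairKernel δ b E z 𝒮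

/-- A block of primes: one representative of each chosen split prime, norms in `(w, 4w]`. -/
structure Blk (w : ℝ) (G : Finset GaussianInt) : Prop where
  prime : ∀ p ∈ G, Prime p
  lower : ∀ p ∈ G, w < ((p.norm : ℤ) : ℝ)
  upper : ∀ p ∈ G, ((p.norm : ℤ) : ℝ) ≤ 4 * w
  normprime : ∀ p ∈ G, Nat.Prime p.norm.natAbs
  nonassoc : ∀ p ∈ G, ∀ q ∈ G, Associated p q → p = q
  star : ∀ p ∈ G, ∀ q ∈ G, ¬ Associated p (star q)

end Crest.Agent.R2.K8
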