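import Crest.Agent.R2.Kit123


/-!
# R2 (Gaussian moat), near-full Kac by the route #11415: entropy part

`Good P z G α κ`: every random variable `Y` of entropy `≤ α` (on every finite extension) satisfies
`∑_{p ∈ G} H (z mod p | Y) ≥ κ`.
-/

set_option autoImplicit false
set_option linter.unusedSectionVars false

namespace Crest.Agent.R2.K506

open Finset Crest.Agent.R055 Crest.Agent.R2.Kit

/-- residue class modulo `M` -/
def cl (M z : GaussianInt) : Set GaussianInt := {x | M ∣ x - z}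

lemma cl_eq {M a b : GaussianInt} : cl M a = cl M b ↔ M ∣ a - b := by
  constructor
  · intro h
    have : a ∈ cl M a := by simp [cl]
    rw [h] at this
    exact this
  · intro h
    ext x
    simp only [cl, Set.mem_ofPred_eq]
    constructor
    · intro hx
      have := dvd_add hx h
      simpa using this
    · intro hx
      have := dvd_sub hx h
      simpa using this

/-- every `Y` of entropy `≤ α` leaves `∑ H(z mod p | Y) ≥ κ`. -/
def Good {Ω : Type} [Fintype Ω] (P : Ω → ℝ) (z : Ω → GaussianInt) (G : Finset GaussianInt)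
    (α κ : ℝ) : Prop :=
  ∀ (T : Type) [Fintype T] (k : Ω → T → ℝ), (∀ ω, IsProb (k ω)) → ∀ (R : Type) (Y : Ω × T → R),
    ent (ext P k) Y ≤ α →
    κ ≤ ∑ p ∈ G, (ent (ext P k) (fun x => (cl p (z x.1), Y x)) - ent (ext P k) Y)

section basics

variable {Ω : Type} [Fintype Ω] {P : Ω → ℝ} {z : Ω → GaussianInt} {G : Finset GaussianInt}
  {α α' κ κ' : ℝ}

lemma Good.mono (h : Good P z G α κ) (hα : α' ≤ α) (hκ : κ' ≤ κ) : Good P z G α' κ' :=
  fun T _ k hk R Y hY => hκ.trans (h T k hk R Y (hY.trans hα))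

lemma good_zero (hP : IsProb P) (hκ : κ ≤ 0) : Good P z G α κ := by
  intro T _ k hk R Y _
  refine hκ.trans (Finset.sum_nonneg fun p _ => ?_)
  have := ent_le_ent_pair_right (isProb_ext hP hk) (fun x => cl p (z x.1)) Y
  linarith

/-- re-association of extensions -/
lemma pushes_assoc {T₁ T₂ : Type} [Fintype T₁] [Fintype T₂] (P : Ω → ℝ) (k₁ : Ω → T₁ → ℝ)
    (k₂ : Ω × T₁ → T₂ → ℝ) :
    Pushes (fun x : (Ω × T₁) × T₂ => (x.1.1, (x.1.2, x.2))) (ext (ext P k₁) k₂)
      (ext P (fun ω (t : T₁ × T₂) => k₁ ω t.1 * k₂ (ω, t.1) t.2)) := by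
  refine Pushes.of_equiv (Equiv.prodAssoc Ω T₁ T₂) ?_
  intro x
  simp only [Kit.ext, Equiv.prodAssoc_apply]
  ring

lemma isProb_assoc {T₁ T₂ : Type} [Fintype T₁] [Fintype T₂] {k₁ : Ω → T₁ → ℝ}
    {k₂ : Ω × T₁ → T₂ → ℝ} (h1 : ∀ ω, IsProb (k₁ ω)) (h2 : ∀ x, IsProb (k₂ x)) (ω : Ω) :
    IsProb (fun (t : T₁ × T₂) => k₁ ω t.1 * k₂ (ω, t.1) t.2) := by
  constructor
  · intro t; exact mul_nonneg ((h1 ω).nonneg _) ((h2 _).nonneg _)
  · rw [Fintype.sum_prod_type]
    simp_rw [← Finset.mul_sum, (h2 _).sum_eq, mul_one]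
    exact (h1 ω).sum_eq

/-- `Good` on a two-step extension. -/
lemma Good.two_step {T₁ T₂ : Type} [Fintype T₁] [Fintype T₂] (h : Good P z G α κ)
    {k₁ : Ω → T₁ → ℝ} {k₂ : Ω × T₁ → T₂ → ℝ} (h1 : ∀ ω, IsProb (k₁ ω))
    (h2 : ∀ x, IsProb (k₂ x)) {R : Type} (Y : (Ω × T₁) × T₂ → R)
    (hY : ent (ext (ext P k₁) k₂) Y ≤ α) :
    κ ≤ ∑ p ∈ G, (ent (ext (ext P k₁) k₂) (fun x => (cl p (z x.1.1), Y x))
      - ent (ext (ext P k₁) k₂) Y) := by
  have hpush := pushes_assoc P k₁ k₂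
  set Y' : Ω × (T₁ × T₂) → R := fun x => Y ((x.1, x.2.1), x.2.2) with hY'
  have e1 : ent (ext (ext P k₁) k₂) Y = ent (ext P (fun ω (t : T₁ × T₂) =>
      k₁ ω t.1 * k₂ (ω, t.1) t.2)) Y' := by
    rw [← hpush.ent_eq Y']
  have e2 : ∀ p : GaussianInt, ent (ext (ext P k₁) k₂) (fun x => (cl p (z x.1.1), Y x))
      = ent (ext P (fun ω (t : T₁ × T₂) => k₁ ω t.1 * k₂ (ω, t.1) t.2))
        (fun x => (cl p (z x.1), Y' x)) := by
    intro p
    rw [← hpush.ent_eq (fun x => (cl p (z x.1), Y' x))]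
  have := h (T₁ × T₂) _ (isProb_assoc h1 h2) R Y' (by rw [← e1]; exact hY)
  rw [← e1] at this
  simpa only [← e2] using this

/-- cheap moves keep `Good`. -/
lemma Good.drift (hP : IsProb P) (h : Good P z G α κ) {T₁ : Type} [Fintype T₁] {k₁ : Ω → T₁ → ℝ}
    (h1 : ∀ ω, IsProb (k₁ ω)) (y : Ω × T₁ → GaussianInt) (B : Finset GaussianInt) {c : ℝ}
    (hB : ∀ x, 0 < ext P k₁ x → y x ∈ B) (hc : Real.log (B.card : ℝ) ≤ c) (hα : α' + c ≤ α) :
    Good (ext P k₁) (fun x => z x.1 + y x) G α' κ := by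
  intro T _ k hk R Y hY
  have hP1 : IsProb (ext P k₁) := isProb_ext hP h1
  have hQ : IsProb (ext (ext P k₁) k) := isProb_ext hP1 hk
  have hyent : ent (ext (ext P k₁) k) (fun x => y x.1) ≤ c := by
    rw [(pushes_ext hk).ent_eq y]
    exact (ent_le_log_card_mem hP1 y B hB).trans hc
  have hsub : ent (ext (ext P k₁) k) (fun x => (y x.1, Y x)) ≤ α := by
    have := ent_subadd hQ (fun x => y x.1) Y
    linarith
  refine (h.two_step h1 hk (fun x => (y x.1, Y x)) hsub).trans ?_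
  refine Finset.sum_le_sum fun p _ => ?_
  have e : ent (ext (ext P k₁) k) (fun x => (cl p (z x.1.1), (y x.1, Y x)))
      = ent (ext (ext P k₁) k) (fun x => (cl p (z x.1.1 + y x.1), (y x.1, Y x))) := by
    apply ent_congr
    intro a b
    simp only [Prod.mk.injEq]
    constructor
    · rintro ⟨h1, h2, h3⟩
      refine ⟨?_, h2, h3⟩
      rw [cl_eq] at h1 ⊢
      rw [h2]
      have : z b.1.1 + y a.1 - (z a.1.1 + y a.1) = z b.1.1 - z a.1.1 := by ring
      rw [this]; exact h1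
    · rintro ⟨h1, h2, h3⟩
      refine ⟨?_, h2, h3⟩
      rw [cl_eq] at h1 ⊢
      rw [h2] at h1
      have : z b.1.1 + y a.1 - (z a.1.1 + y a.1) = z b.1.1 - z a.1.1 := by ring
      rw [this] at h1; exact h1
  rw [e]
  exact cond_reduce hQ (fun x => cl p (z x.1.1 + y x.1)) (fun x => y x.1) Y

end basics

/-! ### The coin lemma -/

lemma ent_coin {A S X : Type} [Fintype A] [Fintype S] {W : A → ℝ} {Q : S → ℝ} (hQ : IsProb Q)
    (b : A → Bool) (φ₁ φ₀ : S → A)
    (hW : ∀ f : A → ℝ, ∑ a, W a * f a = 1 / 2 * ∑ s, Q s * (f (φ₁ s) + f (φ₀ s)))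
    (h1 : ∀ s, b (φ₁ s) = true) (h0 : ∀ s, b (φ₀ s) = false) (F : A → X) :
    ent W (fun a => (F a, b a))
      = Real.log 2 + 1 / 2 * (ent Q (fun s => F (φ₁ s)) + ent Q (fun s => F (φ₀ s))) := by
  classical
  have hc1 : ∀ s, cls W (fun a => (F a, b a)) (φ₁ s) = 1 / 2 * cls Q (fun s => F (φ₁ s)) s := by
    intro s
    have h := hW (fun a => if (F a, b a) = (F (φ₁ s), b (φ₁ s)) then 1 else 0)
    have e1 : cls W (fun a => (F a, b a)) (φ₁ s)
        = ∑ a, W a * (if (F a, b a) = (F (φ₁ s), b (φ₁ s)) then 1 else 0) := by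
      unfold cls
      apply Finset.sum_congr rfl
      intro a _
      simp only [mul_ite, mul_one, mul_zero]
      congr
    rw [e1, h]
    congr 1
    unfold cls
    apply Finset.sum_congr rfl
    intro s' _
    simp only [h1, h0, Prod.mk.injEq, and_true, Bool.false_eq_true, and_false, if_false, add_zero,
      mul_ite, mul_one, mul_zero]
  have hc0 : ∀ s, cls W (fun a => (F a, b a)) (φ₀ s) = 1 / 2 * cls Q (fun s => F (φ₀ s)) s := by
    intro s
    have h := hW (fun a => if (F a, b a) = (F (φ₀ s), b (φ₀ s)) then 1 else 0)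
    have e1 : cls W (fun a => (F a, b a)) (φ₀ s)
        = ∑ a, W a * (if (F a, b a) = (F (φ₀ s), b (φ₀ s)) then 1 else 0) := by
      unfold cls
      apply Finset.sum_congr rfl
      intro a _
      simp only [mul_ite, mul_one, mul_zero]
      congr
    rw [e1, h]
    congr 1
    unfold cls
    apply Finset.sum_congr rfl
    intro s' _
    simp only [h1, h0, Prod.mk.injEq, and_true, Bool.true_eq_false, and_false, if_false, zero_add,
      mul_ite, mul_one, mul_zero]
  have hlog : ∀ (X' : S → X) (s : S), Q s * (- Real.log (1 / 2 * cls Q X' s))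
      = Q s * Real.log 2 + Q s * (- Real.log (cls Q X' s)) := by
    intro X' s
    rcases (hQ.nonneg s).lt_or_eq with hs | hs
    · have hpos := cls_pos hQ.nonneg X' hs
      rw [Real.log_mul (by norm_num) hpos.ne']
      have : Real.log (1 / 2) = - Real.log 2 := by
        rw [one_div, Real.log_inv]
      rw [this]; ring
    · simp [← hs]
  have hmain := hW (fun a => - Real.log (cls W (fun a => (F a, b a)) a))
  unfold ent
  rw [hmain]
  simp_rw [hc1, hc0, mul_add, hlog]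
  rw [Finset.sum_add_distrib, Finset.sum_add_distrib, Finset.sum_add_distrib, ← Finset.sum_mul,
    hQ.sum_eq]
  ring

/-! ### The main step -/

section step

variable {Ω V : Type} [Fintype Ω] [Fintype V] {P : Ω → ℝ} {z : Ω → GaussianInt}
  {G : Finset GaussianInt} {α κ L c : ℝ}

/-- fair coin after the kernel `Λ` -/
noncomputable def coin (Λ : Ω → V → ℝ) : Ω → V × Bool → ℝ := fun ω v => Λ ω v.1 / 2

lemma isProb_coin {Λ : Ω → V → ℝ} (hΛ : ∀ ω, IsProb (Λ ω)) (ω : Ω) : IsProb (coin Λ ω) := by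
  constructor
  · intro v; exact div_nonneg ((hΛ ω).nonneg _) (by norm_num)
  · rw [Fintype.sum_prod_type]
    simp only [coin, Fintype.sum_bool]
    have : ∀ v, Λ ω v / 2 + Λ ω v / 2 = Λ ω v := fun v => by ring
    simp_rw [this]
    exact (hΛ ω).sum_eq

theorem Good.step (hP : IsProb P) {Λ : Ω → V → ℝ} (hΛ : ∀ ω, IsProb (Λ ω))
    (y : Ω → V → Bool → GaussianInt) (B : Finset GaussianInt)
    (hB : ∀ ω v b, 0 < P ω → 0 < Λ ω v → y ω v b ∈ B) (hc : Real.log (B.card : ℝ) ≤ c)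
    (h : Good P z G (2 * α + 2 * c) κ)
    (hg : Good (ext P Λ) (fun x => y x.1 x.2 true - y x.1 x.2 false) G (2 * α) L) :
    Good (ext P (coin Λ)) (fun x => z x.1 + y x.1 x.2.1 x.2.2) G α ((L + κ) / 2) := by
  classical
  intro T _ k hk R Y hY
  have hPΛ : IsProb (ext P Λ) := isProb_ext hP hΛ
  have hPc : IsProb (ext P (coin Λ)) := isProb_ext hP (isProb_coin hΛ)
  have hW : IsProb (ext (ext P (coin Λ)) k) := isProb_ext hPc hk
  -- two conditionally independent copies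
  set kk : Ω × V → T × T → ℝ := fun x t => k (x.1, (x.2, true)) t.1 * k (x.1, (x.2, false)) t.2
    with hkk
  have hkkP : ∀ x, IsProb (kk x) := by
    intro x
    constructor
    · intro t; exact mul_nonneg ((hk _).nonneg _) ((hk _).nonneg _)
    · rw [Fintype.sum_prod_type]
      simp only [hkk]
      simp_rw [← Finset.mul_sum, (hk _).sum_eq, mul_one]
      exact (hk _).sum_eq
  set Q := ext (ext P Λ) kk with hQdef
  have hQ : IsProb Q := isProb_ext hPΛ hkkP
  set φ₁ : (Ω × V) × (T × T) → (Ω × (V × Bool)) × T :=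
    fun s => ((s.1.1, (s.1.2, true)), s.2.1) with hφ₁
  set φ₀ : (Ω × V) × (T × T) → (Ω × (V × Bool)) × T :=
    fun s => ((s.1.1, (s.1.2, false)), s.2.2) with hφ₀
  have hcoin : ∀ f : (Ω × (V × Bool)) × T → ℝ, ∑ a, ext (ext P (coin Λ)) k a * f a
      = 1 / 2 * ∑ s, Q s * (f (φ₁ s) + f (φ₀ s)) := by
    intro f
    have hL : ∑ a, ext (ext P (coin Λ)) k a * f a = ∑ ω, ∑ v,
        ((∑ t, P ω * (Λ ω v / 2) * k (ω, (v, true)) t * f ((ω, (v, true)), t))
        + ∑ t, P ω * (Λ ω v / 2) * k (ω, (v, false)) t * f ((ω, (v, false)), t)) := by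
      rw [Fintype.sum_prod_type, Fintype.sum_prod_type]
      apply Finset.sum_congr rfl
      intro ω _
      rw [Fintype.sum_prod_type]
      apply Finset.sum_congr rfl
      intro v _
      rw [Fintype.sum_bool]
      rfl
    have hR : ∑ s, Q s * (f (φ₁ s) + f (φ₀ s)) = ∑ ω, ∑ v,
        ((∑ t, P ω * Λ ω v * k (ω, (v, true)) t * f ((ω, (v, true)), t))
        + ∑ t, P ω * Λ ω v * k (ω, (v, false)) t * f ((ω, (v, false)), t)) := by
      rw [Fintype.sum_prod_type, Fintype.sum_prod_type]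
      apply Finset.sum_congr rfl
      intro ω _
      apply Finset.sum_congr rfl
      intro v _
      rw [Fintype.sum_prod_type]
      simp only [hQdef, Kit.ext, hkk, hφ₁, hφ₀, mul_add, Finset.sum_add_distrib]
      congr 1
      · apply Finset.sum_congr rfl
        intro t₁ _
        have : ∀ t₂, P ω * Λ ω v * (k (ω, (v, true)) t₁ * k (ω, (v, false)) t₂)
            * f ((ω, (v, true)), t₁)
            = P ω * Λ ω v * k (ω, (v, true)) t₁ * f ((ω, (v, true)), t₁)
              * k (ω, (v, false)) t₂ := fun t₂ => by ring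
        simp_rw [this]
        rw [← Finset.mul_sum, (hk _).sum_eq, mul_one]
      · rw [Finset.sum_comm]
        apply Finset.sum_congr rfl
        intro t₂ _
        have : ∀ t₁, P ω * Λ ω v * (k (ω, (v, true)) t₁ * k (ω, (v, false)) t₂)
            * f ((ω, (v, false)), t₂)
            = P ω * Λ ω v * k (ω, (v, false)) t₂ * f ((ω, (v, false)), t₂)
              * k (ω, (v, true)) t₁ := fun t₁ => by ring
        simp_rw [this]
        rw [← Finset.mul_sum, (hk _).sum_eq, mul_one]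
    rw [hL, hR, Finset.mul_sum]
    apply Finset.sum_congr rfl
    intro ω _
    rw [Finset.mul_sum]
    apply Finset.sum_congr rfl
    intro v _
    rw [mul_add, Finset.mul_sum, Finset.mul_sum]
    congr 1
    · apply Finset.sum_congr rfl
      intro t _
      ring
    · apply Finset.sum_congr rfl
      intro t _
      ring
  set b : (Ω × (V × Bool)) × T → Bool := fun a => a.1.2.2 with hb
  have hcoinE : ∀ {X : Type} (F : (Ω × (V × Bool)) × T → X),
      ent (ext (ext P (coin Λ)) k) (fun a => (F a, b a))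
        = Real.log 2 + 1 / 2 * (ent Q (fun s => F (φ₁ s)) + ent Q (fun s => F (φ₀ s))) :=
    fun F => ent_coin hQ b φ₁ φ₀ hcoin (fun _ => rfl) (fun _ => rfl) F
  set Y₁ : (Ω × V) × (T × T) → R := fun s => Y (φ₁ s) with hY₁
  set Y₂ : (Ω × V) × (T × T) → R := fun s => Y (φ₀ s) with hY₂
  -- entropies of the copies
  have hbent : ent (ext (ext P (coin Λ)) k) b ≤ Real.log 2 := by
    have := ent_le_log_card hW b
    simpa using this
  have hYY : ent Q Y₁ + ent Q Y₂ ≤ 2 * α := by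
    have h1 := hcoinE Y
    have h2 := ent_subadd hW Y b
    linarith
  have hYpair : ent Q (fun s => (Y₁ s, Y₂ s)) ≤ 2 * α :=
    (ent_subadd hQ Y₁ Y₂).trans hYY
  -- (a) the difference
  have ha := hg (T × T) kk hkkP (R × R) (fun s => (Y₁ s, Y₂ s)) hYpair
  -- (b) the root
  set D₁ : (Ω × V) × (T × T) → GaussianInt := fun s => y s.1.1 s.1.2 true with hD₁
  set D₂ : (Ω × V) × (T × T) → GaussianInt := fun s => y s.1.1 s.1.2 false with hD₂
  have hDent : ∀ b' : Bool, ent Q (fun s => y s.1.1 s.1.2 b') ≤ c := by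
    intro b'
    have := (pushes_ext hkkP (P := ext P Λ)).ent_eq (fun x => y x.1 x.2 b')
    rw [hQdef, this]
    refine (ent_le_log_card_mem hPΛ _ B ?_).trans hc
    intro x hx
    simp only [Kit.ext] at hx
    have h1 : 0 < P x.1 := by
      rcases (hP.nonneg x.1).lt_or_eq with h | h
      · exact h
      · rw [← h, zero_mul] at hx; exact absurd hx (lt_irrefl _)
    have h2 : 0 < Λ x.1 x.2 := by
      rcases ((hΛ x.1).nonneg x.2).lt_or_eq with h | h
      · exact h
      · rw [← h, mul_zero] at hx; exact absurd hx (lt_irrefl _)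
    exact hB _ _ _ h1 h2
  have hbig : ent Q (fun s => ((D₁ s, D₂ s), (Y₁ s, Y₂ s))) ≤ 2 * α + 2 * c := by
    have h1 := ent_subadd hQ (fun s => (D₁ s, D₂ s)) (fun s => (Y₁ s, Y₂ s))
    have h2 := ent_subadd hQ D₁ D₂
    have h3 := hDent true
    have h4 := hDent false
    linarith
  have hbb := h.two_step hΛ hkkP (fun s => ((D₁ s, D₂ s), (Y₁ s, Y₂ s))) hbig
  -- main inequality for every prime
  have key : ∀ p ∈ G,
      (ent (ext (ext P Λ) kk) (fun x => (cl p (y x.1.1 x.1.2 true - y x.1.1 x.1.2 false),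
          (Y₁ x, Y₂ x))) - ent (ext (ext P Λ) kk) (fun s => (Y₁ s, Y₂ s)))
      + (ent (ext (ext P Λ) kk) (fun x => (cl p (z x.1.1), ((D₁ x, D₂ x), (Y₁ x, Y₂ x))))
          - ent (ext (ext P Λ) kk) (fun s => ((D₁ s, D₂ s), (Y₁ s, Y₂ s))))
      ≤ 2 * (ent (ext (ext P (coin Λ)) k)
            (fun x => (cl p (z x.1.1 + y x.1.1 x.1.2.1 x.1.2.2), Y x))
          - ent (ext (ext P (coin Λ)) k) Y) := by
    intro p _
    set Z : (Ω × (V × Bool)) × T → Set GaussianInt :=
      fun x => cl p (z x.1.1 + y x.1.1 x.1.2.1 x.1.2.2) with hZ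
    set Z₁ : (Ω × V) × (T × T) → Set GaussianInt := fun s => Z (φ₁ s) with hZ₁
    set Z₂ : (Ω × V) × (T × T) → Set GaussianInt := fun s => Z (φ₀ s) with hZ₂
    -- H(Z|Y) ≥ H(Z|Y,b)
    have s1 : ent (ext (ext P (coin Λ)) k) (fun x => (Z x, (Y x, b x)))
        - ent (ext (ext P (coin Λ)) k) (fun x => (Y x, b x))
        ≤ ent (ext (ext P (coin Λ)) k) (fun x => (Z x, Y x))
          - ent (ext (ext P (coin Λ)) k) Y :=
      cond_reduce' hW Z (fun x => (Y x, b x)) Y (by intro a b h; exact (Prod.mk.inj h).1)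
    have s2 : ent (ext (ext P (coin Λ)) k) (fun x => (Z x, (Y x, b x)))
        = ent (ext (ext P (coin Λ)) k) (fun x => ((Z x, Y x), b x)) :=
      ent_congr (by intro a b; simp [and_assoc])
    have s3 := hcoinE (fun x => (Z x, Y x))
    have s4 := hcoinE Y
    have s5 : ent Q (fun s => (Z₁ s, (Y₁ s, Y₂ s))) - ent Q (fun s => (Y₁ s, Y₂ s))
        ≤ ent Q (fun s => (Z₁ s, Y₁ s)) - ent Q Y₁ :=
      cond_reduce' hQ Z₁ (fun s => (Y₁ s, Y₂ s)) Y₁ (by intro a b h; exact (Prod.mk.inj h).1)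
    have s6 : ent Q (fun s => (Z₂ s, (Y₁ s, Y₂ s))) - ent Q (fun s => (Y₁ s, Y₂ s))
        ≤ ent Q (fun s => (Z₂ s, Y₂ s)) - ent Q Y₂ :=
      cond_reduce' hQ Z₂ (fun s => (Y₁ s, Y₂ s)) Y₂ (by intro a b h; exact (Prod.mk.inj h).2)
    have s7 := cond_subadd hQ Z₁ Z₂ (fun s => (Y₁ s, Y₂ s))
    -- change of variables
    have s8 : ent Q (fun s => ((Z₁ s, Z₂ s), (Y₁ s, Y₂ s)))
        = ent Q (fun s => ((Z₁ s, cl p (D₁ s - D₂ s)), (Y₁ s, Y₂ s))) := by
      apply ent_congr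
      intro s s'
      simp only [Prod.mk.injEq, hZ₁, hZ₂, hZ, hφ₁, hφ₀, hD₁, hD₂, cl_eq]
      constructor
      · rintro ⟨⟨h1, h2⟩, h3⟩
        refine ⟨⟨h1, ?_⟩, h3⟩
        have := dvd_sub h1 h2
        convert this using 1
        ring
      · rintro ⟨⟨h1, h2⟩, h3⟩
        refine ⟨⟨h1, ?_⟩, h3⟩
        have := dvd_sub h1 h2
        convert this using 1
        ring
    have s9 := cond_chain (P := Q) Z₁ (fun s => cl p (D₁ s - D₂ s)) (fun s => (Y₁ s, Y₂ s))
    have s10 : ent Q (fun s => (Z₁ s, ((D₁ s, D₂ s), (Y₁ s, Y₂ s))))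
        - ent Q (fun s => ((D₁ s, D₂ s), (Y₁ s, Y₂ s)))
        ≤ ent Q (fun s => (Z₁ s, (cl p (D₁ s - D₂ s), (Y₁ s, Y₂ s))))
          - ent Q (fun s => (cl p (D₁ s - D₂ s), (Y₁ s, Y₂ s))) := by
      apply cond_reduce' hQ Z₁ (fun s => ((D₁ s, D₂ s), (Y₁ s, Y₂ s)))
        (fun s => (cl p (D₁ s - D₂ s), (Y₁ s, Y₂ s)))
      intro s s' hs
      simp only [Prod.mk.injEq] at hs ⊢
      obtain ⟨⟨h1, h2⟩, h3⟩ := hs
      exact ⟨by rw [h1, h2], h3⟩
    have s11 : ent Q (fun s => (Z₁ s, ((D₁ s, D₂ s), (Y₁ s, Y₂ s))))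
        = ent Q (fun x => (cl p (z x.1.1), ((D₁ x, D₂ x), (Y₁ x, Y₂ x)))) := by
      apply ent_congr
      intro s s'
      simp only [Prod.mk.injEq, hZ₁, hZ, hφ₁, hD₁, hD₂, cl_eq]
      constructor
      · rintro ⟨h1, ⟨h2, h3⟩, h4⟩
        refine ⟨?_, ⟨h2, h3⟩, h4⟩
        rw [h2] at h1
        convert h1 using 1
        ring
      · rintro ⟨h1, ⟨h2, h3⟩, h4⟩
        refine ⟨?_, ⟨h2, h3⟩, h4⟩
        rw [h2]
        convert h1 using 1
        ring
    simp only [← hQdef]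
    have t1 : ent Q (fun s => (fun x => (Z x, Y x)) (φ₁ s)) = ent Q (fun s => (Z₁ s, Y₁ s)) := rfl
    have t2 : ent Q (fun s => (fun x => (Z x, Y x)) (φ₀ s)) = ent Q (fun s => (Z₂ s, Y₂ s)) := rfl
    rw [t1, t2] at s3
    have t3 : ent Q (fun s => Y (φ₁ s)) = ent Q Y₁ := rfl
    have t4 : ent Q (fun s => Y (φ₀ s)) = ent Q Y₂ := rfl
    rw [t3, t4] at s4
    rw [s2] at s1
    rw [s8, s9] at s7
    rw [← s11]
    have t5 : ent Q (fun x => (cl p (y x.1.1 x.1.2 true - y x.1.1 x.1.2 false), (Y₁ x, Y₂ x)))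
        = ent Q (fun s => (cl p (D₁ s - D₂ s), (Y₁ s, Y₂ s))) := rfl
    rw [t5]
    linarith
  have hsum := Finset.sum_le_sum key
  rw [Finset.sum_add_distrib, ← Finset.mul_sum] at hsum
  linarith

end step

end Crest.Agent.R2.K506
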