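import Crest.Agent.R2.Kac506a
import Crest.Agent.R2.Geo297
import Crest.Agent.R2.Gcd62

/-!
# R2 (Gaussian moat), near-full Kac by the route #11415: blocks, per-point kernel, `Good` for the
difference of the two coupled points
-/

set_option autoImplicit false
set_option linter.unusedSectionVars false

namespace Crest.Agent.R2.K506

open Finset Crest.Agent.R055 Crest.Agent.R2.Kit Crest.Agent.R2.Gcd62

/-! ### entropy lemmas -/

/-- `H(X | ω) ≥ E h` if the fibres of `X` under the kernel have mass `≤ exp (-h ω)`. -/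
lemma cond_ent_fibre {Ω V S : Type} [Fintype Ω] [Fintype V] {P : Ω → ℝ} (hP : IsProb P)
    {Λ : Ω → V → ℝ} (hΛ : ∀ ω, IsProb (Λ ω)) (X : Ω → V → S) (h : Ω → ℝ)
    (hX : ∀ ω v, 0 < P ω → 0 < Λ ω v → cls (Λ ω) (X ω) v ≤ Real.exp (- h ω)) :
    ∑ ω, P ω * h ω ≤ ent (ext P Λ) (fun x => (X x.1 x.2, x.1)) - ent (ext P Λ) (fun x => x.1) := by
  classical
  have hQ := isProb_ext hP hΛ
  have e1 : ∀ x : Ω × V, cls (ext P Λ) (fun x => x.1) x = P x.1 := by
    intro x
    have := (pushes_ext hΛ (P := P)).cls_eq (fun ω => ω) x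
    rw [this]
    unfold cls
    simp
  have e2 : ∀ x : Ω × V, cls (ext P Λ) (fun x => (X x.1 x.2, x.1)) x
      = P x.1 * cls (Λ x.1) (X x.1) x.2 := by
    intro x
    unfold cls
    rw [Fintype.sum_prod_type, Finset.sum_eq_single x.1]
    · rw [Finset.mul_sum]
      apply Finset.sum_congr rfl
      intro v _
      simp only [Prod.mk.injEq, and_true, Kit.ext]
      split_ifs <;> simp
    · intro ω _ hω
      apply Finset.sum_eq_zero
      intro v _
      simp [hω]
    · intro hc; exact absurd (Finset.mem_univ _) hc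
  have e3 : ∑ ω, P ω * h ω = ∑ x : Ω × V, ext P Λ x * h x.1 := by
    rw [(pushes_ext hΛ (P := P)).sum_mul h]
  rw [e3]
  unfold ent
  rw [← Finset.sum_sub_distrib]
  apply Finset.sum_le_sum
  intro x _
  rcases (hQ.nonneg x).lt_or_eq with hx | hx
  · simp only [Kit.ext] at hx
    have h1 : 0 < P x.1 := by
      rcases (hP.nonneg x.1).lt_or_eq with h | h
      · exact h
      · rw [← h, zero_mul] at hx; exact absurd hx (lt_irrefl _)
    have h2 : 0 < Λ x.1 x.2 := by
      rcases ((hΛ x.1).nonneg x.2).lt_or_eq with h | h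
      · exact h
      · rw [← h, mul_zero] at hx; exact absurd hx (lt_irrefl _)
    have h3 := cls_pos (hΛ x.1).nonneg (X x.1) h2
    have h4 := hX x.1 x.2 h1 h2
    rw [e1, e2, Real.log_mul h1.ne' h3.ne', ← mul_sub]
    apply mul_le_mul_of_nonneg_left _ (by simp only [Kit.ext]; positivity)
    have := Real.log_le_log h3 h4
    rw [Real.log_exp] at this
    linarith
  · rw [← hx]; simp

/-- subadditivity over the primes of a block -/
lemma block_subadd {Ω : Type} [Fintype Ω] {P : Ω → ℝ} (hP : IsProb P) {R : Type} (Y : Ω → R)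
    (g : Ω → GaussianInt) (S : Finset GaussianInt) (hprime : ∀ p ∈ S, Prime p)
    (hass : ∀ p ∈ S, ∀ q ∈ S, Associated p q → p = q) :
    ent P (fun ω => (cl (∏ p ∈ S, p) (g ω), Y ω)) - ent P Y
      ≤ ∑ p ∈ S, (ent P (fun ω => (cl p (g ω), Y ω)) - ent P Y) := by
  classical
  induction S using Finset.induction_on with
  | empty =>
    simp only [Finset.prod_empty, Finset.sum_empty]
    have : ent P (fun ω => (cl 1 (g ω), Y ω)) = ent P Y := by
      apply ent_congr
      intro a b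
      simp [cl_eq]
    rw [this, sub_self]
  | insert p S hp ih =>
    have ih' := ih (fun q hq => hprime q (Finset.mem_insert_of_mem hq))
      (fun q hq q' hq' => hass q (Finset.mem_insert_of_mem hq) q' (Finset.mem_insert_of_mem hq'))
    rw [Finset.prod_insert hp, Finset.sum_insert hp]
    have hcop : IsCoprime p (∏ q ∈ S, q) := by
      apply IsCoprime.prod_right
      intro q hq
      have hpp := hprime p (Finset.mem_insert_self _ _)
      have hqp := hprime q (Finset.mem_insert_of_mem hq)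
      rw [(Prime.irreducible hpp).coprime_iff_not_dvd]
      intro hd
      have := (Prime.associated_of_dvd hpp hqp hd)
      have e := hass p (Finset.mem_insert_self _ _) q (Finset.mem_insert_of_mem hq) this
      exact hp (e ▸ hq)
    have h1 : ent P (fun ω => (cl (p * ∏ q ∈ S, q) (g ω), Y ω))
        = ent P (fun ω => ((cl p (g ω), cl (∏ q ∈ S, q) (g ω)), Y ω)) := by
      apply ent_congr
      intro a b
      simp only [Prod.mk.injEq, cl_eq]
      constructor
      · rintro ⟨h1, h2⟩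
        exact ⟨⟨(dvd_mul_right _ _).trans h1, (dvd_mul_left _ _).trans h1⟩, h2⟩
      · rintro ⟨⟨h1, h2⟩, h3⟩
        exact ⟨hcop.mul_dvd h1 h2, h3⟩
    rw [h1]
    have h2 := cond_subadd hP (fun ω => cl p (g ω)) (fun ω => cl (∏ q ∈ S, q) (g ω)) Y
    linarith

/-- `Good` for a random `g` whose classes modulo the blocks are spread, given `ω`. -/
lemma good_of_blocks {Ω V ι : Type} [Fintype Ω] [Fintype V] {P : Ω → ℝ}
    (hP : IsProb P) {Λ : Ω → V → ℝ} (hΛ : ∀ ω, IsProb (Λ ω)) (g : Ω → V → GaussianInt)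
    (G : Finset GaussianInt) (I : Finset ι) (S : ι → Finset GaussianInt)
    (hSG : ∀ i ∈ I, S i ⊆ G) (hdisj : ∀ i ∈ I, ∀ j ∈ I, i ≠ j → Disjoint (S i) (S j))
    (hprime : ∀ p ∈ G, Prime p) (hass : ∀ p ∈ G, ∀ q ∈ G, Associated p q → p = q)
    (h : ι → Ω → ℝ) (β L : ℝ)
    (hX : ∀ i ∈ I, ∀ ω v, 0 < P ω → 0 < Λ ω v →
      cls (Λ ω) (fun v => cl (∏ p ∈ S i, p) (g ω v)) v ≤ Real.exp (- h i ω))
    (hL : ∀ ω, 0 < P ω → L + I.card * β ≤ ∑ i ∈ I, h i ω) :
    Good (ext P Λ) (fun x => g x.1 x.2) G β L := by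
  classical
  intro T _ k hk R Y hY
  have hQ1 := isProb_ext hP hΛ
  have hQ := isProb_ext hQ1 hk
  -- lower bound for one block
  have hone : ∀ i ∈ I, ∑ ω, P ω * h i ω - β ≤
      ∑ p ∈ S i, (ent (ext (ext P Λ) k) (fun x => (cl p (g x.1.1 x.1.2), Y x))
        - ent (ext (ext P Λ) k) Y) := by
    intro i hi
    have s1 := block_subadd hQ Y (fun x => g x.1.1 x.1.2) (S i)
      (fun p hp => hprime p (hSG i hi hp))
      (fun p hp q hq => hass p (hSG i hi hp) q (hSG i hi hq))
    set X : (Ω × V) × T → Set GaussianInt := fun x => cl (∏ p ∈ S i, p) (g x.1.1 x.1.2) with hXd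
    set W : (Ω × V) × T → Ω := fun x => x.1.1 with hW
    have s2 : ent (ext (ext P Λ) k) (fun x => (X x, (Y x, W x)))
        - ent (ext (ext P Λ) k) (fun x => (Y x, W x))
        ≤ ent (ext (ext P Λ) k) (fun x => (X x, Y x)) - ent (ext (ext P Λ) k) Y :=
      cond_reduce' hQ X (fun x => (Y x, W x)) Y (by intro a b h; exact (Prod.mk.inj h).1)
    have s3 : ent (ext (ext P Λ) k) (fun x => (X x, W x))
        ≤ ent (ext (ext P Λ) k) (fun x => (X x, (Y x, W x))) :=
      ent_mono hQ.nonneg (by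
        intro a b h
        simp only [Prod.mk.injEq] at h ⊢
        exact ⟨h.1, h.2.2⟩)
    have s4 := ent_subadd hQ Y W
    have s5 := cond_ent_fibre hP hΛ (fun ω v => cl (∏ p ∈ S i, p) (g ω v)) (h i) (hX i hi)
    have s6 := (pushes_ext hk (P := ext P Λ)).ent_eq
      (fun x => (cl (∏ p ∈ S i, p) (g x.1 x.2), x.1))
    have s7 := (pushes_ext hk (P := ext P Λ)).ent_eq (fun x => x.1)
    have s6' : ent (ext (ext P Λ) k) (fun x => (X x, W x))
      = ent (ext P Λ) (fun x => (cl (∏ p ∈ S i, p) (g x.1 x.2), x.1)) := s6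
    have s7' : ent (ext (ext P Λ) k) W = ent (ext P Λ) (fun x => x.1) := s7
    linarith
  have hsum := Finset.sum_le_sum hone
  rw [Finset.sum_sub_distrib, Finset.sum_const, nsmul_eq_mul, Finset.sum_comm] at hsum
  have h1 : L + I.card * β ≤ ∑ ω, ∑ i ∈ I, P ω * h i ω := by
    have : ∑ ω, P ω * (L + I.card * β) ≤ ∑ ω, ∑ i ∈ I, P ω * h i ω := by
      apply Finset.sum_le_sum
      intro ω _
      rw [← Finset.mul_sum]
      rcases (hP.nonneg ω).lt_or_eq with hω | hω
      · exact mul_le_mul_of_nonneg_left (hL ω hω) hω.le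
      · rw [← hω]; simp
    rw [← Finset.sum_mul, hP.sum_eq, one_mul] at this
    exact this
  have h2 : ∑ i ∈ I, ∑ p ∈ S i, (ent (ext (ext P Λ) k) (fun x => (cl p (g x.1.1 x.1.2), Y x))
        - ent (ext (ext P Λ) k) Y)
      ≤ ∑ p ∈ G, (ent (ext (ext P Λ) k) (fun x => (cl p (g x.1.1 x.1.2), Y x))
        - ent (ext (ext P Λ) k) Y) := by
    rw [← Finset.sum_biUnion (fun i hi j hj hij => hdisj i hi j hj hij)]
    apply Finset.sum_le_sum_of_subset_of_nonneg
    · intro p hp
      rw [Finset.mem_biUnion] at hp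
      obtain ⟨i, hi, hp⟩ := hp
      exact hSG i hi hp
    · intro p _ _
      have := ent_le_ent_pair_right hQ (fun x => cl p (g x.1.1 x.1.2)) Y
      linarith
  linarith

/-! ### partition of a finite set of primes into blocks -/

lemma exists_blocks (G : Finset GaussianInt) (s : ℕ) (hs : 0 < s) :
    ∃ S : ℕ → Finset GaussianInt, (∀ i ∈ range (G.card / s + 1), S i ⊆ G) ∧
      (∀ i ∈ range (G.card / s + 1), ∀ j ∈ range (G.card / s + 1), i ≠ j → Disjoint (S i) (S j)) ∧
      (∀ i ∈ range (G.card / s + 1), (S i).card ≤ s) ∧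
      G ⊆ (range (G.card / s + 1)).biUnion S := by
  classical
  have e := G.equivFin
  set idx : GaussianInt → ℕ := fun p => if hp : p ∈ G then (e ⟨p, hp⟩ : ℕ) else 0 with hidx
  have hlt : ∀ p ∈ G, idx p < G.card := by
    intro p hp
    simp only [hidx, hp, dif_pos]
    exact (e ⟨p, hp⟩).2
  have hinj : ∀ p ∈ G, ∀ q ∈ G, idx p = idx q → p = q := by
    intro p hp q hq h
    simp only [hidx, hp, hq, dif_pos] at h
    have := e.injective (Fin.ext h)
    exact congrArg Subtype.val this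
  refine ⟨fun i => G.filter (fun p => idx p / s = i), ?_, ?_, ?_, ?_⟩
  · intro i _; exact Finset.filter_subset _ _
  · intro i _ j _ hij
    rw [Finset.disjoint_left]
    intro p hp hq
    rw [Finset.mem_filter] at hp hq
    exact hij (hp.2.symm.trans hq.2)
  · intro i _
    have : (G.filter (fun p => idx p / s = i)).card ≤ (Finset.Ico (i * s) ((i + 1) * s)).card := by
      apply Finset.card_le_card_of_injOn idx
      · intro p hp
        rw [Finset.mem_coe, Finset.mem_filter] at hp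
        rw [Finset.mem_coe, Finset.mem_Ico]
        have h1 := Nat.div_add_mod (idx p) s
        have h2 := Nat.mod_lt (idx p) hs
        rw [hp.2] at h1
        constructor
        · rw [mul_comm]; omega
        · rw [add_mul, one_mul, mul_comm i s]; omega
      · intro p hp q hq h
        rw [Finset.mem_coe, Finset.mem_filter] at hp hq
        exact hinj p hp.1 q hq.1 h
    refine this.trans (le_of_eq ?_)
    rw [Nat.card_Ico, add_mul, one_mul, Nat.add_sub_cancel_left]
  · intro p hp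
    rw [Finset.mem_biUnion]
    refine ⟨idx p / s, ?_, ?_⟩
    · rw [Finset.mem_range]
      have := Nat.div_le_div_right (c := s) (hlt p hp).le
      omega
    · rw [Finset.mem_filter]; exact ⟨hp, rfl⟩

/-! ### the per-point kernel -/

/-- from every point of `E` there are finite `D`-paths inside `E` of every displacement -/
def ClosedE (D : ℝ) (E : Set GaussianInt) : Prop :=
  ∀ z ∈ E, ∀ X : ℝ, ∃ (n : ℕ) (γ : ℕ → GaussianInt), γ 0 = z ∧ (∀ i ≤ n, γ i ∈ E) ∧
    (∀ i < n, ab (γ (i + 1) - γ i) ≤ D) ∧ X ≤ ab (γ n - z)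

open scoped Pointwise in
/-- the coupled pair of points: differences uniform on `F = Γ - Γ`. -/
theorem pointKernel {D : ℝ} (hD : 0 ≤ D) {E : Set GaussianInt} (hE : ClosedE D E)
    {z : GaussianInt} (hz : z ∈ E) {X : ℝ} (hX : 1 ≤ X) (I : Finset ℕ)
    (S : ℕ → Finset GaussianInt) (hprime : ∀ i ∈ I, ∀ p ∈ S i, Prime p)
    (hass : ∀ i ∈ I, ∀ j ∈ I, i ≠ j → ∀ p ∈ S i, ∀ q ∈ S j, ¬ Associated p q)
    (hconj : ∀ i ∈ I, ∀ p ∈ S i, ∀ q ∈ S i, ¬ Associated p (star q))
    (hA : ∀ i ∈ I, (ab (∏ p ∈ S i, p) ^ 2) ^ 2 ≤ X) (hA0 : ∀ i ∈ I, 1 ≤ ab (∏ p ∈ S i, p)) :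
    ∃ (F : Finset GaussianInt) (y : GaussianInt → Bool → GaussianInt), F.Nonempty ∧
      (∀ d ∈ F, y d true - y d false = d ∧ ∀ b, z + y d b ∈ E ∧ ab (y d b) ≤ X + D) ∧
      ∃ i₀ : Option ℕ, ∀ i ∈ I, some i ≠ i₀ → ∀ (a : GaussianInt) (F' : Finset GaussianInt),
        (∀ d ∈ F', d ∈ F ∧ (∏ p ∈ S i, p) ∣ d - a) →
        ab (∏ p ∈ S i, p) ^ 2 * (F'.card : ℝ) ≤ 33 * Geo297.CD D * (F.card : ℝ) := by
  classical
  obtain ⟨n, γ, h0, hγE, hγD, hγX⟩ := hE z hz X
  -- first exit
  have hex : ∃ m, X ≤ ab (γ m - z) := ⟨n, hγX⟩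
  set N := Nat.find hex with hN
  have hNX : X ≤ ab (γ N - z) := Nat.find_spec hex
  have hNn : N ≤ n := Nat.find_min' hex hγX
  have hlt : ∀ m < N, ab (γ m - z) < X := fun m hm => not_le.1 (Nat.find_min hex hm)
  have hle : ∀ m ≤ N, ab (γ m - z) ≤ X + D := by
    intro m hm
    rcases hm.lt_or_eq with h | h
    · linarith [hlt m h]
    · rw [h]
      rcases Nat.eq_zero_or_pos N with h' | h'
      · rw [h', h0, sub_self, ab_zero]; linarith
      · obtain ⟨N', hN'⟩ := Nat.exists_eq_succ_of_ne_zero h'.ne'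
        have h1 := hlt N' (by omega)
        have h2 := hγD N' (by omega)
        have h3 : γ N - z = (γ (N' + 1) - γ N') + (γ N' - z) := by rw [hN']; ring
        rw [h3]
        refine (ab_add_le _ _).trans ?_
        linarith
  set Γ : Finset GaussianInt := (range (N + 1)).image γ with hΓ
  have hmem : ∀ m ≤ N, γ m ∈ Γ := fun m hm =>
    Finset.mem_image_of_mem _ (Finset.mem_range.2 (by omega))
  have hpath : T635.DPath D Γ N γ := ⟨fun i hi => hγD i (by omega), hmem⟩
  have hsurj : ∀ x ∈ Γ, ∃ i ≤ N, γ i = x := by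
    intro x hx
    rw [hΓ, Finset.mem_image] at hx
    obtain ⟨i, hi, rfl⟩ := hx
    exact ⟨i, by rw [Finset.mem_range] at hi; omega, rfl⟩
  have hgeo := Geo297.geo hD hpath hsurj I S hprime hass hconj (K := 33) (X := X) (by norm_num) hX
    ⟨γ N, hmem N le_rfl, γ 0, hmem 0 (Nat.zero_le _), by rw [h0]; exact hNX⟩
    (by
      intro i hi
      have h1 := hA i hi
      have h2 := hA0 i hi
      have h3 : 1 ≤ ab (∏ p ∈ S i, p) ^ 2 := one_le_pow₀ h2
      nlinarith)
    (by
      intro i hi j hj _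
      have h1 := hA i hi
      have h2 := hA j hj
      nlinarith [sq_nonneg (ab (∏ p ∈ S i, p) ^ 2 - ab (∏ p ∈ S j, p) ^ 2)])
  obtain ⟨i₀, hi₀⟩ := hgeo
  have hrep : ∀ d ∈ Γ - Γ, ∃ y : Bool → GaussianInt, y true - y false = d ∧
      ∀ b, z + y b ∈ E ∧ ab (y b) ≤ X + D := by
    intro d hd
    rw [Finset.mem_sub] at hd
    obtain ⟨u, hu, v, hv, rfl⟩ := hd
    obtain ⟨i, hi, rfl⟩ := hsurj u hu
    obtain ⟨j, hj, rfl⟩ := hsurj v hv
    refine ⟨fun b => if b then γ i - z else γ j - z, ?_, ?_⟩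
    · simp
    · intro b
      cases b
      · simp only [Bool.false_eq_true, if_false]
        refine ⟨?_, hle j hj⟩
        have : z + (γ j - z) = γ j := by ring
        rw [this]; exact hγE j (by omega)
      · simp only [if_true]
        refine ⟨?_, hle i hi⟩
        have : z + (γ i - z) = γ i := by ring
        rw [this]; exact hγE i (by omega)
  choose! y hy using hrep
  refine ⟨Γ - Γ, y, ?_, ?_, i₀, ?_⟩
  · exact ⟨γ 0 - γ 0, Finset.sub_mem_sub (hmem 0 (Nat.zero_le _)) (hmem 0 (Nat.zero_le _))⟩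
  · intro d hd; exact hy d hd
  · exact hi₀

end Crest.Agent.R2.K506
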