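import Mathlib

/-!
# R2 (Gaussian moat), block K7: counting Gaussian integers in rectangles and the two block claim
(Step 6 of the near full Kac argument, helper149 #11294).
-/

set_option autoImplicit false

namespace Crest.Agent.R2.Rect297

open Finset

/-- absolute value of a Gaussian integer -/
noncomputable abbrev ab (z : GaussianInt) : ℝ := ‖GaussianInt.toComplex z‖

/-- determinant of two Gaussian integers -/
def det (u v : GaussianInt) : ℤ := u.re * v.im - u.im * v.re

/-- scalar product of two Gaussian integers -/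
def dot (u v : GaussianInt) : ℤ := u.re * v.re + u.im * v.im

theorem ab_nonneg (z : GaussianInt) : 0 ≤ ab z := norm_nonneg _

theorem ab_sq (z : GaussianInt) : ab z ^ 2 = ((dot z z : ℤ) : ℝ) := by
  unfold ab dot
  rw [← Complex.normSq_eq_norm_sq, ← GaussianInt.intCast_real_norm, Zsqrtd.norm_def]
  push_cast
  ring

theorem ab_mul (z w : GaussianInt) : ab (z * w) = ab z * ab w := by
  unfold ab; rw [map_mul, norm_mul]

theorem ab_sub_le (z w : GaussianInt) : ab (z - w) ≤ ab z + ab w := by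
  unfold ab; rw [map_sub]; exact norm_sub_le _ _

theorem dot_self_nonneg (z : GaussianInt) : 0 ≤ dot z z := by
  unfold dot; nlinarith [sq_nonneg z.re, sq_nonneg z.im]

theorem dot_self_pos {z : GaussianInt} (hz : z ≠ 0) : 0 < dot z z := by
  rcases (dot_self_nonneg z).lt_or_eq with h | h
  · exact h
  · exfalso
    apply hz
    unfold dot at h
    have h1 : z.re = 0 := by nlinarith [sq_nonneg z.re, sq_nonneg z.im]
    have h2 : z.im = 0 := by nlinarith [sq_nonneg z.re, sq_nonneg z.im]
    exact Zsqrtd.ext h1 h2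

theorem one_le_ab {z : GaussianInt} (hz : z ≠ 0) : 1 ≤ ab z := by
  have h1 : (1 : ℤ) ≤ dot z z := dot_self_pos hz
  have h2 : (1 : ℝ) ≤ ab z ^ 2 := by rw [ab_sq]; exact_mod_cast h1
  have h0 := ab_nonneg z
  by_contra h
  push Not at h
  nlinarith

theorem lagrange (a b : GaussianInt) : dot a b ^ 2 + det a b ^ 2 = dot a a * dot b b := by
  unfold dot det; ring

theorem det_mul (a b u : GaussianInt) :
    det a b * dot u u = dot a u * det u b - det u a * dot b u := by
  unfold dot det; ring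

theorem det_mul_left (m a b : GaussianInt) : det (m * a) (m * b) = dot m m * det a b := by
  unfold dot det
  simp only [Zsqrtd.re_mul, Zsqrtd.im_mul]
  ring

theorem abs_dot_le (a b : GaussianInt) : |(dot a b : ℝ)| ≤ ab a * ab b := by
  have h := lagrange a b
  have h' : ((dot a b : ℤ) : ℝ) ^ 2 + ((det a b : ℤ) : ℝ) ^ 2 = ab a ^ 2 * ab b ^ 2 := by
    rw [ab_sq, ab_sq]; exact_mod_cast h
  apply abs_le_of_sq_le_sq
  · nlinarith [sq_nonneg ((det a b : ℤ) : ℝ)]
  · positivity

theorem abs_det_le (a b : GaussianInt) : |(det a b : ℝ)| ≤ ab a * ab b := by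
  have h := lagrange a b
  have h' : ((dot a b : ℤ) : ℝ) ^ 2 + ((det a b : ℤ) : ℝ) ^ 2 = ab a ^ 2 * ab b ^ 2 := by
    rw [ab_sq, ab_sq]; exact_mod_cast h
  apply abs_le_of_sq_le_sq
  · nlinarith [sq_nonneg ((dot a b : ℤ) : ℝ)]
  · positivity

/-- separated integers in an interval -/
theorem card_sep (T : Finset ℤ) (n L : ℤ) (hn : 0 < n) (hL : 0 ≤ L)
    (hsep : ∀ a ∈ T, ∀ b ∈ T, a < b → n ≤ b - a) (hd : ∀ a ∈ T, ∀ b ∈ T, b - a ≤ L) :
    (T.card : ℤ) ≤ L / n + 1 := by
  have hq : 0 ≤ L / n := Int.ediv_nonneg hL hn.le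
  rcases T.eq_empty_or_nonempty with rfl | hT
  · simp; omega
  · set m := T.min' hT with hm
    have hmem : m ∈ T := T.min'_mem hT
    have hmap : ∀ a ∈ T, (a - m) / n ∈ Finset.Icc (0 : ℤ) (L / n) := by
      intro a ha
      have h1 : m ≤ a := T.min'_le a ha
      rw [Finset.mem_Icc]
      exact ⟨Int.ediv_nonneg (by omega) hn.le, Int.ediv_le_ediv hn (hd m hmem a ha)⟩
    have hinj : Set.InjOn (fun a => (a - m) / n) (T : Set ℤ) := by
      intro a ha b hb hab
      simp only at hab
      by_contra hne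
      rcases lt_or_gt_of_ne hne with h | h
      · have h1 := hsep a ha b hb h
        have h2 : (a - m) / n + 1 ≤ (b - m) / n := by
          have h3 : (a - m + n) / n = (a - m) / n + 1 := by
            rw [Int.add_ediv_of_dvd_right (dvd_refl n), Int.ediv_self hn.ne']
          rw [← h3]
          apply Int.ediv_le_ediv hn
          omega
        omega
      · have h1 := hsep b hb a ha h
        have h2 : (b - m) / n + 1 ≤ (a - m) / n := by
          have h3 : (b - m + n) / n = (b - m) / n + 1 := by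
            rw [Int.add_ediv_of_dvd_right (dvd_refl n), Int.ediv_self hn.ne']
          rw [← h3]
          apply Int.ediv_le_ediv hn
          omega
        omega
    have hc := Finset.card_le_card_of_injOn _ hmap hinj
    rw [Int.card_Icc] at hc
    have : ((L / n + 1 - 0).toNat : ℤ) = L / n + 1 := by
      rw [Int.toNat_of_nonneg (by omega)]; ring
    omega

/-- the fibre of `det · v` over `k` -/
theorem card_fibre_le (F : Finset GaussianInt) (v : GaussianInt) (hv : v ≠ 0) (L : ℤ) (hL : 0 ≤ L)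
    (hmin : ∀ x ∈ F, ∀ y ∈ F, x ≠ y → dot v v ≤ dot (x - y) (x - y))
    (hpar : ∀ x ∈ F, ∀ y ∈ F, det (x - y) v = 0)
    (hd : ∀ x ∈ F, ∀ y ∈ F, dot (x - y) v ≤ L) :
    (F.card : ℤ) ≤ L / dot v v + 1 := by
  have hn := dot_self_pos hv
  have hsub : ∀ x y : GaussianInt, dot x v - dot y v = dot (x - y) v := by
    intro x y
    unfold dot
    simp only [Zsqrtd.re_sub, Zsqrtd.im_sub]
    ring
  -- key: distinct points have dot difference at least `dot v v`
  have key : ∀ x ∈ F, ∀ y ∈ F, x ≠ y → dot v v ≤ |dot x v - dot y v| := by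
    intro x hx y hy hxy
    have h1 := lagrange (x - y) v
    rw [hpar x hx y hy] at h1
    have h2 := hmin x hx y hy hxy
    rw [hsub]
    have h3 : (dot v v) ^ 2 ≤ (dot (x - y) v) ^ 2 := by nlinarith
    calc dot v v = |dot v v| := (abs_of_pos hn).symm
      _ ≤ _ := sq_le_sq.1 h3
  have hinj : Set.InjOn (fun x => dot x v) (F : Set GaussianInt) := by
    intro x hx y hy hxy
    by_contra hne
    have := key x hx y hy hne
    simp only at hxy
    rw [hxy, sub_self, abs_zero] at this
    omega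
  have hc : (F.image (fun x => dot x v)).card = F.card := Finset.card_image_of_injOn hinj
  rw [← hc]
  apply card_sep _ _ _ hn hL
  · intro a ha b hb hab
    simp only [Finset.mem_image] at ha hb
    obtain ⟨x, hx, rfl⟩ := ha
    obtain ⟨y, hy, rfl⟩ := hb
    have hne : x ≠ y := by rintro rfl; omega
    have := key x hx y hy hne
    rw [abs_of_neg (by omega)] at this
    omega
  · intro a ha b hb
    simp only [Finset.mem_image] at ha hb
    obtain ⟨x, hx, rfl⟩ := ha
    obtain ⟨y, hy, rfl⟩ := hb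
    rw [hsub]
    exact hd y hy x hx

/-- shortest nonzero difference of a finite set with two points -/
theorem exists_min_diff (F : Finset GaussianInt) (hF : 1 < F.card) :
    ∃ x₀ ∈ F, ∃ y₀ ∈ F, x₀ ≠ y₀ ∧
      ∀ x ∈ F, ∀ y ∈ F, x ≠ y → dot (x₀ - y₀) (x₀ - y₀) ≤ dot (x - y) (x - y) := by
  have hne : F.offDiag.Nonempty := by
    rw [Finset.one_lt_card] at hF
    obtain ⟨a, ha, b, hb, hab⟩ := hF
    exact ⟨(a, b), by simp [ha, hb, hab]⟩
  obtain ⟨p, hp, hmin⟩ := Finset.exists_min_image F.offDiag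
    (fun p => dot (p.1 - p.2) (p.1 - p.2)) hne
  rw [Finset.mem_offDiag] at hp
  refine ⟨p.1, hp.1, p.2, hp.2.1, hp.2.2, ?_⟩
  intro x hx y hy hxy
  exact hmin (x, y) (by simp [hx, hy, hxy])

/-- **K7a**: a non collinear finite set of Gaussian integers has at most `4 B` elements, if all
determinants of differences are at most `B`. -/
theorem card_le_of_noncollinear (F : Finset GaussianInt) (B : ℤ)
    (hnc : ∃ x ∈ F, ∃ y ∈ F, ∃ z ∈ F, det (y - x) (z - x) ≠ 0)
    (hB : ∀ x ∈ F, ∀ x' ∈ F, ∀ y ∈ F, ∀ y' ∈ F, |det (x - x') (y - y')| ≤ B) :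
    (F.card : ℤ) ≤ 4 * B := by
  classical
  obtain ⟨p, hp, q, hq, s, hs, hpqs⟩ := hnc
  have hpq : p ≠ q := by
    rintro rfl
    apply hpqs
    unfold det; simp
  have hcard : 1 < F.card := Finset.one_lt_card.2 ⟨p, hp, q, hq, hpq⟩
  obtain ⟨x₀, hx₀, y₀, hy₀, hxy₀, hmin⟩ := exists_min_diff F hcard
  set v := x₀ - y₀ with hv
  have hv0 : v ≠ 0 := sub_ne_zero.2 hxy₀
  have hn := dot_self_pos hv0
  set n := dot v v with hnv
  -- the functions
  set g : GaussianInt → ℤ := fun x => det x v with hg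
  have hFne : F.Nonempty := ⟨p, hp⟩
  obtain ⟨xa, hxa, hxamax⟩ := Finset.exists_max_image F g hFne
  obtain ⟨xb, hxb, hxbmin⟩ := Finset.exists_min_image F g hFne
  have hgsub : ∀ x y : GaussianInt, g x - g y = det (x - y) v := by
    intro x y
    simp only [hg]
    unfold det
    simp only [Zsqrtd.re_sub, Zsqrtd.im_sub]
    ring
  set K := g xa - g xb with hK
  have hK0 : 0 ≤ K := by have := hxamax xb hxb; omega
  -- largest difference along v within fibres
  set P := (F ×ˢ F).filter (fun p => g p.1 = g p.2) with hP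
  have hPne : P.Nonempty := ⟨(x₀, y₀), by
    rw [hP, Finset.mem_filter]
    refine ⟨Finset.mk_mem_product hx₀ hy₀, ?_⟩
    have := hgsub x₀ y₀
    have h2 : det (x₀ - y₀) v = 0 := by
      rw [← hv]; unfold det; ring
    simp only
    omega⟩
  obtain ⟨c, hc, hcmax⟩ := Finset.exists_max_image P (fun p => dot (p.1 - p.2) v) hPne
  rw [hP, Finset.mem_filter, Finset.mem_product] at hc
  set L := dot (c.1 - c.2) v with hL
  have hLn : n ≤ L := by
    have h := hcmax (x₀, y₀) (by
      rw [hP, Finset.mem_filter]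
      refine ⟨Finset.mk_mem_product hx₀ hy₀, ?_⟩
      have := hgsub x₀ y₀
      have h2 : det (x₀ - y₀) v = 0 := by
        rw [← hv]; unfold det; ring
      simp only
      omega)
    simpa [hv, hnv] using h
  -- image size
  have himg : ((F.image g).card : ℤ) ≤ K + 1 := by
    have h1 : F.image g ⊆ Finset.Icc (g xb) (g xa) := by
      intro k hk
      rw [Finset.mem_image] at hk
      obtain ⟨x, hx, rfl⟩ := hk
      rw [Finset.mem_Icc]
      exact ⟨hxbmin x hx, hxamax x hx⟩
    have h2 := Finset.card_le_card h1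
    rw [Int.card_Icc] at h2
    have h3 : ((g xa + 1 - g xb).toNat : ℤ) = g xa + 1 - g xb := Int.toNat_of_nonneg (by omega)
    omega
  -- fibres
  have hfib : ∀ k ∈ F.image g, ((F.filter (fun x => g x = k)).card : ℤ) ≤ L / n + 1 := by
    intro k _
    apply card_fibre_le _ v hv0 L (by omega)
    · intro x hx y hy hxy
      rw [Finset.mem_filter] at hx hy
      exact hmin x hx.1 y hy.1 hxy
    · intro x hx y hy
      rw [Finset.mem_filter] at hx hy
      rw [← hgsub, hx.2, hy.2, sub_self]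
    · intro x hx y hy
      rw [Finset.mem_filter] at hx hy
      exact hcmax (x, y) (by
        rw [hP, Finset.mem_filter]
        exact ⟨Finset.mk_mem_product hx.1 hy.1, by simp only; rw [hx.2, hy.2]⟩)
  have hq0 : 0 ≤ L / n := Int.ediv_nonneg (by omega) hn.le
  have htot : (F.card : ℤ) ≤ (L / n + 1) * (K + 1) := by
    have h1 := Finset.card_le_mul_card_image (s := F) (f := g) ((L / n + 1).toNat) (by
      intro k hk
      have := hfib k hk
      omega)
    have h2 : (((L / n + 1).toNat * (F.image g).card : ℕ) : ℤ) = (L / n + 1) * (F.image g).card := by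
      push_cast
      rw [Int.toNat_of_nonneg (by omega)]
    have h3 : (F.card : ℤ) ≤ (L / n + 1) * (F.image g).card := by
      rw [← h2]; exact_mod_cast h1
    have h4 : (L / n + 1) * ((F.image g).card : ℤ) ≤ (L / n + 1) * (K + 1) :=
      mul_le_mul_of_nonneg_left himg (by omega)
    omega
  -- K ≥ 1
  have hK1 : 1 ≤ K := by
    by_contra hcon
    have hK00 : K = 0 := by omega
    have hall : ∀ x ∈ F, ∀ y ∈ F, det (x - y) v = 0 := by
      intro x hx y hy
      rw [← hgsub]
      have h1 := hxamax x hx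
      have h2 := hxamax y hy
      have h3 := hxbmin x hx
      have h4 := hxbmin y hy
      omega
    apply hpqs
    have h1 := hall q hq p hp
    have h2 := hall s hs p hp
    have h3 := det_mul (q - p) (s - p) v
    have h4 : det v (s - p) = 0 := by
      have : det v (s - p) = - det (s - p) v := by unfold det; ring
      rw [this, h2, neg_zero]
    have h5 : det v (q - p) = 0 := by
      have : det v (q - p) = - det (q - p) v := by unfold det; ring
      rw [this, h1, neg_zero]
    rw [h4, h5] at h3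
    have h6 : det (q - p) (s - p) * dot v v = 0 := by rw [h3]; ring
    rcases mul_eq_zero.1 h6 with h | h
    · exact h
    · exact absurd h hn.ne'
  -- K * L / n ≤ B
  have hKL : K * L ≤ B * n := by
    have h1 := det_mul (xa - xb) (c.1 - c.2) v
    have h2 : det v (c.1 - c.2) = 0 := by
      have : det v (c.1 - c.2) = - det (c.1 - c.2) v := by unfold det; ring
      rw [this, ← hgsub, hc.2, sub_self, neg_zero]
    have h3 : det v (xa - xb) = -K := by
      have : det v (xa - xb) = - det (xa - xb) v := by unfold det; ring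
      rw [this, ← hgsub]
    rw [h2, h3] at h1
    have h4 : det (xa - xb) (c.1 - c.2) * n = K * L := by
      rw [← hnv] at h1; rw [h1]; ring
    have h5 := hB xa hxa xb hxb c.1 hc.1.1 c.2 hc.1.2
    have h6 := le_trans (le_abs_self _) h5
    rw [← h4]
    exact mul_le_mul_of_nonneg_right h6 hn.le
  have hq1 : 1 ≤ L / n := by
    rw [Int.le_ediv_iff_mul_le hn]; omega
  have h7 : (L / n) * n ≤ L := Int.ediv_mul_le L hn.ne'
  have h8 : K * (L / n) ≤ B := by
    have : (K * (L / n)) * n ≤ B * n := by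
      calc (K * (L / n)) * n = K * ((L / n) * n) := by ring
        _ ≤ K * L := mul_le_mul_of_nonneg_left h7 hK0
        _ ≤ B * n := hKL
    exact le_of_mul_le_mul_right this hn
  nlinarith

/-- collinear version: the points are separated along the line by the shortest difference `v`. -/
theorem collinear_min (F : Finset GaussianInt) (hF : 1 < F.card)
    (hc : ∀ x ∈ F, ∀ y ∈ F, ∀ z ∈ F, det (y - x) (z - x) = 0) :
    ∃ v : GaussianInt, v ≠ 0 ∧ ∃ x ∈ F, ∃ y ∈ F, ∃ t : ℝ, (F.card : ℝ) - 1 ≤ t ∧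
      ((x - y).re : ℝ) = t * v.re ∧ ((x - y).im : ℝ) = t * v.im := by
  classical
  obtain ⟨x₀, hx₀, y₀, hy₀, hxy₀, hmin⟩ := exists_min_diff F hF
  set v := x₀ - y₀ with hv
  have hv0 : v ≠ 0 := sub_ne_zero.2 hxy₀
  have hn := dot_self_pos hv0
  have hpar : ∀ x ∈ F, ∀ y ∈ F, det (x - y) v = 0 := by
    intro x hx y hy
    have h1 := hc y₀ hy₀ x₀ hx₀ x hx
    have h2 := hc y₀ hy₀ x₀ hx₀ y hy
    have : det (x - y) v = - det (x₀ - y₀) (x - y₀) + det (x₀ - y₀) (y - y₀) := by
      rw [hv]
      unfold det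
      simp only [Zsqrtd.re_sub, Zsqrtd.im_sub]
      ring
    rw [this, h1, h2]; ring
  have hPne : (F ×ˢ F).Nonempty := ⟨(x₀, y₀), Finset.mk_mem_product hx₀ hy₀⟩
  obtain ⟨c, hcm, hcmax⟩ := Finset.exists_max_image (F ×ˢ F) (fun p => dot (p.1 - p.2) v) hPne
  rw [Finset.mem_product] at hcm
  have hL0 : 0 ≤ dot (c.1 - c.2) v := by
    have h := hcmax (x₀, y₀) (Finset.mk_mem_product hx₀ hy₀)
    simp only at h
    rw [← hv] at h
    omega
  have hcount := card_fibre_le F v hv0 (dot (c.1 - c.2) v) hL0 hmin hpar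
    (fun x hx y hy => hcmax (x, y) (Finset.mk_mem_product hx hy))
  refine ⟨v, hv0, c.1, hcm.1, c.2, hcm.2, (dot (c.1 - c.2) v : ℝ) / (dot v v : ℝ), ?_, ?_, ?_⟩
  · have h1 : ((F.card : ℤ) - 1) * dot v v ≤ dot (c.1 - c.2) v := by
      have h2 : dot (c.1 - c.2) v / dot v v * dot v v ≤ dot (c.1 - c.2) v :=
        Int.ediv_mul_le _ hn.ne'
      have h3 : ((F.card : ℤ) - 1) * dot v v ≤ dot (c.1 - c.2) v / dot v v * dot v v :=
        mul_le_mul_of_nonneg_right (by omega) hn.le
      omega
    rw [le_div_iff₀ (by exact_mod_cast hn)]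
    exact_mod_cast h1
  · have h1 := hpar c.1 hcm.1 c.2 hcm.2
    have hn' : (dot v v : ℝ) ≠ 0 := by exact_mod_cast hn.ne'
    rw [div_mul_eq_mul_div, eq_div_iff hn']
    have h2 : (c.1 - c.2).re * dot v v = dot (c.1 - c.2) v * v.re := by
      have h3 : (c.1 - c.2).re * dot v v - dot (c.1 - c.2) v * v.re
          = det (c.1 - c.2) v * v.im := by unfold dot det; ring
      rw [h1] at h3
      linarith
    exact_mod_cast h2
  · have h1 := hpar c.1 hcm.1 c.2 hcm.2
    have hn' : (dot v v : ℝ) ≠ 0 := by exact_mod_cast hn.ne'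
    rw [div_mul_eq_mul_div, eq_div_iff hn']
    have h2 : (c.1 - c.2).im * dot v v = dot (c.1 - c.2) v * v.im := by
      have h3 : (c.1 - c.2).im * dot v v - dot (c.1 - c.2) v * v.im
          = - det (c.1 - c.2) v * v.re := by unfold dot det; ring
      rw [h1] at h3
      linarith
    exact_mod_cast h2

/-- the rectangle `T_r` -/
def InT (u : GaussianInt) (r h : ℝ) (x : GaussianInt) : Prop :=
  ab x ≤ r * ab u ∧ |(det u x : ℝ)| ≤ r * h * ab u

/-- determinants of differences of points of the rectangle -/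
theorem det_diff_le {u : GaussianInt} (hu : u ≠ 0) {r h : ℝ} (hr : 0 ≤ r) (hh : 0 ≤ h)
    {x x' y y' : GaussianInt} (hx : InT u r h x) (hx' : InT u r h x') (hy : InT u r h y)
    (hy' : InT u r h y') : |(det (x - x') (y - y') : ℝ)| ≤ 8 * r ^ 2 * h * ab u := by
  have hA : 0 < ab u := lt_of_lt_of_le one_pos (one_le_ab hu)
  have hdet : ∀ a b : GaussianInt, det u (a - b) = det u a - det u b := by
    intro a b; unfold det; simp only [Zsqrtd.re_sub, Zsqrtd.im_sub]; ring
  have h1 : ab (x - x') ≤ 2 * r * ab u := by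
    have := ab_sub_le x x'; linarith [hx.1, hx'.1]
  have h2 : ab (y - y') ≤ 2 * r * ab u := by
    have := ab_sub_le y y'; linarith [hy.1, hy'.1]
  have h3 : |(det u (x - x') : ℝ)| ≤ 2 * r * h * ab u := by
    rw [hdet]; push_cast
    calc |(det u x : ℝ) - det u x'| ≤ |(det u x : ℝ)| + |(det u x' : ℝ)| := abs_sub _ _
      _ ≤ _ := by linarith [hx.2, hx'.2]
  have h4 : |(det u (y - y') : ℝ)| ≤ 2 * r * h * ab u := by
    rw [hdet]; push_cast
    calc |(det u y : ℝ) - det u y'| ≤ |(det u y : ℝ)| + |(det u y' : ℝ)| := abs_sub _ _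
      _ ≤ _ := by linarith [hy.2, hy'.2]
  have h5 := det_mul (x - x') (y - y') u
  have h6 : (det (x - x') (y - y') : ℝ) * ab u ^ 2 =
      (dot (x - x') u : ℝ) * det u (y - y') - det u (x - x') * dot (y - y') u := by
    rw [ab_sq]; exact_mod_cast h5
  have h7 : |(dot (x - x') u : ℝ)| ≤ 2 * r * ab u * ab u :=
    (abs_dot_le _ _).trans (mul_le_mul_of_nonneg_right h1 hA.le)
  have h8 : |(dot (y - y') u : ℝ)| ≤ 2 * r * ab u * ab u :=
    (abs_dot_le _ _).trans (mul_le_mul_of_nonneg_right h2 hA.le)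
  have h9 : |(det (x - x') (y - y') : ℝ)| * ab u ^ 2 ≤ (8 * r ^ 2 * h * ab u) * ab u ^ 2 := by
    calc |(det (x - x') (y - y') : ℝ)| * ab u ^ 2
        = |(det (x - x') (y - y') : ℝ) * ab u ^ 2| := by
          rw [abs_mul, abs_of_nonneg (sq_nonneg (ab u))]
      _ = |(dot (x - x') u : ℝ) * det u (y - y') - det u (x - x') * dot (y - y') u| := by rw [h6]
      _ ≤ |(dot (x - x') u : ℝ) * det u (y - y')| + |(det u (x - x') : ℝ) * dot (y - y') u| :=
          abs_sub _ _
      _ = |(dot (x - x') u : ℝ)| * |(det u (y - y') : ℝ)|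
            + |(det u (x - x') : ℝ)| * |(dot (y - y') u : ℝ)| := by rw [abs_mul, abs_mul]
      _ ≤ (2 * r * ab u * ab u) * (2 * r * h * ab u) + (2 * r * h * ab u) * (2 * r * ab u * ab u) := by
          apply add_le_add
          · exact mul_le_mul h7 h4 (abs_nonneg _) (by positivity)
          · exact mul_le_mul h3 h8 (abs_nonneg _) (by positivity)
      _ = _ := by ring
  exact le_of_mul_le_mul_right h9 (by positivity)

/-- **K7b**: one block.  If too many points of the rectangle `T_r` are congruent modulo `M`, there is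
a short vector `v` with `M v` nearly parallel to `u`. -/
theorem one_block {u : GaussianInt} (hu : u ≠ 0) {r h K : ℝ} (hr : 1 ≤ r) (hh : 1 ≤ h)
    (hK : 32 * r ^ 2 < K) {M : GaussianInt} (hM : M ≠ 0) (a : GaussianInt) (F : Finset GaussianInt)
    (hF : ∀ x ∈ F, InT u r h x ∧ M ∣ x - a) (hF2 : 1 < F.card)
    (hbig : K * ab u * h / ab M ^ 2 < F.card) :
    ∃ v : GaussianInt, v ≠ 0 ∧ ab v ≤ 4 * r * ab M / (K * h) ∧
      |(det u (M * v) : ℝ)| ≤ 4 * r * ab M ^ 2 / K := by
  classical
  have hA : 0 < ab u := lt_of_lt_of_le one_pos (one_le_ab hu)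
  have hMp : 0 < ab M := lt_of_lt_of_le one_pos (one_le_ab hM)
  have hK0 : 0 < K := by nlinarith
  have hr0 : 0 < r := by linarith
  have hh0 : 0 < h := by linarith
  -- the quotients
  have hq : ∀ x : GaussianInt, ∃ z : GaussianInt, x ∈ F → x = a + M * z := by
    intro x
    by_cases hx : x ∈ F
    · obtain ⟨z, hz⟩ := (hF x hx).2
      exact ⟨z, fun _ => by rw [← hz]; ring⟩
    · exact ⟨0, fun h => absurd h hx⟩
  choose Q hQ using hq
  have hQinj : Set.InjOn Q (F : Set GaussianInt) := by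
    intro x hx y hy hxy
    rw [hQ x hx, hQ y hy, hxy]
  set F1 := F.image Q with hF1
  have hcard : F1.card = F.card := Finset.card_image_of_injOn hQinj
  have hmemF1 : ∀ z ∈ F1, a + M * z ∈ F := by
    intro z hz
    rw [hF1, Finset.mem_image] at hz
    obtain ⟨x, hx, rfl⟩ := hz
    rw [← hQ x hx]; exact hx
  have hcol : ∀ x ∈ F1, ∀ y ∈ F1, ∀ z ∈ F1, det (y - x) (z - x) = 0 := by
    by_contra hcon
    push Not at hcon
    obtain ⟨x, hx, y, hy, z, hz, hxyz⟩ := hcon
    set B : ℤ := ⌊8 * r ^ 2 * h * ab u / ab M ^ 2⌋ with hB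
    have hbound : ∀ x ∈ F1, ∀ x' ∈ F1, ∀ y ∈ F1, ∀ y' ∈ F1, |det (x - x') (y - y')| ≤ B := by
      intro x hx x' hx' y hy y' hy'
      rw [hB, Int.le_floor, le_div_iff₀ (by positivity)]
      have h1 := det_diff_le hu hr0.le hh0.le (hF _ (hmemF1 x hx)).1 (hF _ (hmemF1 x' hx')).1
        (hF _ (hmemF1 y hy)).1 (hF _ (hmemF1 y' hy')).1
      have h2 : a + M * x - (a + M * x') = M * (x - x') := by ring
      have h3 : a + M * y - (a + M * y') = M * (y - y') := by ring
      rw [h2, h3, det_mul_left] at h1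
      push_cast at h1 ⊢
      rw [abs_mul, ← ab_sq, abs_of_nonneg (sq_nonneg (ab M))] at h1
      linarith
    have h1 := card_le_of_noncollinear F1 B ⟨x, hx, y, hy, z, hz, hxyz⟩ hbound
    rw [hcard] at h1
    have h2 : (F.card : ℝ) ≤ 4 * B := by exact_mod_cast h1
    have h3 : (B : ℝ) ≤ 8 * r ^ 2 * h * ab u / ab M ^ 2 := Int.floor_le _
    have h4 : (F.card : ℝ) ≤ 32 * r ^ 2 * (h * ab u / ab M ^ 2) := by
      calc (F.card : ℝ) ≤ 4 * B := h2
        _ ≤ 4 * (8 * r ^ 2 * h * ab u / ab M ^ 2) := by linarith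
        _ = _ := by ring
    have h5 : K * (h * ab u / ab M ^ 2) < F.card := by
      calc K * (h * ab u / ab M ^ 2) = K * ab u * h / ab M ^ 2 := by ring
        _ < _ := hbig
    have h6 : 0 < h * ab u / ab M ^ 2 := by positivity
    nlinarith
  obtain ⟨v, hv0, x, hx, y, hy, t, ht, hre, him⟩ := collinear_min F1 (by rw [hcard]; exact hF2) hcol
  rw [hcard] at ht
  have hn2 : (2 : ℝ) ≤ F.card := by exact_mod_cast hF2
  have ht1 : (F.card : ℝ) / 2 ≤ t := by linarith
  have ht0 : 0 < t := by linarith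
  have hx' := (hF _ (hmemF1 x hx)).1
  have hy' := (hF _ (hmemF1 y hy)).1
  have hxy : a + M * x - (a + M * y) = M * (x - y) := by ring
  -- norms
  have hb1 : ab M * (t * ab v) ≤ 2 * r * ab u := by
    have h1 := ab_sub_le (a + M * x) (a + M * y)
    rw [hxy, ab_mul] at h1
    have h2 : ab (x - y) = t * ab v := by
      have h3 : ab (x - y) ^ 2 = (t * ab v) ^ 2 := by
        rw [mul_pow, ab_sq, ab_sq]
        unfold dot
        push_cast
        rw [hre, him]; ring
      exact (sq_eq_sq₀ (ab_nonneg _) (by have := ab_nonneg v; positivity)).1 h3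
    rw [h2] at h1
    linarith [hx'.1, hy'.1]
  have hb2 : t * |(det u (M * v) : ℝ)| ≤ 2 * r * h * ab u := by
    have h1 : (det u (a + M * x) : ℝ) - det u (a + M * y) = t * det u (M * v) := by
      have h2 : det u (a + M * x) - det u (a + M * y) = det u (M * (x - y)) := by
        unfold det
        simp only [Zsqrtd.re_add, Zsqrtd.im_add, Zsqrtd.re_mul, Zsqrtd.im_mul, Zsqrtd.re_sub,
          Zsqrtd.im_sub]
        ring
      have h3 : (det u (M * (x - y)) : ℝ) = t * det u (M * v) := by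
        unfold det
        simp only [Zsqrtd.re_mul, Zsqrtd.im_mul]
        push_cast
        rw [hre, him]
        ring
      rw [← h3, ← h2]; push_cast; ring
    have h4 : |(det u (a + M * x) : ℝ) - det u (a + M * y)| ≤ 2 * r * h * ab u := by
      calc |(det u (a + M * x) : ℝ) - det u (a + M * y)|
          ≤ |(det u (a + M * x) : ℝ)| + |(det u (a + M * y) : ℝ)| := abs_sub _ _
        _ ≤ _ := by linarith [hx'.2, hy'.2]
    rw [h1, abs_mul, abs_of_pos ht0] at h4
    exact h4
  have hbig' : K * ab u * h / ab M ^ 2 / 2 ≤ t := by linarith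
  have hc0 : 0 < K * ab u * h / ab M ^ 2 / 2 := by positivity
  refine ⟨v, hv0, ?_, ?_⟩
  · have h1 : ab M * (K * ab u * h / ab M ^ 2 / 2 * ab v) ≤ 2 * r * ab u := by
      refine le_trans ?_ hb1
      apply mul_le_mul_of_nonneg_left _ hMp.le
      exact mul_le_mul_of_nonneg_right hbig' (ab_nonneg v)
    rw [le_div_iff₀ (by positivity)]
    have h2 : ab M * (K * ab u * h / ab M ^ 2 / 2 * ab v) = ab v * (K * h) * (ab u / (2 * ab M)) := by
      field_simp
    rw [h2] at h1
    have h3 : 2 * r * ab u = 4 * r * ab M * (ab u / (2 * ab M)) := by field_simp; ring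
    rw [h3] at h1
    exact le_of_mul_le_mul_right h1 (by positivity)
  · have h1 : K * ab u * h / ab M ^ 2 / 2 * |(det u (M * v) : ℝ)| ≤ 2 * r * h * ab u :=
      le_trans (mul_le_mul_of_nonneg_right hbig' (abs_nonneg _)) hb2
    rw [le_div_iff₀ hK0]
    have h2 : K * ab u * h / ab M ^ 2 / 2 * |(det u (M * v) : ℝ)|
        = |(det u (M * v) : ℝ)| * K * (ab u * h / (2 * ab M ^ 2)) := by field_simp
    have h3 : 2 * r * h * ab u = 4 * r * ab M ^ 2 * (ab u * h / (2 * ab M ^ 2)) := by
      field_simp; ring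
    rw [h2, h3] at h1
    exact le_of_mul_le_mul_right h1 (by positivity)

/-- **K7c**: two blocks cannot both be bad. -/
theorem two_blocks {u : GaussianInt} (hu : u ≠ 0) {r h K : ℝ} (hr : 1 ≤ r) (hh : 1 ≤ h)
    (hK : 32 * r ^ 2 < K) {M M' : GaussianInt} (hM : M ≠ 0) (hM' : M' ≠ 0)
    (hcop : IsCoprime (M * star M') (star M * M'))
    (hA : 32 * r ^ 2 * ab M ^ 2 * ab M' ^ 2 < K ^ 2 * ab u)
    (a a' : GaussianInt) (F F' : Finset GaussianInt)
    (hF : ∀ x ∈ F, InT u r h x ∧ M ∣ x - a) (hF2 : 1 < F.card)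
    (hbig : K * ab u * h / ab M ^ 2 < F.card)
    (hF' : ∀ x ∈ F', InT u r h x ∧ M' ∣ x - a') (hF2' : 1 < F'.card)
    (hbig' : K * ab u * h / ab M' ^ 2 < F'.card) : False := by
  have hA0 : 0 < ab u := lt_of_lt_of_le one_pos (one_le_ab hu)
  have hMp : 0 < ab M := lt_of_lt_of_le one_pos (one_le_ab hM)
  have hMp' : 0 < ab M' := lt_of_lt_of_le one_pos (one_le_ab hM')
  have hK0 : 0 < K := by nlinarith
  have hr0 : 0 < r := by linarith
  have hh0 : 0 < h := by linarith
  obtain ⟨v, hv0, hv1, hv2⟩ := one_block hu hr hh hK hM a F hF hF2 hbig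
  obtain ⟨v', hv0', hv1', hv2'⟩ := one_block hu hr hh hK hM' a' F' hF' hF2' hbig'
  set w := M * v with hw
  set w' := M' * v' with hw'
  have hKh : K ≤ K * h := by nlinarith
  have hw1 : ab w ≤ 4 * r * ab M ^ 2 / K := by
    rw [hw, ab_mul]
    calc ab M * ab v ≤ ab M * (4 * r * ab M / (K * h)) := mul_le_mul_of_nonneg_left hv1 hMp.le
      _ ≤ ab M * (4 * r * ab M / K) := by
          apply mul_le_mul_of_nonneg_left _ hMp.le
          exact div_le_div_of_nonneg_left (by positivity) hK0 hKh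
      _ = _ := by ring
  have hw1' : ab w' ≤ 4 * r * ab M' ^ 2 / K := by
    rw [hw', ab_mul]
    calc ab M' * ab v' ≤ ab M' * (4 * r * ab M' / (K * h)) :=
          mul_le_mul_of_nonneg_left hv1' hMp'.le
      _ ≤ ab M' * (4 * r * ab M' / K) := by
          apply mul_le_mul_of_nonneg_left _ hMp'.le
          exact div_le_div_of_nonneg_left (by positivity) hK0 hKh
      _ = _ := by ring
  -- the determinant of w, w' vanishes
  have hdet : det w w' = 0 := by
    have h5 := det_mul w w' u
    have h6 : (det w w' : ℝ) * ab u ^ 2 = (dot w u : ℝ) * det u w' - det u w * dot w' u := by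
      rw [ab_sq]; exact_mod_cast h5
    have h7 : |(dot w u : ℝ)| ≤ 4 * r * ab M ^ 2 / K * ab u :=
      (abs_dot_le _ _).trans (mul_le_mul_of_nonneg_right hw1 hA0.le)
    have h8 : |(dot w' u : ℝ)| ≤ 4 * r * ab M' ^ 2 / K * ab u :=
      (abs_dot_le _ _).trans (mul_le_mul_of_nonneg_right hw1' hA0.le)
    have h9 : |(det w w' : ℝ)| * ab u ^ 2 ≤ 32 * r ^ 2 * ab M ^ 2 * ab M' ^ 2 / K ^ 2 * ab u := by
      calc |(det w w' : ℝ)| * ab u ^ 2 = |(det w w' : ℝ) * ab u ^ 2| := by
            rw [abs_mul, abs_of_nonneg (sq_nonneg (ab u))]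
        _ = |(dot w u : ℝ) * det u w' - det u w * dot w' u| := by rw [h6]
        _ ≤ |(dot w u : ℝ) * det u w'| + |(det u w : ℝ) * dot w' u| := abs_sub _ _
        _ = |(dot w u : ℝ)| * |(det u w' : ℝ)| + |(det u w : ℝ)| * |(dot w' u : ℝ)| := by
            rw [abs_mul, abs_mul]
        _ ≤ (4 * r * ab M ^ 2 / K * ab u) * (4 * r * ab M' ^ 2 / K)
            + (4 * r * ab M ^ 2 / K) * (4 * r * ab M' ^ 2 / K * ab u) := by
            apply add_le_add
            · exact mul_le_mul h7 hv2' (abs_nonneg _) (by positivity)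
            · exact mul_le_mul hv2 h8 (abs_nonneg _) (by positivity)
        _ = _ := by field_simp; ring
    have h10 : |(det w w' : ℝ)| < 1 := by
      have h11 : 32 * r ^ 2 * ab M ^ 2 * ab M' ^ 2 / K ^ 2 * ab u < ab u ^ 2 := by
        rw [div_mul_eq_mul_div, div_lt_iff₀ (by positivity)]
        nlinarith [mul_lt_mul_of_pos_right hA hA0]
      have h12 : |(det w w' : ℝ)| * ab u ^ 2 < 1 * ab u ^ 2 := by linarith
      exact lt_of_mul_lt_mul_right h12 (by positivity)
    have h13 : |det w w'| < 1 := by exact_mod_cast h10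
    have := Int.abs_lt_one_iff.1 h13
    exact this
  have hstar : w * star w' = star w * w' := by
    unfold det at hdet
    apply Zsqrtd.ext
    · simp only [Zsqrtd.re_mul, Zsqrtd.re_star, Zsqrtd.im_star]; ring
    · simp only [Zsqrtd.im_mul, Zsqrtd.re_star, Zsqrtd.im_star]
      linarith
  have hstar2 : (M * star M') * (v * star v') = (star M * M') * (star v * v') := by
    have h1 : w * star w' = (M * star M') * (v * star v') := by
      rw [hw, hw', star_mul]; ring
    have h2 : star w * w' = (star M * M') * (star v * v') := by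
      rw [hw, hw', star_mul]; ring
    rw [← h1, ← h2, hstar]
  have hdvd : M * star M' ∣ star v * v' := by
    have h1 : M * star M' ∣ (star M * M') * (star v * v') := ⟨_, hstar2.symm⟩
    exact hcop.dvd_of_dvd_mul_left h1
  have hsv : star v ≠ 0 := by rwa [Ne, star_eq_zero]
  have habs : ∀ z : GaussianInt, ab (star z) = ab z := by
    intro z
    have : ab (star z) ^ 2 = ab z ^ 2 := by
      rw [ab_sq, ab_sq]; unfold dot
      simp only [Zsqrtd.re_star, Zsqrtd.im_star]; push_cast; ring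
    exact (sq_eq_sq₀ (ab_nonneg _) (ab_nonneg _)).1 this
  obtain ⟨k, hk⟩ := hdvd
  have hk0 : k ≠ 0 := by
    rintro rfl
    rw [mul_zero] at hk
    rcases mul_eq_zero.1 hk with h | h
    · exact hsv h
    · exact hv0' h
  have h1 : ab M * ab M' ≤ ab v * ab v' := by
    have h2 : ab (star v * v') = ab M * ab M' * ab k := by
      rw [hk, ab_mul, ab_mul, habs]
    rw [ab_mul, habs] at h2
    rw [h2]
    have := one_le_ab hk0
    nlinarith [mul_pos hMp hMp']
  have h3 : ab v * ab v' ≤ (4 * r * ab M / (K * h)) * (4 * r * ab M' / (K * h)) :=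
    mul_le_mul hv1 hv1' (ab_nonneg _) (by positivity)
  have h4 : (4 * r * ab M / (K * h)) * (4 * r * ab M' / (K * h))
      = (16 * r ^ 2 / (K * h) ^ 2) * (ab M * ab M') := by field_simp; ring
  have h5 : 16 * r ^ 2 / (K * h) ^ 2 < 1 := by
    rw [div_lt_one (by positivity)]
    have h6 : 4 * r < K * h := by nlinarith
    nlinarith
  have h6 : 0 < ab M * ab M' := mul_pos hMp hMp'
  nlinarith

/-- coprimality for disjoint blocks of primes, one for each conjugate pair -/
theorem coprime_blocks (S S' : Finset GaussianInt) (hS : ∀ p ∈ S, Prime p) (hS' : ∀ p ∈ S', Prime p)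
    (h1 : ∀ p ∈ S, ∀ q ∈ S', ¬ Associated p q) (h2 : ∀ p ∈ S, ∀ q ∈ S, ¬ Associated p (star q))
    (h3 : ∀ p ∈ S', ∀ q ∈ S', ¬ Associated p (star q)) :
    IsCoprime ((∏ p ∈ S, p) * star (∏ p ∈ S', p)) (star (∏ p ∈ S, p) * ∏ p ∈ S', p) := by
  have hprime_star : ∀ p : GaussianInt, Prime p → Prime (star p) := by
    intro p hp
    exact (MulEquiv.prime_iff (starRingAut (R := GaussianInt)).toMulEquiv).2 hp
  have hcop : ∀ p q : GaussianInt, Prime p → Prime q → ¬ Associated p q → IsCoprime p q := by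
    intro p q hp hq hpq
    rw [hp.coprime_iff_not_dvd]
    intro h
    exact hpq (hp.irreducible.associated_of_dvd hq.irreducible h)
  have hstarprod : ∀ T : Finset GaussianInt, star (∏ p ∈ T, p) = ∏ p ∈ T, star p := by
    intro T
    exact map_prod (starRingEnd GaussianInt) (fun p => p) T
  rw [hstarprod, hstarprod]
  refine IsCoprime.mul_left (IsCoprime.mul_right ?_ ?_) (IsCoprime.mul_right ?_ ?_)
  · exact IsCoprime.prod_left fun p hp => IsCoprime.prod_right fun q hq =>
      hcop _ _ (hS p hp) (hprime_star _ (hS q hq)) (h2 p hp q hq)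
  · exact IsCoprime.prod_left fun p hp => IsCoprime.prod_right fun q hq =>
      hcop _ _ (hS p hp) (hS' q hq) (h1 p hp q hq)
  · refine IsCoprime.prod_left fun p hp => IsCoprime.prod_right fun q hq =>
      hcop _ _ (hprime_star _ (hS' p hp)) (hprime_star _ (hS q hq)) ?_
    intro hass
    have : Associated p q := by
      have h := hass.map (starRingEnd GaussianInt)
      rw [starRingEnd_apply, starRingEnd_apply, star_star, star_star] at h
      exact h
    exact h1 q hq p hp this.symm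
  · refine IsCoprime.prod_left fun p hp => IsCoprime.prod_right fun q hq =>
      hcop _ _ (hprime_star _ (hS' p hp)) (hS' q hq) ?_
    intro hass
    exact h3 q hq p hp hass.symm

/-- **CLAIM of Step 6**: all blocks except at most one are good. -/
theorem claim {ι : Type*} (I : Finset ι) (S : ι → Finset GaussianInt)
    (hprime : ∀ i ∈ I, ∀ p ∈ S i, Prime p)
    (hass : ∀ i ∈ I, ∀ j ∈ I, i ≠ j → ∀ p ∈ S i, ∀ q ∈ S j, ¬ Associated p q)
    (hconj : ∀ i ∈ I, ∀ p ∈ S i, ∀ q ∈ S i, ¬ Associated p (star q))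
    {u : GaussianInt} (hu : u ≠ 0) {r h K : ℝ} (hr : 1 ≤ r) (hh : 1 ≤ h) (hK : 32 * r ^ 2 < K)
    (hA1 : ∀ i ∈ I, ab (∏ p ∈ S i, p) ^ 2 ≤ K * ab u * h)
    (hA2 : ∀ i ∈ I, ∀ j ∈ I, i ≠ j →
      32 * r ^ 2 * ab (∏ p ∈ S i, p) ^ 2 * ab (∏ p ∈ S j, p) ^ 2 < K ^ 2 * ab u) :
    ∃ i₀ : Option ι, ∀ i ∈ I, some i ≠ i₀ → ∀ (a : GaussianInt) (F : Finset GaussianInt),
      (∀ x ∈ F, InT u r h x ∧ (∏ p ∈ S i, p) ∣ x - a) →
      (F.card : ℝ) ≤ K * ab u * h / ab (∏ p ∈ S i, p) ^ 2 := by
  classical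
  by_cases hall : ∀ i ∈ I, ∀ (a : GaussianInt) (F : Finset GaussianInt),
      (∀ x ∈ F, InT u r h x ∧ (∏ p ∈ S i, p) ∣ x - a) →
      (F.card : ℝ) ≤ K * ab u * h / ab (∏ p ∈ S i, p) ^ 2
  · exact ⟨none, fun i hi _ => hall i hi⟩
  · push Not at hall
    obtain ⟨i₀, hi₀, a₀, F₀, hF₀, hbig₀⟩ := hall
    refine ⟨some i₀, fun i hi hne a F hF => ?_⟩
    by_contra hbig
    push Not at hbig
    have hne' : i₀ ≠ i := fun h => hne (by rw [h])
    have hM : ∀ j ∈ I, (∏ p ∈ S j, p) ≠ 0 := fun j hj =>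
      Finset.prod_ne_zero_iff.2 fun p hp => (hprime j hj p hp).ne_zero
    have hone : ∀ j ∈ I, 1 ≤ K * ab u * h / ab (∏ p ∈ S j, p) ^ 2 := by
      intro j hj
      have := one_le_ab (hM j hj)
      rw [one_le_div (by positivity)]
      exact hA1 j hj
    have hc0 : 1 < F₀.card := by
      have := hone i₀ hi₀
      exact_mod_cast lt_of_le_of_lt this hbig₀
    have hc : 1 < F.card := by
      have := hone i hi
      exact_mod_cast lt_of_le_of_lt this hbig
    exact two_blocks hu hr hh hK (hM i₀ hi₀) (hM i hi)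
      (coprime_blocks (S i₀) (S i) (hprime i₀ hi₀) (hprime i hi) (hass i₀ hi₀ i hi hne')
        (hconj i₀ hi₀) (hconj i hi)) (hA2 i₀ hi₀ i hi hne') a₀ a F₀ F hF₀ hc0 hbig₀ hF hc hbig

end Crest.Agent.R2.Rect297
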