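import Crest.Agent.R2.K8Def587
import Crest.Agent.R2.Torus635
import Crest.Agent.R2.Rect297

/-!
# R2 (Gaussian moat), block K8, per-point kernel: `pairKernel`
(Steps 5 + 6 of the near full Kac argument, helper149 #11294 / #11351, in the rectangle-free form).
-/

set_option autoImplicit false

namespace Crest.Agent.R2.K8

open Finset
open Crest.Agent.R2.Gcd62 (ab)
open Crest.Agent.R2.Rect297 (det dot det_mul_left card_le_of_noncollinear collinear_min
  coprime_blocks)

theorem ab_nonneg (z : GaussianInt) : 0 ≤ ab z := norm_nonneg _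

theorem ab_sq (z : GaussianInt) : ab z ^ 2 = ((dot z z : ℤ) : ℝ) := Rect297.ab_sq z

theorem ab_mul (z w : GaussianInt) : ab (z * w) = ab z * ab w := Rect297.ab_mul z w

theorem ab_sub_le (z w : GaussianInt) : ab (z - w) ≤ ab z + ab w := Rect297.ab_sub_le z w

theorem one_le_ab {z : GaussianInt} (hz : z ≠ 0) : 1 ≤ ab z := Rect297.one_le_ab hz

/-- a determinant of differences of four points of `F` is at most `4 C #F`. -/
theorem det_diff4 {F : Finset GaussianInt} {C : ℝ}
    (hdet : ∀ d ∈ F, ∀ e ∈ F, |(det d e : ℝ)| ≤ C * F.card)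
    {d d' e e' : GaussianInt} (hd : d ∈ F) (hd' : d' ∈ F) (he : e ∈ F) (he' : e' ∈ F) :
    |(det (d - d') (e - e') : ℝ)| ≤ 4 * C * F.card := by
  have h : (det (d - d') (e - e') : ℝ) = (det d e : ℝ) - det d e' - det d' e + det d' e' := by
    have : det (d - d') (e - e') = det d e - det d e' - det d' e + det d' e' := by
      unfold det
      simp only [Zsqrtd.re_sub, Zsqrtd.im_sub]
      ring
    rw [this]; push_cast; ring
  rw [h]
  have h1 := abs_le.1 (hdet d hd e he)
  have h2 := abs_le.1 (hdet d hd e' he')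
  have h3 := abs_le.1 (hdet d' hd' e he)
  have h4 := abs_le.1 (hdet d' hd' e' he')
  rw [abs_le]
  constructor <;> linarith [h1.1, h1.2, h2.1, h2.2, h3.1, h3.2, h4.1, h4.2]

open Classical in
/-- A heavy residue class lies on a line. -/
theorem bad_line {F : Finset GaussianInt} {C : ℝ}
    (hdet : ∀ d ∈ F, ∀ e ∈ F, |(det d e : ℝ)| ≤ C * F.card)
    {M : GaussianInt} (hM : M ≠ 0) (a : GaussianInt) {K : ℝ} (hK : 16 * C < K)
    (hF2 : 1 < (F.filter fun d => M ∣ d - a).card)
    (hbig : K * F.card < ((F.filter fun d => M ∣ d - a).card : ℝ) * ab M ^ 2) :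
    ∃ v : GaussianInt, v ≠ 0 ∧ ∃ d ∈ F, ∃ d' ∈ F, ∃ t : ℝ,
      ((F.filter fun d => M ∣ d - a).card : ℝ) - 1 ≤ t ∧
      ((d - d').re : ℝ) = t * ((M * v).re : ℝ) ∧ ((d - d').im : ℝ) = t * ((M * v).im : ℝ) := by
  set Fa := F.filter fun d => M ∣ d - a with hFa
  have hMp : 0 < ab M := lt_of_lt_of_le one_pos (one_le_ab hM)
  have hq : ∀ x : GaussianInt, ∃ z : GaussianInt, x ∈ Fa → x = a + M * z := by
    intro x
    by_cases hx : x ∈ Fa
    · obtain ⟨z, hz⟩ := (Finset.mem_filter.1 hx).2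
      exact ⟨z, fun _ => by rw [← hz]; ring⟩
    · exact ⟨0, fun h => absurd h hx⟩
  choose Q hQ using hq
  have hQinj : Set.InjOn Q (Fa : Set GaussianInt) := by
    intro x hx y hy hxy
    rw [hQ x hx, hQ y hy, hxy]
  set F1 := Fa.image Q with hF1
  have hcard : F1.card = Fa.card := Finset.card_image_of_injOn hQinj
  have hmemF1 : ∀ z ∈ F1, a + M * z ∈ F := by
    intro z hz
    rw [hF1, Finset.mem_image] at hz
    obtain ⟨x, hx, rfl⟩ := hz
    rw [← hQ x hx]; exact (Finset.mem_filter.1 hx).1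
  have hcol : ∀ x ∈ F1, ∀ y ∈ F1, ∀ z ∈ F1, det (y - x) (z - x) = 0 := by
    by_contra hcon
    push Not at hcon
    obtain ⟨x, hx, y, hy, z, hz, hxyz⟩ := hcon
    set B : ℤ := ⌊4 * C * F.card / ab M ^ 2⌋ with hB
    have hbound : ∀ x ∈ F1, ∀ x' ∈ F1, ∀ y ∈ F1, ∀ y' ∈ F1, |det (x - x') (y - y')| ≤ B := by
      intro x hx x' hx' y hy y' hy'
      rw [hB, Int.le_floor, le_div_iff₀ (by positivity)]
      have h1 := det_diff4 hdet (hmemF1 x hx) (hmemF1 x' hx') (hmemF1 y hy) (hmemF1 y' hy')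
      have h2 : a + M * x - (a + M * x') = M * (x - x') := by ring
      have h3 : a + M * y - (a + M * y') = M * (y - y') := by ring
      rw [h2, h3, det_mul_left] at h1
      push_cast at h1 ⊢
      rw [abs_mul, ← ab_sq, abs_of_nonneg (sq_nonneg _)] at h1
      linarith
    have h1 := card_le_of_noncollinear F1 B ⟨x, hx, y, hy, z, hz, hxyz⟩ hbound
    rw [hcard] at h1
    have h2 : (Fa.card : ℝ) ≤ 4 * B := by exact_mod_cast h1
    have h3 : (B : ℝ) ≤ 4 * C * F.card / ab M ^ 2 := Int.floor_le _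
    have h4 : (Fa.card : ℝ) * ab M ^ 2 ≤ 16 * C * F.card := by
      have h5 : (B : ℝ) * ab M ^ 2 ≤ 4 * C * F.card := by
        rw [le_div_iff₀ (by positivity)] at h3; exact h3
      nlinarith [mul_le_mul_of_nonneg_right h2 (sq_nonneg (ab M))]
    have h6 : (0 : ℝ) ≤ F.card := by positivity
    nlinarith [mul_le_mul_of_nonneg_right hK.le h6]
  obtain ⟨v, hv0, x, hx, y, hy, t, ht, hre, him⟩ := collinear_min F1 (by rw [hcard]; exact hF2) hcol
  rw [hcard] at ht
  refine ⟨v, hv0, _, hmemF1 x hx, _, hmemF1 y hy, t, ht, ?_, ?_⟩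
  · have h2 : a + M * x - (a + M * y) = M * (x - y) := by ring
    rw [h2, Zsqrtd.re_mul, Zsqrtd.re_mul]
    push_cast
    rw [hre, him]; ring
  · have h2 : a + M * x - (a + M * y) = M * (x - y) := by ring
    rw [h2, Zsqrtd.im_mul, Zsqrtd.im_mul]
    push_cast
    rw [hre, him]; ring

/-- the long difference of a heavy class bounds the direction vector -/
theorem ab_of_parallel {g w : GaussianInt} {t : ℝ} (ht : 0 ≤ t)
    (hre : (g.re : ℝ) = t * (w.re : ℝ)) (him : (g.im : ℝ) = t * (w.im : ℝ)) : ab g = t * ab w := by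
  have h3 : ab g ^ 2 = (t * ab w) ^ 2 := by
    rw [mul_pow, ab_sq, ab_sq]
    unfold dot
    push_cast
    rw [hre, him]; ring
  exact (sq_eq_sq₀ (ab_nonneg _) (by have := ab_nonneg w; positivity)).1 h3

open Classical in
/-- **Two blocks cannot both be bad** (rectangle-free form). -/
theorem two_bad {F : Finset GaussianInt} {C D K : ℝ} (hC : 0 < C) (hD : 0 < D)
    (hdet : ∀ d ∈ F, ∀ e ∈ F, |(det d e : ℝ)| ≤ C * F.card)
    (hn : ∀ d ∈ F, ab d ≤ D * F.card)
    (hK : 16 * C < K) (hK' : 4 * D < K)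
    {M M' : GaussianInt} (hM : M ≠ 0) (hM' : M' ≠ 0)
    (hcop : IsCoprime (M * star M') (star M * M'))
    (hA : 16 * C * (ab M ^ 2 * ab M' ^ 2) < K ^ 2 * F.card)
    (a a' : GaussianInt)
    (hF2 : 1 < (F.filter fun d => M ∣ d - a).card)
    (hbig : K * F.card < ((F.filter fun d => M ∣ d - a).card : ℝ) * ab M ^ 2)
    (hF2' : 1 < (F.filter fun d => M' ∣ d - a').card)
    (hbig' : K * F.card < ((F.filter fun d => M' ∣ d - a').card : ℝ) * ab M' ^ 2) : False := by
  have hMp : 0 < ab M := lt_of_lt_of_le one_pos (one_le_ab hM)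
  have hMp' : 0 < ab M' := lt_of_lt_of_le one_pos (one_le_ab hM')
  have hK0 : 0 < K := by linarith
  have hFc : 0 < (F.card : ℝ) := by
    have h1 : (F.filter fun d => M ∣ d - a).card ≤ F.card := Finset.card_filter_le _ _
    have : 0 < F.card := by omega
    exact_mod_cast this
  obtain ⟨v, hv0, d, hd, d', hd', t, ht, hre, him⟩ := bad_line hdet hM a hK hF2 hbig
  obtain ⟨v', hv0', e, he, e', he', t', ht', hre', him'⟩ := bad_line hdet hM' a' hK hF2' hbig'
  set n : ℝ := ((F.filter fun d => M ∣ d - a).card : ℝ) with hn'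
  set n' : ℝ := ((F.filter fun d => M' ∣ d - a').card : ℝ) with hn''
  have hn2 : (2 : ℝ) ≤ n := by rw [hn']; exact_mod_cast hF2
  have hn2' : (2 : ℝ) ≤ n' := by rw [hn'']; exact_mod_cast hF2'
  have ht2 : n / 2 ≤ t := by linarith
  have ht2' : n' / 2 ≤ t' := by linarith
  have ht0 : 0 < t := by linarith
  have ht0' : 0 < t' := by linarith
  -- lower bounds for t, t'
  have hlow : K * F.card ≤ 2 * t * ab M ^ 2 := by
    nlinarith [mul_le_mul_of_nonneg_right ht2 (sq_nonneg (ab M))]
  have hlow' : K * F.card ≤ 2 * t' * ab M' ^ 2 := by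
    nlinarith [mul_le_mul_of_nonneg_right ht2' (sq_nonneg (ab M'))]
  -- short vectors
  have hshort : ∀ {M v d d' : GaussianInt} {t : ℝ}, M ≠ 0 → 0 < t → d ∈ F → d' ∈ F →
      ((d - d').re : ℝ) = t * ((M * v).re : ℝ) → ((d - d').im : ℝ) = t * ((M * v).im : ℝ) →
      K * F.card ≤ 2 * t * ab M ^ 2 → ab v < ab M := by
    intro M v d d' t hM ht0 hd hd' hre him hlow
    have hMp : 0 < ab M := lt_of_lt_of_le one_pos (one_le_ab hM)
    have h1 := ab_of_parallel ht0.le hre him
    rw [ab_mul] at h1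
    have h2 := ab_sub_le d d'
    have h3 := hn d hd
    have h4 := hn d' hd'
    have h5 : t * (ab M * ab v) ≤ 2 * D * F.card := by rw [← h1]; linarith
    by_contra hcon
    push Not at hcon
    have h6 : t * ab M ^ 2 ≤ t * (ab M * ab v) := by
      apply mul_le_mul_of_nonneg_left _ ht0.le
      nlinarith
    have h7 : K * F.card ≤ 4 * D * F.card := by linarith
    have h8 := le_of_mul_le_mul_right h7 hFc
    linarith
  have hv1 := hshort hM ht0 hd hd' hre him hlow
  have hv1' := hshort hM' ht0' he he' hre' him' hlow'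
  set w := M * v with hw
  set w' := M' * v' with hw'
  have hdet0 : det w w' = 0 := by
    have h1 := det_diff4 hdet hd hd' he he'
    have h2 : (det (d - d') (e - e') : ℝ) = t * t' * det w w' := by
      unfold det
      push_cast
      rw [hre, him, hre', him']; ring
    rw [h2, abs_mul, abs_of_pos (mul_pos ht0 ht0')] at h1
    have h3 : |(det w w' : ℝ)| < 1 := by
      by_contra hcon
      push Not at hcon
      have h4 : t * t' ≤ 4 * C * F.card := by
        have := mul_le_mul_of_nonneg_left hcon (mul_pos ht0 ht0').le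
        linarith
      have h5 : (K * F.card) * (K * F.card) ≤ (2 * t * ab M ^ 2) * (2 * t' * ab M' ^ 2) :=
        mul_le_mul hlow hlow' (by positivity) (by positivity)
      have h6 : (2 * t * ab M ^ 2) * (2 * t' * ab M' ^ 2)
          = 4 * (t * t') * (ab M ^ 2 * ab M' ^ 2) := by ring
      have h7 : 4 * (t * t') * (ab M ^ 2 * ab M' ^ 2)
          ≤ 4 * (4 * C * F.card) * (ab M ^ 2 * ab M' ^ 2) := by
        apply mul_le_mul_of_nonneg_right _ (by positivity)
        linarith
      have h8 : K ^ 2 * F.card * F.card ≤ (16 * C * (ab M ^ 2 * ab M' ^ 2)) * F.card := by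
        calc K ^ 2 * F.card * F.card = (K * F.card) * (K * F.card) := by ring
          _ ≤ _ := h5
          _ = _ := h6
          _ ≤ _ := h7
          _ = _ := by ring
      have h9 := le_of_mul_le_mul_right h8 hFc
      linarith
    have h13 : |det w w'| < 1 := by exact_mod_cast h3
    exact Int.abs_lt_one_iff.1 h13
  have hstar : w * star w' = star w * w' := by
    unfold det at hdet0
    apply Zsqrtd.ext
    · simp only [Zsqrtd.re_mul, Zsqrtd.re_star, Zsqrtd.im_star]; ring
    · simp only [Zsqrtd.im_mul, Zsqrtd.re_star, Zsqrtd.im_star]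
      linarith
  have hstar2 : (M * star M') * (v * star v') = (star M * M') * (star v * v') := by
    have h1 : w * star w' = (M * star M') * (v * star v') := by
      rw [hw, hw', star_mul]; ring
    have h2 : star w * w' = (star M * M') * (star v * v') := by
      rw [hw, hw', star_mul]; ring
    rw [← h1, ← h2, hstar]
  have hdvd : M * star M' ∣ star v * v' := by
    have h1 : M * star M' ∣ (star M * M') * (star v * v') := ⟨_, hstar2.symm⟩
    exact hcop.dvd_of_dvd_mul_left h1
  have hsv : star v ≠ 0 := by rwa [Ne, star_eq_zero]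
  have habs : ∀ z : GaussianInt, ab (star z) = ab z := by
    intro z
    have : ab (star z) ^ 2 = ab z ^ 2 := by
      rw [ab_sq, ab_sq]; unfold dot
      simp only [Zsqrtd.re_star, Zsqrtd.im_star]; push_cast; ring
    exact (sq_eq_sq₀ (ab_nonneg _) (ab_nonneg _)).1 this
  obtain ⟨k, hk⟩ := hdvd
  have hk0 : k ≠ 0 := by
    rintro rfl
    rw [mul_zero] at hk
    rcases mul_eq_zero.1 hk with h | h
    · exact hsv h
    · exact hv0' h
  have h1 : ab M * ab M' ≤ ab v * ab v' := by
    have h2 : ab (star v * v') = ab M * ab M' * ab k := by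
      rw [hk, ab_mul, ab_mul, habs]
    rw [ab_mul, habs] at h2
    rw [h2]
    have := one_le_ab hk0
    nlinarith [mul_pos hMp hMp']
  have hvp : 0 ≤ ab v := ab_nonneg v
  have hvp' : 0 ≤ ab v' := ab_nonneg v'
  nlinarith

/-- norm of a product of primes -/
theorem prod_norm_eq (S : Finset GaussianInt) :
    (∏ p ∈ S, ((p.norm : ℤ) : ℝ)) = ab (∏ p ∈ S, p) ^ 2 := by
  have h1 : ∀ z : GaussianInt, ((z.norm : ℤ) : ℝ) = ab z ^ 2 := by
    intro z
    rw [ab_sq, Zsqrtd.norm_def]
    unfold dot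
    push_cast; ring
  induction S using Finset.induction_on with
  | empty =>
    have : ab (1 : GaussianInt) = 1 := by
      change ‖GaussianInt.toComplex 1‖ = 1
      rw [map_one, norm_one]
    simp [this]
  | insert p S hp ih =>
    rw [Finset.prod_insert hp, Finset.prod_insert hp, ih, h1, ab_mul]; ring

open Classical Pointwise in
/-- **The per-point kernel of K8.** -/
theorem pairKernel : PairKernelStmt := by
  intro D hD δ hδ
  set C : ℝ := (4 * ⌊D⌋₊ + 1) ^ 2 with hC
  have hC1 : 1 ≤ C := by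
    rw [hC]
    have : (0 : ℝ) ≤ (⌊D⌋₊ : ℝ) := by positivity
    nlinarith
  have hC0 : 0 < C := by linarith
  have hD0 : 0 < D := by linarith
  refine ⟨max D ((16 * C + 4 * D) / δ), ?_⟩
  intro b hb E hE z hz 𝒮 hS hSn
  have hbD : D ≤ b := (le_max_left _ _).trans hb
  have hb0 : 0 < b := by linarith
  have hbδ : 16 * C + 4 * D ≤ δ * b := by
    have := (le_max_right _ _).trans hb
    rw [div_le_iff₀ hδ] at this
    linarith
  set K : ℝ := Real.exp (δ * b) with hK
  have hKbig : 16 * C + 4 * D < K := by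
    have := Real.add_one_le_exp (δ * b)
    linarith
  have hK0 : 0 < K := Real.exp_pos _
  -- the path
  obtain ⟨n₀, γ, hγ0, hγE, hγD, hγX⟩ := hE z hz (Real.exp (3 * b))
  have hex : ∃ n, Real.exp (3 * b) ≤ ab (γ n - z) := ⟨n₀, hγX⟩
  set n := Nat.find hex with hn
  have hnn₀ : n ≤ n₀ := Nat.find_min' hex hγX
  have hnX : Real.exp (3 * b) ≤ ab (γ n - z) := Nat.find_spec hex
  have hlt : ∀ i < n, ab (γ i - z) < Real.exp (3 * b) := by
    intro i hi
    have := Nat.find_min hex hi
    push Not at this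
    exact this
  have hexpD : Real.exp (3 * b) + D ≤ Real.exp (4 * b) := by
    have h1 : Real.exp (4 * b) = Real.exp b * Real.exp (3 * b) := by
      rw [← Real.exp_add]; ring_nf
    have h2 : b + 1 ≤ Real.exp b := Real.add_one_le_exp b
    have h3 : 1 ≤ Real.exp (3 * b) := Real.one_le_exp (by linarith)
    rw [h1]
    nlinarith
  have hle : ∀ i ≤ n, ab (γ i - z) ≤ Real.exp (4 * b) := by
    intro i hi
    rcases hi.lt_or_eq with h | h
    · have := hlt i h
      linarith
    · subst h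
      have hpos : 0 < n := by
        rcases Nat.eq_zero_or_pos n with h0 | h0
        · exfalso
          have hz0 : ab (0 : GaussianInt) = 0 := by
            change ‖GaussianInt.toComplex 0‖ = 0
            rw [map_zero, norm_zero]
          rw [h0, hγ0, sub_self, hz0] at hnX
          exact absurd (Real.exp_pos (3 * b)) (not_lt.2 hnX)
        · exact h0
      obtain ⟨m, hm⟩ : ∃ m, n = m + 1 := ⟨n - 1, by omega⟩
      have h1 := hlt m (by omega)
      have h2 := hγD m (by omega)
      have h3 : ab (γ n - z) ≤ ab (γ (m + 1) - γ m) + ab (γ m - z) := by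
        rw [hm]
        have : γ (m + 1) - z = (γ (m + 1) - γ m) + (γ m - z) := by ring
        rw [this]
        change ‖GaussianInt.toComplex _‖ ≤ _
        rw [map_add]
        exact norm_add_le _ _
      linarith
  set Γ : Finset GaussianInt := (Finset.range (n + 1)).image γ with hΓ
  have hmemΓ : ∀ x ∈ Γ, ∃ i ≤ n, γ i = x := by
    intro x hx
    rw [hΓ, Finset.mem_image] at hx
    obtain ⟨i, hi, rfl⟩ := hx
    exact ⟨i, by simpa [Nat.lt_succ_iff] using hi, rfl⟩
  have hΓmem : ∀ i ≤ n, γ i ∈ Γ := by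
    intro i hi
    rw [hΓ, Finset.mem_image]
    exact ⟨i, by simpa [Nat.lt_succ_iff] using hi, rfl⟩
  have hpath : T635.DPath D Γ n γ := by
    refine ⟨fun i hi => hγD i (by omega), hΓmem⟩
  set F : Finset GaussianInt := Γ - Γ with hF
  have hmemF : ∀ d ∈ F, ∃ i ≤ n, ∃ j ≤ n, γ j - γ i = d := by
    intro d hd
    rw [hF, Finset.mem_sub] at hd
    obtain ⟨x, hx, y, hy, rfl⟩ := hd
    obtain ⟨i, hi, rfl⟩ := hmemΓ x hx
    obtain ⟨j, hj, rfl⟩ := hmemΓ y hy
    exact ⟨j, hj, i, hi, rfl⟩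
  have hdet : ∀ d ∈ F, ∀ e ∈ F, |(det d e : ℝ)| ≤ C * F.card := by
    intro d hd e he
    obtain ⟨i, hi, j, hj, rfl⟩ := hmemF d hd
    obtain ⟨k, hk, l, hl, rfl⟩ := hmemF e he
    exact T635.dpath_det_le hpath hi hj hk hl
  have hΓF : (Γ.card : ℝ) ≤ F.card := by
    have h1 : Γ.card ≤ F.card := by
      have hne : Γ.Nonempty := ⟨γ 0, hΓmem 0 (Nat.zero_le _)⟩
      rw [hF]
      exact Finset.card_le_card_sub_right hne
    exact_mod_cast h1
  have hnorm : ∀ d ∈ F, ab d ≤ D * F.card := by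
    intro d hd
    obtain ⟨i, hi, j, hj, rfl⟩ := hmemF d hd
    have h1 := hpath.norm_le hD0.le hi hj
    exact h1.trans (mul_le_mul_of_nonneg_left hΓF hD0.le)
  have hFbig : Real.exp (3 * b) ≤ D * F.card := by
    have h1 : γ n - z ∈ F := by
      rw [hF, ← hγ0]
      exact Finset.sub_mem_sub (hΓmem n le_rfl) (hΓmem 0 (Nat.zero_le _))
    exact hnX.trans (hnorm _ h1)
  have hFc : 0 < (F.card : ℝ) := by
    have := Real.exp_pos (3 * b)
    by_contra hcon
    push Not at hcon
    nlinarith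
  have hFne : F.Nonempty := by
    rw [← Finset.card_pos]; exact_mod_cast hFc
  -- choice of the pair
  have hch : ∀ d : GaussianInt, ∃ p : GaussianInt × GaussianInt, d ∈ F →
      p.1 - p.2 = d ∧ (z + p.1 ∈ E ∧ z + p.2 ∈ E) ∧
        (ab p.1 ≤ Real.exp (4 * b) ∧ ab p.2 ≤ Real.exp (4 * b)) := by
    intro d
    by_cases hd : d ∈ F
    · obtain ⟨i, hi, j, hj, rfl⟩ := hmemF d hd
      refine ⟨(γ j - z, γ i - z), fun _ => ⟨by simp, ⟨?_, ?_⟩, hle j hj, hle i hi⟩⟩
      · have : z + (γ j - z) = γ j := by ring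
        simp only
        rw [this]
        exact hγE j (hj.trans hnn₀)
      · have : z + (γ i - z) = γ i := by ring
        simp only
        rw [this]
        exact hγE i (hi.trans hnn₀)
    · exact ⟨(0, 0), fun h => absurd h hd⟩
  choose p hp using hch
  refine ⟨F, fun d => (p d).1, fun d => (p d).2, hFne, ?_, ?_⟩
  · intro d hd
    obtain ⟨h1, ⟨h2, h3⟩, h4, h5⟩ := hp d hd
    exact ⟨h1, h2, h3, h4, h5⟩
  -- at most one bad block
  have hMne : ∀ S ∈ 𝒮, (∏ p ∈ S, p) ≠ 0 := fun S hSm =>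
    Finset.prod_ne_zero_iff.2 fun p hp => (hS.prime S hSm p hp).ne_zero
  have hN : ∀ S ∈ 𝒮, ab (∏ p ∈ S, p) ^ 2 ≤ Real.exp b := by
    intro S hSm
    rw [← prod_norm_eq]; exact hSn S hSm
  have hexp3 : Real.exp (3 * b) = Real.exp b * Real.exp b * Real.exp b := by
    rw [← Real.exp_add, ← Real.exp_add]; ring_nf
  have he1 : 1 ≤ Real.exp b := Real.one_le_exp hb0.le
  have htwo : ∀ S ∈ 𝒮, ∀ a : GaussianInt,
      K * F.card < ((F.filter fun d => (∏ p ∈ S, p) ∣ d - a).card : ℝ) * ab (∏ p ∈ S, p) ^ 2 →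
      1 < (F.filter fun d => (∏ p ∈ S, p) ∣ d - a).card := by
    intro S hSm a hbig
    have h1 := hN S hSm
    set n1 : ℝ := ((F.filter fun d => (∏ p ∈ S, p) ∣ d - a).card : ℝ) with hn1
    have h2 : 0 ≤ n1 := by positivity
    have h3 : n1 * ab (∏ p ∈ S, p) ^ 2 ≤ n1 * Real.exp b := mul_le_mul_of_nonneg_left h1 h2
    have h4 : 4 * D * F.card ≤ K * F.card := mul_le_mul_of_nonneg_right (by linarith) hFc.le
    have h5 : 4 * (Real.exp b * Real.exp b * Real.exp b) < n1 * Real.exp b := by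
      rw [← hexp3]; linarith
    have h6 : 4 * (Real.exp b * Real.exp b) < n1 := by
      have h7 : (4 * (Real.exp b * Real.exp b)) * Real.exp b < n1 * Real.exp b := by linarith
      exact lt_of_mul_lt_mul_right h7 (Real.exp_pos b).le
    have h8 : (1 : ℝ) < n1 := by nlinarith
    rw [hn1] at h8
    exact_mod_cast h8
  by_cases hall : ∀ S ∈ 𝒮, ∀ a : GaussianInt,
      ((F.filter fun d => (∏ p ∈ S, p) ∣ d - a).card : ℝ) * ab (∏ p ∈ S, p) ^ 2 ≤ K * F.card
  · refine ⟨∅, fun S hSm _ a => ?_⟩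
    rw [prod_norm_eq]
    exact hall S hSm a
  · push Not at hall
    obtain ⟨S₀, hS₀, a₀, hbig₀⟩ := hall
    refine ⟨S₀, fun S hSm hne a => ?_⟩
    rw [prod_norm_eq]
    by_contra hbig
    push Not at hbig
    have hcop := coprime_blocks S₀ S (hS.prime S₀ hS₀) (hS.prime S hSm)
      (fun p hp q hq hass => by
        have h1 := hS.nonassoc S₀ hS₀ S hSm p hp q hq hass
        subst h1
        exact Finset.disjoint_left.1 (hS.disj S₀ hS₀ S hSm (Ne.symm hne)) hp hq)
      (fun p hp q hq => hS.star S₀ hS₀ S₀ hS₀ p hp q hq)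
      (fun p hp q hq => hS.star S hSm S hSm p hp q hq)
    have hA : 16 * C * (ab (∏ p ∈ S₀, p) ^ 2 * ab (∏ p ∈ S, p) ^ 2) < K ^ 2 * F.card := by
      have h1 : ab (∏ p ∈ S₀, p) ^ 2 * ab (∏ p ∈ S, p) ^ 2 ≤ Real.exp b * Real.exp b :=
        mul_le_mul (hN S₀ hS₀) (hN S hSm) (by positivity) (by positivity)
      have h2 : Real.exp b * Real.exp b ≤ Real.exp (3 * b) := by
        rw [hexp3]; nlinarith [mul_pos (Real.exp_pos b) (Real.exp_pos b)]
      have h3 : 16 * C * (ab (∏ p ∈ S₀, p) ^ 2 * ab (∏ p ∈ S, p) ^ 2) ≤ 16 * C * (D * F.card) := by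
        apply mul_le_mul_of_nonneg_left _ (by positivity)
        linarith
      have h4 : 16 * C * (D * F.card) < K ^ 2 * F.card := by
        have h5 : 16 * C * D < K ^ 2 := by
          have h6 : 16 * C < K := by linarith
          have h7 : D < K := by linarith
          nlinarith
        nlinarith
      linarith
    exact two_bad hC0 hD0 hdet hnorm (by linarith) (by linarith) (hMne S₀ hS₀) (hMne S hSm) hcop hA
      a₀ a (htwo S₀ hS₀ a₀ hbig₀) hbig₀ (htwo S hSm a hbig) hbig

end Crest.Agent.R2.K8
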