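import Crest.Agent.R2.Kac587f
import Crest.Agent.R2.Pair679

/-!
# R2 (Gaussian moat), block K8: near-full Kac
-/

set_option autoImplicit false

namespace Crest.Agent.R2.K8

/-- **Near-full Kac** (block K8 of #11399). -/
theorem kacStmt : X149.KacStmt := kacStmt_of_pair pairKernel

end Crest.Agent.R2.K8
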