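import Crest.Agent.R2.Kit123
import Crest.Agent.R2.Torus635
import Crest.Agent.R2.K8Def587

/-!
# R2 (Gaussian moat), block K8, part a: the entropy lines of near-full Kac
-/

set_option autoImplicit false
set_option linter.unusedSectionVars false

namespace Crest.Agent.R2.K8

open Finset Crest.Agent.R055 Crest.Agent.R2.Kit Crest.Agent.R2.Gcd62

/-- Residue class of `z` modulo all `p ∈ S`, coded as a set. -/
def rs (S : Finset GaussianInt) (z : GaussianInt) : Set GaussianInt := {x | ∀ p ∈ S, p ∣ x - z}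

theorem rs_eq_iff {S : Finset GaussianInt} {z z' : GaussianInt} :
    rs S z = rs S z' ↔ ∀ p ∈ S, p ∣ z - z' := by
  constructor
  · intro h p hp
    have h1 : z ∈ rs S z := fun q _ => by simp
    rw [h] at h1
    exact h1 p hp
  · intro h
    ext x
    constructor
    · intro hx p hp
      have h1 := hx p hp
      have h2 := h p hp
      have h3 : x - z' = (x - z) + (z - z') := by ring
      rw [h3]; exact dvd_add h1 h2
    · intro hx p hp
      have h1 := hx p hp
      have h2 := h p hp
      have h3 : x - z = (x - z') - (z - z') := by ring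
      rw [h3]; exact dvd_sub h1 h2

section entropy

variable {Ω : Type*} [Fintype Ω] {P : Ω → ℝ}

/-- The one-line difference inequality (dependent Ruzsa triangle inequality). -/
theorem ruzsa (hP : IsProb P) (S : Finset GaussianInt) (z y y' : Ω → GaussianInt) :
    ent P (fun ω => rs S (y ω - y' ω)) ≤
      ent P (fun ω => rs S (z ω + y ω)) + ent P (fun ω => rs S (z ω + y' ω))
        + (ent P (fun ω => (y ω, y' ω)) - ent P (fun ω => (rs S (z ω), (y ω, y' ω)))) := by
  have h := ent_submod hP (fun ω => (rs S (z ω + y ω), rs S (z ω + y' ω)))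
    (fun ω => (y ω, y' ω)) (fun ω => rs S (y ω - y' ω))
  have h1 : ent P (fun ω => ((rs S (z ω + y ω), rs S (z ω + y' ω)), (y ω, y' ω),
      rs S (y ω - y' ω))) = ent P (fun ω => (rs S (z ω), (y ω, y' ω))) := by
    apply ent_congr
    intro a b
    simp only [Prod.mk.injEq]
    constructor
    · rintro ⟨⟨h1, -⟩, ⟨h2, h3⟩, -⟩
      refine ⟨?_, h2, h3⟩
      rw [rs_eq_iff] at h1 ⊢
      intro p hp
      have := h1 p hp
      rw [h2] at this
      simpa using this
    · rintro ⟨h1, h2, h3⟩
      refine ⟨⟨?_, ?_⟩, ⟨h2, h3⟩, ?_⟩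
      · rw [rs_eq_iff] at h1 ⊢
        intro p hp
        have := h1 p hp
        rw [h2]
        simpa using this
      · rw [rs_eq_iff] at h1 ⊢
        intro p hp
        have := h1 p hp
        rw [h3]
        simpa using this
      · rw [h2, h3]
  have h2 : ent P (fun ω => ((rs S (z ω + y ω), rs S (z ω + y' ω)), rs S (y ω - y' ω)))
      = ent P (fun ω => (rs S (z ω + y ω), rs S (z ω + y' ω))) := by
    apply ent_congr
    intro a b
    simp only [Prod.mk.injEq]
    constructor
    · rintro ⟨h1, -⟩; exact h1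
    · rintro ⟨h1, h2⟩
      refine ⟨⟨h1, h2⟩, ?_⟩
      rw [rs_eq_iff] at h1 h2 ⊢
      intro p hp
      have e : y b - y' b - (y a - y' a) = (z b + y b - (z a + y a)) - (z b + y' b - (z a + y' a)) := by
        ring
      rw [e]; exact dvd_sub (h1 p hp) (h2 p hp)
  have h3 : ent P (fun ω => ((y ω, y' ω), rs S (y ω - y' ω))) = ent P (fun ω => (y ω, y' ω)) := by
    apply ent_congr
    intro a b
    simp only [Prod.mk.injEq]
    constructor
    · rintro ⟨h1, -⟩; exact h1
    · rintro ⟨h1, h2⟩
      exact ⟨⟨h1, h2⟩, by rw [h1, h2]⟩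
  have h4 := ent_subadd hP (fun ω => rs S (z ω + y ω)) (fun ω => rs S (z ω + y' ω))
  rw [h1, h2, h3] at h
  linarith

/-- Conditional subadditivity over a union of blocks. -/
theorem cond_union {ι R : Type*} [DecidableEq ι] (hP : IsProb P) (U : Finset ι)
    (B : ι → Finset GaussianInt) (z : Ω → GaussianInt) (Y : Ω → R) :
    ent P (fun ω => (rs (U.biUnion B) (z ω), Y ω)) - ent P Y ≤
      ∑ u ∈ U, (ent P (fun ω => (rs (B u) (z ω), Y ω)) - ent P Y) := by
  classical
  induction U using Finset.induction_on with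
  | empty =>
    have : ent P (fun ω => (rs ((∅ : Finset ι).biUnion B) (z ω), Y ω)) = ent P Y := by
      apply ent_congr
      intro a b
      simp only [Prod.mk.injEq, and_iff_right_iff_imp]
      intro _
      rw [rs_eq_iff]
      simp
    rw [this]; simp
  | insert u U hu ih =>
    rw [Finset.sum_insert hu]
    have h1 : ent P (fun ω => (rs ((insert u U).biUnion B) (z ω), Y ω))
        = ent P (fun ω => ((rs (B u) (z ω), rs (U.biUnion B) (z ω)), Y ω)) := by
      apply ent_congr
      intro a b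
      simp only [Prod.mk.injEq, rs_eq_iff, Finset.biUnion_insert, Finset.mem_union]
      constructor
      · rintro ⟨h1, h2⟩
        exact ⟨⟨fun p hp => h1 p (Or.inl hp), fun p hp => h1 p (Or.inr hp)⟩, h2⟩
      · rintro ⟨⟨h1, h2⟩, h3⟩
        exact ⟨fun p hp => hp.elim (h1 p) (h2 p), h3⟩
    rw [h1]
    have h2 := cond_subadd hP (fun ω => rs (B u) (z ω)) (fun ω => rs (U.biUnion B) (z ω)) Y
    linarith

/-- The sum over the children of a parent block: near independence for free. -/
theorem children_le {ι R : Type*} [DecidableEq ι] (hP : IsProb P) (U : Finset ι)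
    (B : ι → Finset GaussianInt) (z : Ω → GaussianInt) (Y : Ω → R) :
    ∑ u ∈ U, (ent P Y - ent P (fun ω => (rs (B u) (z ω), Y ω))) ≤
      ent P Y - ent P (fun ω => rs (U.biUnion B) (z ω)) := by
  have h1 := cond_union hP U B z Y
  have h2 := ent_le_ent_pair_left hP (fun ω => rs (U.biUnion B) (z ω)) Y
  have h3 : ∑ u ∈ U, (ent P Y - ent P (fun ω => (rs (B u) (z ω), Y ω)))
      = - ∑ u ∈ U, (ent P (fun ω => (rs (B u) (z ω), Y ω)) - ent P Y) := by
    rw [← Finset.sum_neg_distrib]
    apply Finset.sum_congr rfl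
    intro u _; ring
  rw [h3]
  linarith

/-- `H(z mod S) ≤ log N(M_S)`. -/
theorem ent_rs_le (hP : IsProb P) (S : Finset GaussianInt) (hS : ∀ p ∈ S, p ≠ 0)
    (z : Ω → GaussianInt) :
    ent P (fun ω => rs S (z ω)) ≤ Real.log (∏ p ∈ S, ((p.norm : ℤ) : ℝ)) := by
  classical
  set M : GaussianInt := ∏ p ∈ S, p with hM
  have hM0 : M ≠ 0 := Finset.prod_ne_zero_iff.2 hS
  set iM : GaussianInt := ⟨0, 1⟩ * M with hiM
  have hdet : T635.det M iM = M.norm := by
    unfold T635.det
    rw [hiM, Zsqrtd.norm_def]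
    simp [Zsqrtd.re_mul, Zsqrtd.im_mul]
  have hdet0 : T635.det M iM ≠ 0 := by
    rw [hdet]
    exact ne_of_gt (GaussianInt.norm_pos.2 hM0)
  have hfin : Finite (GaussianInt ⧸ T635.Lat M iM) := T635.finite_quotient hdet0
  let _ : Fintype (GaussianInt ⧸ T635.Lat M iM) := Fintype.ofFinite _
  have h1 : ent P (fun ω => rs S (z ω)) ≤
      ent P (fun ω => (QuotientAddGroup.mk (z ω) : GaussianInt ⧸ T635.Lat M iM)) := by
    apply ent_mono hP.nonneg
    intro a b h
    rw [QuotientAddGroup.eq, T635.mem_Lat] at h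
    obtain ⟨s, t, h⟩ := h
    rw [rs_eq_iff]
    intro p hp
    have hpM : p ∣ M := Finset.dvd_prod_of_mem _ hp
    have h2 : z b - z a = -((s : GaussianInt) * M + (t : GaussianInt) * (⟨0, 1⟩ * M)) := by
      have h3 : z b - z a = -(-z b + z a) := by ring
      rw [h3, h]
      simp [hiM, zsmul_eq_mul]
    rw [h2]
    exact (dvd_neg).2 (dvd_add (hpM.mul_left _) ((hpM.mul_left _).mul_left _))
  have h2 := ent_le_log_card hP (fun ω => (QuotientAddGroup.mk (z ω) :
    GaussianInt ⧸ T635.Lat M iM))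
  have h3 : (Fintype.card (GaussianInt ⧸ T635.Lat M iM) : ℝ) = ∏ p ∈ S, ((p.norm : ℤ) : ℝ) := by
    have h4 := T635.card_quotient M iM hdet0
    rw [Nat.card_eq_fintype_card, hdet] at h4
    rw [h4]
    have h5 : (0 : ℤ) ≤ M.norm := GaussianInt.norm_nonneg M
    have h6 : ((M.norm.natAbs : ℕ) : ℝ) = ((M.norm : ℤ) : ℝ) := by
      rw [Nat.cast_natAbs, abs_of_nonneg h5]
    rw [h6, hM]
    have h7 : (∏ p ∈ S, p).norm = ∏ p ∈ S, p.norm := by
      exact map_prod (Zsqrtd.normMonoidHom) _ _
    rw [h7]; push_cast; rfl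
  rw [h3] at h2
  linarith

end entropy

end Crest.Agent.R2.K8
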