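import Crest.Agent.R2.Kac587a

/-!
# R2 (Gaussian moat), block K8, part b: extension by a kernel, lower bound by fibres
-/

set_option autoImplicit false
set_option linter.unusedSectionVars false

namespace Crest.Agent.R2.K8

open Finset hiding ext
open Crest.Agent.R055 Crest.Agent.R2.Kit Crest.Agent.R2.Gcd62

section kernel

variable {Ω : Type*} [Fintype Ω] {P : Ω → ℝ} {T : Type*} [Fintype T] {κ : Ω → T → ℝ}

theorem cls_ext {S : Type*} (X : Ω → T → S) (ω : Ω) (t : T) :
    cls (ext P κ) (fun x => (X x.1 x.2, x.1)) (ω, t) = P ω * cls (κ ω) (X ω) t := by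
  classical
  unfold cls ext
  rw [Fintype.sum_prod_type, Finset.sum_eq_single ω]
  · rw [Finset.mul_sum]
    apply Finset.sum_congr rfl
    intro t' _
    by_cases h : X ω t' = X ω t
    · simp [h]
    · simp [h]
  · intro b _ hb
    apply Finset.sum_eq_zero
    intro t' _
    rw [if_neg]
    intro h
    exact hb (Prod.mk.inj h).2
  · intro h; exact absurd (Finset.mem_univ _) h

theorem cls_self (ω : Ω) : cls P (fun ω => ω) ω = P ω := by
  classical
  unfold cls
  rw [Finset.sum_ite_eq' Finset.univ ω P]
  simp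

/-- If every conditional fibre has mass `≤ exp (- h ω)` then `H(X) ≥ E h`. -/
theorem fibre {S : Type*} (hP : IsProb P) (hκ : ∀ ω, IsProb (κ ω)) (X : Ω → T → S) (h : Ω → ℝ)
    (hX : ∀ ω t, 0 < P ω → 0 < κ ω t → cls (κ ω) (X ω) t ≤ Real.exp (- h ω)) :
    ∑ ω, P ω * h ω ≤ ent (ext P κ) (fun x => X x.1 x.2) := by
  have hE := isProb_ext hP hκ
  have h1 := ent_subadd hE (fun x => X x.1 x.2) (fun x => x.1)
  have h2 : ent (ext P κ) (fun x : Ω × T => x.1) = ent P (fun ω => ω) :=
    (pushes_ext hκ).ent_eq (fun ω => ω)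
  have h3 : ent (ext P κ) (fun x : Ω × T => x.1) = ∑ x : Ω × T, ext P κ x * (- Real.log (P x.1)) := by
    rw [h2]
    unfold ent
    rw [← (pushes_ext hκ).sum_mul]
    apply Finset.sum_congr rfl
    intro x _
    rw [cls_self]
  have h4 : ent (ext P κ) (fun x : Ω × T => x.1) + ∑ ω, P ω * h ω ≤
      ent (ext P κ) (fun x => (X x.1 x.2, x.1)) := by
    rw [h3]
    have h5 : ∑ ω, P ω * h ω = ∑ x : Ω × T, ext P κ x * h x.1 :=
      ((pushes_ext hκ).sum_mul (P := P) h).symm
    rw [h5, ← Finset.sum_add_distrib]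
    unfold ent
    apply Finset.sum_le_sum
    rintro ⟨ω, t⟩ _
    rcases (hE.nonneg (ω, t)).lt_or_eq with hi | hi
    · rw [cls_ext]
      have hpos : 0 < P ω * κ ω t := hi
      have hP0 : 0 < P ω := by
        rcases (hP.nonneg ω).lt_or_eq with h' | h'
        · exact h'
        · rw [← h'] at hpos; simp at hpos
      have hκ0 : 0 < κ ω t := by
        rcases ((hκ ω).nonneg t).lt_or_eq with h' | h'
        · exact h'
        · rw [← h'] at hpos; simp at hpos
      have hc := hX ω t hP0 hκ0
      have hc0 : 0 < cls (κ ω) (X ω) t := cls_pos (hκ ω).nonneg _ hκ0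
      rw [← mul_add]
      apply mul_le_mul_of_nonneg_left _ hi.le
      rw [Real.log_mul hP0.ne' hc0.ne']
      have := Real.log_le_log hc0 hc
      rw [Real.log_exp] at this
      linarith
    · simp [← hi]
  linarith

end kernel

/-! ### uniform kernels on finsets -/

section unif

variable {Ω : Type*} [Fintype Ω]

open Classical in
/-- the finite type of all values -/
noncomputable def vals (F : Ω → Finset GaussianInt) : Finset GaussianInt := Finset.univ.biUnion F

open Classical in
/-- uniform kernel -/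
noncomputable def uk (F : Ω → Finset GaussianInt) (ω : Ω) (t : vals F) : ℝ :=
  if (t : GaussianInt) ∈ F ω then 1 / ((F ω).card : ℝ) else 0

theorem mem_vals {F : Ω → Finset GaussianInt} {ω : Ω} {d : GaussianInt} (h : d ∈ F ω) :
    d ∈ vals F := by
  classical
  unfold vals
  exact Finset.mem_biUnion.2 ⟨ω, Finset.mem_univ _, h⟩

theorem sum_uk (F : Ω → Finset GaussianInt) (ω : Ω) (f : GaussianInt → ℝ) :
    ∑ t : vals F, uk F ω t * f t = (∑ d ∈ F ω, f d) / ((F ω).card : ℝ) := by
  classical
  have h1 : ∑ t : vals F, uk F ω t * f t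
      = ∑ d ∈ vals F, (if d ∈ F ω then 1 / ((F ω).card : ℝ) else 0) * f d :=
    Finset.sum_coe_sort (vals F) (fun d => (if d ∈ F ω then 1 / ((F ω).card : ℝ) else 0) * f d)
  rw [h1]
  simp_rw [ite_mul, zero_mul]
  rw [← Finset.sum_filter]
  have h2 : (vals F).filter (fun d => d ∈ F ω) = F ω := by
    ext d
    simp only [Finset.mem_filter]
    exact ⟨fun h => h.2, fun h => ⟨mem_vals h, h⟩⟩
  rw [h2, Finset.sum_div]
  apply Finset.sum_congr rfl
  intro d _; ring

theorem isProb_uk (F : Ω → Finset GaussianInt) (hF : ∀ ω, (F ω).Nonempty) (ω : Ω) :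
    IsProb (uk F ω) := by
  classical
  constructor
  · intro t
    unfold uk
    split_ifs
    · positivity
    · exact le_rfl
  · have h := sum_uk F ω (fun _ => 1)
    simp only [mul_one, Finset.sum_const, nsmul_eq_mul] at h
    rw [h]
    have : ((F ω).card : ℝ) ≠ 0 := by
      exact_mod_cast (Finset.card_pos.2 (hF ω)).ne'
    exact div_self this

theorem uk_pos {F : Ω → Finset GaussianInt} {ω : Ω} {t : vals F} (h : 0 < uk F ω t) :
    (t : GaussianInt) ∈ F ω := by
  classical
  unfold uk at h
  by_contra hn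
  rw [if_neg hn] at h
  exact lt_irrefl _ h

/-- fibre of a function of the value, for the uniform kernel. -/
theorem cls_uk {S : Type*} (F : Ω → Finset GaussianInt) (ω : Ω) (X : GaussianInt → S)
    (t : vals F) [DecidablePred fun d : GaussianInt => X d = X t] :
    cls (uk F ω) (fun t => X t) t
      = (((F ω).filter fun d => X d = X t).card : ℝ) / ((F ω).card : ℝ) := by
  classical
  have h := sum_uk F ω (fun d => if X d = X t then 1 else 0)
  unfold cls
  have h1 : (∑ t' : vals F, if X t' = X t then uk F ω t' else 0)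
      = ∑ t' : vals F, uk F ω t' * (if X t' = X t then 1 else 0) := by
    apply Finset.sum_congr rfl
    intro t' _
    split_ifs <;> simp
  have h2 : (∑ t' : vals F, @ite ℝ (X t' = X t) (Classical.propDecidable _) (uk F ω t') 0)
      = (∑ t' : vals F, if X t' = X t then uk F ω t' else 0) := by
    apply Finset.sum_congr rfl
    intro t' _
    congr
  rw [h2, h1, h, Finset.sum_boole]

end unif

end Crest.Agent.R2.K8
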