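import Crest.Agent.R2.Kac587b

/-!
# R2 (Gaussian moat), block K8, part c: the inequality at one level
-/

set_option autoImplicit false
set_option linter.unusedSectionVars false

namespace Crest.Agent.R2.K8

open Finset hiding ext
open Crest.Agent.R055 Crest.Agent.R2.Kit Crest.Agent.R2.Gcd62

theorem isCoprime_of_primes {p q : GaussianInt} (hp : Prime p) (hq : Prime q)
    (h : ¬ Associated p q) : IsCoprime p q := by
  rcases EuclideanDomain.dvd_or_coprime p q hp.irreducible with h1 | h1
  · exact absurd (hp.associated_of_dvd hq h1) h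
  · exact h1

theorem prod_dvd_of_rs {S : Finset GaussianInt} (hS : ∀ p ∈ S, Prime p)
    (hass : ∀ p ∈ S, ∀ q ∈ S, Associated p q → p = q) {d t : GaussianInt}
    (h : rs S d = rs S t) : (∏ p ∈ S, p) ∣ d - t := by
  rw [rs_eq_iff] at h
  apply Finset.prod_dvd_of_coprime
  · intro p hp q hq hpq
    exact isCoprime_of_primes (hS p hp) (hS q hq) (fun h' => hpq (hass p hp q hq h'))
  · intro p hp; exact h p hp

theorem sum_range_mul (f : ℕ → ℝ) (m n' : ℕ) :
    ∑ j ∈ range (n' * m), f j = ∑ j' ∈ range n', ∑ u ∈ range m, f (j' * m + u) := by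
  induction n' with
  | zero => simp
  | succ n ih =>
    rw [Nat.succ_mul, Finset.sum_range_add, ih, Finset.sum_range_succ]

theorem log_ball {b : ℝ} (hb : 2 ≤ b) :
    Real.log ((ball (Real.exp (4 * b))).card : ℝ) ≤ 10 * b := by
  have h0 : (0 : ℝ) ≤ Real.exp (4 * b) := (Real.exp_pos _).le
  have h1 := card_ball h0
  have hne : 0 < ((ball (Real.exp (4 * b))).card : ℝ) := by
    have : (0 : GaussianInt) ∈ ball (Real.exp (4 * b)) := by
      rw [mem_ball]; rw [ab_zero]; exact h0
    exact_mod_cast Finset.card_pos.2 ⟨0, this⟩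
  have h2 : (2 * Real.exp (4 * b) + 1) ^ 2 ≤ Real.exp (10 * b) := by
    have h3 : (1 : ℝ) ≤ Real.exp (4 * b) := Real.one_le_exp (by linarith)
    have h4 : (3 : ℝ) ≤ Real.exp b := by
      have := Real.add_one_le_exp b
      linarith
    have h5 : Real.exp (10 * b) = (Real.exp b * Real.exp (4 * b)) ^ 2 := by
      rw [← Real.exp_add, ← Real.exp_nat_mul]
      congr 1; push_cast; ring
    rw [h5]
    have h6 : 2 * Real.exp (4 * b) + 1 ≤ Real.exp b * Real.exp (4 * b) := by nlinarith
    exact pow_le_pow_left₀ (by linarith) h6 2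
  calc Real.log ((ball (Real.exp (4 * b))).card : ℝ) ≤ Real.log (Real.exp (10 * b)) :=
        Real.log_le_log hne (h1.trans h2)
    _ = 10 * b := Real.log_exp _

/-- **The inequality at one level.**  `B j`, `j < n' * m`, are the blocks of the level, the parents
are the unions of `B (j' * m + u)`, `u < m`. -/
theorem level {Ω : Type} [Fintype Ω] {P : Ω → ℝ} (hP : IsProb P) (z : Ω → GaussianInt)
    (E : Set GaussianInt) {δ b L : ℝ} (hb : 2 ≤ b) (hL : δ * b ≤ L)
    (m n' : ℕ) (B : ℕ → Finset GaussianInt)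
    (hprime : ∀ j < n' * m, ∀ p ∈ B j, Prime p)
    (hass : ∀ j < n' * m, ∀ p ∈ B j, ∀ q ∈ B j, Associated p q → p = q)
    (hinj : ∀ j < n' * m, ∀ j' < n' * m, B j = B j' → j = j')
    (hLB : ∀ j < n' * m, L ≤ Real.log (∏ p ∈ B j, ((p.norm : ℤ) : ℝ)))
    (hmax : ∀ (T : Type) [Fintype T] (κ : Ω → T → ℝ), (∀ ω, IsProb (κ ω)) →
      ∀ (y : Ω → T → GaussianInt), (∀ ω t, 0 < P ω → 0 < κ ω t → z ω + y ω t ∈ E) →
      ent (ext P κ) (fun x => y x.1 x.2) ≤ 10 * b →
      ∑ j ∈ range (n' * m), ent (ext P κ) (fun x => rs (B j) (z x.1 + y x.1 x.2)) ≤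
        ∑ j ∈ range (n' * m), ent P (fun ω => rs (B j) (z ω)) + (n' * m : ℕ) * (δ * b))
    (hpair : ∀ ω, PairKernel δ b E (z ω) ((range (n' * m)).image B)) :
    (((n' * m : ℕ) : ℝ) - 1) * (L - δ * b) ≤
      2 * (∑ j ∈ range (n' * m), ent P (fun ω => rs (B j) (z ω)) + (n' * m : ℕ) * (δ * b))
        + n' * (20 * b)
        - ∑ j' ∈ range n', ent P (fun ω => rs ((range m).biUnion fun u => B (j' * m + u)) (z ω)) := by
  classical
  choose F y y' hFne hF bad hbad using hpair
  set κ : Ω → vals F → ℝ := uk F with hκdef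
  have hκ : ∀ ω, IsProb (κ ω) := isProb_uk F hFne
  have hE := isProb_ext hP hκ
  set Y : Ω × vals F → GaussianInt := fun x => y x.1 x.2 with hY
  set Y' : Ω × vals F → GaussianInt := fun x => y' x.1 x.2 with hY'
  have hposF : ∀ x : Ω × vals F, 0 < ext P κ x → (x.2 : GaussianInt) ∈ F x.1 := by
    intro x hx
    apply uk_pos
    have : 0 < P x.1 * κ x.1 x.2 := hx
    by_contra hn
    have h0 : κ x.1 x.2 = 0 := le_antisymm (not_lt.1 hn) ((hκ x.1).nonneg _)
    rw [h0] at this; simp at this
  have hentY : ent (ext P κ) Y ≤ 10 * b := by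
    refine le_trans (ent_le_log_card_mem hE Y (ball (Real.exp (4 * b))) ?_) (log_ball hb)
    intro x hx
    rw [mem_ball]
    exact (hF x.1 x.2 (hposF x hx)).2.2.2.1
  have hentY' : ent (ext P κ) Y' ≤ 10 * b := by
    refine le_trans (ent_le_log_card_mem hE Y' (ball (Real.exp (4 * b))) ?_) (log_ball hb)
    intro x hx
    rw [mem_ball]
    exact (hF x.1 x.2 (hposF x hx)).2.2.2.2
  have hYY : ent (ext P κ) (fun x => (Y x, Y' x)) ≤ 20 * b := by
    have := ent_subadd hE Y Y'
    linarith
  -- the two applications of the maximality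
  have h1 := hmax (vals F) κ hκ (fun ω t => y ω t) (fun ω t _ hk => (hF ω t (uk_pos hk)).2.1) hentY
  have h2 := hmax (vals F) κ hκ (fun ω t => y' ω t) (fun ω t _ hk => (hF ω t (uk_pos hk)).2.2.1)
    hentY'
  -- Ruzsa, summed
  have h3 : ∑ j ∈ range (n' * m), ent (ext P κ) (fun x => rs (B j) (Y x - Y' x)) ≤
      ∑ j ∈ range (n' * m), (ent (ext P κ) (fun x => rs (B j) (z x.1 + Y x))
        + ent (ext P κ) (fun x => rs (B j) (z x.1 + Y' x))
        + (ent (ext P κ) (fun x => (Y x, Y' x))
          - ent (ext P κ) (fun x => (rs (B j) (z x.1), (Y x, Y' x))))) := by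
    apply Finset.sum_le_sum
    intro j _
    exact ruzsa hE (B j) (fun x => z x.1) Y Y'
  rw [Finset.sum_add_distrib, Finset.sum_add_distrib] at h3
  -- children
  have h4 : ∑ j ∈ range (n' * m), (ent (ext P κ) (fun x => (Y x, Y' x))
          - ent (ext P κ) (fun x => (rs (B j) (z x.1), (Y x, Y' x))))
      ≤ ∑ j' ∈ range n', (ent (ext P κ) (fun x => (Y x, Y' x))
          - ent P (fun ω => rs ((range m).biUnion fun u => B (j' * m + u)) (z ω))) := by
    rw [sum_range_mul]
    apply Finset.sum_le_sum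
    intro j' _
    have h5 := children_le hE (range m) (fun u => B (j' * m + u)) (fun x => z x.1)
      (fun x => (Y x, Y' x))
    have h6 : ent (ext P κ) (fun x : Ω × vals F => rs ((range m).biUnion fun u => B (j' * m + u)) (z x.1))
        = ent P (fun ω => rs ((range m).biUnion fun u => B (j' * m + u)) (z ω)) :=
      (pushes_ext hκ).ent_eq (fun ω => rs ((range m).biUnion fun u => B (j' * m + u)) (z ω))
    rw [h6] at h5
    exact h5
  have h4' : ∑ j' ∈ range n', (ent (ext P κ) (fun x => (Y x, Y' x))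
          - ent P (fun ω => rs ((range m).biUnion fun u => B (j' * m + u)) (z ω)))
      = n' * ent (ext P κ) (fun x => (Y x, Y' x))
        - ∑ j' ∈ range n', ent P (fun ω => rs ((range m).biUnion fun u => B (j' * m + u)) (z ω)) := by
    rw [Finset.sum_sub_distrib, Finset.sum_const, card_range, nsmul_eq_mul]
  rw [h4'] at h4
  -- lower bound
  set h : Ω → ℕ → ℝ := fun ω j => if B j = bad ω then 0 else L - δ * b with hh
  have h7 : ∀ j ∈ range (n' * m), ∑ ω, P ω * h ω j ≤
      ent (ext P κ) (fun x => rs (B j) (Y x - Y' x)) := by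
    intro j hj
    have hj' := Finset.mem_range.1 hj
    have e1 : ent (ext P κ) (fun x => rs (B j) (Y x - Y' x))
        = ent (ext P κ) (fun x : Ω × vals F => rs (B j) (x.2 : GaussianInt)) := by
      apply ent_congr_pos hE.nonneg
      intro a c ha hc
      have ea := (hF a.1 a.2 (hposF a ha)).1
      have ec := (hF c.1 c.2 (hposF c hc)).1
      simp only [hY, hY', ea, ec]
    rw [e1]
    apply fibre hP hκ (fun _ (t : vals F) => rs (B j) (t : GaussianInt)) (fun ω => h ω j)
    intro ω t _ hk
    have hFω : (0 : ℝ) < ((F ω).card : ℝ) := by exact_mod_cast Finset.card_pos.2 (hFne ω)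
    rw [hκdef, cls_uk F ω (rs (B j)) t]
    by_cases hbj : B j = bad ω
    · have : h ω j = 0 := by simp [hh, hbj]
      rw [this, neg_zero, Real.exp_zero, div_le_one hFω]
      exact_mod_cast Finset.card_filter_le _ _
    · have hhj : h ω j = L - δ * b := by simp [hh, hbj]
      rw [hhj]
      have hb1 := hbad ω (B j) (Finset.mem_image_of_mem _ hj) hbj t
      have hprodpos : 0 < ∏ p ∈ B j, ((p.norm : ℤ) : ℝ) := by
        apply Finset.prod_pos
        intro p hp
        have : 0 < p.norm := GaussianInt.norm_pos.2 (hprime j hj' p hp).ne_zero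
        exact_mod_cast this
      have hcard : (((F ω).filter fun d => rs (B j) d = rs (B j) (t : GaussianInt)).card : ℝ) ≤
          (((F ω).filter fun d => (∏ p ∈ B j, p) ∣ d - (t : GaussianInt)).card : ℝ) := by
        have : ((F ω).filter fun d => rs (B j) d = rs (B j) (t : GaussianInt)) ⊆
            ((F ω).filter fun d => (∏ p ∈ B j, p) ∣ d - (t : GaussianInt)) := by
          intro d hd
          rw [Finset.mem_filter] at hd ⊢
          exact ⟨hd.1, prod_dvd_of_rs (hprime j hj') (hass j hj') hd.2⟩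
        exact_mod_cast Finset.card_le_card this
      rw [div_le_iff₀ hFω]
      have h8 : Real.exp (-(L - δ * b)) = Real.exp (δ * b) * Real.exp (-L) := by
        rw [← Real.exp_add]; congr 1; ring
      rw [h8]
      have h9 : Real.exp L ≤ ∏ p ∈ B j, ((p.norm : ℤ) : ℝ) := by
        calc Real.exp L ≤ Real.exp (Real.log (∏ p ∈ B j, ((p.norm : ℤ) : ℝ))) :=
              Real.exp_le_exp.2 (hLB j hj')
          _ = _ := Real.exp_log hprodpos
      have h10 : (((F ω).filter fun d => (∏ p ∈ B j, p) ∣ d - (t : GaussianInt)).card : ℝ)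
          * Real.exp L ≤ Real.exp (δ * b) * ((F ω).card : ℝ) := by
        refine le_trans (mul_le_mul_of_nonneg_left h9 (Nat.cast_nonneg _)) ?_
        convert hb1 using 4
      have h11 : Real.exp L * Real.exp (-L) = 1 := by
        rw [← Real.exp_add]; simp
      calc (((F ω).filter fun d => rs (B j) d = rs (B j) (t : GaussianInt)).card : ℝ)
          ≤ (((F ω).filter fun d => (∏ p ∈ B j, p) ∣ d - (t : GaussianInt)).card : ℝ) := hcard
        _ = (((F ω).filter fun d => (∏ p ∈ B j, p) ∣ d - (t : GaussianInt)).card : ℝ)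
            * Real.exp L * Real.exp (-L) := by rw [mul_assoc, h11, mul_one]
        _ ≤ (Real.exp (δ * b) * ((F ω).card : ℝ)) * Real.exp (-L) :=
            mul_le_mul_of_nonneg_right h10 (Real.exp_pos _).le
        _ = _ := by ring
  have h8 : (((n' * m : ℕ) : ℝ) - 1) * (L - δ * b) ≤
      ∑ j ∈ range (n' * m), ent (ext P κ) (fun x => rs (B j) (Y x - Y' x)) := by
    refine le_trans ?_ (Finset.sum_le_sum h7)
    rw [Finset.sum_comm]
    have h9 : ∀ ω, P ω * ((((n' * m : ℕ) : ℝ) - 1) * (L - δ * b)) ≤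
        ∑ j ∈ range (n' * m), P ω * h ω j := by
      intro ω
      rw [← Finset.mul_sum]
      apply mul_le_mul_of_nonneg_left _ (hP.nonneg ω)
      have h10 : ∑ j ∈ range (n' * m), h ω j
          = ∑ j ∈ range (n' * m), (L - δ * b) - ∑ j ∈ (range (n' * m)).filter (fun j => B j = bad ω),
            (L - δ * b) := by
        rw [Finset.sum_filter, ← Finset.sum_sub_distrib]
        apply Finset.sum_congr rfl
        intro j _
        by_cases hbj : B j = bad ω
        · simp [hh, hbj]
        · simp [hh, hbj]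
      rw [h10, Finset.sum_const, Finset.sum_const, card_range, nsmul_eq_mul, nsmul_eq_mul]
      have h11 : ((range (n' * m)).filter (fun j => B j = bad ω)).card ≤ 1 := by
        rw [Finset.card_le_one]
        intro i hi j hj
        rw [Finset.mem_filter, Finset.mem_range] at hi hj
        exact hinj i hi.1 j hj.1 (hi.2.trans hj.2.symm)
      have h12 : (((range (n' * m)).filter (fun j => B j = bad ω)).card : ℝ) ≤ 1 := by
        exact_mod_cast h11
      nlinarith
    calc (((n' * m : ℕ) : ℝ) - 1) * (L - δ * b)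
        = ∑ ω, P ω * ((((n' * m : ℕ) : ℝ) - 1) * (L - δ * b)) := by
          rw [← Finset.sum_mul, hP.sum_eq, one_mul]
      _ ≤ _ := Finset.sum_le_sum (fun ω _ => h9 ω)
  have h9 : (n' : ℝ) * ent (ext P κ) (fun x => (Y x, Y' x)) ≤ n' * (20 * b) :=
    mul_le_mul_of_nonneg_left hYY (Nat.cast_nonneg _)
  have e1 : ∑ j ∈ range (n' * m), ent (ext P κ) (fun x => rs (B j) (z x.1 + Y x)) ≤ _ := h1
  have e2 : ∑ j ∈ range (n' * m), ent (ext P κ) (fun x => rs (B j) (z x.1 + Y' x)) ≤ _ := h2
  linarith

end Crest.Agent.R2.K8
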