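import Crest.Agent.R2.Kac587c

/-!
# R2 (Gaussian moat), block K8, part d: hierarchical blocks of a finset
-/

set_option autoImplicit false
set_option linter.unusedSectionVars false

namespace Crest.Agent.R2.K8

open Finset hiding ext

/-- index of `x` in `G` -/
noncomputable def idx (G : Finset GaussianInt) (x : GaussianInt) : ℕ :=
  if h : x ∈ G then (G.equivFin ⟨x, h⟩ : ℕ) else 0

theorem idx_lt {G : Finset GaussianInt} {x : GaussianInt} (h : x ∈ G) : idx G x < G.card := by
  unfold idx
  rw [dif_pos h]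
  exact (G.equivFin ⟨x, h⟩).2

theorem idx_inj {G : Finset GaussianInt} {x y : GaussianInt} (hx : x ∈ G) (hy : y ∈ G)
    (h : idx G x = idx G y) : x = y := by
  unfold idx at h
  rw [dif_pos hx, dif_pos hy] at h
  have := G.equivFin.injective (Fin.ext h)
  simpa using this

theorem idx_surj {G : Finset GaussianInt} {i : ℕ} (hi : i < G.card) : ∃ x ∈ G, idx G x = i := by
  refine ⟨(G.equivFin.symm ⟨i, hi⟩ : G), (G.equivFin.symm ⟨i, hi⟩).2, ?_⟩
  unfold idx
  rw [dif_pos (G.equivFin.symm ⟨i, hi⟩).2]
  simp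

/-- the `j`-th block of size `q` of `G`. -/
noncomputable def blk (G : Finset GaussianInt) (q j : ℕ) : Finset GaussianInt :=
  G.filter fun x => idx G x / q = j

theorem blk_subset (G : Finset GaussianInt) (q j : ℕ) : blk G q j ⊆ G := Finset.filter_subset _ _

theorem card_blk {G : Finset GaussianInt} {q j : ℕ} (hq : 0 < q) (h : (j + 1) * q ≤ G.card) :
    (blk G q j).card = q := by
  classical
  have h1 : (blk G q j).image (idx G) = Finset.Ico (j * q) ((j + 1) * q) := by
    ext i
    simp only [blk, Finset.mem_image, Finset.mem_filter, Finset.mem_Ico]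
    constructor
    · rintro ⟨x, ⟨_, hx2⟩, rfl⟩
      rw [Nat.div_eq_iff hq] at hx2
      constructor
      · exact hx2.1
      · have := hx2.2
        rw [Nat.succ_mul]
        omega
    · rintro ⟨hi1, hi2⟩
      obtain ⟨x, hx, rfl⟩ := idx_surj (G := G) (i := i) (by omega)
      refine ⟨x, ⟨hx, ?_⟩, rfl⟩
      rw [Nat.div_eq_iff hq]
      constructor
      · exact hi1
      · rw [Nat.succ_mul] at hi2; omega
  have h2 : ((blk G q j).image (idx G)).card = (blk G q j).card := by
    apply Finset.card_image_of_injOn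
    intro x hx y hy hxy
    exact idx_inj (blk_subset _ _ _ hx) (blk_subset _ _ _ hy) hxy
  rw [← h2, h1, Nat.card_Ico, Nat.succ_mul]
  omega

theorem blk_disjoint {G : Finset GaussianInt} {q j j' : ℕ} (h : j ≠ j') :
    Disjoint (blk G q j) (blk G q j') := by
  rw [Finset.disjoint_left]
  intro x hx hx'
  simp only [blk, Finset.mem_filter] at hx hx'
  exact h (hx.2.symm.trans hx'.2)

theorem blk_inj {G : Finset GaussianInt} {q j j' : ℕ} (hq : 0 < q) (h : (j + 1) * q ≤ G.card)
    (he : blk G q j = blk G q j') : j = j' := by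
  by_contra hne
  have h1 := blk_disjoint (G := G) (q := q) hne
  rw [← he, Finset.disjoint_self_iff_empty] at h1
  have h2 := card_blk hq h
  rw [h1] at h2
  simp at h2
  omega

theorem blk_parent {G : Finset GaussianInt} {q m j : ℕ} (hm : 0 < m) :
    (range m).biUnion (fun u => blk G q (j * m + u)) = blk G (m * q) j := by
  classical
  ext x
  simp only [blk, Finset.mem_biUnion, Finset.mem_range, Finset.mem_filter]
  have h1 : idx G x / (m * q) = (idx G x / q) / m := by
    rw [Nat.mul_comm m q, Nat.div_div_eq_div_mul]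
  constructor
  · rintro ⟨u, hu, hx, hx2⟩
    refine ⟨hx, ?_⟩
    rw [h1, hx2, Nat.mul_comm j m, Nat.mul_add_div hm, Nat.div_eq_of_lt hu, Nat.add_zero]
  · rintro ⟨hx, hx2⟩
    rw [h1] at hx2
    refine ⟨(idx G x / q) % m, Nat.mod_lt _ hm, hx, ?_⟩
    rw [← hx2]
    exact (Nat.div_add_mod' _ _).symm

end Crest.Agent.R2.K8
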