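import Mathlib
import Crest.Agent.R055.Ent
import Crest.Agent.R055.Law

/-! R2 (S0002): finite entropy kit (extends R055.Ent / R055.Law). `ent P X`: entropy of `X : Ω → S`
(any type `S`) under the weight `P` on the Fintype `Ω`; `IsProb P`; `Pushes φ P' P`. -/

set_option autoImplicit false
set_option linter.unusedSectionVars false
open Finset Real
open scoped Pointwise

namespace Crest.Agent.R2.Kit
open Crest.Agent.R055

open Classical in
/-- `φ` pushes the weight `P'` forward to `P`. -/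
def Pushes {Ω' Ω : Type*} [Fintype Ω'] (φ : Ω' → Ω) (P' : Ω' → ℝ) (P : Ω → ℝ) : Prop :=
  ∀ ω, (∑ ω', if φ ω' = ω then P' ω' else 0) = P ω

lemma Pushes.of_dec {Ω' Ω : Type*} [Fintype Ω'] [DecidableEq Ω] {φ : Ω' → Ω} {P' : Ω' → ℝ}
    {P : Ω → ℝ} (h : ∀ ω, (∑ ω', if φ ω' = ω then P' ω' else 0) = P ω) : Pushes φ P' P := by
  intro ω
  rw [← h ω]
  apply Finset.sum_congr rfl
  intro i _
  congr

namespace Pushes

variable {Ω' Ω Ω₀ : Type*} [Fintype Ω'] [Fintype Ω] {φ : Ω' → Ω} {P' : Ω' → ℝ} {P : Ω → ℝ}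

lemma sum_mul (h : Pushes φ P' P) (f : Ω → ℝ) :
    ∑ ω', P' ω' * f (φ ω') = ∑ ω, P ω * f ω := by
  classical
  have h1 : ∀ ω, P ω * f ω = ∑ ω', if φ ω' = ω then P' ω' * f (φ ω') else 0 := by
    intro ω
    rw [← h ω, Finset.sum_mul]
    apply Finset.sum_congr rfl
    intro i _
    by_cases hi : φ i = ω
    · simp [hi]
    · simp [hi]
  simp_rw [h1]
  rw [Finset.sum_comm]
  apply Finset.sum_congr rfl
  intro i _
  simp

lemma sum_eq (h : Pushes φ P' P) : ∑ ω', P' ω' = ∑ ω, P ω := by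
  have := h.sum_mul (fun _ => 1)
  simpa using this

lemma comp {ρ : Ω → Ω₀} {P₀ : Ω₀ → ℝ} (h : Pushes φ P' P) (h₀ : Pushes ρ P P₀) :
    Pushes (fun ω' => ρ (φ ω')) P' P₀ := by
  classical
  intro ω₀
  rw [← h₀ ω₀]
  have := h.sum_mul (fun ω => if ρ ω = ω₀ then (1 : ℝ) else 0)
  simp only [mul_ite, mul_one, mul_zero] at this
  convert this using 1

lemma nonneg (h : Pushes φ P' P) (h' : ∀ ω', 0 ≤ P' ω') (ω : Ω) : 0 ≤ P ω := by
  classical
  rw [← h ω]
  apply Finset.sum_nonneg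
  intro i _
  split_ifs
  · exact h' i
  · exact le_rfl

lemma isProb (h : Pushes φ P' P) (h' : IsProb P') : IsProb P :=
  ⟨h.nonneg h'.nonneg, by rw [← h.sum_eq, h'.sum_eq]⟩

lemma cls_eq {S : Type*} (h : Pushes φ P' P) (X : Ω → S) (ω' : Ω') :
    cls P' (fun w => X (φ w)) ω' = cls P X (φ ω') := by
  classical
  have := h.sum_mul (fun ω => if X ω = X (φ ω') then (1 : ℝ) else 0)
  simp only [mul_ite, mul_one, mul_zero] at this
  unfold cls
  convert this using 1

/-- entropy of a function of the push-forward. -/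
lemma ent_eq {S : Type*} (h : Pushes φ P' P) (X : Ω → S) :
    ent P' (fun w => X (φ w)) = ent P X := by
  unfold ent
  rw [← h.sum_mul (fun ω => - Real.log (cls P X ω))]
  apply Finset.sum_congr rfl
  intro i _
  rw [h.cls_eq]

/-- a flexible version of `ent_eq`: the variables only have to generate the same partition. -/
lemma ent_eq' {S S' : Type*} (h : Pushes φ P' P) (X : Ω → S) (Y : Ω' → S')
    (hXY : ∀ ω₁ ω₂, X (φ ω₂) = X (φ ω₁) ↔ Y ω₂ = Y ω₁) : ent P' Y = ent P X := by
  rw [← h.ent_eq X]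
  exact ent_congr (fun a b => (hXY a b).symm)

lemma ecard_eq {E : Type} (h : Pushes φ P' P) (U : Ω → Finset E) :
    ecard P' (fun w => U (φ w)) = ecard P U :=
  h.sum_mul (fun ω => ((U ω).card : ℝ))

lemma id : Pushes (fun ω : Ω => ω) P P := by
  classical
  intro ω
  rw [Finset.sum_ite_eq' Finset.univ ω P]
  simp

lemma of_equiv (e : Ω' ≃ Ω) (h : ∀ ω', P (e ω') = P' ω') : Pushes e P' P := by
  classical
  intro ω
  rw [Finset.sum_eq_single (e.symm ω)]
  · simp [← h]
  · intro b _ hb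
    rw [if_neg]
    intro hcon
    apply hb
    rw [← hcon]
    simp
  · intro hcon
    exact absurd (Finset.mem_univ _) hcon

end Pushes

/-! ### the entropy is `hl` of the law -/

section hl

variable {Ω : Type*} [Fintype Ω] {S : Type*} [Fintype S] {P : Ω → ℝ}

lemma ent_self (P : Ω → ℝ) : ent P (fun ω => ω) = hl P := by
  classical
  unfold ent hl cls
  apply Finset.sum_congr rfl
  intro i _
  have : (∑ ω', if ω' = i then P ω' else 0) = P i := by simp
  rw [Real.negMulLog]
  have h2 : (∑ ω', @ite ℝ (ω' = i) (Classical.propDecidable _) (P ω') 0) = P i := by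
    rw [← this]
  rw [h2]
  ring

lemma Pushes.ent_eq_hl {X : Ω → S} {w : S → ℝ} (h : Pushes X P w) : ent P X = hl w := by
  rw [← ent_self w, ← h.ent_eq (fun s => s)]

open Classical in
/-- the law of a random variable -/
noncomputable def lawOf (P : Ω → ℝ) (X : Ω → S) : S → ℝ :=
  fun s => ∑ ω, if X ω = s then P ω else 0

lemma pushes_lawOf (P : Ω → ℝ) (X : Ω → S) : Pushes X P (lawOf P X) := fun _ => rfl

lemma ent_eq_hl_lawOf (P : Ω → ℝ) (X : Ω → S) : ent P X = hl (lawOf P X) :=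
  (pushes_lawOf P X).ent_eq_hl

lemma lawOf_isProb (h : IsProb P) (X : Ω → S) : IsProb (lawOf P X) :=
  (pushes_lawOf P X).isProb h

/-- injective relabelling does not change `hl` -/
lemma hl_equiv {Ω' : Type*} [Fintype Ω'] (e : Ω' ≃ Ω) (P : Ω → ℝ) :
    hl (fun w => P (e w)) = hl P := by
  unfold hl
  exact Equiv.sum_comp e (fun w => Real.negMulLog (P w))

end hl

/-! ### conditional Gibbs inequality, bounds by counting -/

section gibbs

variable {Ω : Type*} [Fintype Ω] {P : Ω → ℝ}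

/-- Conditional Gibbs inequality: for any conditional sub-probability `q (· | z)`,
`H(X | Z) ≤ E[- log q(X | Z)]`. -/
lemma cond_gibbs {S R : Type*} [Fintype S] (hP : IsProb P) (X : Ω → S) (Z : Ω → R)
    (q : S → R → ℝ) (hq0 : ∀ ω s, 0 ≤ q s (Z ω)) (hq : ∀ ω, ∑ s, q s (Z ω) ≤ 1)
    (hpos : ∀ ω, 0 < P ω → 0 < q (X ω) (Z ω)) :
    ent P (fun ω => (X ω, Z ω)) - ent P Z ≤ ∑ ω, P ω * (- Real.log (q (X ω) (Z ω))) := by
  classical
  have h0 := hP.nonneg
  set XZ : Ω → S × R := fun ω => (X ω, Z ω) with hXZ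
  set r : Ω → ℝ := fun ω => q (X ω) (Z ω) * cls P Z ω / cls P XZ ω with hr
  have hrpos : ∀ ω, 0 < P ω → 0 < r ω := by
    intro ω hω
    have h1 := cls_pos h0 XZ hω
    have h2 := cls_pos h0 Z hω
    have h3 := hpos ω hω
    simp only [hr]
    positivity
  have key : ∑ ω, P ω * r ω ≤ 1 := by
    have e1 : ∀ ω, P ω * r ω = ∑ ω', P ω' *
        ((∑ s, if (s, Z ω') = XZ ω then q s (Z ω') else 0) * (P ω / cls P XZ ω)) := by
      intro ω
      have hh : (∑ ω', if Z ω' = Z ω then P ω' else 0) = cls P Z ω := by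
        unfold cls; apply Finset.sum_congr rfl; intro i _; congr
      have : P ω * r ω = (∑ ω', if Z ω' = Z ω then P ω' else 0) *
          (q (X ω) (Z ω) * (P ω / cls P XZ ω)) := by
        rw [hh]
        simp only [hr]
        ring
      rw [this, Finset.sum_mul]
      apply Finset.sum_congr rfl
      intro ω' _
      by_cases hz : Z ω' = Z ω
      · simp only [hz, if_true, hXZ, Prod.mk.injEq, and_true]
        simp
      · simp only [hz, if_false, hXZ, Prod.mk.injEq, and_false]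
        simp
    simp_rw [e1]
    rw [Finset.sum_comm]
    simp_rw [← Finset.mul_sum]
    have e2 : ∀ ω', ∑ ω, (∑ s, if (s, Z ω') = XZ ω then q s (Z ω') else 0) * (P ω / cls P XZ ω)
        ≤ 1 := by
      intro ω'
      simp_rw [Finset.sum_mul]
      rw [Finset.sum_comm]
      refine le_trans (Finset.sum_le_sum (fun s _ => ?_)) (hq ω')
      have : ∑ ω, (if (s, Z ω') = XZ ω then q s (Z ω') else 0) * (P ω / cls P XZ ω)
          = q s (Z ω') * ∑ ω, (if XZ ω = (s, Z ω') then P ω / cls P XZ ω else 0) := by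
        rw [Finset.mul_sum]
        apply Finset.sum_congr rfl
        intro ω _
        by_cases h : XZ ω = (s, Z ω')
        · rw [if_pos h, if_pos h.symm]
        · rw [if_neg h, if_neg (fun h' => h h'.symm)]
          simp
      rw [this]
      exact mul_le_of_le_one_right (hq0 ω' s) (sum_div_cls_le P XZ (s, Z ω'))
    calc _ ≤ ∑ ω', P ω' * 1 :=
          Finset.sum_le_sum (fun ω' _ => mul_le_mul_of_nonneg_left (e2 ω') (h0 ω'))
      _ = 1 := by simp [hP.sum_eq]
  have h5 := sum_mul_log_le (w := P) (r := r) h0 hrpos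
  rw [hP.sum_eq] at h5
  have h6 : ∑ ω, P ω * Real.log (r ω) =
      ent P XZ - ent P Z - ∑ ω, P ω * (- Real.log (q (X ω) (Z ω))) := by
    unfold ent
    rw [← Finset.sum_sub_distrib, ← Finset.sum_sub_distrib]
    apply Finset.sum_congr rfl
    intro ω _
    rcases (h0 ω).lt_or_eq with hi | hi
    · have h1 := cls_pos h0 XZ hi
      have h2 := cls_pos h0 Z hi
      have h3 := hpos ω hi
      simp only [hr]
      rw [Real.log_div (by positivity) h1.ne', Real.log_mul h3.ne' h2.ne']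
      ring
    · simp [← hi]
  linarith

lemma cls_const {R : Type*} (hP : IsProb P) (z : R) (ω : Ω) : cls P (fun _ => z) ω = 1 := by
  classical
  unfold cls
  simp [hP.sum_eq]

lemma ent_const {R : Type*} (hP : IsProb P) (z : R) : ent P (fun _ : Ω => z) = 0 := by
  unfold ent
  simp [cls_const hP z]

/-- Gibbs' inequality. -/
lemma gibbs {S : Type*} [Fintype S] (hP : IsProb P) (X : Ω → S) (q : S → ℝ)
    (hq0 : ∀ s, 0 ≤ q s) (hq : ∑ s, q s ≤ 1) (hpos : ∀ ω, 0 < P ω → 0 < q (X ω)) :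
    ent P X ≤ ∑ ω, P ω * (- Real.log (q (X ω))) := by
  have h := cond_gibbs hP X (fun _ => ()) (fun s _ => q s) (fun _ s => hq0 s) (fun _ => hq) hpos
  rw [ent_const hP] at h
  have h2 : ent P (fun ω => (X ω, ())) = ent P X := ent_congr (by intro a b; simp)
  rw [h2] at h
  linarith

/-- `H(X | Z) ≤ E log N(Z)` if `X` takes values in a finite set `A (Z)` of size `≤ N(Z)`. -/
lemma cond_ent_le_card {S R : Type*} [Fintype S] (hP : IsProb P) (X : Ω → S) (Z : Ω → R)
    (A : R → Finset S) (hA : ∀ ω, 0 < P ω → X ω ∈ A (Z ω)) :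
    ent P (fun ω => (X ω, Z ω)) - ent P Z ≤ ∑ ω, P ω * Real.log ((A (Z ω)).card : ℝ) := by
  classical
  refine le_trans (cond_gibbs hP X Z (fun s z => if s ∈ A z then 1 / ((A z).card : ℝ) else 0)
    ?_ ?_ ?_) (le_of_eq ?_)
  · intro ω s
    split_ifs
    · positivity
    · exact le_rfl
  · intro ω
    rw [← Finset.sum_filter]
    rw [Finset.filter_mem_eq_inter, Finset.univ_inter, Finset.sum_const, nsmul_eq_mul]
    rw [mul_one_div]
    exact div_self_le_one _
  · intro ω hω
    have h := hA ω hω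
    simp only [h, if_true]
    have : 0 < (A (Z ω)).card := Finset.card_pos.mpr ⟨_, h⟩
    positivity
  · apply Finset.sum_congr rfl
    intro ω _
    rcases (hP.nonneg ω).lt_or_eq with hi | hi
    · have h := hA ω hi
      simp only [h, if_true]
      rw [Real.log_div one_ne_zero, Real.log_one]
      · ring
      · have : 0 < (A (Z ω)).card := Finset.card_pos.mpr ⟨_, h⟩
        positivity
    · simp [← hi]

lemma ent_le_log_card' {S : Type*} [Fintype S] (hP : IsProb P) (X : Ω → S) (A : Finset S)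
    (hA : ∀ ω, 0 < P ω → X ω ∈ A) : ent P X ≤ Real.log (A.card : ℝ) := by
  have h := cond_ent_le_card hP X (fun _ => ()) (fun _ => A) hA
  rw [ent_const hP] at h
  have h2 : ent P (fun ω => (X ω, ())) = ent P X := ent_congr (by intro a b; simp)
  rw [h2, ← Finset.sum_mul, hP.sum_eq] at h
  linarith

lemma ent_le_log_card {S : Type*} [Fintype S] (hP : IsProb P) (X : Ω → S) :
    ent P X ≤ Real.log (Fintype.card S : ℝ) :=
  ent_le_log_card' hP X Finset.univ (fun _ _ => Finset.mem_univ _)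

/-- `H(X | Z) ≤ log 2 * E|K(Z)|` for a random subset `X ⊆ K(Z)`. -/
lemma cond_ent_subset {E : Type} [Fintype E] [DecidableEq E] {R : Type*} (hP : IsProb P)
    (X : Ω → Finset E) (Z : Ω → R) (K : R → Finset E) (hX : ∀ ω, 0 < P ω → X ω ⊆ K (Z ω)) :
    ent P (fun ω => (X ω, Z ω)) - ent P Z ≤ Real.log 2 * ecard P (fun ω => K (Z ω)) := by
  refine le_trans (cond_ent_le_card hP X Z (fun z => (K z).powerset)
    (fun ω hω => Finset.mem_powerset.mpr (hX ω hω))) (le_of_eq ?_)
  unfold ecard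
  rw [Finset.mul_sum]
  apply Finset.sum_congr rfl
  intro ω _
  rw [Finset.card_powerset]
  push_cast
  rw [Real.log_pow]
  ring

/-- the marking bound: two random subsets of `K(Z)` cost at most `log 4 * E|K|`. -/
lemma marking {E : Type} [Fintype E] [DecidableEq E] {R : Type*} (hP : IsProb P)
    (X₁ X₂ : Ω → Finset E) (Z : Ω → R) (K : R → Finset E)
    (h1 : ∀ ω, 0 < P ω → X₁ ω ⊆ K (Z ω)) (h2 : ∀ ω, 0 < P ω → X₂ ω ⊆ K (Z ω)) :
    ent P (fun ω => ((X₁ ω, X₂ ω), Z ω)) - ent P Z ≤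
      Real.log 4 * ecard P (fun ω => K (Z ω)) := by
  refine le_trans (cond_ent_le_card hP (fun ω => (X₁ ω, X₂ ω)) Z
    (fun z => (K z).powerset ×ˢ (K z).powerset)
    (fun ω hω => Finset.mem_product.mpr ⟨Finset.mem_powerset.mpr (h1 ω hω),
      Finset.mem_powerset.mpr (h2 ω hω)⟩)) (le_of_eq ?_)
  unfold ecard
  rw [Finset.mul_sum]
  apply Finset.sum_congr rfl
  intro ω _
  rw [Finset.card_product, Finset.card_powerset, ← mul_pow]
  push_cast
  rw [Real.log_pow]
  ring

end gibbs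

/-! ### Shannon inequalities in conditional form -/

section shannon

variable {Ω : Type*} [Fintype Ω] {P : Ω → ℝ} {S₁ S₂ S₃ S₄ : Type*}

lemma ent_le_ent_pair_right (hP : IsProb P) (X : Ω → S₁) (Z : Ω → S₂) :
    ent P Z ≤ ent P (fun ω => (X ω, Z ω)) :=
  ent_mono hP.nonneg (by intro a b h; exact (Prod.mk.inj h).2)

lemma ent_le_ent_pair_left (hP : IsProb P) (X : Ω → S₁) (Z : Ω → S₂) :
    ent P X ≤ ent P (fun ω => (X ω, Z ω)) :=
  ent_mono hP.nonneg (by intro a b h; exact (Prod.mk.inj h).1)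

/-- subadditivity -/
lemma ent_subadd (hP : IsProb P) (X : Ω → S₁) (Y : Ω → S₂) :
    ent P (fun ω => (X ω, Y ω)) ≤ ent P X + ent P Y := by
  have h := ent_submod hP X Y (fun _ => ())
  rw [ent_const hP] at h
  have h1 : ent P (fun ω => (X ω, Y ω, ())) = ent P (fun ω => (X ω, Y ω)) :=
    ent_congr (by intro a b; simp)
  have h2 : ent P (fun ω => (X ω, ())) = ent P X := ent_congr (by intro a b; simp)
  have h3 : ent P (fun ω => (Y ω, ())) = ent P Y := ent_congr (by intro a b; simp)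
  rw [h1, h2, h3] at h
  linarith

/-- conditional subadditivity: `H(X,Y|Z) ≤ H(X|Z) + H(Y|Z)` -/
lemma cond_subadd (hP : IsProb P) (X : Ω → S₁) (Y : Ω → S₂) (Z : Ω → S₃) :
    ent P (fun ω => ((X ω, Y ω), Z ω)) - ent P Z ≤
      (ent P (fun ω => (X ω, Z ω)) - ent P Z) + (ent P (fun ω => (Y ω, Z ω)) - ent P Z) := by
  have h := ent_submod hP X Y Z
  have h1 : ent P (fun ω => ((X ω, Y ω), Z ω)) = ent P (fun ω => (X ω, Y ω, Z ω)) :=
    ent_congr (by intro a b; simp [and_assoc])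
  rw [h1]
  linarith

/-- conditioning reduces entropy: `H(X|Y,Z) ≤ H(X|Z)` -/
lemma cond_reduce (hP : IsProb P) (X : Ω → S₁) (Y : Ω → S₂) (Z : Ω → S₃) :
    ent P (fun ω => (X ω, (Y ω, Z ω))) - ent P (fun ω => (Y ω, Z ω)) ≤
      ent P (fun ω => (X ω, Z ω)) - ent P Z := by
  have h := ent_submod hP X Y Z
  linarith

/-- a flexible form: if `Z` is a function of `W` then `H(X|W) ≤ H(X|Z)`. -/
lemma cond_reduce' (hP : IsProb P) (X : Ω → S₁) (W : Ω → S₂) (Z : Ω → S₃)
    (hZ : ∀ ω ω', W ω' = W ω → Z ω' = Z ω) :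
    ent P (fun ω => (X ω, W ω)) - ent P W ≤ ent P (fun ω => (X ω, Z ω)) - ent P Z := by
  have h := cond_reduce hP X W Z
  have h1 : ent P (fun ω => (X ω, (W ω, Z ω))) = ent P (fun ω => (X ω, W ω)) := by
    apply ent_congr
    intro a b
    simp only [Prod.mk.injEq]
    constructor
    · rintro ⟨h1, h2, _⟩; exact ⟨h1, h2⟩
    · rintro ⟨h1, h2⟩; exact ⟨h1, h2, hZ _ _ h2⟩
  have h2 : ent P (fun ω => (W ω, Z ω)) = ent P W := by
    apply ent_congr
    intro a b
    simp only [Prod.mk.injEq]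
    constructor
    · rintro ⟨h1, _⟩; exact h1
    · intro h1; exact ⟨h1, hZ _ _ h1⟩
  rw [h1, h2] at h
  exact h

/-- monotonicity in the first argument: if `Y` is a function of `(X, Z)` then
`H(Y|Z) ≤ H(X|Z)`. -/
lemma cond_mono (hP : IsProb P) (X : Ω → S₁) (Y : Ω → S₂) (Z : Ω → S₃)
    (hY : ∀ ω ω', X ω' = X ω → Z ω' = Z ω → Y ω' = Y ω) :
    ent P (fun ω => (Y ω, Z ω)) - ent P Z ≤ ent P (fun ω => (X ω, Z ω)) - ent P Z := by
  have : ent P (fun ω => (Y ω, Z ω)) ≤ ent P (fun ω => (X ω, Z ω)) := by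
    apply ent_mono hP.nonneg
    intro a b h
    simp only [Prod.mk.injEq] at h ⊢
    exact ⟨hY _ _ h.1 h.2, h.2⟩
  linarith

/-- chain rule, as an identity of the definition: `H(X,Y|Z) = H(Y|Z) + H(X|Y,Z)`. -/
lemma cond_chain (X : Ω → S₁) (Y : Ω → S₂) (Z : Ω → S₃) :
    ent P (fun ω => ((X ω, Y ω), Z ω)) - ent P Z =
      (ent P (fun ω => (Y ω, Z ω)) - ent P Z)
        + (ent P (fun ω => (X ω, (Y ω, Z ω))) - ent P (fun ω => (Y ω, Z ω))) := by
  have h1 : ent P (fun ω => ((X ω, Y ω), Z ω)) = ent P (fun ω => (X ω, (Y ω, Z ω))) :=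
    ent_congr (by intro a b; simp [and_assoc])
  rw [h1]
  ring

end shannon

/-! ### extra lemmas: arbitrary target types, kernels -/

section extra

variable {Ω : Type*} [Fintype Ω] {P : Ω → ℝ} {S S' R : Type*}

lemma cls_congr_pos (hP : ∀ ω, 0 ≤ P ω) {X : Ω → S} {Y : Ω → S'} {ω : Ω}
    (h : ∀ ω', 0 < P ω' → (X ω' = X ω ↔ Y ω' = Y ω)) : cls P X ω = cls P Y ω := by
  classical
  unfold cls
  apply Finset.sum_congr rfl
  intro i _
  rcases (hP i).lt_or_eq with hi | hi
  · simp [h i hi]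
  · simp [← hi]

/-- `ent` only sees the points of positive weight. -/
lemma ent_congr_pos (hP : ∀ ω, 0 ≤ P ω) {X : Ω → S} {Y : Ω → S'}
    (h : ∀ ω ω', 0 < P ω → 0 < P ω' → (X ω' = X ω ↔ Y ω' = Y ω)) : ent P X = ent P Y := by
  unfold ent
  apply Finset.sum_congr rfl
  intro i _
  rcases (hP i).lt_or_eq with hi | hi
  · rw [cls_congr_pos hP (fun ω' h' => h i ω' hi h')]
  · simp [← hi]

/-- almost sure version of `ent_mono`. -/
lemma ent_mono_pos (hP : ∀ ω, 0 ≤ P ω) {X : Ω → S} {Y : Ω → S'}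
    (h : ∀ ω ω', 0 < P ω → 0 < P ω' → X ω' = X ω → Y ω' = Y ω) : ent P Y ≤ ent P X := by
  classical
  set Y' : Ω → S × S' := fun ω => (X ω, Y ω)
  have h1 : ent P Y' = ent P X := by
    apply ent_congr_pos hP
    intro a b ha hb
    simp only [Y', Prod.mk.injEq]
    exact ⟨fun h' => h'.1, fun h' => ⟨h', h a b ha hb h'⟩⟩
  rw [← h1]
  exact ent_mono hP (by intro a b h'; exact (Prod.mk.inj h').2)

/-- `H(X | Z) ≤ E log #A(Z)` for arbitrary target types. -/
lemma cond_ent_le_card_mem (hP : IsProb P) (X : Ω → S) (Z : Ω → R)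
    (A : R → Finset S) (hA : ∀ ω, 0 < P ω → X ω ∈ A (Z ω)) :
    ent P (fun ω => (X ω, Z ω)) - ent P Z ≤ ∑ ω, P ω * Real.log ((A (Z ω)).card : ℝ) := by
  classical
  -- restrict to the finite set of values
  set V : Finset S := Finset.univ.image X with hV
  have hX : ∀ ω, X ω ∈ V := fun ω => Finset.mem_image_of_mem _ (Finset.mem_univ ω)
  set X' : Ω → V := fun ω => ⟨X ω, hX ω⟩ with hX'
  have h1 : ent P (fun ω => (X' ω, Z ω)) = ent P (fun ω => (X ω, Z ω)) := by
    apply ent_congr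
    intro a b
    simp [hX', Subtype.ext_iff]
  rw [← h1]
  refine le_trans (cond_ent_le_card hP X' Z (fun z => (A z).subtype (· ∈ V)) ?_) ?_
  · intro ω hω
    rw [Finset.mem_subtype]
    exact hA ω hω
  · apply Finset.sum_le_sum
    intro ω _
    rcases (hP.nonneg ω).lt_or_eq with hi | hi
    · apply mul_le_mul_of_nonneg_left _ hi.le
      apply Real.log_le_log
      · have : 0 < ((A (Z ω)).subtype (· ∈ V)).card :=
          Finset.card_pos.mpr ⟨X' ω, by rw [Finset.mem_subtype]; exact hA ω hi⟩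
        exact_mod_cast this
      · have : ((A (Z ω)).subtype (· ∈ V)).card ≤ (A (Z ω)).card := by
          rw [Finset.card_subtype]
          exact Finset.card_filter_le _ _
        exact_mod_cast this
    · simp [← hi]

lemma ent_le_log_card_mem (hP : IsProb P) (X : Ω → S) (A : Finset S)
    (hA : ∀ ω, 0 < P ω → X ω ∈ A) : ent P X ≤ Real.log (A.card : ℝ) := by
  have h := cond_ent_le_card_mem hP X (fun _ => ()) (fun _ => A) hA
  rw [ent_const hP] at h
  have h2 : ent P (fun ω => (X ω, ())) = ent P X := ent_congr (by intro a b; simp)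
  rw [h2, ← Finset.sum_mul, hP.sum_eq] at h
  linarith

/-- extension of a finite probability space by a kernel `κ : Ω → T → ℝ`. -/
noncomputable def ext {T : Type*} (P : Ω → ℝ) (κ : Ω → T → ℝ) : Ω × T → ℝ :=
  fun x => P x.1 * κ x.1 x.2

lemma isProb_ext {T : Type*} [Fintype T] (hP : IsProb P) {κ : Ω → T → ℝ}
    (hκ : ∀ ω, IsProb (κ ω)) : IsProb (ext P κ) := by
  constructor
  · intro x; exact mul_nonneg (hP.nonneg _) ((hκ _).nonneg _)
  · rw [Fintype.sum_prod_type]
    simp only [ext]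
    simp_rw [← Finset.mul_sum, (hκ _).sum_eq, mul_one]
    exact hP.sum_eq

lemma pushes_ext {T : Type*} [Fintype T] {κ : Ω → T → ℝ}
    (hκ : ∀ ω, IsProb (κ ω)) : Pushes (fun x : Ω × T => x.1) (ext P κ) P := by
  classical
  intro ω
  rw [Fintype.sum_prod_type]
  rw [Finset.sum_eq_single ω]
  · simp only [ext, if_true]
    rw [← Finset.mul_sum, (hκ _).sum_eq, mul_one]
  · intro b _ hb
    simp [hb]
  · intro h; exact absurd (Finset.mem_univ _) h

/-- independent (or conditionally independent) variables: entropy of a pair `(ω, t)` under `ext P κ`: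
`H(ω, t) = H(ω) + Σ P(ω) H(κ ω)`. -/
lemma hl_ext {T : Type*} [Fintype T] {κ : Ω → T → ℝ} (hκ : ∀ ω, IsProb (κ ω)) :
    hl (ext P κ) = hl P + ∑ ω, P ω * hl (κ ω) := by
  classical
  unfold hl ext
  rw [Fintype.sum_prod_type]
  simp only
  simp_rw [Real.negMulLog_mul]
  rw [← Finset.sum_add_distrib]
  apply Finset.sum_congr rfl
  intro ω _
  rw [Finset.sum_add_distrib, ← Finset.sum_mul, (hκ ω).sum_eq, one_mul, Finset.mul_sum]

end extra

end Crest.Agent.R2.Kit
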