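import Mathlib
import Crest.Agent.R2.Kit123

/-! R2 (S0002), block K2 = STEP 1 of #11294: the (near-)maximal law. -/

set_option autoImplicit false
open Finset Real

namespace Crest.Agent.R2.E123
open Crest.Agent.R055 Crest.Agent.R2.Kit

open Classical in
/-- two finite probability spaces with the same law of a variable -/
def SameLaw {Ω Ω' G : Type*} [Fintype Ω] [Fintype Ω'] (P : Ω → ℝ) (z : Ω → G)
    (P' : Ω' → ℝ) (z' : Ω' → G) : Prop :=
  ∀ x, (∑ ω, if z ω = x then P ω else 0) = ∑ ω, if z' ω = x then P' ω else 0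

section law
variable {Ω Ω' Ω'' G : Type*} [Fintype Ω] [Fintype Ω'] [Fintype Ω'']
  {P : Ω → ℝ} {z : Ω → G} {P' : Ω' → ℝ} {z' : Ω' → G} {P'' : Ω'' → ℝ} {z'' : Ω'' → G}

open Classical in
lemma sum_fiber (P : Ω → ℝ) (z : Ω → G) (φ : G → ℝ) (V : Finset G) (hV : ∀ ω, z ω ∈ V) :
    ∑ ω, P ω * φ (z ω) = ∑ x ∈ V, (∑ ω, if z ω = x then P ω else 0) * φ x := by
  simp_rw [Finset.sum_mul]
  rw [Finset.sum_comm]
  apply Finset.sum_congr rfl
  intro ω _
  rw [Finset.sum_eq_single (z ω)]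
  · simp
  · intro b _ hb
    rw [if_neg (fun h => hb h.symm), zero_mul]
  · intro h; exact absurd (hV ω) h

lemma SameLaw.refl (P : Ω → ℝ) (z : Ω → G) : SameLaw P z P z := fun _ => rfl

lemma SameLaw.symm (h : SameLaw P z P' z') : SameLaw P' z' P z := fun x => (h x).symm

lemma SameLaw.trans (h : SameLaw P z P' z') (h' : SameLaw P' z' P'' z'') :
    SameLaw P z P'' z'' := fun x => (h x).trans (h' x)

lemma SameLaw.sum_mul (h : SameLaw P z P' z') (φ : G → ℝ) :
    ∑ ω, P ω * φ (z ω) = ∑ ω, P' ω * φ (z' ω) := by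
  classical
  set V : Finset G := Finset.univ.image z ∪ Finset.univ.image z' with hVdef
  have h1 : ∀ ω, z ω ∈ V := fun ω =>
    Finset.mem_union_left _ (Finset.mem_image_of_mem _ (Finset.mem_univ ω))
  have h2 : ∀ ω, z' ω ∈ V := fun ω =>
    Finset.mem_union_right _ (Finset.mem_image_of_mem _ (Finset.mem_univ ω))
  rw [sum_fiber P z φ V h1, sum_fiber P' z' φ V h2]
  apply Finset.sum_congr rfl
  intro x _
  rw [h x]

/-- entropies of functions of the variable only depend on its law -/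
lemma SameLaw.ent_eq (h : SameLaw P z P' z') {S : Type*} (f : G → S) :
    ent P (fun ω => f (z ω)) = ent P' (fun ω => f (z' ω)) := by
  classical
  set Ψ : G → ℝ := fun x => ∑ ω', P ω' * (if f (z ω') = f x then 1 else 0) with hΨ
  have e1 : ∀ ω, cls P (fun ω => f (z ω)) ω = Ψ (z ω) := by
    intro ω
    unfold cls
    rw [hΨ]
    apply Finset.sum_congr rfl
    intro i _
    by_cases hi : f (z i) = f (z ω) <;> simp [hi]
  have e2 : ∀ ω, cls P' (fun ω => f (z' ω)) ω = Ψ (z' ω) := by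
    intro ω
    have : Ψ (z' ω) = ∑ ω', P' ω' * (if f (z' ω') = f (z' ω) then 1 else 0) :=
      h.sum_mul (fun y => if f y = f (z' ω) then 1 else 0)
    rw [this]
    unfold cls
    apply Finset.sum_congr rfl
    intro i _
    by_cases hi : f (z' i) = f (z' ω) <;> simp [hi]
  unfold ent
  simp_rw [e1, e2]
  exact h.sum_mul (fun x => - Real.log (Ψ x))

/-- a kernel extension has the same law of the old variable -/
lemma sameLaw_of_pushes {φ : Ω' → Ω} (h : Pushes φ P' P) : SameLaw P z P' (fun ω => z (φ ω)) := by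
  classical
  intro x
  have := h.sum_mul (fun ω => if z ω = x then (1 : ℝ) else 0)
  simp only [mul_ite, mul_one, mul_zero] at this
  convert this.symm using 1

end law

lemma geo_le {q : ℝ} (h0 : 0 ≤ q) (h1 : q ≤ 1 / 2) (N : ℕ) :
    ∑ j ∈ range N, q ^ (j + 1) ≤ 2 * q := by
  have h : ∀ N : ℕ, ∑ j ∈ range N, q ^ (j + 1) ≤ 2 * q - 2 * q ^ (N + 1) + (2 * q) * 0 := by
    intro N
    induction N with
    | zero => simp
    | succ N ih =>
      rw [Finset.sum_range_succ]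
      have : q ^ (N + 1 + 1) = q * q ^ (N + 1) := by ring
      have h2 : 0 ≤ q ^ (N + 1) := by positivity
      nlinarith
  have := h N
  have h2 : 0 ≤ q ^ (N + 1) := by positivity
  linarith

section main

variable {G β : Type} [AddCommGroup G] {Q : β → Type}

/-- average over the blocks of level `t` of the entropy of the residue of `z` -/
noncomputable def avgH (blk : ℕ → Finset β) (res : (s : β) → G → Q s)
    {Ω : Type} [Fintype Ω] (P : Ω → ℝ) (z : Ω → G) (t : ℕ) : ℝ :=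
  (∑ s ∈ blk t, ent P (fun ω => res s (z ω))) / ((blk t).card : ℝ)

/-- the potential -/
noncomputable def Phi (blk : ℕ → Finset β) (res : (s : β) → G → Q s) (b : ℕ → ℝ) (n : ℕ) (θ : ℝ)
    {Ω : Type} [Fintype Ω] (P : Ω → ℝ) (z : Ω → G) : ℝ :=
  ∑ t ∈ range n, (θ⁻¹) ^ t * (avgH blk res P z t / b t)

variable {blk : ℕ → Finset β} {res : (s : β) → G → Q s} {b : ℕ → ℝ} {n : ℕ}

lemma avgH_nonneg {Ω : Type} [Fintype Ω] {P : Ω → ℝ} (hP : IsProb P) (z : Ω → G) (t : ℕ) :
    0 ≤ avgH blk res P z t := by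
  unfold avgH
  apply div_nonneg _ (Nat.cast_nonneg _)
  exact Finset.sum_nonneg (fun s _ => ent_nonneg hP _)

lemma avgH_le {Ω : Type} [Fintype Ω] {P : Ω → ℝ} {z : Ω → G} {t : ℕ}
    (hne : (blk t).Nonempty) {B : ℝ}
    (h : ∀ s ∈ blk t, ent P (fun ω => res s (z ω)) ≤ B) :
    avgH blk res P z t ≤ B := by
  unfold avgH
  have hc : (0 : ℝ) < (blk t).card := by exact_mod_cast hne.card_pos
  rw [div_le_iff₀ hc]
  calc _ ≤ ∑ _s ∈ blk t, B := Finset.sum_le_sum h
    _ = B * (blk t).card := by rw [Finset.sum_const, nsmul_eq_mul]; ring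

lemma avgH_mono_add {Ω Ω' : Type} [Fintype Ω] [Fintype Ω'] {P : Ω → ℝ} {P' : Ω' → ℝ}
    {z : Ω → G} {z' : Ω' → G} {t : ℕ}
    (hne : (blk t).Nonempty) {c : ℝ}
    (h : ∀ s ∈ blk t, ent P (fun ω => res s (z ω)) ≤ ent P' (fun ω => res s (z' ω)) + c) :
    avgH blk res P z t ≤ avgH blk res P' z' t + c := by
  unfold avgH
  have hc : (0 : ℝ) < (blk t).card := by exact_mod_cast hne.card_pos
  rw [div_add' _ _ _ hc.ne', div_le_div_iff_of_pos_right hc]
  calc _ ≤ ∑ s ∈ blk t, (ent P' (fun ω => res s (z' ω)) + c) := Finset.sum_le_sum h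
    _ = _ := by rw [Finset.sum_add_distrib, Finset.sum_const, nsmul_eq_mul]; ring

lemma avgH_congr {Ω Ω' : Type} [Fintype Ω] [Fintype Ω'] {P : Ω → ℝ} {P' : Ω' → ℝ}
    {z : Ω → G} {z' : Ω' → G} {t : ℕ}
    (h : ∀ s ∈ blk t, ent P (fun ω => res s (z ω)) = ent P' (fun ω => res s (z' ω))) :
    avgH blk res P z t = avgH blk res P' z' t := by
  unfold avgH
  rw [Finset.sum_congr rfl h]

/-- **K2 (STEP 1): the near-maximal law.**  There is one finite probability space `(Ω, P, z)` with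
values in `E` such that for every level `t < n` and every displacement `y` (on any space carrying a
copy of `z`, with `z + y ∈ E` a.s.) of entropy `≤ C0 * b t`, the average entropy of the residues of
`z + y` at level `t` exceeds that of `z` by at most `δ * b t`. -/
theorem near_max (E : Set G) (hE : E.Nonempty) (n : ℕ) (b : ℕ → ℝ) (blk : ℕ → Finset β)
    (res : (s : β) → G → Q s) (m δ C0 : ℝ)
    (hδ : 0 < δ) (hδ1 : δ ≤ 1) (hC0 : 1 ≤ C0) (hm : 36 * C0 / δ ^ 2 ≤ m)
    (hb : ∀ t < n, 0 < b t)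
    (hratio : ∀ t t', t < t' → t' < n → m ^ (t' - t) * b t ≤ b t')
    (hne : ∀ t < n, (blk t).Nonempty)
    (hres : ∀ t < n, ∀ s ∈ blk t, ∀ z z' y : G, res s (z + y) = res s (z' + y) → res s z = res s z')
    (hle : ∀ t < n, ∀ s ∈ blk t, ∀ (Ω : Type) [Fintype Ω] (P : Ω → ℝ) (z : Ω → G), IsProb P →
      ent P (fun ω => res s (z ω)) ≤ b t) :
    ∃ (Ω : Type) (_ : Fintype Ω) (P : Ω → ℝ) (z : Ω → G), IsProb P ∧ (∀ ω, z ω ∈ E) ∧
      ∀ t < n, ∀ (Ω' : Type) [Fintype Ω'] (P' : Ω' → ℝ) (z' y' : Ω' → G), IsProb P' →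
        SameLaw P z P' z' → (∀ ω, 0 < P' ω → z' ω + y' ω ∈ E) → ent P' y' ≤ C0 * b t →
        avgH blk res P' (fun ω => z' ω + y' ω) t ≤ avgH blk res P z t + δ * b t := by
  classical
  set θ : ℝ := δ / 6 with hθ
  have hθ0 : 0 < θ := by positivity
  have hθ1 : θ ≤ 1 / 2 := by rw [hθ]; linarith
  have hmpos : 0 < m := lt_of_lt_of_le (by positivity) hm
  have hθm : 6 * C0 / δ ≤ θ * m := by
    calc 6 * C0 / δ = θ * (36 * C0 / δ ^ 2) := by rw [hθ]; field_simp; ring
      _ ≤ θ * m := mul_le_mul_of_nonneg_left hm hθ0.le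
  have hθm6 : 6 ≤ θ * m := by
    refine le_trans ?_ hθm
    rw [le_div_iff₀ hδ]
    nlinarith
  set q : ℝ := (θ * m)⁻¹ with hq
  have hq0 : 0 ≤ q := by positivity
  have hq1 : q ≤ 1 / 2 := by
    rw [hq]
    calc (θ * m)⁻¹ ≤ (6 : ℝ)⁻¹ := inv_anti₀ (by norm_num) hθm6
      _ ≤ 1 / 2 := by norm_num
  have hqC : C0 * (2 * q) ≤ δ / 3 := by
    have h1 : q ≤ (6 * C0 / δ)⁻¹ := inv_anti₀ (by positivity) hθm
    have h2 : (6 * C0 / δ)⁻¹ = δ / (6 * C0) := by rw [inv_div]
    rw [h2] at h1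
    calc C0 * (2 * q) ≤ C0 * (2 * (δ / (6 * C0))) := by
          apply mul_le_mul_of_nonneg_left _ (by linarith)
          linarith
      _ = δ / 3 := by field_simp; ring
  -- the set of values
  set V : Set ℝ := {v | ∃ (Ω : Type) (_ : Fintype Ω) (P : Ω → ℝ) (z : Ω → G), IsProb P ∧
    (∀ ω, z ω ∈ E) ∧ v = Phi blk res b n θ P z} with hV
  obtain ⟨e0, he0⟩ := hE
  have hVne : V.Nonempty := by
    refine ⟨_, Unit, inferInstance, fun _ => 1, fun _ => e0, ?_, fun _ => he0, rfl⟩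
    exact ⟨fun _ => zero_le_one, by simp⟩
  have hh1 : ∀ t < n, ∀ (Ω : Type) [Fintype Ω] (P : Ω → ℝ) (z : Ω → G), IsProb P →
      avgH blk res P z t / b t ≤ 1 := by
    intro t ht Ω _ P z hP
    rw [div_le_one (hb t ht)]
    exact avgH_le (hne t ht) (fun s hs => hle t ht s hs Ω P z hP)
  have hh0 : ∀ t < n, ∀ (Ω : Type) [Fintype Ω] (P : Ω → ℝ) (z : Ω → G), IsProb P →
      0 ≤ avgH blk res P z t / b t := by
    intro t ht Ω _ P z hP
    exact div_nonneg (avgH_nonneg hP z t) (hb t ht).le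
  have hVbdd : BddAbove V := by
    refine ⟨∑ t ∈ range n, (θ⁻¹) ^ t, ?_⟩
    rintro v ⟨Ω, _, P, z, hP, _, rfl⟩
    unfold Phi
    apply Finset.sum_le_sum
    intro t ht
    rw [Finset.mem_range] at ht
    have h0 : 0 ≤ (θ⁻¹) ^ t := by positivity
    calc _ ≤ (θ⁻¹) ^ t * 1 := mul_le_mul_of_nonneg_left (hh1 t ht Ω P z hP) h0
      _ = _ := mul_one _
  obtain ⟨v, hvV, hv⟩ := exists_lt_of_lt_csSup hVne (show sSup V - δ / 3 < sSup V by linarith)
  obtain ⟨Ω, _, P, z, hP, hzE, rfl⟩ := hvV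
  refine ⟨Ω, inferInstance, P, z, hP, hzE, ?_⟩
  intro t ht Ω' _ P' z' y' hP' hlaw hE' hy'
  -- the new law
  set x' : Ω' → G := fun ω => if 0 < P' ω then z' ω + y' ω else e0 with hx'
  have hx'E : ∀ ω, x' ω ∈ E := by
    intro ω
    simp only [hx']
    split_ifs with h
    · exact hE' ω h
    · exact he0
  have hent : ∀ s, ent P' (fun ω => res s (x' ω)) = ent P' (fun ω => res s (z' ω + y' ω)) := by
    intro s
    apply ent_congr_pos hP'.nonneg
    intro a c ha hc
    simp only [hx', if_pos ha, if_pos hc]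
  have hnew : Phi blk res b n θ P' x' ≤ sSup V :=
    le_csSup hVbdd ⟨Ω', inferInstance, P', x', hP', hx'E, rfl⟩
  have htot : Phi blk res b n θ P' x' - Phi blk res b n θ P z ≤ δ / 3 := by linarith
  set h : ℕ → ℝ := fun t => avgH blk res P z t / b t with hhdef
  set h' : ℕ → ℝ := fun t => avgH blk res P' x' t / b t with hh'def
  have htot' : ∑ t' ∈ range n, (θ⁻¹) ^ t' * (h' t' - h t') ≤ δ / 3 := by
    have : ∑ t' ∈ range n, (θ⁻¹) ^ t' * (h' t' - h t')
        = Phi blk res b n θ P' x' - Phi blk res b n θ P z := by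
      unfold Phi
      rw [← Finset.sum_sub_distrib]
      apply Finset.sum_congr rfl
      intro i _
      simp only [hhdef, hh'def]
      ring
    rw [this]; exact htot
  -- lower bounds for the other levels
  have hlow : ∀ t' < t, -(1 : ℝ) ≤ h' t' - h t' := by
    intro t' ht'
    have h1 := hh1 t' (lt_trans ht' ht) Ω P z hP
    have h2 := hh0 t' (lt_trans ht' ht) Ω' P' x' hP'
    simp only [hhdef, hh'def]
    linarith
  have hhigh : ∀ t', t < t' → t' < n → -(C0 * (m⁻¹) ^ (t' - t)) ≤ h' t' - h t' := by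
    intro t' htt' ht'
    have hbt' := hb t' ht'
    have h1 : avgH blk res P z t' ≤ avgH blk res P' x' t' + C0 * b t := by
      apply avgH_mono_add (hne t' ht')
      intro s hs
      rw [hent s, hlaw.ent_eq (fun x => res s x)]
      have h3 : ent P' (fun ω => res s (z' ω)) ≤
          ent P' (fun ω => (res s (z' ω + y' ω), y' ω)) := by
        apply ent_mono hP'.nonneg
        intro a c hac
        simp only [Prod.mk.injEq] at hac
        have h4 := hac.1
        rw [hac.2] at h4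
        exact hres t' ht' s hs _ _ _ h4
      have h5 := ent_subadd hP' (fun ω => res s (z' ω + y' ω)) y'
      linarith
    have h2 : C0 * b t / b t' ≤ C0 * (m⁻¹) ^ (t' - t) := by
      rw [div_le_iff₀ hbt']
      have h3 := hratio t t' htt' ht'
      have h4 : (m⁻¹) ^ (t' - t) * (m ^ (t' - t) * b t) ≤ (m⁻¹) ^ (t' - t) * b t' :=
        mul_le_mul_of_nonneg_left h3 (by positivity)
      have h5 : (m⁻¹) ^ (t' - t) * (m ^ (t' - t) * b t) = b t := by
        rw [← mul_assoc, ← mul_pow, inv_mul_cancel₀ hmpos.ne', one_pow, one_mul]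
      rw [h5] at h4
      nlinarith
    have h6 : h t' ≤ h' t' + C0 * b t / b t' := by
      simp only [hhdef, hh'def]
      rw [← add_div]
      exact div_le_div_of_nonneg_right h1 hbt'.le
    linarith
  -- split the sum
  have hsplit : ∑ t' ∈ range n, (θ⁻¹) ^ t' * (h' t' - h t')
      = ∑ t' ∈ range t, (θ⁻¹) ^ t' * (h' t' - h t') + (θ⁻¹) ^ t * (h' t - h t)
        + ∑ j ∈ range (n - (t + 1)), (θ⁻¹) ^ (t + 1 + j) * (h' (t + 1 + j) - h (t + 1 + j)) := by
    have hn : n = (t + 1) + (n - (t + 1)) := by omega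
    conv_lhs => rw [hn]
    rw [Finset.sum_range_add, Finset.sum_range_succ]
  rw [hsplit] at htot'
  have hθt : 0 < (θ⁻¹) ^ t := by positivity
  have hA : -((θ⁻¹) ^ t * (2 * θ)) ≤ ∑ t' ∈ range t, (θ⁻¹) ^ t' * (h' t' - h t') := by
    have h1 : ∑ t' ∈ range t, θ ^ ((t - 1 - t') + 1) ≤ 2 * θ := by
      rw [Finset.sum_range_reflect (fun j => θ ^ (j + 1)) t]
      exact geo_le hθ0.le hθ1 t
    have h2 : ∀ t' ∈ range t, -((θ⁻¹) ^ t * θ ^ ((t - 1 - t') + 1))
        ≤ (θ⁻¹) ^ t' * (h' t' - h t') := by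
      intro t' ht'
      rw [Finset.mem_range] at ht'
      have h3 : (θ⁻¹) ^ t * θ ^ ((t - 1 - t') + 1) = (θ⁻¹) ^ t' := by
        have : t = t' + ((t - 1 - t') + 1) := by omega
        conv_lhs => rw [this]
        have h8 : t' + (t - 1 - t' + 1) - 1 - t' + 1 = (t - 1 - t' + 1) := by omega
        rw [h8, pow_add, mul_assoc, ← mul_pow, inv_mul_cancel₀ hθ0.ne', one_pow, mul_one]
      rw [h3]
      have h4 := hlow t' ht'
      have h5 : 0 ≤ (θ⁻¹) ^ t' := by positivity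
      nlinarith
    calc -((θ⁻¹) ^ t * (2 * θ)) ≤ -((θ⁻¹) ^ t * ∑ t' ∈ range t, θ ^ ((t - 1 - t') + 1)) := by
          apply neg_le_neg
          exact mul_le_mul_of_nonneg_left h1 hθt.le
      _ = ∑ t' ∈ range t, -((θ⁻¹) ^ t * θ ^ ((t - 1 - t') + 1)) := by
          rw [Finset.mul_sum, Finset.sum_neg_distrib]
      _ ≤ _ := Finset.sum_le_sum h2
  have hB : -((θ⁻¹) ^ t * (C0 * (2 * q))) ≤
      ∑ j ∈ range (n - (t + 1)), (θ⁻¹) ^ (t + 1 + j) * (h' (t + 1 + j) - h (t + 1 + j)) := by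
    have h1 := geo_le hq0 hq1 (n - (t + 1))
    have h2 : ∀ j ∈ range (n - (t + 1)), -((θ⁻¹) ^ t * (C0 * q ^ (j + 1)))
        ≤ (θ⁻¹) ^ (t + 1 + j) * (h' (t + 1 + j) - h (t + 1 + j)) := by
      intro j hj
      rw [Finset.mem_range] at hj
      have h3 := hhigh (t + 1 + j) (by omega) (by omega)
      have h4 : t + 1 + j - t = j + 1 := by omega
      rw [h4] at h3
      have h5 : (θ⁻¹) ^ (t + 1 + j) * (C0 * (m⁻¹) ^ (j + 1)) = (θ⁻¹) ^ t * (C0 * q ^ (j + 1)) := by
        rw [hq, mul_inv, mul_pow]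
        have : t + 1 + j = t + (j + 1) := by ring
        rw [this, pow_add]
        ring
      rw [← h5]
      have h6 : 0 ≤ (θ⁻¹) ^ (t + 1 + j) := by positivity
      nlinarith
    calc -((θ⁻¹) ^ t * (C0 * (2 * q)))
        ≤ -((θ⁻¹) ^ t * (C0 * ∑ j ∈ range (n - (t + 1)), q ^ (j + 1))) := by
          apply neg_le_neg
          apply mul_le_mul_of_nonneg_left _ hθt.le
          exact mul_le_mul_of_nonneg_left h1 (by linarith)
      _ = ∑ j ∈ range (n - (t + 1)), -((θ⁻¹) ^ t * (C0 * q ^ (j + 1))) := by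
          rw [Finset.mul_sum, Finset.mul_sum, Finset.sum_neg_distrib]
      _ ≤ _ := Finset.sum_le_sum h2
  have hfin : (θ⁻¹) ^ t * (h' t - h t) ≤ δ / 3 + (θ⁻¹) ^ t * (2 * θ) + (θ⁻¹) ^ t * (δ / 3) := by
    have : (θ⁻¹) ^ t * (C0 * (2 * q)) ≤ (θ⁻¹) ^ t * (δ / 3) :=
      mul_le_mul_of_nonneg_left hqC hθt.le
    linarith
  have hone : 1 ≤ (θ⁻¹) ^ t := one_le_pow₀ (by
    rw [one_le_inv₀ hθ0]; linarith)
  have hfin2 : (θ⁻¹) ^ t * (h' t - h t) ≤ (θ⁻¹) ^ t * δ := by
    have h1 : δ / 3 ≤ (θ⁻¹) ^ t * (δ / 3) := by nlinarith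
    have h2 : 2 * θ = δ / 3 := by rw [hθ]; ring
    rw [h2] at hfin
    nlinarith
  have hfin3 : h' t - h t ≤ δ := le_of_mul_le_mul_left hfin2 hθt
  have hbt := hb t ht
  have h7 : avgH blk res P' x' t ≤ avgH blk res P z t + δ * b t := by
    simp only [hhdef, hh'def] at hfin3
    have h8 : avgH blk res P' x' t / b t ≤ (avgH blk res P z t + δ * b t) / b t := by
      rw [add_div, mul_div_cancel_right₀ _ hbt.ne']
      linarith
    exact (div_le_div_iff_of_pos_right hbt).mp h8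
  have h8 : avgH blk res P' x' t = avgH blk res P' (fun ω => z' ω + y' ω) t :=
    avgH_congr (fun s _ => hent s)
  rw [← h8]
  exact h7

end main

end Crest.Agent.R2.E123
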