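import Crest.Agent.R2.Kac587d
import Crest.Agent.R2.Max123
import Crest.Agent.R2.Defs149

/-!
# R2 (Gaussian moat), block K8, part e: assembly of near-full Kac
-/

set_option autoImplicit false
set_option linter.unusedSectionVars false

namespace Crest.Agent.R2.K8

open Finset hiding ext
open Crest.Agent.R055 Crest.Agent.R2.Kit Crest.Agent.R2.Gcd62 Crest.Agent.R2.E123

/-! ### arithmetic of the block sizes -/

theorem q_spec {g m I i : ℕ} (hm : 0 < m) (hd : m ^ I ∣ g) (hg : 0 < g) (hi : i ≤ I) :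
    0 < g / m ^ i ∧ m ^ i * (g / m ^ i) = g := by
  have h1 : m ^ i ∣ g := (pow_dvd_pow m hi).trans hd
  refine ⟨Nat.div_pos (Nat.le_of_dvd hg h1) (pow_pos hm i), Nat.mul_div_cancel' h1⟩

theorem q_succ {g m I i : ℕ} (hm : 0 < m) (hd : m ^ I ∣ g) (hg : 0 < g) (hi : i + 1 ≤ I) :
    m * (g / m ^ (i + 1)) = g / m ^ i := by
  have h1 := (q_spec hm hd hg hi).2
  have h2 := (q_spec hm hd hg (Nat.le_of_succ_le hi)).2
  have h3 : m ^ i * (m * (g / m ^ (i + 1))) = m ^ i * (g / m ^ i) := by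
    rw [h2, ← mul_assoc, ← pow_succ, h1]
  exact Nat.eq_of_mul_eq_mul_left (pow_pos hm i) h3

theorem q_cast {g m I i : ℕ} (hm : 0 < m) (hd : m ^ I ∣ g) (hg : 0 < g) (hi : i ≤ I) :
    ((g / m ^ i : ℕ) : ℝ) = (g : ℝ) / (m : ℝ) ^ i := by
  have h := (q_spec hm hd hg hi).2
  have hm' : (0 : ℝ) < (m : ℝ) ^ i := by positivity
  rw [eq_div_iff hm'.ne', mul_comm]
  have : ((m ^ i * (g / m ^ i) : ℕ) : ℝ) = (g : ℝ) := by rw [h]
  push_cast at this ⊢
  exact this

theorem lk_eq {I k r : ℕ} (h : r < I + 1) : (k * (I + 1) + r) / (I + 1) = k := by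
  rw [Nat.mul_comm, Nat.mul_add_div (Nat.succ_pos _), Nat.div_eq_of_lt h, Nat.add_zero]

theorem lr_eq {I k r : ℕ} (h : r < I + 1) : (k * (I + 1) + r) % (I + 1) = r := by
  rw [Nat.mul_comm, Nat.mul_add_mod, Nat.mod_eq_of_lt h]

theorem ratio_of_step {b : ℕ → ℝ} {m : ℝ} {n : ℕ} (hm : 0 ≤ m)
    (h : ∀ t, t + 1 < n → m * b t ≤ b (t + 1)) :
    ∀ t t', t < t' → t' < n → m ^ (t' - t) * b t ≤ b t' := by
  intro t t' htt' ht'
  obtain ⟨d, rfl⟩ := Nat.exists_eq_add_of_lt htt'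
  induction d with
  | zero =>
    have := h t (by omega)
    simpa using this
  | succ d ih =>
    have h1 := ih (by omega) (by omega)
    have h2 := h (t + d + 1) (by omega)
    have e1 : t + (d + 1) + 1 - t = d + 1 + 1 := by omega
    have e2 : t + d + 1 - t = d + 1 := by omega
    rw [e1]
    rw [e2] at h1
    calc m ^ (d + 1 + 1) * b t = m * (m ^ (d + 1) * b t) := by ring
      _ ≤ m * b (t + d + 1) := mul_le_mul_of_nonneg_left h1 hm
      _ ≤ b (t + d + 1 + 1) := h2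
      _ = b (t + (d + 1) + 1) := by congr 1

theorem exists_small_step (g : ℕ → ℝ) {I : ℕ} (hI : 0 < I) (h : g I - g 0 ≤ 1) :
    ∃ i < I, g (i + 1) - g i ≤ 1 / (I : ℝ) := by
  by_contra hcon
  push Not at hcon
  have h1 : ∑ i ∈ range I, (1 / (I : ℝ)) < ∑ i ∈ range I, (g (i + 1) - g i) := by
    apply Finset.sum_lt_sum_of_nonempty
    · exact ⟨0, Finset.mem_range.2 hI⟩
    · intro i hi; exact hcon i (Finset.mem_range.1 hi)
  rw [Finset.sum_range_sub, Finset.sum_const, card_range, nsmul_eq_mul] at h1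
  have hI' : (0 : ℝ) < I := by exact_mod_cast hI
  rw [mul_one_div, div_self hI'.ne'] at h1
  linarith

/-! ### logarithms of norms -/

theorem norm_pos_of_prime {p : GaussianInt} (hp : Prime p) : (0 : ℝ) < (p.norm : ℝ) := by
  have : 0 < p.norm := GaussianInt.norm_pos.2 hp.ne_zero
  exact_mod_cast this

theorem log_prod {S : Finset GaussianInt} (hS : ∀ p ∈ S, Prime p) :
    Real.log (∏ p ∈ S, ((p.norm : ℤ) : ℝ)) = ∑ p ∈ S, Real.log (p.norm : ℝ) :=
  Real.log_prod (fun p hp => (norm_pos_of_prime (hS p hp)).ne')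

theorem sum_log_le {w : ℝ} {G S : Finset GaussianInt} (h : X149.Blk w G) (hS : S ⊆ G) :
    ∑ p ∈ S, Real.log (p.norm : ℝ) ≤ S.card * Real.log (4 * w) := by
  rw [← nsmul_eq_mul]
  apply Finset.sum_le_card_nsmul
  intro p hp
  exact Real.log_le_log (norm_pos_of_prime (h.prime p (hS hp))) (h.hi p (hS hp))

theorem le_sum_log {w : ℝ} (hw : 0 < w) {G S : Finset GaussianInt} (h : X149.Blk w G)
    (hS : S ⊆ G) : S.card * Real.log w ≤ ∑ p ∈ S, Real.log (p.norm : ℝ) := by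
  rw [← nsmul_eq_mul]
  apply Finset.card_nsmul_le_sum
  intro p hp
  exact Real.log_le_log hw (h.lo p (hS hp)).le

/-- entropy modulo the product = entropy of `rs`. -/
theorem ent_cl_eq {Ω : Type*} [Fintype Ω] (P : Ω → ℝ) {S : Finset GaussianInt}
    (hS : ∀ p ∈ S, Prime p) (hass : ∀ p ∈ S, ∀ q ∈ S, Associated p q → p = q)
    (z : Ω → GaussianInt) :
    ent P (fun ω => X149.cl (∏ p ∈ S, p) (z ω)) = ent P (fun ω => rs S (z ω)) := by
  apply ent_congr
  intro a b
  rw [X149.cl_eq_iff]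
  constructor
  · intro h
    rw [rs_eq_iff]
    intro p hp
    exact (Finset.dvd_prod_of_mem _ hp).trans h
  · intro h
    exact prod_dvd_of_rs hS hass h

/-- block `j` of level `i` of `G k`. -/
noncomputable def Bl (G : ℕ → Finset GaussianInt) (m k i j : ℕ) : Finset GaussianInt :=
  blk (G k) ((G k).card / m ^ i) j

/-- log-size of the blocks of level `i` of `G k`. -/
noncomputable def bb (G : ℕ → Finset GaussianInt) (w : ℕ → ℝ) (m k i : ℕ) : ℝ :=
  ((G k).card : ℝ) / (m : ℝ) ^ i * Real.log (4 * w k)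

section scale

variable {G : ℕ → Finset GaussianInt} {w : ℕ → ℝ} {m I k i : ℕ}

theorem card_Bl (hm : 0 < m) (hd : m ^ I ∣ (G k).card) (hg : 0 < (G k).card) (hi : i ≤ I)
    {j : ℕ} (hj : j < m ^ i) : (Bl G m k i j).card = (G k).card / m ^ i := by
  have h := q_spec hm hd hg hi
  apply card_blk h.1
  calc (j + 1) * ((G k).card / m ^ i) ≤ m ^ i * ((G k).card / m ^ i) :=
        Nat.mul_le_mul_right _ hj
    _ = (G k).card := h.2

theorem Bl_inj (hm : 0 < m) (hd : m ^ I ∣ (G k).card) (hg : 0 < (G k).card) (hi : i ≤ I)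
    {j j' : ℕ} (hj : j < m ^ i) (he : Bl G m k i j = Bl G m k i j') : j = j' := by
  have h := q_spec hm hd hg hi
  apply blk_inj h.1 _ he
  calc (j + 1) * ((G k).card / m ^ i) ≤ m ^ i * ((G k).card / m ^ i) :=
        Nat.mul_le_mul_right _ hj
    _ = (G k).card := h.2

theorem Bl_parent (hm : 0 < m) (hd : m ^ I ∣ (G k).card) (hg : 0 < (G k).card) (hi : i + 1 ≤ I)
    (j : ℕ) : (range m).biUnion (fun u => Bl G m k (i + 1) (j * m + u)) = Bl G m k i j := by
  unfold Bl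
  rw [blk_parent hm, q_succ hm hd hg hi]

theorem bb_succ (hm : 0 < m) : (m : ℝ) * bb G w m k (i + 1) = bb G w m k i := by
  unfold bb
  have : (0 : ℝ) < m := by exact_mod_cast hm
  field_simp
  ring

theorem ent_Bl_le (hB : X149.Blk (w k) (G k)) (hm : 0 < m) (hd : m ^ I ∣ (G k).card)
    (hg : 0 < (G k).card) (hi : i ≤ I) {j : ℕ} (hj : j < m ^ i)
    {Ω : Type} [Fintype Ω] {P : Ω → ℝ} (hP : IsProb P) (z : Ω → GaussianInt) :
    ent P (fun ω => rs (Bl G m k i j) (z ω)) ≤ bb G w m k i := by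
  have hsub : Bl G m k i j ⊆ G k := blk_subset _ _ _
  have hpr : ∀ p ∈ Bl G m k i j, Prime p := fun p hp => hB.prime p (hsub hp)
  have h1 := ent_rs_le hP (Bl G m k i j) (fun p hp => (hpr p hp).ne_zero) z
  rw [log_prod hpr] at h1
  have h2 := sum_log_le hB hsub
  rw [card_Bl hm hd hg hi hj, q_cast hm hd hg hi] at h2
  unfold bb
  linarith

end scale

end Crest.Agent.R2.K8
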