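import Crest.Agent.R2.Kac587e

/-!
# R2 (Gaussian moat), block K8, part f: near-full Kac from the pair kernel
-/

set_option autoImplicit false
set_option linter.unusedSectionVars false

namespace Crest.Agent.R2.K8

open Finset hiding ext
open Crest.Agent.R055 Crest.Agent.R2.Kit Crest.Agent.R2.Gcd62 Crest.Agent.R2.E123

/-- numbers at one scale -/
theorem scale_numbers {c0 δ b₀ W : ℝ} {m I g : ℕ} {w : ℝ} (hc0 : 0 < c0) (hδ : 0 < δ)
    (_hδ1 : δ ≤ 1) (hm : 0 < m)
    (hW : W = max (max 4 (Real.exp (Real.log 4 / δ))) ((m : ℝ) ^ I * max b₀ 2 / c0))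
    (hw : W ≤ w) (hlow : c0 * w / Real.log w ≤ g) (hup : (g : ℝ) ≤ 2 * c0 * w / Real.log w) :
    0 < w ∧ 0 < Real.log w ∧ (1 - δ) * Real.log (4 * w) ≤ Real.log w ∧ 0 < g ∧
      c0 * w ≤ g * Real.log (4 * w) ∧ g * Real.log (4 * w) ≤ 4 * c0 * w ∧
      max b₀ 2 ≤ (g : ℝ) / (m : ℝ) ^ I * Real.log (4 * w) := by
  have h4 : 4 ≤ w := by
    refine le_trans ?_ hw; rw [hW]; exact (le_max_left _ _).trans (le_max_left _ _)
  have hexp : Real.exp (Real.log 4 / δ) ≤ w := by
    refine le_trans ?_ hw; rw [hW]; exact (le_max_right _ _).trans (le_max_left _ _)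
  have hbig : (m : ℝ) ^ I * max b₀ 2 / c0 ≤ w := by
    refine le_trans ?_ hw; rw [hW]; exact le_max_right _ _
  have hw0 : 0 < w := by linarith
  have hlog : 0 < Real.log w := Real.log_pos (by linarith)
  have hlog4 : Real.log (4 * w) = Real.log 4 + Real.log w :=
    Real.log_mul (by norm_num) hw0.ne'
  have hl4 : 0 < Real.log 4 := Real.log_pos (by norm_num)
  have h1 : Real.log 4 ≤ δ * Real.log w := by
    have := (Real.le_log_iff_exp_le hw0).2 hexp
    rw [div_le_iff₀ hδ] at this
    linarith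
  have h2 : (1 - δ) * Real.log (4 * w) ≤ Real.log w := by
    rw [hlog4]; nlinarith
  have h3 : Real.log 4 ≤ Real.log w := Real.log_le_log (by norm_num) h4
  have hg0 : (0 : ℝ) < g := lt_of_lt_of_le (by positivity) hlow
  have hg : 0 < g := by exact_mod_cast hg0
  have h5 : c0 * w ≤ g * Real.log (4 * w) := by
    rw [div_le_iff₀ hlog] at hlow
    have : (g : ℝ) * Real.log w ≤ g * Real.log (4 * w) := by
      apply mul_le_mul_of_nonneg_left _ hg0.le
      rw [hlog4]; linarith
    linarith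
  have h6 : g * Real.log (4 * w) ≤ 4 * c0 * w := by
    rw [le_div_iff₀ hlog] at hup
    have : (g : ℝ) * Real.log (4 * w) ≤ g * (2 * Real.log w) := by
      apply mul_le_mul_of_nonneg_left _ hg0.le
      rw [hlog4]; linarith
    linarith
  refine ⟨hw0, hlog, h2, hg, h5, h6, ?_⟩
  have hmI : (0 : ℝ) < (m : ℝ) ^ I := by positivity
  rw [div_mul_eq_mul_div, le_div_iff₀ hmI]
  rw [div_le_iff₀ hc0] at hbig
  linarith

/-- **Near-full Kac** from the per-point kernel. -/
theorem kacStmt_of_pair (hpair : PairKernelStmt) : X149.KacStmt := by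
  intro D c0 τ hD hc0 hτ hτ1
  classical
  set δ : ℝ := τ / 8 with hδdef
  have hδ : 0 < δ := by positivity
  have hδ1 : δ ≤ 1 := by rw [hδdef]; linarith
  obtain ⟨b₀, hb₀⟩ := hpair D hD δ hδ
  set m : ℕ := ⌈36 * 10 / δ ^ 2⌉₊ + 2 with hmdef
  have hm : 0 < m := by omega
  have hmR : 36 * 10 / δ ^ 2 ≤ (m : ℝ) := by
    rw [hmdef]; push_cast
    have := Nat.le_ceil (36 * 10 / δ ^ 2)
    linarith
  have hm0 : (0 : ℝ) < m := by exact_mod_cast hm
  have hm20 : 20 / (m : ℝ) ≤ δ := by
    rw [div_le_iff₀ hm0]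
    have h1 : 36 * 10 ≤ (m : ℝ) * δ ^ 2 := by
      rw [div_le_iff₀ (by positivity)] at hmR; exact hmR
    nlinarith
  have hm1 : 1 / (m : ℝ) ≤ δ := by
    refine le_trans ?_ hm20
    apply div_le_div_of_nonneg_right _ hm0.le
    norm_num
  set I : ℕ := ⌈1 / δ⌉₊ with hIdef
  have hI : 0 < I := Nat.ceil_pos.2 (by positivity)
  have hIδ : 1 / (I : ℝ) ≤ δ := by
    have h1 := Nat.le_ceil (1 / δ)
    have hI0 : (0 : ℝ) < I := by exact_mod_cast hI
    rw [div_le_iff₀ hI0]
    rw [← hIdef, div_le_iff₀ hδ] at h1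
    linarith
  set W0 : ℝ := max (max 4 (Real.exp (Real.log 4 / δ))) ((m : ℝ) ^ I * max b₀ 2 / c0) with hW0
  refine ⟨m, I, 4 * (m : ℝ) ^ (I + 1), W0, hm, ?_⟩
  intro n w G hW hκ hBlk hdvd hlow hup E hEne hEcl
  have hnum : ∀ k < n, _ := fun k hk =>
    scale_numbers (b₀ := b₀) (I := I) hc0 hδ hδ1 hm hW0 (hW k hk) (hlow k hk) (hup k hk)
  -- levels
  set bt : ℕ → ℝ := fun t => bb G w m (t / (I + 1)) (I - t % (I + 1)) with hbt
  set bl : ℕ → Finset (Finset GaussianInt) := fun t =>
    (range (m ^ (I - t % (I + 1)))).image (fun j => Bl G m (t / (I + 1)) (I - t % (I + 1)) j)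
    with hbl
  have hk_of : ∀ t < n * (I + 1), t / (I + 1) < n := fun t ht =>
    Nat.div_lt_of_lt_mul (by rw [Nat.mul_comm]; exact ht)
  have hbpos : ∀ k < n, ∀ i, 0 < bb G w m k i := by
    intro k hk i
    obtain ⟨h1, h2, h3, h4, h5, h6, h7⟩ := hnum k hk
    unfold bb
    have h8 : (0 : ℝ) < ((G k).card : ℝ) := by exact_mod_cast h4
    have h9 : 0 < ((G k).card : ℝ) * Real.log (4 * w k) := lt_of_lt_of_le (by positivity) h5
    have h10 : 0 < Real.log (4 * w k) := (mul_pos_iff_of_pos_left h8).1 h9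
    positivity
  have hbbig : ∀ k < n, ∀ i ≤ I, max b₀ 2 ≤ bb G w m k i := by
    intro k hk i hi
    obtain ⟨h1, h2, h3, h4, h5, h6, h7⟩ := hnum k hk
    refine le_trans h7 ?_
    unfold bb
    have h9 : 0 < ((G k).card : ℝ) * Real.log (4 * w k) := lt_of_lt_of_le (by positivity) h5
    rw [div_mul_eq_mul_div, div_mul_eq_mul_div]
    apply div_le_div_of_nonneg_left h9.le (by positivity)
    apply pow_le_pow_right₀ _ hi
    exact_mod_cast hm
  have hstep : ∀ t, t + 1 < n * (I + 1) → (m : ℝ) * bt t ≤ bt (t + 1) := by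
    intro t ht
    set k := t / (I + 1) with hk
    set r := t % (I + 1) with hr
    have hrI : r < I + 1 := Nat.mod_lt _ (Nat.succ_pos _)
    have htkr : t = k * (I + 1) + r := (Nat.div_add_mod' t (I + 1)).symm
    by_cases hrc : r < I
    · have e1 : t + 1 = k * (I + 1) + (r + 1) := by omega
      have e2 : (t + 1) / (I + 1) = k := by rw [e1]; exact lk_eq (by omega)
      have e3 : (t + 1) % (I + 1) = r + 1 := by rw [e1]; exact lr_eq (by omega)
      have e4 : I - r = (I - (r + 1)) + 1 := by omega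
      have e5 : bt t = bb G w m k (I - r) := rfl
      have e6 : bt (t + 1) = bb G w m k (I - (r + 1)) := by simp only [hbt, e2, e3]
      rw [e5, e6, e4, bb_succ hm]
    · have hrI' : r = I := by omega
      have e1 : t + 1 = (k + 1) * (I + 1) + 0 := by rw [htkr, hrI']; ring
      have e2 : (t + 1) / (I + 1) = k + 1 := by rw [e1]; exact lk_eq (by omega)
      have e3 : (t + 1) % (I + 1) = 0 := by rw [e1]; exact lr_eq (by omega)
      have hk1 : k + 1 < n := by rw [← e2]; exact hk_of _ ht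
      have e5 : bt t = bb G w m k 0 := by
        have : bt t = bb G w m k (I - r) := rfl
        rw [this, hrI', Nat.sub_self]
      have e6 : bt (t + 1) = bb G w m (k + 1) I := by simp only [hbt, e2, e3, Nat.sub_zero]
      rw [e5, e6]
      obtain ⟨h1, h2, h3, h4, h5, h6, h7⟩ := hnum k (by omega)
      obtain ⟨h1', h2', h3', h4', h5', h6', h7'⟩ := hnum (k + 1) hk1
      have hκ' := hκ k hk1
      unfold bb
      rw [pow_zero, div_one, div_mul_eq_mul_div, le_div_iff₀ (by positivity)]
      calc (m : ℝ) * (((G k).card : ℝ) * Real.log (4 * w k)) * (m : ℝ) ^ I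
          ≤ (m : ℝ) * (4 * c0 * w k) * (m : ℝ) ^ I := by
            apply mul_le_mul_of_nonneg_right _ (by positivity)
            exact mul_le_mul_of_nonneg_left h6 hm0.le
        _ = c0 * (4 * (m : ℝ) ^ (I + 1) * w k) := by ring
        _ ≤ c0 * w (k + 1) := mul_le_mul_of_nonneg_left hκ' hc0.le
        _ ≤ _ := h5'
  have hratio := ratio_of_step hm0.le hstep
  have hBlinj : ∀ k < n, ∀ i ≤ I, Set.InjOn (fun j => Bl G m k i j) (range (m ^ i)) := by
    intro k hk i hi j hj j' _ he
    obtain ⟨h1, h2, h3, h4, h5, h6, h7⟩ := hnum k hk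
    exact Bl_inj hm (hdvd k hk) h4 hi (by simpa using hj) he
  -- the near-maximal law
  obtain ⟨Ω, hΩ, P, z, hP, hzE, hmaxl⟩ := near_max (β := Finset GaussianInt)
    (Q := fun _ => Set GaussianInt) E hEne (n * (I + 1)) bt bl (fun S x => rs S x) (m : ℝ) δ 10
    hδ hδ1 (by norm_num) hmR
    (fun t ht => hbpos _ (hk_of t ht) _) hratio
    (by
      intro t _
      rw [hbl]
      apply Finset.Nonempty.image
      exact ⟨0, Finset.mem_range.2 (pow_pos hm _)⟩)
    (by
      intro t _ S _ x x' y h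
      rw [rs_eq_iff] at h ⊢
      intro p hp
      have := h p hp
      simpa using this)
    (by
      intro t ht S hS Ω _ P z hP
      rw [hbl] at hS
      simp only [Finset.mem_image, Finset.mem_range] at hS
      obtain ⟨j, hj, rfl⟩ := hS
      have hk := hk_of t ht
      obtain ⟨h1, h2, h3, h4, h5, h6, h7⟩ := hnum _ hk
      exact ent_Bl_le (hBlk _ hk) hm (hdvd _ hk) h4 (Nat.sub_le _ _) hj hP z)
  refine ⟨Ω, hΩ, P, z, hP, hzE, ?_⟩
  intro k hk
  obtain ⟨hw0, hlogw, hlog4, hg0, h5, h6, h7⟩ := hnum k hk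
  have hB := hBlk k hk
  have hd := hdvd k hk
  -- the averages
  set g : ℕ → ℝ := fun i => (∑ j ∈ range (m ^ i), ent P (fun ω => rs (Bl G m k i j) (z ω))) /
    ((m : ℝ) ^ i * bb G w m k i) with hgdef
  have hgI : g I ≤ 1 := by
    rw [hgdef]
    have hb := hbpos k hk I
    rw [div_le_one (by positivity)]
    calc ∑ j ∈ range (m ^ I), ent P (fun ω => rs (Bl G m k I j) (z ω))
        ≤ ∑ _j ∈ range (m ^ I), bb G w m k I := by
          apply Finset.sum_le_sum
          intro j hj
          exact ent_Bl_le hB hm hd hg0 le_rfl (Finset.mem_range.1 hj) hP z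
      _ = (m : ℝ) ^ I * bb G w m k I := by
          rw [Finset.sum_const, card_range, nsmul_eq_mul]; push_cast; ring
  have hg00 : 0 ≤ g 0 := by
    rw [hgdef]
    have hb := hbpos k hk 0
    apply div_nonneg _ (by positivity)
    exact Finset.sum_nonneg (fun j _ => ent_nonneg hP _)
  obtain ⟨i, hiI, hgi⟩ := exists_small_step g hI (by linarith)
  have hgi' : g (i + 1) - g i ≤ δ := hgi.trans hIδ
  set b : ℝ := bb G w m k (i + 1) with hbdef
  have hbpos' : 0 < b := hbpos k hk _
  have hbb := hbbig k hk (i + 1) hiI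
  have hb2 : 2 ≤ b := (le_max_right _ _).trans hbb
  have hb0 : b₀ ≤ b := (le_max_left _ _).trans hbb
  have hcard : ∀ j < m ^ (i + 1), (Bl G m k (i + 1) j).card = (G k).card / m ^ (i + 1) :=
    fun j hj => card_Bl hm hd hg0 hiI hj
  have hsub : ∀ j, Bl G m k (i + 1) j ⊆ G k := fun j => blk_subset _ _ _
  have hcast : (((G k).card / m ^ (i + 1) : ℕ) : ℝ) = ((G k).card : ℝ) / (m : ℝ) ^ (i + 1) :=
    q_cast hm hd hg0 hiI
  have hpw : m ^ i * m = m ^ (i + 1) := (pow_succ m i).symm
  -- apply the level inequality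
  have hlev := level hP z E (δ := δ) (b := b) (L := (1 - δ) * b) hb2 (by
      have : 2 * δ ≤ 1 := by rw [hδdef]; linarith
      nlinarith) m (m ^ i) (fun j => Bl G m k (i + 1) j)
    (fun j _ p hp => hB.prime p (hsub j hp))
    (fun j _ p hp q hq h => hB.assoc p (hsub j hp) q (hsub j hq) h)
    (by
      intro j hj j' _ he
      rw [hpw] at hj
      exact Bl_inj hm hd hg0 hiI hj he)
    (by
      intro j hj
      rw [hpw] at hj
      rw [log_prod (fun p hp => hB.prime p (hsub j hp))]
      have h8 := le_sum_log hw0 hB (hsub j)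
      rw [hcard j hj, hcast] at h8
      refine le_trans ?_ h8
      rw [hbdef]
      unfold bb
      have h9 : (0 : ℝ) ≤ ((G k).card : ℝ) / (m : ℝ) ^ (i + 1) := by positivity
      calc (1 - δ) * (((G k).card : ℝ) / (m : ℝ) ^ (i + 1) * Real.log (4 * w k))
          = ((G k).card : ℝ) / (m : ℝ) ^ (i + 1) * ((1 - δ) * Real.log (4 * w k)) := by ring
        _ ≤ _ := mul_le_mul_of_nonneg_left hlog4 h9)
    (by
      intro T _ κ hκT y hy hyent
      set t : ℕ := k * (I + 1) + (I - (i + 1)) with ht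
      have ht1 : t / (I + 1) = k := lk_eq (by omega)
      have ht2 : t % (I + 1) = I - (i + 1) := lr_eq (by omega)
      have ht3 : I - (I - (i + 1)) = i + 1 := by omega
      have htn : t < n * (I + 1) := by
        have : (k + 1) * (I + 1) ≤ n * (I + 1) := Nat.mul_le_mul_right _ hk
        rw [Nat.succ_mul] at this
        omega
      have ebt : bt t = b := by simp only [hbt, ht1, ht2, ht3, hbdef]
      have h8 := hmaxl t htn (Ω × T) (ext P κ) (fun x => z x.1) (fun x => y x.1 x.2)
        (isProb_ext hP hκT) (sameLaw_of_pushes (pushes_ext hκT))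
        (by
          intro x hx
          have hx' : 0 < P x.1 * κ x.1 x.2 := hx
          have hP0 : 0 < P x.1 := by
            rcases (hP.nonneg x.1).lt_or_eq with h' | h'
            · exact h'
            · rw [← h'] at hx'; simp at hx'
          have hκ0 : 0 < κ x.1 x.2 := by
            rcases ((hκT x.1).nonneg x.2).lt_or_eq with h' | h'
            · exact h'
            · rw [← h'] at hx'; simp at hx'
          exact hy x.1 x.2 hP0 hκ0)
        (by rw [ebt]; exact hyent)
      rw [ebt] at h8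
      have ebl : bl t = (range (m ^ (i + 1))).image (fun j => Bl G m k (i + 1) j) := by
        simp only [hbl, ht1, ht2, ht3]
      have hinj := hBlinj k hk (i + 1) hiI
      have ecard : ((bl t).card : ℝ) = (m : ℝ) ^ (i + 1) := by
        rw [ebl, Finset.card_image_of_injOn hinj, card_range]; push_cast; rfl
      unfold avgH at h8
      rw [ecard, ebl, Finset.sum_image hinj, Finset.sum_image hinj] at h8
      have hmi : (0 : ℝ) < (m : ℝ) ^ (i + 1) := by positivity
      rw [div_le_iff₀ hmi, add_mul, div_mul_cancel₀ _ hmi.ne'] at h8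
      rw [hpw]
      have e9 : ((m ^ (i + 1) : ℕ) : ℝ) * (δ * b) = δ * b * (m : ℝ) ^ (i + 1) := by
        push_cast; ring
      rw [e9]
      exact h8)
    (by
      intro ω
      rw [hpw]
      apply hb₀ b hb0 E hEcl (z ω) (hzE ω)
      · constructor
        · intro S hS p hp
          simp only [Finset.mem_image, Finset.mem_range] at hS
          obtain ⟨j, hj, rfl⟩ := hS
          exact hB.prime p (hsub j hp)
        · intro S hS S' hS' p hp q hq
          simp only [Finset.mem_image, Finset.mem_range] at hS hS'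
          obtain ⟨j, hj, rfl⟩ := hS
          obtain ⟨j', hj', rfl⟩ := hS'
          exact hB.conj p (hsub j hp) q (hsub j' hq)
        · intro S hS S' hS' p hp q hq
          simp only [Finset.mem_image, Finset.mem_range] at hS hS'
          obtain ⟨j, hj, rfl⟩ := hS
          obtain ⟨j', hj', rfl⟩ := hS'
          exact hB.assoc p (hsub j hp) q (hsub j' hq)
        · intro S hS S' hS' hne
          simp only [Finset.mem_image, Finset.mem_range] at hS hS'
          obtain ⟨j, hj, rfl⟩ := hS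
          obtain ⟨j', hj', rfl⟩ := hS'
          apply blk_disjoint
          intro h
          exact hne (by rw [h])
      · intro S hS
        simp only [Finset.mem_image, Finset.mem_range] at hS
        obtain ⟨j, hj, rfl⟩ := hS
        have hpr : ∀ p ∈ Bl G m k (i + 1) j, Prime p := fun p hp => hB.prime p (hsub j hp)
        have hpos : 0 < ∏ p ∈ Bl G m k (i + 1) j, ((p.norm : ℤ) : ℝ) :=
          Finset.prod_pos (fun p hp => norm_pos_of_prime (hpr p hp))
        rw [← Real.log_le_iff_le_exp hpos, log_prod hpr]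
        have h8 := sum_log_le hB (hsub j)
        rw [hcard j hj, hcast] at h8
        exact h8)
  -- rewrite in terms of g
  have hmi : (0 : ℝ) < (m : ℝ) ^ (i + 1) := by positivity
  have hmi' : (0 : ℝ) < (m : ℝ) ^ i := by positivity
  have hs1 : ∑ j ∈ range (m ^ i * m), ent P (fun ω => rs (Bl G m k (i + 1) j) (z ω))
      = (m : ℝ) ^ (i + 1) * b * g (i + 1) := by
    rw [hpw, hgdef]
    simp only
    rw [← hbdef]
    field_simp
  have hbi : bb G w m k i = m * b := by rw [hbdef, bb_succ hm]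
  have hs2 : ∑ j' ∈ range (m ^ i), ent P (fun ω => rs ((range m).biUnion
        fun u => Bl G m k (i + 1) (j' * m + u)) (z ω)) = (m : ℝ) ^ (i + 1) * b * g i := by
    have e1 : ∀ j' ∈ range (m ^ i), ent P (fun ω => rs ((range m).biUnion
        fun u => Bl G m k (i + 1) (j' * m + u)) (z ω)) = ent P (fun ω => rs (Bl G m k i j') (z ω)) := by
      intro j' _
      rw [Bl_parent hm hd hg0 hiI]
    rw [Finset.sum_congr rfl e1, hgdef]
    simp only
    rw [hbi, pow_succ]
    field_simp
  rw [hs1, hs2] at hlev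
  have e3 : (((m ^ i * m : ℕ) : ℕ) : ℝ) = (m : ℝ) ^ (i + 1) := by push_cast; ring
  have e4 : (((m ^ i : ℕ) : ℕ) : ℝ) * (20 * b) = (m : ℝ) ^ (i + 1) * b * (20 / m) := by
    push_cast
    rw [pow_succ]
    field_simp
  rw [e3, e4] at hlev
  have hmi1 : 1 ≤ δ * (m : ℝ) ^ (i + 1) := by
    have h8 : (m : ℝ) ≤ (m : ℝ) ^ (i + 1) := by
      calc (m : ℝ) = (m : ℝ) ^ 1 := (pow_one _).symm
        _ ≤ (m : ℝ) ^ (i + 1) := pow_le_pow_right₀ (by exact_mod_cast hm) (by omega)
    rw [div_le_iff₀ hm0] at hm1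
    nlinarith
  -- conclusion g (i+1) ≥ 1 - τ
  have hg1 : 1 - τ ≤ g (i + 1) := by
    set A : ℝ := (m : ℝ) ^ (i + 1) with hA
    have hAb : 0 < A * b := by positivity
    -- (A - 1) (1 - 2δ) b ≤ A b (g(i+1) + 4 δ)
    have h8 : (A - 1) * ((1 - δ) * b - δ * b) ≤ A * b * (2 * g (i + 1) + 2 * δ + 20 / m - g i) := by
      calc (A - 1) * ((1 - δ) * b - δ * b) ≤ _ := hlev
        _ = _ := by ring
    have h9 : A * b * (2 * g (i + 1) + 2 * δ + 20 / m - g i) ≤ A * b * (g (i + 1) + 4 * δ) := by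
      apply mul_le_mul_of_nonneg_left _ hAb.le
      linarith
    have h10 : A * b * (1 - 3 * δ) ≤ (A - 1) * ((1 - δ) * b - δ * b) := by
      have e5 : (A - 1) * ((1 - δ) * b - δ * b) = A * b * (1 - 2 * δ) - b * (1 - 2 * δ) := by ring
      rw [e5]
      have h11 : b * (1 - 2 * δ) ≤ A * b * δ := by
        have : b * (1 - 2 * δ) ≤ b * 1 := mul_le_mul_of_nonneg_left (by linarith) hbpos'.le
        have h12 : b * 1 ≤ b * (δ * A) := mul_le_mul_of_nonneg_left hmi1 hbpos'.le
        linarith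
      linarith
    have h11 : A * b * (1 - 3 * δ) ≤ A * b * (g (i + 1) + 4 * δ) := h10.trans (h8.trans h9)
    have h12 := le_of_mul_le_mul_left h11 hAb
    rw [hδdef] at h12
    linarith
  -- choose the best block
  have hex : ∃ j ∈ range (m ^ (i + 1)), (1 - τ) * b ≤ ent P (fun ω => rs (Bl G m k (i + 1) j) (z ω)) := by
    by_contra hcon
    push Not at hcon
    have h8 : ∑ j ∈ range (m ^ (i + 1)), ent P (fun ω => rs (Bl G m k (i + 1) j) (z ω))
        < ∑ _j ∈ range (m ^ (i + 1)), (1 - τ) * b :=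
      Finset.sum_lt_sum_of_nonempty ⟨0, Finset.mem_range.2 (pow_pos hm _)⟩ hcon
    rw [hpw] at hs1
    rw [hs1, Finset.sum_const, card_range, nsmul_eq_mul] at h8
    push_cast at h8
    have h9 : (m : ℝ) ^ (i + 1) * b * (1 - τ) ≤ (m : ℝ) ^ (i + 1) * b * g (i + 1) :=
      mul_le_mul_of_nonneg_left hg1 (by positivity)
    linarith
  obtain ⟨j, hj, hjent⟩ := hex
  rw [Finset.mem_range] at hj
  refine ⟨Bl G m k (i + 1) j, hsub j, ?_, ?_⟩
  · rw [hcard j hj]
    calc (G k).card = m ^ (i + 1) * ((G k).card / m ^ (i + 1)) := (q_spec hm hd hg0 hiI).2.symm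
      _ ≤ m ^ I * ((G k).card / m ^ (i + 1)) :=
          Nat.mul_le_mul_right _ (Nat.pow_le_pow_right hm hiI)
  · rw [ent_cl_eq P (fun p hp => hB.prime p (hsub j hp))
      (fun p hp q hq h => hB.assoc p (hsub j hp) q (hsub j hq) h) z]
    refine le_trans ?_ hjent
    apply mul_le_mul_of_nonneg_left _ (by linarith)
    have h8 := sum_log_le hB (hsub j)
    rw [hcard j hj, hcast] at h8
    exact h8

end Crest.Agent.R2.K8
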