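import Mathlib

set_option autoImplicit false
set_option maxHeartbeats 400000

open Complex Finset
open scoped Real

namespace Crest.Agent.R2.M750

/-- `e(t) = exp(2 π i t)`. -/
noncomputable def e1 (t : ℝ) : ℂ := exp (2 * π * I * t)

theorem e1_add (s t : ℝ) : e1 (s + t) = e1 s * e1 t := by
  unfold e1; rw [← Complex.exp_add]; congr 1; push_cast; ring

@[simp] theorem e1_zero : e1 0 = 1 := by simp [e1]

theorem e1_neg (t : ℝ) : e1 (-t) = (starRingEnd ℂ) (e1 t) := by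
  unfold e1
  rw [← Complex.exp_conj]
  congr 1
  have h2 : (starRingEnd ℂ) (2 : ℂ) = 2 := Complex.conj_ofNat 2
  simp only [map_mul, Complex.conj_ofReal, Complex.conj_I, h2]
  push_cast
  ring

theorem norm_e1 (t : ℝ) : ‖e1 t‖ = 1 := by
  unfold e1
  rw [show (2 * π * I * t : ℂ) = ((2 * π * t : ℝ) : ℂ) * I by push_cast; ring]
  exact Complex.norm_exp_ofReal_mul_I _

theorem e1_int (n : ℤ) : e1 n = 1 := by
  unfold e1
  rw [show (2 * π * I * ((n : ℝ) : ℂ)) = n * (2 * π * I) by push_cast; ring]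
  exact Complex.exp_int_mul_two_pi_mul_I n

theorem e1_ne_zero (t : ℝ) : e1 t ≠ 0 := by unfold e1; exact Complex.exp_ne_zero _

theorem e1_sub (s t : ℝ) : e1 (s - t) = e1 s * (starRingEnd ℂ) (e1 t) := by
  rw [sub_eq_add_neg, e1_add, e1_neg]

theorem e1_re (t : ℝ) : (e1 t).re = Real.cos (2 * π * t) := by
  unfold e1
  rw [show (2 * π * I * t : ℂ) = ((2 * π * t : ℝ) : ℂ) * I by push_cast; ring]
  exact Complex.exp_ofReal_mul_I_re _

/-- one-dimensional weight -/
noncomputable def aw (r : ℝ) (n : ℤ) : ℝ := (Real.sinc (π * n * r)) ^ 2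

/-- one-dimensional triangle of integral one -/
noncomputable def tri (r y : ℝ) : ℝ := max 0 (1 - |y - round y| / r) / r

theorem B2sum {y : ℝ} (hy : |y| ≤ 1) :
    HasSum (fun n : ℤ => 1 / (n : ℂ) ^ 2 * e1 (n * y)) ((2 * π ^ 2 * (y ^ 2 - |y| + 1 / 6) : ℝ) : ℂ) := by
  have key : ∀ {x : ℝ}, x ∈ Set.Icc (0 : ℝ) 1 →
      HasSum (fun n : ℤ => 1 / (n : ℂ) ^ 2 * e1 (n * x))
        ((2 * π ^ 2 * (x ^ 2 - x + 1 / 6) : ℝ) : ℂ) := by
    intro x hx
    have h := hasSum_one_div_pow_mul_fourier_mul_bernoulliFun (k := 2) le_rfl hx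
    have e : (-(2 * π * I) ^ 2 / ((2 : ℕ).factorial : ℂ) * ((bernoulliFun 2 x : ℝ) : ℂ)) =
        ((2 * π ^ 2 * (x ^ 2 - x + 1 / 6) : ℝ) : ℂ) := by
      rw [bernoulliFun_two]
      simp only [Nat.factorial, mul_pow, Complex.I_sq]
      push_cast
      ring
    rw [e] at h
    convert! h using 2 with n
    rw [fourier_coe_apply]
    unfold e1
    congr 2
    push_cast
    ring
  rcases le_total 0 y with h0 | h0
  · rw [abs_of_nonneg h0] at hy ⊢
    exact key ⟨h0, hy⟩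
  · rw [abs_of_nonpos h0] at hy ⊢
    have h := key (x := y + 1) ⟨by linarith, by linarith⟩
    convert! h using 2 with n
    · rw [mul_add, e1_add, mul_one, e1_int, mul_one]
    · ring

theorem aw_nonneg (r : ℝ) (n : ℤ) : 0 ≤ aw r n := sq_nonneg _

theorem aw_neg (r : ℝ) (n : ℤ) : aw r (-n) = aw r n := by
  unfold aw
  rw [show π * ((-n : ℤ) : ℝ) * r = -(π * n * r) by push_cast; ring, Real.sinc_neg]

theorem tri_nonneg {r : ℝ} (hr : 0 < r) (y : ℝ) : 0 ≤ tri r y := by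
  unfold tri; positivity

theorem tri_le {r : ℝ} (hr : 0 < r) (y : ℝ) : tri r y ≤ 1 / r := by
  unfold tri
  gcongr
  apply max_le zero_le_one
  have : 0 ≤ |y - round y| / r := by positivity
  linarith

theorem tri_eq_zero {r y : ℝ} (hr : 0 < r) (h : ∀ n : ℤ, r ≤ |y - n|) : tri r y = 0 := by
  unfold tri
  have := h (round y)
  rw [max_eq_left, zero_div]
  rw [sub_nonpos, le_div_iff₀ hr]
  linarith

theorem tri_add_int (r y : ℝ) (n : ℤ) : tri r (y + n) = tri r y := by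
  unfold tri
  rw [round_add_intCast]
  push_cast
  rw [add_sub_add_right_eq_sub]

theorem aux_pt {r : ℝ} (hr : 0 < r) (y : ℝ) (n : ℤ) :
    (aw r n : ℂ) * e1 (n * y) = (if n = 0 then 1 else 0) +
      ((1 / (2 * π ^ 2 * r ^ 2) : ℝ) : ℂ) * (1 / (n : ℂ) ^ 2 * e1 (n * y)
        - ((1 / 2 : ℝ) : ℂ) * (1 / (n : ℂ) ^ 2 * e1 (n * (y + r)))
        - ((1 / 2 : ℝ) : ℂ) * (1 / (n : ℂ) ^ 2 * e1 (n * (y - r)))) := by
  by_cases hn : n = 0
  · subst hn
    simp [aw]
  · rw [if_neg hn, zero_add, show (n : ℝ) * (y + r) = n * y + n * r by ring,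
      show (n : ℝ) * (y - r) = n * y - n * r by ring, e1_add, e1_sub]
    have hn' : (n : ℝ) ≠ 0 := by exact_mod_cast hn
    have hx : π * n * r ≠ 0 := by
      have := Real.pi_ne_zero
      positivity
    have haw : aw r n = (1 / (2 * π ^ 2 * r ^ 2)) * (1 / (n : ℝ) ^ 2) *
        (1 - Real.cos (2 * π * (n * r))) := by
      unfold aw
      rw [Real.sinc_of_ne_zero hx, div_pow, Real.sin_sq_eq_half_sub]
      rw [show 2 * (π * n * r) = 2 * π * (n * r) by ring]
      field_simp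
    have hre : e1 (n * r) + (starRingEnd ℂ) (e1 (n * r)) = ((2 * Real.cos (2 * π * (n * r)) : ℝ) : ℂ) := by
      rw [Complex.add_conj, e1_re]
    have h3 : (1 / (n : ℂ) ^ 2 * e1 (n * y)
        - ((1 / 2 : ℝ) : ℂ) * (1 / (n : ℂ) ^ 2 * (e1 (n * y) * e1 (n * r)))
        - ((1 / 2 : ℝ) : ℂ) * (1 / (n : ℂ) ^ 2 * (e1 (n * y) * (starRingEnd ℂ) (e1 (n * r))))) =
        1 / (n : ℂ) ^ 2 * e1 (n * y) * (1 - ((1 / 2 : ℝ) : ℂ) * (e1 (n * r) +
          (starRingEnd ℂ) (e1 (n * r)))) := by ring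
    rw [h3, hre, haw]
    push_cast
    ring

/-- Fourier series of the triangle. -/
theorem hasSum_tri {r : ℝ} (hr : 0 < r) (hr2 : r ≤ 1 / 2) (y : ℝ) :
    HasSum (fun n : ℤ => (aw r n : ℂ) * e1 (n * y)) ((tri r y : ℝ) : ℂ) := by
  set m : ℤ := round y
  set z : ℝ := y - m with hz
  have hzb : |z| ≤ 1 / 2 := abs_sub_round y
  have h1 : ∀ n : ℤ, (aw r n : ℂ) * e1 (n * y) = (aw r n : ℂ) * e1 (n * z) := by
    intro n
    congr 1
    rw [show (n : ℝ) * y = n * z + ((n * m : ℤ) : ℝ) by rw [hz]; push_cast; ring, e1_add, e1_int,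
      mul_one]
  simp_rw [h1]
  have b0 := B2sum (y := z) (by linarith)
  have b1 := B2sum (y := z + r) (by
    rw [abs_le] at hzb ⊢; constructor <;> linarith [hzb.1, hzb.2])
  have b2 := B2sum (y := z - r) (by
    rw [abs_le] at hzb ⊢; constructor <;> linarith [hzb.1, hzb.2])
  have d := hasSum_ite_eq (0 : ℤ) (1 : ℂ)
  have key := d.add (((b0.sub (b1.mul_left ((1 / 2 : ℝ) : ℂ))).sub
    (b2.mul_left ((1 / 2 : ℝ) : ℂ))).mul_left ((1 / (2 * π ^ 2 * r ^ 2) : ℝ) : ℂ))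
  have hpt := fun n => aux_pt hr z n
  have hfun : (fun n : ℤ => (aw r n : ℂ) * e1 (n * z)) = fun n : ℤ => (if n = 0 then (1 : ℂ) else 0) +
      ((1 / (2 * π ^ 2 * r ^ 2) : ℝ) : ℂ) * (1 / (n : ℂ) ^ 2 * e1 (n * z)
        - ((1 / 2 : ℝ) : ℂ) * (1 / (n : ℂ) ^ 2 * e1 (n * (z + r)))
        - ((1 / 2 : ℝ) : ℂ) * (1 / (n : ℂ) ^ 2 * e1 (n * (z - r)))) := by
    funext n; exact hpt n
  rw [hfun]
  convert! key using 1
  rw [← Complex.ofReal_one, ← Complex.ofReal_mul, ← Complex.ofReal_mul, ← Complex.ofReal_sub,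
    ← Complex.ofReal_sub, ← Complex.ofReal_mul, ← Complex.ofReal_add]
  congr 1
  have hpi := Real.pi_ne_zero
  have hrr := hr.ne'
  unfold tri
  rw [← hz]
  have e : (1 : ℝ) + 1 / (2 * π ^ 2 * r ^ 2) * (2 * π ^ 2 * (z ^ 2 - |z| + 1 / 6) -
      1 / 2 * (2 * π ^ 2 * ((z + r) ^ 2 - |z + r| + 1 / 6)) -
      1 / 2 * (2 * π ^ 2 * ((z - r) ^ 2 - |z - r| + 1 / 6))) =
      (|z + r| / 2 + |z - r| / 2 - |z|) / r ^ 2 := by
    field_simp
    ring
  rw [e]
  have e2 : max 0 (1 - |z| / r) / r = max 0 (r - |z|) / r ^ 2 := by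
    have h5 : 1 - |z| / r = (r - |z|) / r := by field_simp
    rcases le_total |z| r with h | h
    · rw [max_eq_right (by rw [h5]; exact div_nonneg (by linarith) hr.le),
        max_eq_right (by linarith), h5, div_div, sq]
    · rw [max_eq_left (by rw [h5]; exact div_nonpos_of_nonpos_of_nonneg (by linarith) hr.le),
        max_eq_left (by linarith)]
      simp
  rw [e2]
  congr 1
  rcases le_total 0 z with h0 | h0
  · rw [abs_of_nonneg h0, abs_of_nonneg (by linarith : 0 ≤ z + r)]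
    rcases le_total r z with h | h
    · rw [abs_of_nonneg (by linarith : 0 ≤ z - r), max_eq_left (by linarith)]; ring
    · rw [abs_of_nonpos (by linarith : z - r ≤ 0), max_eq_right (by linarith)]; ring
  · rw [abs_of_nonpos h0, abs_of_nonpos (by linarith : z - r ≤ 0)]
    rcases le_total r (-z) with h | h
    · rw [abs_of_nonpos (by linarith : z + r ≤ 0), max_eq_left (by linarith)]; ring
    · rw [abs_of_nonneg (by linarith : 0 ≤ z + r), max_eq_right (by linarith)]; ring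

theorem summable_aw {r : ℝ} (hr : 0 < r) (hr2 : r ≤ 1 / 2) : Summable (aw r) := by
  have h := (hasSum_tri hr hr2 0).summable
  simp only [mul_zero, e1_zero, mul_one] at h
  exact_mod_cast h

/-- `aw r n ≥ 4/π²` for `|n| ≤ 1/(2r)` -/
theorem aw_lower {r : ℝ} (hr : 0 < r) {n : ℤ} (hn : |(n : ℝ)| * (2 * r) ≤ 1) :
    2 / 5 ≤ aw r n := by
  unfold aw
  have hpi := Real.pi_pos
  set x : ℝ := |π * n * r| with hx
  have hxs : Real.sinc (π * n * r) = Real.sinc x := by
    rcases abs_choice (π * n * r) with h | h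
    · rw [hx, h]
    · rw [hx, h, Real.sinc_neg]
  rw [hxs]
  have hx0 : 0 ≤ x := abs_nonneg _
  have hx1 : x ≤ π / 2 := by
    rw [hx, abs_mul, abs_mul, abs_of_pos hpi, abs_of_pos hr]
    nlinarith
  have h2 : 2 / π ≤ Real.sinc x := by
    rcases hx0.eq_or_lt with h | h
    · rw [← h, Real.sinc_zero, div_le_one hpi]
      linarith [Real.two_le_pi]
    · rw [Real.sinc_of_ne_zero h.ne', le_div_iff₀ h]
      exact Real.mul_le_sin hx0 hx1
  have h3 : (2 / π) ^ 2 ≤ Real.sinc x ^ 2 := by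
    apply pow_le_pow_left₀ (by positivity) h2
  refine le_trans ?_ h3
  rw [div_pow, div_le_div_iff₀ (by norm_num) (by positivity)]
  have : π < 3.15 := Real.pi_lt_d2
  nlinarith

/-! ### two dimensions -/

/-- the character `v ↦ e(Re(v x))` of `ℤ[i]`, `x ∈ ℂ/ℤ[i]`. -/
noncomputable def chi (v : GaussianInt) (x : ℂ) : ℂ := e1 ((GaussianInt.toComplex v * x).re)

theorem chi_eq (v : GaussianInt) (x : ℂ) : chi v x = e1 (v.re * x.re) * e1 (v.im * (-x.im)) := by
  unfold chi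
  rw [← e1_add, Complex.mul_re, ← GaussianInt.intCast_re, ← GaussianInt.intCast_im]
  congr 1
  ring

theorem chi_add_left (v w : GaussianInt) (x : ℂ) : chi (v + w) x = chi v x * chi w x := by
  unfold chi
  rw [← e1_add, map_add, add_mul, Complex.add_re]

theorem chi_add_right (v : GaussianInt) (x y : ℂ) : chi v (x + y) = chi v x * chi v y := by
  unfold chi
  rw [← e1_add, mul_add, Complex.add_re]

@[simp] theorem chi_zero_left (x : ℂ) : chi 0 x = 1 := by simp [chi]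

@[simp] theorem chi_zero_right (v : GaussianInt) : chi v 0 = 1 := by simp [chi]

theorem chi_neg_right (v : GaussianInt) (x : ℂ) : chi v (-x) = (starRingEnd ℂ) (chi v x) := by
  unfold chi
  rw [← e1_neg, mul_neg, Complex.neg_re]

theorem chi_neg_left (v : GaussianInt) (x : ℂ) : chi (-v) x = (starRingEnd ℂ) (chi v x) := by
  unfold chi
  rw [← e1_neg, map_neg, neg_mul, Complex.neg_re]

theorem chi_sub_right (v : GaussianInt) (x y : ℂ) :
    chi v (x - y) = chi v x * (starRingEnd ℂ) (chi v y) := by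
  rw [sub_eq_add_neg, chi_add_right, chi_neg_right]

theorem chi_sub_left (v w : GaussianInt) (x : ℂ) :
    chi (v - w) x = chi v x * (starRingEnd ℂ) (chi w x) := by
  rw [sub_eq_add_neg, chi_add_left, chi_neg_left]

theorem norm_chi (v : GaussianInt) (x : ℂ) : ‖chi v x‖ = 1 := norm_e1 _

theorem chi_sum_right {ι : Type*} (v : GaussianInt) (s : Finset ι) (x : ι → ℂ) :
    chi v (∑ i ∈ s, x i) = ∏ i ∈ s, chi v (x i) := by
  classical
  induction s using Finset.induction_on with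
  | empty => simp
  | insert a s ha ih => rw [Finset.sum_insert ha, Finset.prod_insert ha, chi_add_right, ih]

theorem chi_gaussian (v z : GaussianInt) : chi v (GaussianInt.toComplex z) = 1 := by
  unfold chi
  rw [← map_mul, ← GaussianInt.intCast_re]
  exact e1_int _

/-- periodicity -/
theorem chi_add_gaussian (v z : GaussianInt) (x : ℂ) :
    chi v (x + GaussianInt.toComplex z) = chi v x := by
  rw [chi_add_right, chi_gaussian, mul_one]

/-- the weight on `ℤ[i]` -/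
noncomputable def wt (r : ℝ) (v : GaussianInt) : ℝ := aw r v.re * aw r v.im

/-- the majorant on `ℂ/ℤ[i]` -/
noncomputable def phi (r : ℝ) (x : ℂ) : ℝ := tri r x.re * tri r (-x.im)

/-- `x` is within `r` (sup norm) of a Gaussian integer. -/
def inR (r : ℝ) (x : ℂ) : Prop :=
  ∃ z : GaussianInt, |x.re - (z.re : ℝ)| < r ∧ |x.im - (z.im : ℝ)| < r

theorem wt_nonneg (r : ℝ) (v : GaussianInt) : 0 ≤ wt r v := mul_nonneg (aw_nonneg _ _) (aw_nonneg _ _)

theorem wt_lower {r : ℝ} (hr : 0 < r) {v : GaussianInt} (h1 : |(v.re : ℝ)| * (2 * r) ≤ 1)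
    (h2 : |(v.im : ℝ)| * (2 * r) ≤ 1) : 1 / 10 ≤ wt r v := by
  unfold wt
  nlinarith [aw_lower hr h1, aw_lower hr h2]

theorem phi_nonneg {r : ℝ} (hr : 0 < r) (x : ℂ) : 0 ≤ phi r x :=
  mul_nonneg (tri_nonneg hr _) (tri_nonneg hr _)

theorem phi_le {r : ℝ} (hr : 0 < r) (x : ℂ) : phi r x ≤ 1 / r ^ 2 := by
  unfold phi
  calc tri r x.re * tri r (-x.im) ≤ (1 / r) * (1 / r) := by
        apply mul_le_mul (tri_le hr _) (tri_le hr _) (tri_nonneg hr _) (by positivity)
    _ = 1 / r ^ 2 := by field_simp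

theorem phi_eq_zero {r : ℝ} (hr : 0 < r) {x : ℂ} (h : ¬ inR r x) : phi r x = 0 := by
  unfold phi
  by_contra hne
  apply h
  have h1 : tri r x.re ≠ 0 := fun h0 => hne (by rw [h0, zero_mul])
  have h2 : tri r (-x.im) ≠ 0 := fun h0 => hne (by rw [h0, mul_zero])
  have g1 : ∃ n : ℤ, |x.re - n| < r := by
    by_contra hc
    push Not at hc
    exact h1 (tri_eq_zero hr hc)
  have g2 : ∃ n : ℤ, |-x.im - n| < r := by
    by_contra hc
    push Not at hc
    exact h2 (tri_eq_zero hr hc)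
  obtain ⟨n, hn⟩ := g1
  obtain ⟨m, hm⟩ := g2
  refine ⟨⟨n, -m⟩, hn, ?_⟩
  have : |x.im - ((-m : ℤ) : ℝ)| = |-x.im - m| := by
    rw [← abs_neg]; congr 1; push_cast; ring
  rw [this]
  exact hm

theorem phi_add_gaussian (r : ℝ) (x : ℂ) (z : GaussianInt) :
    phi r (x + GaussianInt.toComplex z) = phi r x := by
  unfold phi
  rw [Complex.add_re, Complex.add_im, ← GaussianInt.intCast_re, ← GaussianInt.intCast_im,
    tri_add_int, neg_add, ← Int.cast_neg, tri_add_int]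

/-- equivalence `ℤ[i] ≃ ℤ × ℤ` -/
def giEquiv : GaussianInt ≃ ℤ × ℤ where
  toFun v := (v.re, v.im)
  invFun p := ⟨p.1, p.2⟩
  left_inv _ := rfl
  right_inv _ := rfl

theorem summable_wt {r : ℝ} (hr : 0 < r) (hr2 : r ≤ 1 / 2) : Summable (wt r) := by
  have h := summable_aw hr hr2
  have hh : Summable fun p : ℤ × ℤ => aw r p.1 * aw r p.2 :=
    summable_mul_of_summable_norm (f := aw r) (g := aw r) h.norm h.norm
  have h2 := (giEquiv.summable_iff (f := fun p : ℤ × ℤ => aw r p.1 * aw r p.2)).mpr hh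
  exact h2.congr fun v => rfl

/-- **(S0)**: Fourier series of the majorant. -/
theorem hasSum_phi {r : ℝ} (hr : 0 < r) (hr2 : r ≤ 1 / 2) (x : ℂ) :
    HasSum (fun v : GaussianInt => (wt r v : ℂ) * chi v x) ((phi r x : ℝ) : ℂ) := by
  have n1 : ∀ y : ℝ, Summable fun n : ℤ => ‖(aw r n : ℂ) * e1 (n * y)‖ := by
    intro y
    have h0 : (fun n : ℤ => ‖(aw r n : ℂ) * e1 (n * y)‖) = aw r := by
      funext n
      rw [norm_mul, norm_e1, mul_one, Complex.norm_real, Real.norm_of_nonneg (aw_nonneg _ _)]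
    rw [h0]
    exact summable_aw hr hr2
  obtain ⟨f, hf⟩ : ∃ f : ℤ → ℂ, f = fun n : ℤ => (aw r n : ℂ) * e1 (n * x.re) := ⟨_, rfl⟩
  obtain ⟨g, hg⟩ : ∃ g : ℤ → ℂ, g = fun n : ℤ => (aw r n : ℂ) * e1 (n * (-x.im)) := ⟨_, rfl⟩
  have h1 : HasSum f ((tri r x.re : ℝ) : ℂ) := by rw [hf]; exact hasSum_tri hr hr2 x.re
  have h2 : HasSum g ((tri r (-x.im) : ℝ) : ℂ) := by rw [hg]; exact hasSum_tri hr hr2 (-x.im)
  have n2 : Summable fun p : ℤ × ℤ => f p.1 * g p.2 :=
    summable_mul_of_summable_norm (by rw [hf]; exact n1 _) (by rw [hg]; exact n1 _)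
  have h3 : HasSum (fun p : ℤ × ℤ => f p.1 * g p.2)
      (((tri r x.re : ℝ) : ℂ) * ((tri r (-x.im) : ℝ) : ℂ)) := h1.mul h2 n2
  have h4 := (giEquiv.hasSum_iff (f := fun p : ℤ × ℤ => f p.1 * g p.2)).mpr h3
  have h5 : (fun v : GaussianInt => (wt r v : ℂ) * chi v x) =
      ((fun p : ℤ × ℤ => f p.1 * g p.2) ∘ giEquiv) := by
    funext v
    have h6 : giEquiv v = (v.re, v.im) := rfl
    rw [Function.comp_apply, h6, chi_eq, wt, Complex.ofReal_mul, hf, hg]
    ring
  have h7 : ((phi r x : ℝ) : ℂ) = ((tri r x.re : ℝ) : ℂ) * ((tri r (-x.im) : ℝ) : ℂ) := by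
    rw [phi, Complex.ofReal_mul]
  rw [h7, h5]
  exact h4

end Crest.Agent.R2.M750
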