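import Mathlib

set_option autoImplicit false

/-!
# R2, block Z1: prime supply (Mertens lower bound for the primes `1 mod 4`)
-/

namespace Crest.Agent.R2.Z1

open Finset

noncomputable section

/-- The nontrivial character mod `4`, real valued. -/
def chi (n : ℕ) : ℝ := ((ZMod.χ₄ (n : ZMod 4) : ℤ) : ℝ)

lemma chi_mul (m n : ℕ) : chi (m * n) = chi m * chi n := by
  unfold chi
  rw [Nat.cast_mul, map_mul, Int.cast_mul]

lemma chi_eq (n : ℕ) : chi n = if n % 2 = 0 then 0 else if n % 4 = 1 then 1 else -1 := by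
  unfold chi
  rw [ZMod.χ₄_nat_eq_if_mod_four]
  split_ifs <;> simp

lemma chi_sum (k : ℕ) : ∑ i ∈ range k, chi i = if k % 4 = 2 ∨ k % 4 = 3 then 1 else 0 := by
  induction k with
  | zero => simp
  | succ k ih =>
    rw [sum_range_succ, ih, chi_eq]
    have h4 : k % 4 < 4 := Nat.mod_lt _ (by norm_num)
    have h2 : k % 2 = (k % 4) % 2 := by omega
    have h1 : (k + 1) % 4 = (k % 4 + 1) % 4 := by omega
    rw [h2, h1]
    interval_cases (k % 4) <;> norm_num

lemma chi_interval (a k : ℕ) (h : a ≤ k) : |∑ i ∈ Ico a k, chi i| ≤ 1 := by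
  rw [sum_Ico_eq_sub _ h, chi_sum, chi_sum]
  split_ifs <;> norm_num

/-- Dirichlet test on an interval. -/
lemma abel_bound (x f : ℕ → ℝ) (a : ℕ) (hx : ∀ k, a ≤ k → |∑ i ∈ Ico a k, x i| ≤ 1)
    (hf : ∀ i, a ≤ i → f (i + 1) ≤ f i) (hf0 : ∀ i, a ≤ i → 0 ≤ f i) (b : ℕ) (hb : a ≤ b) :
    |∑ i ∈ Ico a b, x i * f i| ≤ f a := by
  have key : ∀ b, a ≤ b → |∑ i ∈ Ico a b, x i * f i - (∑ i ∈ Ico a b, x i) * f b| ≤ f a - f b := by
    intro b hb
    induction b, hb using Nat.le_induction with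
    | base => simp
    | succ b hb ih =>
      rw [sum_Ico_succ_top hb, sum_Ico_succ_top hb]
      have h1 := hx (b + 1) (by omega)
      rw [sum_Ico_succ_top hb] at h1
      set S := ∑ i ∈ Ico a b, x i * f i
      set X := ∑ i ∈ Ico a b, x i
      have e : S + x b * f b - (X + x b) * f (b + 1)
          = (S - X * f b) + (X + x b) * (f b - f (b + 1)) := by ring
      rw [e]
      have h2 : 0 ≤ f b - f (b + 1) := by linarith [hf b hb]
      calc |(S - X * f b) + (X + x b) * (f b - f (b + 1))|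
          ≤ |S - X * f b| + |(X + x b) * (f b - f (b + 1))| := abs_add_le _ _
        _ ≤ (f a - f b) + 1 * (f b - f (b + 1)) := by
            rw [abs_mul, abs_of_nonneg h2]
            gcongr
        _ = f a - f (b + 1) := by ring
  have h := key b hb
  have h1 := hx b hb
  have h2 := hf0 b hb
  have h3 : |(∑ i ∈ Ico a b, x i) * f b| ≤ f b := by
    rw [abs_mul, abs_of_nonneg h2]
    nlinarith
  calc |∑ i ∈ Ico a b, x i * f i|
      = |(∑ i ∈ Ico a b, x i * f i - (∑ i ∈ Ico a b, x i) * f b)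
          + (∑ i ∈ Ico a b, x i) * f b| := by ring_nf
    _ ≤ (f a - f b) + f b := (abs_add_le _ _).trans (add_le_add h h3)
    _ = f a := by ring

/-- partial sums of `L(1,χ)` -/
def B (M : ℕ) : ℝ := ∑ m ∈ Ioc 0 M, chi m * (1 / (m : ℝ))

lemma Ioc_eq_Ico (M N : ℕ) : Ioc M N = Ico (M + 1) (N + 1) := by
  ext x; simp only [mem_Ioc, mem_Ico]; omega

lemma B_diff (M N : ℕ) (h : M ≤ N) : |B N - B M| ≤ 1 / ((M : ℝ) + 1) := by
  unfold B
  have e : ∑ m ∈ Ioc 0 N, chi m * (1 / (m : ℝ)) - ∑ m ∈ Ioc 0 M, chi m * (1 / (m : ℝ))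
      = ∑ m ∈ Ico (M + 1) (N + 1), chi m * (1 / (m : ℝ)) := by
    rw [Ioc_eq_Ico, Ioc_eq_Ico, sub_eq_iff_eq_add]
    have h1 := sum_Ico_consecutive (fun m : ℕ => chi m * (1 / (m : ℝ)))
      (show 0 + 1 ≤ M + 1 by omega) (show M + 1 ≤ N + 1 by omega)
    rw [← h1, add_comm]
  rw [e]
  have := abel_bound chi (fun m => 1 / (m : ℝ)) (M + 1) (fun k hk => chi_interval _ _ hk)
    (fun i hi => by
      have : (0 : ℝ) < i := by exact_mod_cast (by omega : 0 < i)
      push_cast
      gcongr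
      linarith)
    (fun i _ => by positivity) (N + 1) (by omega)
  simpa using this

lemma B_two : B 2 = 1 := by
  unfold B
  rw [show Ioc 0 2 = {1, 2} by decide]
  rw [sum_insert (by decide), sum_singleton, chi_eq, chi_eq]
  norm_num

lemma B_lower (N : ℕ) (h : 2 ≤ N) : 2 / 3 ≤ B N := by
  have := B_diff 2 N h
  rw [B_two, abs_le] at this
  norm_num at this
  linarith [this.1]

/-- `A N = ∑_{m ≤ N} χ(m) log m / m` is bounded. -/
def A (N : ℕ) : ℝ := ∑ m ∈ Ioc 0 N, chi m * (Real.log m / m)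

lemma A_bound (N : ℕ) : |A N| ≤ 1 := by
  unfold A
  rcases Nat.lt_or_ge N 3 with h | h
  · interval_cases N
    · simp
    · rw [show Ioc 0 1 = {1} by decide]; simp
    · rw [show Ioc 0 2 = {1, 2} by decide, sum_insert (by decide), sum_singleton, chi_eq 2]; simp
  · rw [Ioc_eq_Ico, ← sum_Ico_consecutive _ (show 0 + 1 ≤ 3 by norm_num) (show 3 ≤ N + 1 by omega)]
    have h0 : ∑ i ∈ Ico (0 + 1) 3, chi i * (Real.log i / i) = 0 := by
      rw [show Ico (0 + 1) 3 = {1, 2} by decide, sum_insert (by decide), sum_singleton, chi_eq 2]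
      simp
    rw [h0, zero_add]
    have hexp : Real.exp 1 ≤ 3 := by
      have := Real.exp_one_lt_d9
      linarith
    have h1 := abel_bound chi (fun m => Real.log m / m) 3 (fun k hk => chi_interval _ _ hk)
      (fun i hi => by
        have h3 : (3 : ℝ) ≤ i := by exact_mod_cast hi
        refine Real.log_div_self_antitoneOn (a := (i : ℝ)) (b := ((i + 1 : ℕ) : ℝ)) ?_ ?_ ?_
        · simp only [Set.mem_Ici]; linarith
        · simp only [Set.mem_Ici]; push_cast; linarith
        · push_cast; linarith)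
      (fun i hi => by
        have h3 : (3 : ℝ) ≤ i := by exact_mod_cast hi
        exact div_nonneg (Real.log_nonneg (by linarith)) (by linarith)) (N + 1) (by omega)
    refine h1.trans ?_
    have : Real.log 3 ≤ 3 := by
      have := Real.log_le_sub_one_of_pos (show (0 : ℝ) < 3 by norm_num)
      linarith
    show Real.log ((3 : ℕ) : ℝ) / ((3 : ℕ) : ℝ) ≤ 1
    rw [div_le_one (by norm_num)]
    simpa using this

open ArithmeticFunction in
/-- von Mangoldt -/
abbrev Lam (n : ℕ) : ℝ := ArithmeticFunction.vonMangoldt n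

/-- `T N = ∑_{d ≤ N} χ(d) Λ(d) / d`. -/
def T (N : ℕ) : ℝ := ∑ d ∈ Ioc 0 N, chi d * Lam d / d

def fA : ArithmeticFunction ℝ := ⟨fun d => chi d * Lam d / d, by simp⟩
def gA : ArithmeticFunction ℝ := ⟨fun d => chi d * (1 / (d : ℝ)), by simp⟩

lemma fg_apply (n : ℕ) : (fA * gA) n = chi n * (Real.log n / n) := by
  rw [ArithmeticFunction.mul_apply]
  have h : ∀ x ∈ n.divisorsAntidiagonal, fA x.1 * gA x.2 = chi n / n * Lam x.1 := by
    intro x hx
    rw [Nat.mem_divisorsAntidiagonal] at hx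
    have hn : (n : ℝ) = (x.1 : ℝ) * x.2 := by rw [← hx.1]; push_cast; ring
    have hc : chi n = chi x.1 * chi x.2 := by rw [← hx.1, chi_mul]
    have h1 : (x.1 : ℝ) ≠ 0 := by
      intro h0
      apply hx.2
      rw [← hx.1]
      have : x.1 = 0 := by exact_mod_cast h0
      simp [this]
    have h2 : (x.2 : ℝ) ≠ 0 := by
      intro h0
      apply hx.2
      rw [← hx.1]
      have : x.2 = 0 := by exact_mod_cast h0
      simp [this]
    show chi x.1 * Lam x.1 / x.1 * (chi x.2 * (1 / (x.2 : ℝ))) = _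
    rw [hn, hc]
    field_simp
  rw [sum_congr rfl h, ← mul_sum]
  have h2 : ∑ x ∈ n.divisorsAntidiagonal, Lam x.1 = Real.log n := by
    rw [Nat.sum_divisorsAntidiagonal (fun i _ => Lam i)]
    exact ArithmeticFunction.vonMangoldt_sum
  rw [h2]
  ring

lemma A_eq (N : ℕ) : A N = ∑ d ∈ Ioc 0 N, chi d * Lam d / d * B (N / d) := by
  have h := ArithmeticFunction.sum_Ioc_mul_eq_sum_sum fA gA N
  have h1 : ∑ n ∈ Ioc 0 N, (fA * gA) n = A N := by
    unfold A
    exact sum_congr rfl fun n _ => fg_apply n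
  rw [h1] at h
  rw [h]
  rfl

lemma psi_le (N : ℕ) : ∑ n ∈ Ioc 0 N, Lam n ≤ (Real.log 4 + 4) * N := by
  have := Chebyshev.psi_le_const_mul_self (x := (N : ℝ)) (by positivity)
  unfold Chebyshev.psi at this
  simpa using this

lemma chi_abs_le (n : ℕ) : |chi n| ≤ 1 := by
  rw [chi_eq]; split_ifs <;> norm_num

lemma T_bound (N : ℕ) (hN : 2 ≤ N) : |T N| ≤ 3 / 2 * (1 + (Real.log 4 + 4)) := by
  have hNpos : (0 : ℝ) < N := by exact_mod_cast (by omega : 0 < N)
  have h1 : |B N * T N - A N| ≤ Real.log 4 + 4 := by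
    have e : B N * T N - A N = ∑ d ∈ Ioc 0 N, chi d * Lam d / d * (B N - B (N / d)) := by
      rw [A_eq, T, mul_sum, ← sum_sub_distrib]
      exact sum_congr rfl fun d _ => by ring
    rw [e]
    calc |∑ d ∈ Ioc 0 N, chi d * Lam d / d * (B N - B (N / d))|
        ≤ ∑ d ∈ Ioc 0 N, |chi d * Lam d / d * (B N - B (N / d))| := abs_sum_le_sum_abs _ _
      _ ≤ ∑ d ∈ Ioc 0 N, Lam d * (1 / N) := by
          refine sum_le_sum fun d hd => ?_
          rw [mem_Ioc] at hd
          have hd0 : (0 : ℝ) < d := by exact_mod_cast hd.1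
          have hL : 0 ≤ Lam d := ArithmeticFunction.vonMangoldt_nonneg
          rw [abs_mul, abs_div, abs_mul, abs_of_nonneg hL, abs_of_pos hd0]
          have hB := B_diff (N / d) N (Nat.div_le_self _ _)
          have hfl : (N : ℝ) / d ≤ ((N / d : ℕ) : ℝ) + 1 := by
            have := Nat.lt_div_mul_add (a := N) hd.1
            have h' : (N : ℝ) < ((N / d : ℕ) : ℝ) * d + d := by exact_mod_cast this
            rw [div_le_iff₀ hd0]
            nlinarith
          have hB2 : |B N - B (N / d)| ≤ d / N := by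
            refine hB.trans ?_
            rw [div_le_div_iff₀ (by positivity) hNpos]
            rw [div_le_iff₀ hd0] at hfl
            linarith
          calc |chi d| * Lam d / d * |B N - B (N / d)| ≤ 1 * Lam d / d * (d / N) := by
                gcongr
                exact chi_abs_le d
            _ = Lam d * (1 / N) := by field_simp
      _ = (∑ d ∈ Ioc 0 N, Lam d) * (1 / N) := by rw [sum_mul]
      _ ≤ ((Real.log 4 + 4) * N) * (1 / N) := by
          gcongr
          exact psi_le N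
      _ = Real.log 4 + 4 := by field_simp
  have hA := A_bound N
  have hB := B_lower N hN
  have h2 : |B N * T N| ≤ 1 + (Real.log 4 + 4) := by
    have : B N * T N = (B N * T N - A N) + A N := by ring
    rw [this]
    refine (abs_add_le _ _).trans ?_
    linarith
  rw [abs_mul, abs_of_nonneg (by linarith : 0 ≤ B N)] at h2
  have h3 : 2 / 3 * |T N| ≤ 1 + (Real.log 4 + 4) :=
    le_trans (mul_le_mul_of_nonneg_right hB (abs_nonneg _)) h2
  linarith

/-- `S N = ∑_{d ≤ N} Λ(d) / d`. -/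
def S (N : ℕ) : ℝ := ∑ d ∈ Ioc 0 N, Lam d / d

lemma log_factorial_eq (N : ℕ) : Real.log (N.factorial) = ∑ d ∈ Ioc 0 N, Lam d * ((N / d : ℕ) : ℝ) := by
  have h := ArithmeticFunction.sum_Ioc_mul_zeta_eq_sum ArithmeticFunction.vonMangoldt N
  rw [← h, ArithmeticFunction.vonMangoldt_mul_zeta]
  induction N with
  | zero => simp
  | succ N ih =>
    have h' := ArithmeticFunction.sum_Ioc_mul_zeta_eq_sum ArithmeticFunction.vonMangoldt N
    rw [Nat.factorial_succ, Nat.cast_mul, Real.log_mul (by positivity) (by positivity),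
      ih h', ← Finset.insert_Ioc_right_eq_Ioc_add_one (by omega), sum_insert (by simp)]
    rfl

lemma S_lower (N : ℕ) (hN : 1 ≤ N) : Real.log N - 1 ≤ S N := by
  have hNpos : (0 : ℝ) < N := by exact_mod_cast (by omega : 0 < N)
  have h1 : Real.log (N.factorial) ≤ N * S N := by
    rw [log_factorial_eq, S, mul_sum]
    refine sum_le_sum fun d hd => ?_
    rw [mem_Ioc] at hd
    have hd0 : (0 : ℝ) < d := by exact_mod_cast hd.1
    have hL : 0 ≤ Lam d := ArithmeticFunction.vonMangoldt_nonneg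
    have : ((N / d : ℕ) : ℝ) ≤ N / d := Nat.cast_div_le
    calc Lam d * ((N / d : ℕ) : ℝ) ≤ Lam d * (N / d) := by gcongr
      _ = N * (Lam d / d) := by ring
  have h2 : (N : ℝ) * Real.log N - N ≤ Real.log (N.factorial) := by
    have h := Real.exp_pos
    have hf : (N : ℝ) ^ N / (N.factorial : ℝ) ≤ Real.exp N := by
      exact Real.pow_div_factorial_le_exp (x := (N : ℝ)) (by positivity) N
    have hfpos : (0 : ℝ) < (N.factorial : ℝ) := by positivity
    have h3 : Real.log ((N : ℝ) ^ N / (N.factorial : ℝ)) ≤ N := by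
      have := Real.log_le_log (by positivity) hf
      rwa [Real.log_exp] at this
    rw [Real.log_div (by positivity) (by positivity), Real.log_pow] at h3
    linarith
  have h3 : (N : ℝ) * (Real.log N - 1) ≤ N * S N := by linarith
  exact le_of_mul_le_mul_left h3 hNpos

lemma S_upper (N : ℕ) (hN : 1 ≤ N) : S N ≤ Real.log N + (Real.log 4 + 4) := by
  have hNpos : (0 : ℝ) < N := by exact_mod_cast (by omega : 0 < N)
  have h1 : N * S N - ∑ d ∈ Ioc 0 N, Lam d ≤ Real.log (N.factorial) := by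
    rw [log_factorial_eq, S, mul_sum, ← sum_sub_distrib]
    refine sum_le_sum fun d hd => ?_
    rw [mem_Ioc] at hd
    have hd0 : (0 : ℝ) < d := by exact_mod_cast hd.1
    have hL : 0 ≤ Lam d := ArithmeticFunction.vonMangoldt_nonneg
    have hfl : (N : ℝ) / d - 1 ≤ ((N / d : ℕ) : ℝ) := by
      have := Nat.lt_div_mul_add (a := N) hd.1
      have h' : (N : ℝ) < ((N / d : ℕ) : ℝ) * d + d := by exact_mod_cast this
      rw [sub_le_iff_le_add, div_le_iff₀ hd0]
      nlinarith
    calc N * (Lam d / d) - Lam d = Lam d * (N / d - 1) := by ring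
      _ ≤ Lam d * ((N / d : ℕ) : ℝ) := by gcongr
  have h2 : Real.log (N.factorial) ≤ N * Real.log N := by
    rw [← Real.log_pow]
    refine Real.log_le_log (by positivity) ?_
    exact_mod_cast Nat.factorial_le_pow N
  have h3 := psi_le N
  have h4 : (N : ℝ) * S N ≤ N * (Real.log N + (Real.log 4 + 4)) := by linarith
  exact le_of_mul_le_mul_left h4 hNpos

/-- `U N = ∑_{d ≤ N, d ≡ 1 mod 4} Λ(d) / d`. -/
def U (N : ℕ) : ℝ := ∑ d ∈ Ioc 0 N with d % 4 = 1, Lam d / d

lemma U_upper (N : ℕ) (hN : 2 ≤ N) :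
    U N ≤ 1 / 2 * Real.log N + (1 / 2 * (Real.log 4 + 4) + 3 / 4 * (1 + (Real.log 4 + 4))) := by
  have h1 : 2 * U N ≤ S N + T N := by
    unfold U S T
    rw [sum_filter, mul_sum, ← sum_add_distrib]
    refine sum_le_sum fun d hd => ?_
    have hL : 0 ≤ Lam d := ArithmeticFunction.vonMangoldt_nonneg
    have hLd : 0 ≤ Lam d / d := by positivity
    rw [chi_eq]
    split_ifs with h1 h2 h3
    · omega
    · rw [one_mul]; linarith
    · simp only [zero_mul, zero_div, mul_zero, add_zero]; exact hLd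
    · rw [neg_one_mul, neg_div]; linarith
  have h2 := S_upper N (by omega)
  have h3 := T_bound N hN
  have h4 := le_abs_self (T N)
  linarith

lemma two_part (N : ℕ) : ∑ d ∈ Ioc 0 N with d % 2 = 0, Lam d / d ≤ Real.log 2 := by
  have hsub : ∑ d ∈ Ioc 0 N with d % 2 = 0, Lam d / d
      ≤ ∑ d ∈ (Ioc 0 N).image (fun k => 2 ^ k), Lam d / d := by
    have hz : ∀ d ∈ (Ioc 0 N).filter (fun d => d % 2 = 0),
        d ∉ (Ioc 0 N).image (fun k => 2 ^ k) → Lam d / d = 0 := by
      intro d hd hnot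
      rw [mem_filter, mem_Ioc] at hd
      have : Lam d = 0 := by
        rw [ArithmeticFunction.vonMangoldt_eq_zero_iff]
        intro hpp
        obtain ⟨p, k, hp, hk, hpk⟩ := (isPrimePow_nat_iff _).1 hpp
        apply hnot
        rw [mem_image]
        have hp2 : p = 2 := by
          have h2 : 2 ∣ p ^ k := by rw [hpk]; omega
          exact ((Nat.prime_dvd_prime_iff_eq Nat.prime_two hp).1
            (Nat.prime_two.dvd_of_dvd_pow h2)).symm
        subst hp2
        refine ⟨k, ?_, hpk⟩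
        rw [mem_Ioc]
        refine ⟨hk, ?_⟩
        have := Nat.lt_two_pow_self (n := k)
        omega
      rw [this, zero_div]
    have hnn : ∀ d, 0 ≤ Lam d / d := fun d =>
      div_nonneg ArithmeticFunction.vonMangoldt_nonneg (by positivity)
    calc ∑ d ∈ Ioc 0 N with d % 2 = 0, Lam d / d
        = ∑ d ∈ ((Ioc 0 N).filter (fun d => d % 2 = 0)).filter
            (fun d => d ∈ (Ioc 0 N).image (fun k => 2 ^ k)), Lam d / d := by
          symm
          apply sum_filter_of_ne
          intro d hd hne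
          by_contra hcon
          exact hne (hz d hd hcon)
      _ ≤ ∑ d ∈ (Ioc 0 N).image (fun k => 2 ^ k), Lam d / d := by
          refine sum_le_sum_of_subset_of_nonneg ?_ fun d _ _ => hnn d
          intro d hd
          exact (mem_filter.1 hd).2
  refine hsub.trans ?_
  rw [sum_image (by
    intro a _ b _ hab
    exact Nat.pow_right_injective (le_refl 2) hab)]
  have : ∀ k ∈ Ioc 0 N, Lam (2 ^ k) / ((2 ^ k : ℕ) : ℝ) = Real.log 2 * (1 / 2) ^ k := by
    intro k hk
    rw [mem_Ioc] at hk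
    show ArithmeticFunction.vonMangoldt (2 ^ k) / _ = _
    rw [ArithmeticFunction.vonMangoldt_apply_pow (by omega),
      ArithmeticFunction.vonMangoldt_apply_prime Nat.prime_two]
    push_cast
    rw [one_div, inv_pow]
    rfl
  rw [sum_congr rfl this, ← mul_sum]
  have hlog : 0 ≤ Real.log 2 := Real.log_nonneg (by norm_num)
  have hgeo : ∑ k ∈ Ioc 0 N, (1 / 2 : ℝ) ^ k ≤ 1 := by
    have : ∀ N : ℕ, ∑ k ∈ Ioc 0 N, (1 / 2 : ℝ) ^ k = 1 - (1 / 2) ^ N := by
      intro N
      induction N with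
      | zero => simp
      | succ N ih =>
        rw [← Finset.insert_Ioc_right_eq_Ioc_add_one (by omega), sum_insert (by simp), ih]
        ring
    rw [this]
    have : (0 : ℝ) ≤ (1 / 2) ^ N := by positivity
    linarith
  nlinarith

lemma U_lower (N : ℕ) (hN : 2 ≤ N) :
    1 / 2 * Real.log N - (1 / 2 * (1 + Real.log 2) + 3 / 4 * (1 + (Real.log 4 + 4))) ≤ U N := by
  have h1 : S N + T N ≤ 2 * U N + ∑ d ∈ Ioc 0 N with d % 2 = 0, Lam d / d := by
    unfold U S T
    rw [sum_filter, sum_filter, mul_sum, ← sum_add_distrib, ← sum_add_distrib]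
    refine sum_le_sum fun d hd => ?_
    have hL : 0 ≤ Lam d := ArithmeticFunction.vonMangoldt_nonneg
    have hLd : 0 ≤ Lam d / d := by positivity
    rw [chi_eq]
    split_ifs with h1 h2 h3
    · omega
    · simp
    · rw [one_mul]; linarith
    · rw [neg_one_mul, neg_div]; linarith
  have h2 := S_lower N (by omega)
  have h3 := T_bound N hN
  have h4 := neg_abs_le (T N)
  have h5 := two_part N
  linarith

/-- Window lower bound. -/
lemma U_window : ∃ C : ℝ, 0 < C ∧ ∀ M J : ℕ, 2 ≤ M →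
    J * Real.log 2 - C ≤ ∑ d ∈ Ioc M (4 ^ J * M) with d % 4 = 1, Lam d / d := by
  refine ⟨(1 / 2 * (1 + Real.log 2) + 3 / 4 * (1 + (Real.log 4 + 4))) +
    (1 / 2 * (Real.log 4 + 4) + 3 / 4 * (1 + (Real.log 4 + 4))), ?_, ?_⟩
  · have h2 : 0 ≤ Real.log 2 := Real.log_nonneg (by norm_num)
    have h4 : 0 ≤ Real.log 4 := Real.log_nonneg (by norm_num)
    positivity
  · intro M J hM
    have hle : M ≤ 4 ^ J * M := Nat.le_mul_of_pos_left _ (by positivity)
    have h1 := U_lower (4 ^ J * M) (by omega)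
    have h2 := U_upper M hM
    have h3 : ∑ d ∈ Ioc M (4 ^ J * M) with d % 4 = 1, Lam d / d = U (4 ^ J * M) - U M := by
      unfold U
      rw [sum_filter, sum_filter, sum_filter, eq_sub_iff_add_eq, add_comm, Ioc_eq_Ico, Ioc_eq_Ico,
        Ioc_eq_Ico]
      exact sum_Ico_consecutive _ (by omega) (by omega)
    have hMpos : (0 : ℝ) < M := by exact_mod_cast (by omega : 0 < M)
    have h4 : Real.log ((4 ^ J * M : ℕ) : ℝ) = 2 * (J * Real.log 2) + Real.log M := by
      push_cast
      rw [Real.log_mul (by positivity) (by positivity), Real.log_pow,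
        show (4 : ℝ) = 2 ^ 2 by norm_num, Real.log_pow]
      push_cast
      ring
    rw [h3]
    rw [h4] at h1
    linarith

/-- The primes `1 mod 4` in `(w, 4 w]`. -/
def PP (w : ℕ) : Finset ℕ := (Ioc w (4 * w)).filter (fun p => p.Prime ∧ p % 4 = 1)

lemma window_le (w : ℕ) (hw : 2 ≤ w) :
    ∑ d ∈ Ioc w (4 * w) with d % 4 = 1, Lam d / d
      ≤ 1 / w * ((PP w).card * Real.log (4 * w) +
        (Chebyshev.psi (4 * w : ℕ) - Chebyshev.theta (4 * w : ℕ))) := by
  have hwpos : (0 : ℝ) < w := by exact_mod_cast (by omega : 0 < w)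
  have h1 : ∑ d ∈ Ioc w (4 * w) with d % 4 = 1, Lam d / d
      ≤ 1 / w * ∑ d ∈ Ioc w (4 * w) with d % 4 = 1, Lam d := by
    rw [mul_sum]
    refine sum_le_sum fun d hd => ?_
    rw [mem_filter, mem_Ioc] at hd
    have hL : 0 ≤ Lam d := ArithmeticFunction.vonMangoldt_nonneg
    have hwd : (w : ℝ) ≤ d := by exact_mod_cast hd.1.1.le
    rw [div_eq_mul_one_div, mul_comm]
    gcongr
  refine h1.trans ?_
  refine mul_le_mul_of_nonneg_left ?_ (by positivity)
  -- split into primes and non-primes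
  have h2 : ∑ d ∈ Ioc w (4 * w) with d % 4 = 1, Lam d
      = ∑ d ∈ PP w, Lam d +
        ∑ d ∈ (Ioc w (4 * w)).filter (fun d => d % 4 = 1 ∧ ¬ d.Prime), Lam d := by
    rw [PP, ← sum_filter_add_sum_filter_not ((Ioc w (4 * w)).filter (fun d => d % 4 = 1))
      (fun d => d.Prime), filter_filter, filter_filter]
    congr 1
    refine sum_congr ?_ fun _ _ => rfl
    ext d
    simp only [mem_filter]
    tauto
  have h3 : ∑ d ∈ PP w, Lam d ≤ (PP w).card * Real.log (4 * w) := by
    rw [← nsmul_eq_mul]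
    refine sum_le_card_nsmul _ _ _ fun d hd => ?_
    rw [PP, mem_filter, mem_Ioc] at hd
    have h : Lam d ≤ Real.log d := ArithmeticFunction.vonMangoldt_le_log
    refine h.trans (Real.log_le_log (by exact_mod_cast hd.2.1.pos) ?_)
    exact_mod_cast hd.1.2
  have h4 : ∑ d ∈ (Ioc w (4 * w)).filter (fun d => d % 4 = 1 ∧ ¬ d.Prime), Lam d
      ≤ Chebyshev.psi (4 * w : ℕ) - Chebyshev.theta (4 * w : ℕ) := by
    unfold Chebyshev.psi Chebyshev.theta
    rw [Nat.floor_natCast]
    have e : ∑ n ∈ Ioc 0 (4 * w), ArithmeticFunction.vonMangoldt n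
        = ∑ p ∈ Ioc 0 (4 * w) with p.Prime, Real.log p
          + ∑ n ∈ (Ioc 0 (4 * w)).filter (fun n => ¬ n.Prime), Lam n := by
      rw [← sum_filter_add_sum_filter_not (Ioc 0 (4 * w)) (fun d => d.Prime)]
      congr 1
      refine sum_congr rfl fun p hp => ?_
      exact ArithmeticFunction.vonMangoldt_apply_prime (mem_filter.1 hp).2
    rw [e, add_sub_cancel_left]
    refine sum_le_sum_of_subset_of_nonneg ?_ fun d _ _ => ArithmeticFunction.vonMangoldt_nonneg
    intro d hd
    rw [mem_filter, mem_Ioc] at hd ⊢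
    exact ⟨⟨by omega, hd.1.2⟩, hd.2.2⟩
  rw [h2]
  exact add_le_add h3 h4

/-- Rational prime supply. -/
theorem prime_supply_nat : ∃ (J M₀ : ℕ) (c : ℝ), 0 < c ∧ 2 ≤ M₀ ∧ ∀ M : ℕ, M₀ ≤ M →
    ∃ j < J, c * (4 ^ j * M : ℕ) / Real.log (4 ^ j * M : ℕ) ≤ (PP (4 ^ j * M)).card := by
  obtain ⟨C, hC, hU⟩ := U_window
  obtain ⟨C', hC'⟩ := Chebyshev.psi_sub_theta_le_mul_sqrt
  obtain ⟨J, hJ⟩ := exists_nat_ge ((C + 1) / Real.log 2)
  have hlog2 : 0 < Real.log 2 := Real.log_pos (by norm_num)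
  have hJ1 : C + 1 ≤ J * Real.log 2 := by
    rwa [div_le_iff₀ hlog2] at hJ
  have hJ0 : 0 < J := by
    rcases Nat.eq_zero_or_pos J with h | h
    · subst h; simp at hJ1; linarith
    · exact h
  have hJR : (0 : ℝ) < J := by exact_mod_cast hJ0
  set C2 : ℝ := max C' 1 with hC2
  have hC21 : 1 ≤ C2 := le_max_right _ _
  have hC2' : ∀ x : ℝ, Chebyshev.psi x - Chebyshev.theta x ≤ C2 * √x := fun x =>
    (hC' x).trans (mul_le_mul_of_nonneg_right (le_max_left _ _) (Real.sqrt_nonneg _))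
  -- need `2 * C2 / sqrt w ≤ 1/(2J)`
  obtain ⟨M₁, hM₁⟩ := exists_nat_ge ((4 * C2 * J) ^ 2)
  refine ⟨J, M₁ + 2, 1 / (6 * J), by positivity, by omega, ?_⟩
  intro M hM
  by_contra hcon
  push Not at hcon
  have hMR : (4 * C2 * J) ^ 2 ≤ (M : ℝ) := hM₁.trans (by exact_mod_cast (by omega : M₁ ≤ M))
  have hdec : ∀ J' : ℕ, ∑ d ∈ Ioc M (4 ^ J' * M) with d % 4 = 1, Lam d / d
      = ∑ j ∈ range J', ∑ d ∈ Ioc (4 ^ j * M) (4 * (4 ^ j * M)) with d % 4 = 1, Lam d / d := by
    intro J'
    induction J' with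
    | zero => simp
    | succ J' ih =>
      rw [sum_range_succ, ← ih]
      have h1 : M ≤ 4 ^ J' * M := Nat.le_mul_of_pos_left _ (by positivity)
      have h2 : 4 ^ J' * M ≤ 4 * (4 ^ J' * M) := by omega
      rw [show 4 ^ (J' + 1) * M = 4 * (4 ^ J' * M) by ring]
      rw [sum_filter, sum_filter, sum_filter, Ioc_eq_Ico, Ioc_eq_Ico, Ioc_eq_Ico]
      exact (sum_Ico_consecutive _ (by omega) (by omega)).symm
  have h1 := hU M J (by omega)
  rw [hdec] at h1
  have h2 : ∀ j ∈ range J, ∑ d ∈ Ioc (4 ^ j * M) (4 * (4 ^ j * M)) with d % 4 = 1, Lam d / d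
      < 1 / J := by
    intro j hj
    rw [mem_range] at hj
    have hc := hcon j hj
    set w : ℕ := 4 ^ j * M with hw
    have hMw : M ≤ w := Nat.le_mul_of_pos_left _ (by positivity)
    have hw2 : 2 ≤ w := by omega
    have hwpos : (0 : ℝ) < w := by exact_mod_cast (by omega : 0 < w)
    have hw2R : (2 : ℝ) ≤ w := by exact_mod_cast hw2
    have hlw : 0 < Real.log w := Real.log_pos (by linarith)
    refine (window_le w hw2).trans_lt ?_
    have h3 := hC2' (4 * w : ℕ)
    have h4 : Real.log (4 * w) ≤ 3 * Real.log w := by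
      have : Real.log (4 * w) ≤ Real.log ((w : ℝ) ^ 3) := by
        refine Real.log_le_log (by positivity) ?_
        nlinarith [mul_pos hwpos hwpos]
      rw [Real.log_pow] at this
      exact_mod_cast this
    have h5 : ((PP w).card : ℝ) * Real.log (4 * w) < w * (1 / (2 * J)) := by
      calc ((PP w).card : ℝ) * Real.log (4 * w) ≤ (PP w).card * (3 * Real.log w) := by gcongr
        _ < (1 / (6 * J) * w / Real.log w) * (3 * Real.log w) := by
            apply mul_lt_mul_of_pos_right hc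
            positivity
        _ = w * (1 / (2 * J)) := by field_simp; ring
    have h6 : Chebyshev.psi (4 * w : ℕ) - Chebyshev.theta (4 * w : ℕ) ≤ w * (1 / (2 * J)) := by
      refine h3.trans ?_
      have hs : √((4 * w : ℕ) : ℝ) = 2 * √(w : ℝ) := by
        push_cast
        rw [Real.sqrt_mul (by norm_num), show (4 : ℝ) = 2 ^ 2 by norm_num,
          Real.sqrt_sq (by norm_num)]
      rw [hs]
      have hsw : 4 * C2 * J ≤ √(w : ℝ) := by
        rw [Real.le_sqrt (by positivity) (by positivity)]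
        exact hMR.trans (by exact_mod_cast hMw)
      have hsq : √(w : ℝ) * √(w : ℝ) = w := Real.mul_self_sqrt hwpos.le
      have hs0 : 0 ≤ √(w : ℝ) := Real.sqrt_nonneg _
      rw [mul_one_div, le_div_iff₀ (by positivity)]
      nlinarith
    calc 1 / (w : ℝ) * ((PP w).card * Real.log (4 * w)
          + (Chebyshev.psi (4 * w : ℕ) - Chebyshev.theta (4 * w : ℕ)))
        < 1 / (w : ℝ) * (w * (1 / (2 * J)) + w * (1 / (2 * J))) := by
          apply mul_lt_mul_of_pos_left _ (by positivity)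
          linarith
      _ = 1 / J := by field_simp; ring
  have h3 : ∑ j ∈ range J, ∑ d ∈ Ioc (4 ^ j * M) (4 * (4 ^ j * M)) with d % 4 = 1, Lam d / d
      < ∑ j ∈ range J, (1 / J : ℝ) :=
    sum_lt_sum_of_nonempty (by simpa using hJ0.ne') h2
  rw [sum_const, card_range, nsmul_eq_mul] at h3
  have h4 : (J : ℝ) * (1 / J) = 1 := by field_simp
  linarith

/-! ### Gaussian primes -/

/-- A Gaussian integer with prime norm is prime. -/
lemma prime_of_norm_prime {z : GaussianInt} (h : z.norm.natAbs.Prime) : Prime z := by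
  apply Irreducible.prime
  constructor
  · intro hu
    rw [← Zsqrtd.norm_eq_one_iff] at hu
    rw [hu] at h
    exact Nat.not_prime_one h
  · intro a b hab
    have h1 : z.norm.natAbs = a.norm.natAbs * b.norm.natAbs := by
      rw [hab, Zsqrtd.norm_mul, Int.natAbs_mul]
    rw [h1] at h
    rcases Nat.prime_mul_iff.1 h with h2 | h2
    · right; exact Zsqrtd.norm_eq_one_iff.1 h2.2
    · left; exact Zsqrtd.norm_eq_one_iff.1 h2.2

lemma norm_eq_of_assoc {z w : GaussianInt} (h : Associated z w) : z.norm = w.norm := by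
  obtain ⟨u, rfl⟩ := h
  rw [Zsqrtd.norm_mul]
  have hu : (u : GaussianInt).norm.natAbs = 1 := Zsqrtd.norm_eq_one_iff.2 u.isUnit
  have h0 : 0 ≤ (u : GaussianInt).norm := GaussianInt.norm_nonneg _
  have : (u : GaussianInt).norm = 1 := by omega
  rw [this, mul_one]

lemma norm_formula (z : GaussianInt) : z.norm = z.re * z.re + z.im * z.im := by
  rw [Zsqrtd.norm_def]; ring

lemma norm_star (z : GaussianInt) : (star z).norm = z.norm := by
  rw [norm_formula, norm_formula]; simp

/-- A split prime is not associated to its conjugate. -/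
lemma not_assoc_star {z : GaussianInt} (h : z.norm.natAbs.Prime) (h4 : z.norm.natAbs % 4 = 1) :
    ¬ Associated z (star z) := by
  intro hass
  have hd : z ∣ star z := hass.dvd
  have hd2 : z ∣ z + star z := dvd_add dvd_rfl hd
  have e : z + star z = ((2 * z.re : ℤ) : GaussianInt) := by
    ext
    · simp; ring
    · simp
  rw [e] at hd2
  obtain ⟨c, hc⟩ := hd2
  have hn : (2 * z.re) * (2 * z.re) = z.norm * c.norm := by
    rw [← Zsqrtd.norm_mul, ← hc, norm_formula]
    simp
  set p := z.norm.natAbs with hp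
  have hpz : z.norm = (p : ℤ) := by
    have := GaussianInt.norm_nonneg z
    omega
  have hdvd : (p : ℤ) ∣ (2 * z.re) * (2 * z.re) := ⟨c.norm, by rw [hn, hpz]⟩
  have hpi : Prime (p : ℤ) := Nat.prime_iff_prime_int.1 h
  have h2 : (p : ℤ) ∣ 2 * z.re := by
    rcases hpi.dvd_or_dvd hdvd with h | h <;> exact h
  have h3 : (p : ℤ) ∣ z.re := by
    rcases hpi.dvd_or_dvd h2 with h5 | h5
    · exfalso
      have h' : p ∣ 2 := by exact_mod_cast h5
      have h6 := Nat.le_of_dvd (by norm_num) h'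
      have h7 := h.two_le
      omega
    · exact h5
  have hsum := norm_formula z
  rw [hpz] at hsum
  have hp2 : 2 ≤ p := h.two_le
  rcases eq_or_ne z.re 0 with hre | hre
  · rw [hre] at hsum
    simp only [mul_zero, zero_add] at hsum
    have : p = z.im.natAbs * z.im.natAbs := by
      zify
      rw [abs_mul_abs_self]
      exact hsum
    rw [this] at h
    rcases Nat.prime_mul_iff.1 h with h8 | h8
    · rw [h8.2] at h8; exact Nat.not_prime_one h8.1
    · rw [h8.2] at h8; exact Nat.not_prime_one h8.1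
  · obtain ⟨m, hm⟩ := h3
    have hm0 : m ≠ 0 := by rintro rfl; apply hre; rw [hm, mul_zero]
    have h5 : (p : ℤ) * p ≤ z.re * z.re := by
      rw [hm]
      have : 1 ≤ m * m := by
        have := mul_self_pos.2 hm0
        omega
      nlinarith [mul_self_nonneg (p : ℤ)]
    have h6 : (0 : ℤ) ≤ z.im * z.im := mul_self_nonneg _
    have h7 : (2 : ℤ) ≤ p := by exact_mod_cast hp2
    nlinarith

lemma exists_gauss (p : ℕ) (hp : p.Prime) (h4 : p % 4 = 1) :
    ∃ z : GaussianInt, z.norm = p := by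
  have := Fact.mk hp
  obtain ⟨a, b, hab⟩ := Nat.Prime.sq_add_sq (p := p) (by omega)
  refine ⟨⟨a, b⟩, ?_⟩
  rw [norm_formula]
  rw [← hab]
  push_cast
  ring

/-- **Prime supply in `ℤ[i]`.** -/
theorem prime_supply : ∃ (K : ℕ) (c : ℝ), 0 < c ∧ 4 ≤ K ∧ ∀ x : ℝ, 2 ≤ x →
    ∃ w : ℕ, x ≤ w ∧ 4 * (w : ℝ) ≤ K * x ∧ ∃ G : Finset GaussianInt,
      (∀ p ∈ G, Prime p) ∧
      (∀ p ∈ G, (w : ℤ) < p.norm ∧ p.norm ≤ 4 * (w : ℤ)) ∧
      (∀ p ∈ G, Nat.Prime p.norm.natAbs ∧ p.norm.natAbs % 4 = 1) ∧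
      (∀ p ∈ G, ∀ q ∈ G, p.norm = q.norm → p = q) ∧
      (∀ p ∈ G, ∀ q ∈ G, Associated p q → p = q) ∧
      (∀ p ∈ G, ∀ q ∈ G, ¬ Associated p (star q)) ∧
      c * w / Real.log w ≤ G.card := by
  obtain ⟨J, M₀, c, hc, hM₀, hsup⟩ := prime_supply_nat
  refine ⟨4 ^ (J + 1) * (2 + M₀), c, hc, ?_, ?_⟩
  · have h1 : 4 ^ 1 ≤ 4 ^ (J + 1) := Nat.pow_le_pow_right (by norm_num) (by omega)
    nlinarith
  intro x hx
  set M : ℕ := ⌈x⌉₊ + M₀ with hM
  obtain ⟨j, hj, hcard⟩ := hsup M (by omega)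
  have hxM : x ≤ M := by
    have := Nat.le_ceil x
    rw [hM]; push_cast
    have h0 : (0 : ℝ) ≤ M₀ := by positivity
    linarith
  have hMx : (M : ℝ) ≤ (2 + M₀) * x := by
    have := (Nat.ceil_lt_add_one (show 0 ≤ x by linarith)).le
    rw [hM]; push_cast
    have h0 : (0 : ℝ) ≤ M₀ := by positivity
    nlinarith
  choose! g hg using fun (p : ℕ) (h : p.Prime ∧ p % 4 = 1) => exists_gauss p h.1 h.2
  have hmem : ∀ p ∈ PP (4 ^ j * M), (4 ^ j * M < p ∧ p ≤ 4 * (4 ^ j * M)) ∧
      p.Prime ∧ p % 4 = 1 := by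
    intro p hp
    rw [PP, mem_filter, mem_Ioc] at hp
    exact hp
  refine ⟨4 ^ j * M, ?_, ?_, (PP (4 ^ j * M)).image g, ?_, ?_, ?_, ?_, ?_, ?_, ?_⟩
  · refine hxM.trans ?_
    exact_mod_cast Nat.le_mul_of_pos_left _ (by positivity)
  · push_cast
    have h1 : (4 : ℝ) ^ j ≤ 4 ^ J := pow_le_pow_right₀ (by norm_num) hj.le
    calc 4 * ((4 : ℝ) ^ j * M) ≤ 4 * (4 ^ J * ((2 + M₀) * x)) := by gcongr
      _ = 4 ^ (J + 1) * (2 + M₀) * x := by ring
  · intro z hz
    obtain ⟨p, hp, rfl⟩ := mem_image.1 hz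
    have h1 := hmem p hp
    apply prime_of_norm_prime
    rw [hg p h1.2]
    simpa using h1.2.1
  · intro z hz
    obtain ⟨p, hp, rfl⟩ := mem_image.1 hz
    have h1 := hmem p hp
    rw [hg p h1.2]
    exact ⟨by exact_mod_cast h1.1.1, by exact_mod_cast h1.1.2⟩
  · intro z hz
    obtain ⟨p, hp, rfl⟩ := mem_image.1 hz
    have h1 := hmem p hp
    rw [hg p h1.2]
    simpa using h1.2
  · intro z hz w hw h
    obtain ⟨p, hp, rfl⟩ := mem_image.1 hz
    obtain ⟨q, hq, rfl⟩ := mem_image.1 hw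
    have h1 := hmem p hp
    have h2 := hmem q hq
    rw [hg p h1.2, hg q h2.2] at h
    have : p = q := by exact_mod_cast h
    rw [this]
  · intro z hz w hw hass
    have h := norm_eq_of_assoc hass
    obtain ⟨p, hp, rfl⟩ := mem_image.1 hz
    obtain ⟨q, hq, rfl⟩ := mem_image.1 hw
    have h1 := hmem p hp
    have h2 := hmem q hq
    rw [hg p h1.2, hg q h2.2] at h
    have : p = q := by exact_mod_cast h
    rw [this]
  · intro z hz w hw hass
    have h := norm_eq_of_assoc hass
    rw [norm_star] at h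
    obtain ⟨p, hp, rfl⟩ := mem_image.1 hz
    obtain ⟨q, hq, rfl⟩ := mem_image.1 hw
    have h1 := hmem p hp
    have h2 := hmem q hq
    rw [hg p h1.2, hg q h2.2] at h
    have hpq : p = q := by exact_mod_cast h
    rw [hpq] at hass
    refine not_assoc_star ?_ ?_ hass
    · rw [hg q h2.2]; simpa using h2.2.1
    · rw [hg q h2.2]; simpa using h2.2.2
  · rw [card_image_of_injOn]
    · exact_mod_cast hcard
    · intro p hp q hq h
      have h1 := hmem p hp
      have h2 := hmem q hq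
      have h3 : (g p).norm = (g q).norm := congrArg Zsqrtd.norm h
      rw [hg p h1.2, hg q h2.2] at h3
      exact_mod_cast h3

end

end Crest.Agent.R2.Z1
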