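import Mathlib

/-!
# R2 (Gaussian moat), block N1+N2 (helper640), part a: the information inequality

Finite, entropy-free form of (2.1)-(2.4) of post #11312.
-/

set_option autoImplicit false

namespace Crest.Agent.R2.N640

open Finset

section Info

variable {ζ A Γ σ : Type*} [DecidableEq A] [DecidableEq Γ]

/-- mass of the fibre of `a` over `α` -/
noncomputable def fm {A : Type*} [DecidableEq A] (Z : Finset ζ) (ν : ζ → ℝ) (a : ζ → A) (α : A) : ℝ :=
  ∑ z ∈ Z with a z = α, ν z

/-- Shannon entropy of `a` under `ν` (nats) -/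
noncomputable def Hn {A : Type*} [DecidableEq A] (Z : Finset ζ) (ν : ζ → ℝ) (a : ζ → A) : ℝ :=
  ∑ z ∈ Z, ν z * (- Real.log (fm Z ν a (a z)))

lemma fm_nonneg {Z : Finset ζ} {ν : ζ → ℝ} (hν : ∀ z ∈ Z, 0 ≤ ν z) (a : ζ → A) (α : A) :
    0 ≤ fm Z ν a α :=
  Finset.sum_nonneg (fun z hz => hν z (Finset.mem_filter.1 hz).1)

lemma le_fm {Z : Finset ζ} {ν : ζ → ℝ} (hν : ∀ z ∈ Z, 0 ≤ ν z) (a : ζ → A) {z : ζ} (hz : z ∈ Z) :
    ν z ≤ fm Z ν a (a z) :=
  Finset.single_le_sum (f := ν) (fun y hy => hν y (Finset.mem_filter.1 hy).1)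
    (Finset.mem_filter.2 ⟨hz, rfl⟩)

/-- product weights -/
lemma sum_piFinset_prod (S : Finset σ) (f : σ → ℝ) (q : ℕ) :
    ∑ W ∈ Fintype.piFinset (fun _ : Fin q => S), ∏ i, f (W i) = (∑ s ∈ S, f s) ^ q := by
  rw [Finset.sum_pow']

/-- one marginal of the product weights -/
lemma sum_piFinset_marg (S : Finset σ) (p f : σ → ℝ) (q : ℕ) (j : Fin q)
    (hp : ∑ s ∈ S, p s = 1) :
    ∑ W ∈ Fintype.piFinset (fun _ : Fin q => S), (∏ i, p (W i)) * f (W j)
      = ∑ s ∈ S, p s * f s := by
  classical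
  have h := Finset.prod_univ_sum (fun _ : Fin q => S)
    (fun i s => if i = j then p s * f s else p s)
  have h1 : ∀ W : Fin q → σ, (∏ i, if i = j then p (W i) * f (W i) else p (W i))
      = (∏ i, p (W i)) * f (W j) := by
    intro W
    have : ∀ i, (if i = j then p (W i) * f (W i) else p (W i))
        = p (W i) * (if i = j then f (W i) else 1) := by
      intro i; split_ifs <;> simp
    simp_rw [this]
    rw [Finset.prod_mul_distrib]
    congr 1
    rw [Finset.prod_ite_eq' Finset.univ j (fun i => f (W i))]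
    simp
  rw [Finset.sum_congr rfl (fun W _ => (h1 W).symm), ← h]
  have h2 : ∀ i : Fin q, ∑ s ∈ S, (if i = j then p s * f s else p s)
      = if i = j then ∑ s ∈ S, p s * f s else 1 := by
    intro i
    split_ifs
    · rfl
    · exact hp
  rw [Finset.prod_congr rfl (fun i _ => h2 i), Finset.prod_ite_eq' Finset.univ j]
  simp

/-- **Information inequality** (finite form of `H(g) ≤ H(a) + H(W|a) - H(W|z) + H(g|W)`). -/
theorem info_ineq (Z : Finset ζ) (ν : ζ → ℝ) (hν : ∀ z ∈ Z, 0 ≤ ν z) (hν1 : ∑ z ∈ Z, ν z = 1)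
    (a : ζ → A) (g : ζ → Γ) (S : Finset σ) (p : ζ → σ → ℝ)
    (hp : ∀ z ∈ Z, ∀ s ∈ S, 0 ≤ p z s) (hp1 : ∀ z ∈ Z, ∑ s ∈ S, p z s = 1)
    (r : A → σ → ℝ) (hr : ∀ α, ∀ s ∈ S, 0 ≤ r α s) (hr1 : ∀ α, ∑ s ∈ S, r α s ≤ 1)
    (hpr : ∀ z ∈ Z, ∀ s ∈ S, 0 < p z s → 0 < r (a z) s) (q : ℕ)
    (ms : (Fin q → σ) → Finset Γ)
    (hms : ∀ z ∈ Z, ∀ W ∈ Fintype.piFinset (fun _ : Fin q => S),
      (∀ i, 0 < p z (W i)) → g z ∈ ms W) :
    Hn Z ν g ≤ Hn Z ν a
      + q * ∑ z ∈ Z, ν z * ∑ s ∈ S, p z s * (Real.log (p z s) - Real.log (r (a z) s))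
      + ∑ z ∈ Z, ν z * ∑ W ∈ Fintype.piFinset (fun _ : Fin q => S),
          (∏ i, p z (W i)) * Real.log ((ms W).card) := by
  classical
  set PW := Fintype.piFinset (fun _ : Fin q => S) with hPW
  have hWmem : ∀ W ∈ PW, ∀ i, W i ∈ S := fun W hW i => Fintype.mem_piFinset.1 hW i
  -- the comparison function
  let Y : ζ → (Fin q → σ) → ℝ := fun z W =>
    if g z ∈ ms W then
      ν z / fm Z ν g (g z) * (fm Z ν a (a z) * ∏ i, r (a z) (W i)) / ((ms W).card : ℝ) else 0
  have hsum1 : ∀ z ∈ Z, ∑ W ∈ PW, ∏ i, p z (W i) = 1 := by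
    intro z hz
    rw [hPW, sum_piFinset_prod, hp1 z hz, one_pow]
  -- pointwise inequality
  have hpt : ∀ z ∈ Z, ∀ W ∈ PW,
      ν z * (∏ i, p z (W i)) * (Real.log (fm Z ν a (a z))
        + ∑ i, (Real.log (r (a z) (W i)) - Real.log (p z (W i)))
        - Real.log (fm Z ν g (g z)) - Real.log ((ms W).card))
      ≤ Y z W - ν z * (∏ i, p z (W i)) := by
    intro z hz W hW
    have hYnn : 0 ≤ Y z W := by
      simp only [Y]
      split_ifs
      · have := fm_nonneg hν g (g z)
        have h2 := fm_nonneg hν a (a z)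
        have h3 : 0 ≤ ∏ i, r (a z) (W i) := Finset.prod_nonneg (fun i _ => hr _ _ (hWmem W hW i))
        have h4 := hν z hz
        positivity
      · exact le_refl _
    by_cases h0 : ν z * (∏ i, p z (W i)) = 0
    · rw [h0]; simpa using hYnn
    have hνpos : 0 < ν z := lt_of_le_of_ne (hν z hz) (fun h => h0 (by rw [← h]; ring))
    have hprodne : (∏ i, p z (W i)) ≠ 0 := fun h => h0 (by rw [h]; ring)
    have hppos : ∀ i, 0 < p z (W i) := by
      intro i
      refine lt_of_le_of_ne (hp z hz _ (hWmem W hW i)) (fun h => hprodne ?_)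
      exact Finset.prod_eq_zero (Finset.mem_univ i) h.symm
    have hrpos : ∀ i, 0 < r (a z) (W i) := fun i => hpr z hz _ (hWmem W hW i) (hppos i)
    have hgm : g z ∈ ms W := hms z hz W hW hppos
    have hcard : (0:ℝ) < (ms W).card := by
      have : 0 < (ms W).card := Finset.card_pos.2 ⟨_, hgm⟩
      exact_mod_cast this
    have hfa : 0 < fm Z ν a (a z) := lt_of_lt_of_le hνpos (le_fm hν a hz)
    have hfg : 0 < fm Z ν g (g z) := lt_of_lt_of_le hνpos (le_fm hν g hz)
    have hprodp : 0 < ∏ i, p z (W i) := Finset.prod_pos (fun i _ => hppos i)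
    have hprodr : 0 < ∏ i, r (a z) (W i) := Finset.prod_pos (fun i _ => hrpos i)
    have hYv : Y z W = ν z * (∏ i, p z (W i)) *
        (fm Z ν a (a z) * (∏ i, r (a z) (W i)) / ((∏ i, p z (W i)) * fm Z ν g (g z) * (ms W).card)) := by
      simp only [Y, if_pos hgm]
      field_simp
    set X := fm Z ν a (a z) * (∏ i, r (a z) (W i)) /
      ((∏ i, p z (W i)) * fm Z ν g (g z) * (ms W).card) with hX
    have hXpos : 0 < X := by positivity
    have hlog : Real.log X = Real.log (fm Z ν a (a z))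
        + ∑ i, (Real.log (r (a z) (W i)) - Real.log (p z (W i)))
        - Real.log (fm Z ν g (g z)) - Real.log ((ms W).card) := by
      rw [hX, Real.log_div (by positivity) (by positivity),
        Real.log_mul hfa.ne' hprodr.ne', Real.log_mul (by positivity) hcard.ne',
        Real.log_mul hprodp.ne' hfg.ne', Real.log_prod (fun i _ => (hppos i).ne'),
        Real.log_prod (fun i _ => (hrpos i).ne'), Finset.sum_sub_distrib]
      ring
    rw [← hlog, hYv]
    have := Real.log_le_sub_one_of_pos hXpos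
    have hw : 0 ≤ ν z * (∏ i, p z (W i)) := by positivity
    nlinarith [mul_le_mul_of_nonneg_left this hw]
  -- total of Y
  have hYsum : ∑ z ∈ Z, ∑ W ∈ PW, Y z W ≤ 1 := by
    rw [Finset.sum_comm]
    -- for fixed W
    have hW1 : ∀ W ∈ PW, ∑ z ∈ Z, Y z W ≤ ∑ α ∈ Z.image a, fm Z ν a α * ∏ i, r α (W i) := by
      intro W hW
      have hΨ : ∀ α, 0 ≤ fm Z ν a α * ∏ i, r α (W i) := fun α =>
        mul_nonneg (fm_nonneg hν a α) (Finset.prod_nonneg (fun i _ => hr _ _ (hWmem W hW i)))
      set T := ∑ α ∈ Z.image a, fm Z ν a α * ∏ i, r α (W i) with hT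
      have hT0 : 0 ≤ T := Finset.sum_nonneg (fun α _ => hΨ α)
      have hle : ∀ z ∈ Z, Y z W ≤ if g z ∈ ms W then ν z / fm Z ν g (g z) * T / ((ms W).card : ℝ) else 0 := by
        intro z hz
        simp only [Y]
        split_ifs with h
        · have h1 : fm Z ν a (a z) * ∏ i, r (a z) (W i) ≤ T :=
            Finset.single_le_sum (f := fun α => fm Z ν a α * ∏ i, r α (W i)) (fun α _ => hΨ α)
              (Finset.mem_image_of_mem a hz)
          have h2 : 0 ≤ ν z / fm Z ν g (g z) := div_nonneg (hν z hz) (fm_nonneg hν g _)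
          gcongr
        · exact le_refl _
      refine (Finset.sum_le_sum hle).trans ?_
      rw [← Finset.sum_filter]
      -- group by g
      have hg : ∑ z ∈ Z with g z ∈ ms W, ν z / fm Z ν g (g z) * T / ((ms W).card : ℝ)
          = ∑ γ ∈ ms W, ∑ z ∈ Z with g z = γ, ν z / fm Z ν g (g z) * T / ((ms W).card : ℝ) := by
        rw [Finset.sum_filter]
        have : ∀ z ∈ Z, (if g z ∈ ms W then ν z / fm Z ν g (g z) * T / ((ms W).card : ℝ) else 0)
            = ∑ γ ∈ ms W, if g z = γ then ν z / fm Z ν g (g z) * T / ((ms W).card : ℝ) else 0 := by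
          intro z _
          rw [Finset.sum_ite_eq]
        rw [Finset.sum_congr rfl this, Finset.sum_comm]
        refine Finset.sum_congr rfl (fun γ _ => ?_)
        rw [Finset.sum_filter]
      rw [hg]
      by_cases hm : (ms W).card = 0
      · rw [Finset.card_eq_zero] at hm
        rw [hm]; simpa using hT0
      have hmpos : (0:ℝ) < (ms W).card := by exact_mod_cast Nat.pos_of_ne_zero hm
      have hin : ∀ γ ∈ ms W, ∑ z ∈ Z with g z = γ, ν z / fm Z ν g (g z) * T / ((ms W).card : ℝ)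
          ≤ T / (ms W).card := by
        intro γ _
        have : ∀ z ∈ Z.filter (fun z => g z = γ), ν z / fm Z ν g (g z) * T / ((ms W).card : ℝ)
            = ν z * (T / (ms W).card / fm Z ν g γ) := by
          intro z hz
          rw [(Finset.mem_filter.1 hz).2]
          ring
        rw [Finset.sum_congr rfl this, ← Finset.sum_mul]
        change fm Z ν g γ * _ ≤ _
        by_cases h0 : fm Z ν g γ = 0
        · rw [h0]; simp; positivity
        · rw [mul_div_cancel₀ _ h0]
      refine (Finset.sum_le_sum hin).trans ?_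
      rw [Finset.sum_const, nsmul_eq_mul]
      rw [mul_div_cancel₀ _ hmpos.ne']
    refine (Finset.sum_le_sum hW1).trans ?_
    rw [Finset.sum_comm]
    have h3 : ∀ α ∈ Z.image a, ∑ W ∈ PW, fm Z ν a α * ∏ i, r α (W i) ≤ fm Z ν a α := by
      intro α _
      rw [← Finset.mul_sum, hPW, sum_piFinset_prod]
      have h4 : (∑ s ∈ S, r α s) ^ q ≤ 1 :=
        pow_le_one₀ (Finset.sum_nonneg (fun s hs => hr α s hs)) (hr1 α)
      calc _ ≤ fm Z ν a α * 1 := mul_le_mul_of_nonneg_left h4 (fm_nonneg hν a α)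
        _ = _ := mul_one _
    refine (Finset.sum_le_sum h3).trans ?_
    unfold fm
    rw [Finset.sum_image' (s := Z) (g := a) ν (fun z _ => rfl)]
    exact hν1.le
  -- sum up
  have hmain : ∑ z ∈ Z, ∑ W ∈ PW, ν z * (∏ i, p z (W i)) * (Real.log (fm Z ν a (a z))
        + ∑ i, (Real.log (r (a z) (W i)) - Real.log (p z (W i)))
        - Real.log (fm Z ν g (g z)) - Real.log ((ms W).card)) ≤ 0 := by
    have h5 := Finset.sum_le_sum (fun z hz => Finset.sum_le_sum (fun W hW => hpt z hz W hW))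
    refine h5.trans ?_
    simp_rw [Finset.sum_sub_distrib]
    have h6 : ∑ z ∈ Z, ∑ W ∈ PW, ν z * (∏ i, p z (W i)) = 1 := by
      have : ∀ z ∈ Z, ∑ W ∈ PW, ν z * (∏ i, p z (W i)) = ν z := by
        intro z hz
        rw [← Finset.mul_sum, hsum1 z hz, mul_one]
      rw [Finset.sum_congr rfl this, hν1]
    linarith [h6, hYsum]
  -- evaluate the left side
  have heval : ∀ z ∈ Z, ∑ W ∈ PW, ν z * (∏ i, p z (W i)) * (Real.log (fm Z ν a (a z))
        + ∑ i, (Real.log (r (a z) (W i)) - Real.log (p z (W i)))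
        - Real.log (fm Z ν g (g z)) - Real.log ((ms W).card))
      = ν z * (-Real.log (fm Z ν g (g z))) - ν z * (-Real.log (fm Z ν a (a z)))
        - q * (ν z * ∑ s ∈ S, p z s * (Real.log (p z s) - Real.log (r (a z) s)))
        - ν z * ∑ W ∈ PW, (∏ i, p z (W i)) * Real.log ((ms W).card) := by
    intro z hz
    have e1 : ∑ W ∈ PW, (∏ i, p z (W i)) *
        ∑ i, (Real.log (r (a z) (W i)) - Real.log (p z (W i)))
        = q * ∑ s ∈ S, p z s * (Real.log (r (a z) s) - Real.log (p z s)) := by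
      simp_rw [Finset.mul_sum]
      rw [Finset.sum_comm]
      have : ∀ j : Fin q, ∑ W ∈ PW, (∏ i, p z (W i)) *
          (Real.log (r (a z) (W j)) - Real.log (p z (W j)))
          = ∑ s ∈ S, p z s * (Real.log (r (a z) s) - Real.log (p z s)) := fun j =>
        sum_piFinset_marg S (p z) (fun s => Real.log (r (a z) s) - Real.log (p z s)) q j (hp1 z hz)
      rw [Finset.sum_congr rfl (fun j _ => this j)]
      simp [Finset.mul_sum]
    have e2 : ∑ s ∈ S, p z s * (Real.log (r (a z) s) - Real.log (p z s))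
        = - ∑ s ∈ S, p z s * (Real.log (p z s) - Real.log (r (a z) s)) := by
      rw [← Finset.sum_neg_distrib]
      exact Finset.sum_congr rfl (fun s _ => by ring)
    have e3 : ∀ W ∈ PW, ν z * (∏ i, p z (W i)) * (Real.log (fm Z ν a (a z))
        + ∑ i, (Real.log (r (a z) (W i)) - Real.log (p z (W i)))
        - Real.log (fm Z ν g (g z)) - Real.log ((ms W).card))
        = ν z * (Real.log (fm Z ν a (a z)) - Real.log (fm Z ν g (g z))) * (∏ i, p z (W i))
          + ν z * ((∏ i, p z (W i)) * ∑ i, (Real.log (r (a z) (W i)) - Real.log (p z (W i))))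
          - ν z * ((∏ i, p z (W i)) * Real.log ((ms W).card)) := by
      intro W _; ring
    rw [Finset.sum_congr rfl e3, Finset.sum_sub_distrib, Finset.sum_add_distrib,
      ← Finset.mul_sum, ← Finset.mul_sum, ← Finset.mul_sum, hsum1 z hz, e1, e2]
    ring
  rw [Finset.sum_congr rfl heval] at hmain
  simp only [Finset.sum_sub_distrib, ← Finset.mul_sum] at hmain
  unfold Hn
  linarith [hmain]

end Info

end Crest.Agent.R2.N640
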