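import Crest.Agent.R2.NoDrop640a

/-!
# R2 (Gaussian moat), block N1+N2 (helper640), part b: residues modulo split primes
-/

set_option autoImplicit false

namespace Crest.Agent.R2.N640

open Finset

/-- `π` has norm a rational prime -/
def Split (π : GaussianInt) : Prop := Nat.Prime π.norm.natAbs

/-- the norm as a natural number -/
def Nn (π : GaussianInt) : ℕ := π.norm.natAbs

lemma norm_nonneg' (z : GaussianInt) : 0 ≤ z.norm := by
  simp only [Zsqrtd.norm_def]
  nlinarith [mul_self_nonneg z.re, mul_self_nonneg z.im]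

lemma Nn_cast (π : GaussianInt) : ((Nn π : ℕ) : ℤ) = π.norm :=
  Int.natAbs_of_nonneg (norm_nonneg' π)

lemma dvd_Nn (π : GaussianInt) : π ∣ ((Nn π : ℕ) : GaussianInt) := by
  refine ⟨star π, ?_⟩
  have h := Zsqrtd.norm_eq_mul_conj π
  rw [← h]
  have := Nn_cast π
  push_cast [← this]
  rfl

/-- residues are represented by natural numbers below the norm -/
lemma exists_nat_residue {π : GaussianInt} (hπ : Split π) (z : GaussianInt) :
    ∃ n : ℕ, n < Nn π ∧ π ∣ z - (n : GaussianInt) := by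
  have hp : Nat.Prime (Nn π) := hπ
  have hN : ((Nn π : ℕ) : ℤ) = π.re * π.re + π.im * π.im := by
    rw [Nn_cast, Zsqrtd.norm_def]; ring
  -- im is coprime to p
  have hcop : IsCoprime (π.im) ((Nn π : ℕ) : ℤ) := by
    rw [Int.isCoprime_iff_gcd_eq_one]
    by_contra hg
    have hdvd : ((Nn π : ℕ) : ℤ) ∣ π.im := by
      have h1 : (Int.gcd π.im (Nn π)) ∣ Nn π := by
        have := Int.gcd_dvd_right (a := π.im) (b := ((Nn π : ℕ) : ℤ))
        exact_mod_cast this
      rcases (Nat.dvd_prime hp).1 h1 with h | h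
      · exact absurd h hg
      · have := Int.gcd_dvd_left (a := π.im) (b := ((Nn π : ℕ) : ℤ))
        rwa [h] at this
    have hpZ : Prime ((Nn π : ℕ) : ℤ) := Nat.prime_iff_prime_int.1 hp
    have hre : ((Nn π : ℕ) : ℤ) ∣ π.re := by
      have : ((Nn π : ℕ) : ℤ) ∣ π.re * π.re := by
        have h2 : π.re * π.re = ((Nn π : ℕ) : ℤ) - π.im * π.im := by rw [hN]; ring
        rw [h2]
        exact dvd_sub (dvd_refl _) (Dvd.dvd.mul_left hdvd _)
      rcases hpZ.dvd_or_dvd this with h | h <;> exact h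
    obtain ⟨a, ha⟩ := hre
    obtain ⟨b, hb⟩ := hdvd
    have hpos : (0:ℤ) < ((Nn π : ℕ) : ℤ) := by exact_mod_cast hp.pos
    have h3 : ((Nn π : ℕ) : ℤ) * (a*a + b*b) = 1 := by
      have h4 : ((Nn π : ℕ) : ℤ) = (((Nn π : ℕ) : ℤ) * (a*a+b*b)) * ((Nn π : ℕ) : ℤ) := by
        calc ((Nn π : ℕ) : ℤ) = π.re * π.re + π.im * π.im := hN
          _ = _ := by rw [ha, hb]; ring
      have h5 : (((Nn π : ℕ) : ℤ) * (a*a+b*b) - 1) * ((Nn π : ℕ) : ℤ) = 0 := by linarith
      rcases mul_eq_zero.1 h5 with h | h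
      · linarith
      · exact absurd h hpos.ne'
    have h6 : ((Nn π : ℕ) : ℤ) ∣ 1 := ⟨_, h3.symm⟩
    have h7 : Nn π ∣ 1 := by exact_mod_cast h6
    exact hp.one_lt.ne' (Nat.dvd_one.1 h7)
  obtain ⟨u, v, huv⟩ := hcop
  -- u * im + v * p = 1;  i ≡ - u * re
  set t : ℤ := - u * π.re with ht
  set s : ℤ := z.re + z.im * t with hs
  have hpne : ((Nn π : ℕ) : ℤ) ≠ 0 := by exact_mod_cast hp.ne_zero
  have hmod := Int.emod_nonneg s hpne
  have hlt := Int.emod_lt_of_pos s (by exact_mod_cast hp.pos : (0:ℤ) < ((Nn π : ℕ) : ℤ))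
  refine ⟨(s % (Nn π : ℤ)).toNat, ?_, ?_⟩
  · have : ((s % (Nn π : ℤ)).toNat : ℤ) < (Nn π : ℤ) := by rw [Int.toNat_of_nonneg hmod]; exact hlt
    exact_mod_cast this
  · have hcast : (((s % (Nn π : ℤ)).toNat : ℕ) : GaussianInt) = ((s % (Nn π : ℤ) : ℤ) : GaussianInt) := by
      have h0 : (((s % (Nn π : ℤ)).toNat : ℕ) : ℤ) = s % (Nn π : ℤ) := Int.toNat_of_nonneg hmod
      calc (((s % (Nn π : ℤ)).toNat : ℕ) : GaussianInt)
          = ((((s % (Nn π : ℤ)).toNat : ℕ) : ℤ) : GaussianInt) := by rw [Int.cast_natCast]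
        _ = _ := by rw [h0]
    rw [hcast]
    have h1 : ((s % (Nn π : ℤ) : ℤ) : GaussianInt)
        = (s : GaussianInt) - ((Nn π : ℕ) : GaussianInt) * ((s / (Nn π : ℤ) : ℤ) : GaussianInt) := by
      have := Int.emod_add_mul_ediv s (Nn π : ℤ)
      have h2 : s % (Nn π : ℤ) = s - (Nn π : ℤ) * (s / (Nn π : ℤ)) := by linarith
      rw [h2]; push_cast; ring
    rw [h1]
    have h3 : z - ((s : GaussianInt) - ((Nn π : ℕ) : GaussianInt) * ((s / (Nn π : ℤ) : ℤ) : GaussianInt))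
        = (z - (s : GaussianInt)) + ((Nn π : ℕ) : GaussianInt) * ((s / (Nn π : ℤ) : ℤ) : GaussianInt) := by
      ring
    rw [h3]
    refine dvd_add ?_ (Dvd.dvd.mul_right (dvd_Nn π) _)
    -- z - s = im * (i - t),   i - t = u π + v p i
    have h4 : z - (s : GaussianInt) = ((z.im * u : ℤ) : GaussianInt) * π
        + ((Nn π : ℕ) : GaussianInt) * (⟨0, z.im * v⟩ : GaussianInt) := by
      have hN' : (((Nn π : ℕ) : GaussianInt)) = ((Nn π : ℤ) : GaussianInt) := by simp
      rw [hN']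
      ext
      · simp [hs, ht]
        ring
      · simp
        linear_combination (-z.im) * huv
    rw [h4]
    exact dvd_add (Dvd.intro_left _ rfl) (Dvd.dvd.mul_right (dvd_Nn π) _)

lemma nat_residue_unique {π : GaussianInt} (hπ : Split π) {n m : ℕ} (hn : n < Nn π) (hm : m < Nn π)
    (h : π ∣ (n : GaussianInt) - (m : GaussianInt)) : n = m := by
  have hp : Nat.Prime (Nn π) := hπ
  obtain ⟨c, hc⟩ := h
  have h1 : ((n : GaussianInt) - (m : GaussianInt)).norm = π.norm * c.norm := by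
    rw [hc, Zsqrtd.norm_mul]
  have h2 : ((n : GaussianInt) - (m : GaussianInt)).norm = ((n : ℤ) - m) * ((n : ℤ) - m) := by
    rw [Zsqrtd.norm_def]
    simp
  have hpZ : Prime ((Nn π : ℕ) : ℤ) := Nat.prime_iff_prime_int.1 hp
  have h3 : ((Nn π : ℕ) : ℤ) ∣ ((n : ℤ) - m) * ((n : ℤ) - m) := by
    rw [← h2, h1, ← Nn_cast]; exact dvd_mul_right _ _
  have h4 : ((Nn π : ℕ) : ℤ) ∣ ((n : ℤ) - m) := by
    rcases hpZ.dvd_or_dvd h3 with h | h <;> exact h
  have h5 : (n : ℤ) ≡ m [ZMOD (Nn π : ℤ)] := Int.ModEq.symm ((Int.modEq_iff_dvd).2 h4)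
  have h6 : n ≡ m [MOD (Nn π)] := Int.natCast_modEq_iff.1 h5
  exact Nat.ModEq.eq_of_lt_of_lt h6 hn hm

/-- canonical residue of `z` modulo `π` -/
noncomputable def cl (π z : GaussianInt) : ℕ :=
  open Classical in if h : ∃ n : ℕ, n < Nn π ∧ π ∣ z - (n : GaussianInt) then h.choose else 0

lemma cl_lt {π : GaussianInt} (hπ : Split π) (z : GaussianInt) : cl π z < Nn π := by
  have h := exists_nat_residue hπ z
  unfold cl
  rw [dif_pos h]
  exact h.choose_spec.1

lemma dvd_sub_cl {π : GaussianInt} (hπ : Split π) (z : GaussianInt) :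
    π ∣ z - (cl π z : GaussianInt) := by
  have h := exists_nat_residue hπ z
  unfold cl
  rw [dif_pos h]
  exact h.choose_spec.2

lemma cl_eq_iff {π : GaussianInt} (hπ : Split π) (z z' : GaussianInt) :
    cl π z = cl π z' ↔ π ∣ z - z' := by
  constructor
  · intro h
    have h1 := dvd_sub_cl hπ z
    have h2 := dvd_sub_cl hπ z'
    rw [← h] at h2
    have := dvd_sub h1 h2
    simpa using this
  · intro h
    refine nat_residue_unique hπ (cl_lt hπ z) (cl_lt hπ z') ?_
    have h1 := dvd_sub_cl hπ z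
    have h2 := dvd_sub_cl hπ z'
    have : (cl π z : GaussianInt) - (cl π z' : GaussianInt)
        = (z - z') - (z - cl π z) + (z' - cl π z') := by ring
    rw [this]
    exact dvd_add (dvd_sub h h1) h2

lemma cl_natCast {π : GaussianInt} (hπ : Split π) {n : ℕ} (hn : n < Nn π) :
    cl π (n : GaussianInt) = n := by
  have h1 := dvd_sub_cl hπ (n : GaussianInt)
  exact (nat_residue_unique hπ hn (cl_lt hπ _) h1).symm

end Crest.Agent.R2.N640
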