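import Crest.Agent.R2.NoDrop640b

/-!
# R2 (Gaussian moat), block N1+N2 (helper640), part c: one scale
-/

set_option autoImplicit false

namespace Crest.Agent.R2.N640

open Finset

section Rel

/-- relation form of the information inequality: the reference weights `r` only depend on the
class of `z` -/
theorem info_ineq_rel {ζ A Γ σ : Type*} [DecidableEq A] [DecidableEq Γ]
    (Z : Finset ζ) (ν : ζ → ℝ) (hν : ∀ z ∈ Z, 0 ≤ ν z) (hν1 : ∑ z ∈ Z, ν z = 1)
    (a : ζ → A) (g : ζ → Γ) (S : Finset σ) (p : ζ → σ → ℝ)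
    (hp : ∀ z ∈ Z, ∀ s ∈ S, 0 ≤ p z s) (hp1 : ∀ z ∈ Z, ∑ s ∈ S, p z s = 1)
    (r : ζ → σ → ℝ) (hr : ∀ z, ∀ s ∈ S, 0 ≤ r z s) (hr1 : ∀ z, ∑ s ∈ S, r z s ≤ 1)
    (hcl : ∀ z z', a z = a z' → r z = r z')
    (hpr : ∀ z ∈ Z, ∀ s ∈ S, 0 < p z s → 0 < r z s) (q : ℕ)
    (ms : (Fin q → σ) → Finset Γ)
    (hms : ∀ z ∈ Z, ∀ W ∈ Fintype.piFinset (fun _ : Fin q => S),
      (∀ i, 0 < p z (W i)) → g z ∈ ms W) :
    Hn Z ν g ≤ Hn Z ν a
      + q * ∑ z ∈ Z, ν z * ∑ s ∈ S, p z s * (Real.log (p z s) - Real.log (r z s))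
      + ∑ z ∈ Z, ν z * ∑ W ∈ Fintype.piFinset (fun _ : Fin q => S),
          (∏ i, p z (W i)) * Real.log ((ms W).card) := by
  classical
  set r' : A → σ → ℝ := fun α s => if h : ∃ z, a z = α then r h.choose s else 0 with hr'
  have key : ∀ z, r' (a z) = r z := by
    intro z
    have h : ∃ z', a z' = a z := ⟨z, rfl⟩
    funext s
    simp only [hr', dif_pos h]
    rw [hcl _ _ h.choose_spec]
  have := info_ineq Z ν hν hν1 a g S p hp hp1 r'
    (fun α s hs => by
      simp only [hr']; split_ifs with h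
      · exact hr _ _ hs
      · exact le_refl _)
    (fun α => by
      simp only [hr']
      by_cases h : ∃ z, a z = α
      · simp only [dif_pos h]; exact hr1 _
      · simp only [dif_neg h]; simp)
    (fun z hz s hs h => by rw [key]; exact hpr z hz s hs h) q ms hms
  simpa only [key] using this

end Rel

variable {ζ : Type*}

/-- mass of the states congruent to `z ω` modulo every `π ∈ Q` -/
noncomputable def cm (Z : Finset ζ) (ν : ζ → ℝ) (z : ζ → GaussianInt) (Q : Finset GaussianInt)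
    (ω : ζ) : ℝ :=
  open Classical in ∑ ω' ∈ Z with (∀ π ∈ Q, π ∣ z ω' - z ω), ν ω'

/-- entropy (nats) of the residue of `z` modulo `∏ Q` under `ν` -/
noncomputable def HQ (Z : Finset ζ) (ν : ζ → ℝ) (z : ζ → GaussianInt) (Q : Finset GaussianInt) : ℝ :=
  ∑ ω ∈ Z, ν ω * (- Real.log (cm Z ν z Q ω))

/-- the vector of residues modulo the elements of `Q` -/
noncomputable def resQ (Q : Finset GaussianInt) (z : GaussianInt) : {π // π ∈ Q} → ℕ :=
  fun π => cl π.1 z

lemma resQ_eq_iff {Q : Finset GaussianInt} (hQ : ∀ π ∈ Q, Split π) (z z' : GaussianInt) :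
    resQ Q z = resQ Q z' ↔ ∀ π ∈ Q, π ∣ z - z' := by
  constructor
  · intro h π hπ
    have := congrFun h ⟨π, hπ⟩
    exact (cl_eq_iff (hQ π hπ) z z').1 this
  · intro h
    funext π
    exact (cl_eq_iff (hQ π.1 π.2) z z').2 (h π.1 π.2)

lemma Hn_resQ (Z : Finset ζ) (ν : ζ → ℝ) (z : ζ → GaussianInt) {Q : Finset GaussianInt}
    (hQ : ∀ π ∈ Q, Split π) : Hn Z ν (fun ω => resQ Q (z ω)) = HQ Z ν z Q := by
  classical
  unfold Hn HQ fm cm
  refine Finset.sum_congr rfl (fun ω _ => ?_)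
  congr 3
  refine Finset.sum_congr ?_ (fun _ _ => rfl)
  ext ω'
  simp only [Finset.mem_filter]
  rw [resQ_eq_iff hQ]

variable {l : ℕ}

/-- clusters (`l`-point strings of displacements) which, started at `x`, avoid all multiples of
the elements of `Q` -/
noncomputable def pth (Ω : Finset (Fin l → GaussianInt)) (Q : Finset GaussianInt)
    (x : GaussianInt) : Finset (Fin l → GaussianInt) :=
  open Classical in Ω.filter (fun om => ∀ π ∈ Q, ∀ j, ¬ π ∣ x + om j)

lemma mem_pth {Ω : Finset (Fin l → GaussianInt)} {Q : Finset GaussianInt} {x : GaussianInt}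
    {om : Fin l → GaussianInt} : om ∈ pth Ω Q x ↔ om ∈ Ω ∧ ∀ π ∈ Q, ∀ j, ¬ π ∣ x + om j := by
  classical
  unfold pth
  rw [Finset.mem_filter]

lemma pth_subset (Ω : Finset (Fin l → GaussianInt)) (Q : Finset GaussianInt) (x : GaussianInt) :
    pth Ω Q x ⊆ Ω := fun _ h => (mem_pth.1 h).1

lemma pth_anti (Ω : Finset (Fin l → GaussianInt)) {Q Q' : Finset GaussianInt} (h : Q ⊆ Q')
    (x : GaussianInt) : pth Ω Q' x ⊆ pth Ω Q x := fun om hom => by
  rw [mem_pth] at hom ⊢
  exact ⟨hom.1, fun π hπ j => hom.2 π (h hπ) j⟩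

lemma pth_congr (Ω : Finset (Fin l → GaussianInt)) {Q : Finset GaussianInt} {x x' : GaussianInt}
    (h : ∀ π ∈ Q, π ∣ x - x') : pth Ω Q x = pth Ω Q x' := by
  ext om
  rw [mem_pth, mem_pth]
  refine and_congr_right (fun _ => ?_)
  refine forall_congr' (fun π => forall_congr' (fun hπ => forall_congr' (fun j => not_congr ?_)))
  have h1 := h π hπ
  constructor
  · intro h2
    have := dvd_sub h2 h1
    have e : x + om j - (x - x') = x' + om j := by ring
    rwa [e] at this
  · intro h2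
    have := dvd_add h2 h1
    have e : x' + om j + (x - x') = x + om j := by ring
    rwa [e] at this

/-- the law of one sampled cluster: `y` has law `lam`, cluster uniform among the admissible ones -/
noncomputable def pw (Ω : Finset (Fin l → GaussianInt)) (Q : Finset GaussianInt)
    (lam : GaussianInt → ℝ) (z : GaussianInt) (s : GaussianInt × (Fin l → GaussianInt)) : ℝ :=
  open Classical in
  if s.2 ∈ pth Ω Q (z + s.1) then lam s.1 * ((pth Ω Q (z + s.1)).card : ℝ)⁻¹ else 0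

lemma pw_nonneg (Ω : Finset (Fin l → GaussianInt)) (Q : Finset GaussianInt)
    {lam : GaussianInt → ℝ} (hlam : ∀ y, 0 ≤ lam y) (z : GaussianInt)
    (s : GaussianInt × (Fin l → GaussianInt)) :
    0 ≤ pw Ω Q lam z s := by
  unfold pw
  split_ifs
  · exact mul_nonneg (hlam _) (by positivity)
  · exact le_refl _

lemma pw_pos_iff (Ω : Finset (Fin l → GaussianInt)) (Q : Finset GaussianInt)
    (lam : GaussianInt → ℝ) (z : GaussianInt) (s : GaussianInt × (Fin l → GaussianInt)) :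
    0 < pw Ω Q lam z s ↔ 0 < lam s.1 ∧ s.2 ∈ pth Ω Q (z + s.1) := by
  unfold pw
  split_ifs with h
  · have h2 : 0 < (pth Ω Q (z + s.1)).card := Finset.card_pos.2 ⟨_, h⟩
    have h2' : (0:ℝ) < ((pth Ω Q (z + s.1)).card : ℝ)⁻¹ := by
      have : (0:ℝ) < (pth Ω Q (z + s.1)).card := by exact_mod_cast h2
      positivity
    constructor
    · intro h3
      exact ⟨(pos_iff_pos_of_mul_pos h3).2 h2', h⟩
    · intro h3
      exact mul_pos h3.1 h2'
  · simp [h]

/-- expectation under the law of one sampled cluster -/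
lemma pw_sum (Ω : Finset (Fin l → GaussianInt)) (Q : Finset GaussianInt)
    (B : Finset GaussianInt) (lam : GaussianInt → ℝ) (z : GaussianInt)
    (f : GaussianInt × (Fin l → GaussianInt) → ℝ) :
    ∑ s ∈ B ×ˢ Ω, pw Ω Q lam z s * f s
      = ∑ y ∈ B, lam y * ∑ om ∈ pth Ω Q (z + y), ((pth Ω Q (z + y)).card : ℝ)⁻¹ * f (y, om) := by
  classical
  rw [Finset.sum_product]
  refine Finset.sum_congr rfl (fun y _ => ?_)
  have h2 : ∀ om ∈ Ω, pw Ω Q lam z (y, om) * f (y, om)
      = if om ∈ pth Ω Q (z + y) then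
          lam y * (((pth Ω Q (z + y)).card : ℝ)⁻¹ * f (y, om)) else 0 := by
    intro om _
    unfold pw
    by_cases hom : om ∈ pth Ω Q (z + y)
    · simp only [hom, if_true]
      ring
    · simp [hom]
  rw [Finset.sum_congr rfl h2, ← Finset.sum_filter, Finset.mul_sum]
  refine Finset.sum_congr ?_ (fun _ _ => rfl)
  ext om
  rw [Finset.mem_filter]
  exact ⟨fun h => h.2, fun h => ⟨pth_subset _ _ _ h, h⟩⟩

lemma pw_sum_one (Ω : Finset (Fin l → GaussianInt)) (Q : Finset GaussianInt)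
    (B : Finset GaussianInt) {lam : GaussianInt → ℝ} (hlam : ∀ y, 0 ≤ lam y)
    (hlam1 : ∑ y ∈ B, lam y = 1) (z : GaussianInt)
    (hne : ∀ y ∈ B, 0 < lam y → (pth Ω Q (z + y)).Nonempty) :
    ∑ s ∈ B ×ˢ Ω, pw Ω Q lam z s = 1 := by
  have h := pw_sum Ω Q B lam z (fun _ => 1)
  simp only [mul_one] at h
  rw [h, ← hlam1]
  refine Finset.sum_congr rfl (fun y hy => ?_)
  rcases eq_or_lt_of_le (hlam y) with h0 | h0
  · rw [← h0]; simp
  · have h2 : (0:ℝ) < (pth Ω Q (z + y)).card := by exact_mod_cast Finset.card_pos.2 (hne y hy h0)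
    rw [Finset.sum_const, nsmul_eq_mul, mul_inv_cancel₀ h2.ne', mul_one]

lemma pw_sum_le_one (Ω : Finset (Fin l → GaussianInt)) (Q : Finset GaussianInt)
    (B : Finset GaussianInt) {lam : GaussianInt → ℝ} (hlam : ∀ y, 0 ≤ lam y)
    (hlam1 : ∑ y ∈ B, lam y ≤ 1) (z : GaussianInt) :
    ∑ s ∈ B ×ˢ Ω, pw Ω Q lam z s ≤ 1 := by
  have h := pw_sum Ω Q B lam z (fun _ => 1)
  simp only [mul_one] at h
  rw [h]
  refine le_trans (Finset.sum_le_sum (fun y _ => ?_)) hlam1
  rw [Finset.sum_const, nsmul_eq_mul]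
  by_cases h0 : ((pth Ω Q (z + y)).card : ℝ) = 0
  · rw [h0]; simpa using hlam y
  · rw [mul_inv_cancel₀ h0, mul_one]

/-- the cluster entropy at sieve level `Q` -/
noncomputable def FF (Z : Finset ζ) (ν : ζ → ℝ) (z : ζ → GaussianInt)
    (Ω : Finset (Fin l → GaussianInt)) (B : Finset GaussianInt) (lam : ζ → GaussianInt → ℝ)
    (Q : Finset GaussianInt) : ℝ :=
  ∑ ω ∈ Z, ν ω * ∑ y ∈ B, lam ω y * Real.log ((pth Ω Q (z ω + y)).card)

/-- mass of the class `-n` modulo `π` under the law of a random point of a random cluster -/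
noncomputable def mass (Ω : Finset (Fin l → GaussianInt)) (Q : Finset GaussianInt)
    (B : Finset GaussianInt) (lam : GaussianInt → ℝ) (z π : GaussianInt) (n : GaussianInt) : ℝ :=
  open Classical in
  ∑ s ∈ B ×ˢ Ω, pw Ω Q lam z s *
    ((l : ℝ)⁻¹ * ((Finset.univ.filter (fun j : Fin l => π ∣ n + s.1 + s.2 j)).card : ℝ))

/-- light classes modulo `π` -/
noncomputable def light (Ω : Finset (Fin l → GaussianInt)) (Q : Finset GaussianInt)
    (B : Finset GaussianInt) (lam : GaussianInt → ℝ) (z π : GaussianInt) : Finset ℕ :=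
  open Classical in
  (Finset.range (Nn π)).filter
    (fun n => mass Ω Q B lam z π (n : GaussianInt) ≤ 1 / (4 * (Nn π : ℝ)))

end Crest.Agent.R2.N640
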