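import Crest.Agent.R2.NoDrop640c

/-!
# R2 (Gaussian moat), block N1+N2 (helper640), part d: the one-scale inequality
-/

set_option autoImplicit false

namespace Crest.Agent.R2.N640

open Finset

variable {l : ℕ} {ζ : Type*}

/-- classes (of the start) modulo `π` which no cluster of the window `W` excludes -/
noncomputable def miss (q : ℕ) (W : Fin q → GaussianInt × (Fin l → GaussianInt)) (π : GaussianInt) :
    Finset ℕ :=
  open Classical in
  (Finset.range (Nn π)).filter
    (fun n : ℕ => ∀ i : Fin q, ∀ j : Fin l, ¬ π ∣ (n : GaussianInt) + (W i).1 + (W i).2 j)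

lemma log_le_aux {x t : ℝ} (hx : 0 < x) (ht : 0 < t) : Real.log x ≤ Real.log t + (x / t - 1) := by
  have h := Real.log_le_sub_one_of_pos (div_pos hx ht)
  rw [Real.log_div hx.ne' ht.ne'] at h
  linarith

lemma cl_mem_miss {Ω : Finset (Fin l → GaussianInt)} {Q : Finset GaussianInt}
    {lam : GaussianInt → ℝ} {z π : GaussianInt} (hs : Split π) (hπ : π ∈ Q) {q : ℕ}
    {W : Fin q → GaussianInt × (Fin l → GaussianInt)} (hpos : ∀ i, 0 < pw Ω Q lam z (W i)) :
    cl π z ∈ miss q W π := by
  classical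
  unfold miss
  rw [Finset.mem_filter, Finset.mem_range]
  refine ⟨cl_lt hs z, fun i j hd => ?_⟩
  have h1 := (pw_pos_iff _ _ _ _ _).1 (hpos i)
  have h2 := (mem_pth.1 h1.2).2 π hπ j
  apply h2
  have h3 := dvd_sub_cl hs z
  have := dvd_add hd h3
  have e : (cl π z : GaussianInt) + (W i).1 + (W i).2 j + (z - (cl π z : GaussianInt))
      = z + (W i).1 + (W i).2 j := by ring
  rwa [e] at this

/-- the cluster hits the class `-n` with probability `l * mass` -/
lemma hit_prob (Ω : Finset (Fin l → GaussianInt)) (Q : Finset GaussianInt)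
    (B : Finset GaussianInt) (lam : GaussianInt → ℝ) (z π : GaussianInt) (n : GaussianInt) (hl : 0 < l)
    (hdist : ∀ om ∈ Ω, ∀ i j : Fin l, i ≠ j → ¬ π ∣ om i - om j) :
    ∑ s ∈ B ×ˢ Ω, pw Ω Q lam z s * (open Classical in if ∀ j : Fin l, ¬ π ∣ n + s.1 + s.2 j then (1:ℝ) else 0)
      = ∑ s ∈ B ×ˢ Ω, pw Ω Q lam z s - l * mass Ω Q B lam z π n := by
  classical
  unfold mass
  rw [Finset.mul_sum, ← Finset.sum_sub_distrib]
  refine Finset.sum_congr rfl (fun s hs => ?_)
  have hl' : (l : ℝ) ≠ 0 := by exact_mod_cast hl.ne'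
  have hom : s.2 ∈ Ω := (Finset.mem_product.1 hs).2
  have hcard : ((Finset.univ.filter (fun j : Fin l => π ∣ n + s.1 + s.2 j)).card : ℝ)
      = if ∀ j : Fin l, ¬ π ∣ n + s.1 + s.2 j then (0:ℝ) else 1 := by
    split_ifs with h
    · have : Finset.univ.filter (fun j : Fin l => π ∣ n + s.1 + s.2 j) = ∅ := by
        rw [Finset.filter_eq_empty_iff]
        intro j _
        exact h j
      rw [this]; simp
    · push Not at h
      obtain ⟨j, hj⟩ := h
      have : Finset.univ.filter (fun j : Fin l => π ∣ n + s.1 + s.2 j) = {j} := by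
        ext i
        simp only [Finset.mem_filter, Finset.mem_univ, true_and, Finset.mem_singleton]
        constructor
        · intro hi
          by_contra hne
          refine hdist s.2 hom i j hne ?_
          have := dvd_sub hi hj
          have e : n + s.1 + s.2 i - (n + s.1 + s.2 j) = s.2 i - s.2 j := by ring
          rwa [e] at this
        · rintro rfl; exact hj
      rw [this]; simp
  rw [hcard]
  split_ifs
  · ring
  · field_simp; ring

/-- **one-scale inequality** -/
theorem scale_ineq (Z : Finset ζ) (ν : ζ → ℝ) (hν : ∀ ω ∈ Z, 0 ≤ ν ω)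
    (hν1 : ∑ ω ∈ Z, ν ω = 1) (z : ζ → GaussianInt) (P G : Finset GaussianInt)
    (hPs : ∀ π ∈ P, Split π) (hGs : ∀ π ∈ G, Split π) (B : Finset GaussianInt) (hB : B.Nonempty)
    (lam : ζ → GaussianInt → ℝ) (hlam : ∀ ω y, 0 ≤ lam ω y) (hlam1 : ∀ ω ∈ Z, ∑ y ∈ B, lam ω y = 1)
    (Ω : Finset (Fin l → GaussianInt))
    (hne : ∀ ω ∈ Z, ∀ y ∈ B, 0 < lam ω y → (pth Ω (P ∪ G) (z ω + y)).Nonempty) (hl : 0 < l)
    (hdist : ∀ om ∈ Ω, ∀ π ∈ G, ∀ i j : Fin l, i ≠ j → ¬ π ∣ om i - om j) (q : ℕ)
    (hq : ∀ π ∈ G, (Nn π : ℝ) * Real.exp (-(q * (l / (4 * Nn π)))) ≤ 1) :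
    HQ Z ν z G ≤ HQ Z ν z P
      + q * (Real.log B.card + FF Z ν z Ω B lam P - FF Z ν z Ω B lam (P ∪ G))
      + ∑ ω ∈ Z, ν ω * ∑ π ∈ G, Real.log (1 + ((light Ω (P ∪ G) B (lam ω) (z ω) π).card : ℝ)) := by
  classical
  have hBc : (0:ℝ) < B.card := by exact_mod_cast Finset.card_pos.2 hB
  have hp1 : ∀ ω ∈ Z, ∑ s ∈ B ×ˢ Ω, pw Ω (P ∪ G) (lam ω) (z ω) s = 1 := fun ω hω =>
    pw_sum_one Ω (P ∪ G) B (hlam ω) (hlam1 ω hω) (z ω) (hne ω hω)
  have hpnn : ∀ ω s, 0 ≤ pw Ω (P ∪ G) (lam ω) (z ω) s := fun ω s => pw_nonneg _ _ (hlam ω) _ _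
  have hun : ∀ _y : GaussianInt, (0:ℝ) ≤ (B.card : ℝ)⁻¹ := fun _ => by positivity
  have hle1 : ∀ ω ∈ Z, ∀ y ∈ B, lam ω y ≤ 1 := fun ω hω y hy => by
    rw [← hlam1 ω hω]
    exact Finset.single_le_sum (f := lam ω) (fun y _ => hlam ω y) hy
  have main := info_ineq_rel Z ν hν hν1 (fun ω => resQ P (z ω)) (fun ω => resQ G (z ω)) (B ×ˢ Ω)
    (fun ω s => pw Ω (P ∪ G) (lam ω) (z ω) s) (fun ω _ s _ => hpnn ω s) hp1
    (fun ω s => pw Ω P (fun _ => (B.card : ℝ)⁻¹) (z ω) s) (fun ω s _ => pw_nonneg _ _ hun _ _)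
    (fun ω => pw_sum_le_one Ω P B hun (by
      rw [Finset.sum_const, nsmul_eq_mul, mul_inv_cancel₀ hBc.ne']) (z ω))
    (fun ω ω' h => by
      have h' := (resQ_eq_iff hPs (z ω) (z ω')).1 h
      funext s
      have : pth Ω P (z ω + s.1) = pth Ω P (z ω' + s.1) := pth_congr Ω (fun π hπ => by
        have e : z ω + s.1 - (z ω' + s.1) = z ω - z ω' := by ring
        rw [e]; exact h' π hπ)
      unfold pw
      rw [this])
    (fun ω hω s _ h => by
      rw [pw_pos_iff] at h ⊢
      exact ⟨by positivity, pth_anti Ω Finset.subset_union_left _ h.2⟩)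
    q (fun W => Fintype.piFinset (fun π : {π // π ∈ G} => miss q W π.1))
    (fun ω _ W _ h => by
      rw [Fintype.mem_piFinset]
      intro π
      exact cl_mem_miss (hGs π.1 π.2) (Finset.mem_union_right _ π.2) h)
  rw [Hn_resQ Z ν z hGs, Hn_resQ Z ν z hPs] at main
  refine main.trans ?_
  -- second term
  have h2 : ∑ ω ∈ Z, ν ω * ∑ s ∈ B ×ˢ Ω, pw Ω (P ∪ G) (lam ω) (z ω) s *
      (Real.log (pw Ω (P ∪ G) (lam ω) (z ω) s) - Real.log (pw Ω P (fun _ => (B.card : ℝ)⁻¹) (z ω) s))
      ≤ Real.log B.card + FF Z ν z Ω B lam P - FF Z ν z Ω B lam (P ∪ G) := by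
    have hz : ∀ ω ∈ Z, ν ω * ∑ s ∈ B ×ˢ Ω, pw Ω (P ∪ G) (lam ω) (z ω) s *
        (Real.log (pw Ω (P ∪ G) (lam ω) (z ω) s)
          - Real.log (pw Ω P (fun _ => (B.card : ℝ)⁻¹) (z ω) s))
        ≤ ν ω * Real.log B.card
          + ν ω * ∑ y ∈ B, lam ω y * Real.log ((pth Ω P (z ω + y)).card)
          - ν ω * ∑ y ∈ B, lam ω y * Real.log ((pth Ω (P ∪ G) (z ω + y)).card) := by
      intro ω hω
      rw [pw_sum Ω (P ∪ G) B (lam ω) (z ω)
        (fun s => Real.log (pw Ω (P ∪ G) (lam ω) (z ω) s)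
          - Real.log (pw Ω P (fun _ => (B.card : ℝ)⁻¹) (z ω) s))]
      have hy : ∀ y ∈ B, lam ω y * ∑ om ∈ pth Ω (P ∪ G) (z ω + y),
          ((pth Ω (P ∪ G) (z ω + y)).card : ℝ)⁻¹ *
            (Real.log (pw Ω (P ∪ G) (lam ω) (z ω) (y, om))
              - Real.log (pw Ω P (fun _ => (B.card : ℝ)⁻¹) (z ω) (y, om)))
          ≤ lam ω y * (Real.log B.card + Real.log ((pth Ω P (z ω + y)).card)
            - Real.log ((pth Ω (P ∪ G) (z ω + y)).card)) := by
        intro y hyB
        rcases eq_or_lt_of_le (hlam ω y) with h0 | h0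
        · rw [← h0]; simp
        have hc' : (0:ℝ) < (pth Ω (P ∪ G) (z ω + y)).card := by
          exact_mod_cast Finset.card_pos.2 (hne ω hω y hyB h0)
        have hval : ∀ om ∈ pth Ω (P ∪ G) (z ω + y), ((pth Ω (P ∪ G) (z ω + y)).card : ℝ)⁻¹ *
            (Real.log (pw Ω (P ∪ G) (lam ω) (z ω) (y, om))
              - Real.log (pw Ω P (fun _ => (B.card : ℝ)⁻¹) (z ω) (y, om)))
            ≤ ((pth Ω (P ∪ G) (z ω + y)).card : ℝ)⁻¹ *
            (Real.log B.card + Real.log ((pth Ω P (z ω + y)).card)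
            - Real.log ((pth Ω (P ∪ G) (z ω + y)).card)) := by
          intro om hom
          have homP : om ∈ pth Ω P (z ω + y) := pth_anti Ω Finset.subset_union_left _ hom
          have hc : (0:ℝ) < (pth Ω P (z ω + y)).card := by exact_mod_cast Finset.card_pos.2 ⟨_, homP⟩
          have e1 : pw Ω (P ∪ G) (lam ω) (z ω) (y, om)
              = lam ω y * ((pth Ω (P ∪ G) (z ω + y)).card : ℝ)⁻¹ := by
            unfold pw; simp [hom]
          have e2 : pw Ω P (fun _ => (B.card : ℝ)⁻¹) (z ω) (y, om)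
              = (B.card : ℝ)⁻¹ * ((pth Ω P (z ω + y)).card : ℝ)⁻¹ := by
            unfold pw; simp [homP]
          rw [e1, e2, Real.log_mul h0.ne' (inv_pos.2 hc').ne', Real.log_mul (inv_pos.2 hBc).ne'
            (inv_pos.2 hc).ne', Real.log_inv, Real.log_inv, Real.log_inv]
          refine mul_le_mul_of_nonneg_left ?_ (by positivity)
          have := Real.log_nonpos (hlam ω y) (hle1 ω hω y hyB)
          linarith
        refine mul_le_mul_of_nonneg_left ((Finset.sum_le_sum hval).trans ?_) h0.le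
        rw [Finset.sum_const, nsmul_eq_mul, ← mul_assoc, mul_inv_cancel₀ hc'.ne', one_mul]
      have hsum := Finset.sum_le_sum hy
      have hfin : ∑ y ∈ B, lam ω y * (Real.log B.card + Real.log ((pth Ω P (z ω + y)).card)
            - Real.log ((pth Ω (P ∪ G) (z ω + y)).card))
          = Real.log B.card + ∑ y ∈ B, lam ω y * Real.log ((pth Ω P (z ω + y)).card)
            - ∑ y ∈ B, lam ω y * Real.log ((pth Ω (P ∪ G) (z ω + y)).card) := by
        simp only [mul_sub, mul_add, Finset.sum_sub_distrib, Finset.sum_add_distrib]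
        rw [← Finset.sum_mul, hlam1 ω hω, one_mul]
      rw [hfin] at hsum
      have := mul_le_mul_of_nonneg_left hsum (hν ω hω)
      linarith
    refine (Finset.sum_le_sum hz).trans ?_
    rw [Finset.sum_sub_distrib, Finset.sum_add_distrib, ← Finset.sum_mul, hν1, one_mul]
    unfold FF
    exact le_refl _
  -- third term
  have h3 : ∀ ω ∈ Z, ∑ W ∈ Fintype.piFinset (fun _ : Fin q => B ×ˢ Ω),
      (∏ i, pw Ω (P ∪ G) (lam ω) (z ω) (W i)) *
        Real.log ((Fintype.piFinset (fun π : {π // π ∈ G} => miss q W π.1)).card)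
      ≤ ∑ π ∈ G, Real.log (1 + ((light Ω (P ∪ G) B (lam ω) (z ω) π).card : ℝ)) := by
    intro ω hω
    set PW := Fintype.piFinset (fun _ : Fin q => B ×ˢ Ω) with hPW
    have hone : ∑ W ∈ PW, ∏ i, pw Ω (P ∪ G) (lam ω) (z ω) (W i) = 1 := by
      rw [hPW, sum_piFinset_prod, hp1 ω hω, one_pow]
    -- per prime
    have hpi : ∀ π ∈ G, ∑ W ∈ PW, (∏ i, pw Ω (P ∪ G) (lam ω) (z ω) (W i)) *
        Real.log ((miss q W π).card)
          ≤ Real.log (1 + ((light Ω (P ∪ G) B (lam ω) (z ω) π).card : ℝ)) := by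
      intro π hπ
      set t : ℝ := 1 + ((light Ω (P ∪ G) B (lam ω) (z ω) π).card : ℝ) with ht
      have htpos : 0 < t := by positivity
      have hNpos : (0:ℝ) < Nn π := by exact_mod_cast (hGs π hπ : Nat.Prime (Nn π)).pos
      -- expected number of missed classes
      have hE : ∑ W ∈ PW, (∏ i, pw Ω (P ∪ G) (lam ω) (z ω) (W i)) * ((miss q W π).card : ℝ) ≤ t := by
        have e1 : ∀ W ∈ PW, (∏ i, pw Ω (P ∪ G) (lam ω) (z ω) (W i)) * ((miss q W π).card : ℝ)
            = ∑ n ∈ Finset.range (Nn π), ∏ i, (pw Ω (P ∪ G) (lam ω) (z ω) (W i) *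
              (if ∀ j : Fin l, ¬ π ∣ (n : GaussianInt) + (W i).1 + (W i).2 j then (1:ℝ) else 0)) := by
          intro W _
          unfold miss
          rw [Finset.card_filter]
          push_cast
          rw [Finset.mul_sum]
          refine Finset.sum_congr rfl (fun n _ => ?_)
          rw [Finset.prod_mul_distrib]
          congr 1
          by_cases h : ∀ i : Fin q, ∀ j : Fin l, ¬ π ∣ (n : GaussianInt) + (W i).1 + (W i).2 j
          · rw [if_pos h]
            symm
            exact Finset.prod_eq_one (fun i _ => if_pos (h i))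
          · rw [if_neg h]
            push Not at h
            obtain ⟨i, j, hij⟩ := h
            symm
            refine Finset.prod_eq_zero (Finset.mem_univ i) (if_neg ?_)
            intro hh
            exact hh j hij
        rw [Finset.sum_congr rfl e1, Finset.sum_comm]
        have e2 : ∀ n ∈ Finset.range (Nn π), ∑ W ∈ PW, ∏ i, (pw Ω (P ∪ G) (lam ω) (z ω) (W i) *
              (if ∀ j : Fin l, ¬ π ∣ (n : GaussianInt) + (W i).1 + (W i).2 j then (1:ℝ) else 0))
            ≤ (if n ∈ light Ω (P ∪ G) B (lam ω) (z ω) π then (1:ℝ) else 0) + 1 / (Nn π : ℝ) := by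
          intro n hn
          rw [hPW, sum_piFinset_prod (B ×ˢ Ω) (fun s => pw Ω (P ∪ G) (lam ω) (z ω) s *
              (if ∀ j : Fin l, ¬ π ∣ (n : GaussianInt) + s.1 + s.2 j then (1:ℝ) else 0)) q]
          have hh := hit_prob Ω (P ∪ G) B (lam ω) (z ω) π (n : GaussianInt) hl
            (fun om hom i j hij => hdist om hom π hπ i j hij)
          rw [hp1 ω hω] at hh
          set X : ℝ := ∑ s ∈ B ×ˢ Ω, pw Ω (P ∪ G) (lam ω) (z ω) s *
              (if ∀ j : Fin l, ¬ π ∣ (n : GaussianInt) + s.1 + s.2 j then (1:ℝ) else 0) with hX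
          have hX' : X = 1 - l * mass Ω (P ∪ G) B (lam ω) (z ω) π n := by
            rw [hX]
            convert hh using 4
          have hX0 : 0 ≤ X := Finset.sum_nonneg (fun s _ => mul_nonneg (hpnn ω s)
            (by split_ifs <;> norm_num))
          have hX1 : X ≤ 1 := by
            have hle1 : X ≤ ∑ s ∈ B ×ˢ Ω, pw Ω (P ∪ G) (lam ω) (z ω) s := by
              rw [hX]
              refine Finset.sum_le_sum (fun s _ => ?_)
              have := hpnn ω s
              split_ifs <;> linarith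
            exact hle1.trans (hp1 ω hω).le
          by_cases hlt : n ∈ light Ω (P ∪ G) B (lam ω) (z ω) π
          · rw [if_pos hlt]
            have : X ^ q ≤ 1 := pow_le_one₀ hX0 hX1
            have : (0:ℝ) ≤ 1 / (Nn π : ℝ) := by positivity
            linarith
          · rw [if_neg hlt, zero_add]
            have hm : 1 / (4 * (Nn π : ℝ)) < mass Ω (P ∪ G) B (lam ω) (z ω) π n := by
              unfold light at hlt
              rw [Finset.mem_filter] at hlt
              by_contra hcon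
              exact hlt ⟨hn, not_lt.1 hcon⟩
            have hlpos : (0:ℝ) < l := by exact_mod_cast hl
            have hle : X ≤ Real.exp (-(l / (4 * Nn π))) := by
              have h1 : X ≤ 1 - l / (4 * Nn π) := by
                rw [hX']
                have := mul_lt_mul_of_pos_left hm hlpos
                have e : (l:ℝ) * (1 / (4 * (Nn π : ℝ))) = l / (4 * Nn π) := by ring
                linarith
              have h2 := Real.add_one_le_exp (-((l:ℝ) / (4 * Nn π)))
              linarith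
            calc X ^ q ≤ (Real.exp (-(l / (4 * Nn π)))) ^ q := pow_le_pow_left₀ hX0 hle q
              _ = Real.exp (-(q * (l / (4 * Nn π)))) := by
                rw [← Real.exp_nat_mul]; congr 1; ring
              _ ≤ 1 / (Nn π : ℝ) := by
                rw [le_div_iff₀ hNpos, mul_comm]
                exact hq π hπ
        refine (Finset.sum_le_sum e2).trans ?_
        rw [Finset.sum_add_distrib, ← Finset.sum_filter, Finset.sum_const, Finset.sum_const,
          nsmul_eq_mul, nsmul_eq_mul, Finset.card_range, mul_one, mul_one_div_cancel hNpos.ne', ht]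
        have hf : (Finset.range (Nn π)).filter (fun n => n ∈ light Ω (P ∪ G) B (lam ω) (z ω) π)
            = light Ω (P ∪ G) B (lam ω) (z ω) π := by
          ext n
          rw [Finset.mem_filter]
          refine ⟨fun h => h.2, fun h => ⟨?_, h⟩⟩
          unfold light at h
          exact (Finset.mem_filter.1 h).1
        rw [hf]
        linarith
      -- Jensen through the tangent line
      have hJ : ∀ W ∈ PW, (∏ i, pw Ω (P ∪ G) (lam ω) (z ω) (W i)) * Real.log ((miss q W π).card)
          ≤ (∏ i, pw Ω (P ∪ G) (lam ω) (z ω) (W i)) * Real.log t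
            + (∏ i, pw Ω (P ∪ G) (lam ω) (z ω) (W i)) * ((miss q W π).card : ℝ) / t
            - ∏ i, pw Ω (P ∪ G) (lam ω) (z ω) (W i) := by
        intro W _
        by_cases h0 : ∏ i, pw Ω (P ∪ G) (lam ω) (z ω) (W i) = 0
        · rw [h0]; simp
        have hpos : ∀ i, 0 < pw Ω (P ∪ G) (lam ω) (z ω) (W i) := fun i =>
          lt_of_le_of_ne (hpnn _ _)
            (fun h => h0 (Finset.prod_eq_zero (Finset.mem_univ i) h.symm))
        have hmem : cl π (z ω) ∈ miss q W π :=
          cl_mem_miss (hGs π hπ) (Finset.mem_union_right _ hπ) hpos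
        have hc : (0:ℝ) < (miss q W π).card := by exact_mod_cast Finset.card_pos.2 ⟨_, hmem⟩
        have hl1 := log_le_aux hc htpos
        have hw : 0 ≤ ∏ i, pw Ω (P ∪ G) (lam ω) (z ω) (W i) :=
          Finset.prod_nonneg (fun i _ => hpnn _ _)
        have := mul_le_mul_of_nonneg_left hl1 hw
        calc _ ≤ _ := this
          _ = _ := by ring
      refine (Finset.sum_le_sum hJ).trans ?_
      rw [Finset.sum_sub_distrib, Finset.sum_add_distrib, ← Finset.sum_mul, ← Finset.sum_div, hone]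
      have : (∑ W ∈ PW, (∏ i, pw Ω (P ∪ G) (lam ω) (z ω) (W i)) * ((miss q W π).card : ℝ)) / t ≤ 1 :=
        (div_le_one htpos).2 hE
      linarith
    -- product over primes
    have hlog : ∀ W ∈ PW, (∏ i, pw Ω (P ∪ G) (lam ω) (z ω) (W i)) *
        Real.log ((Fintype.piFinset (fun π : {π // π ∈ G} => miss q W π.1)).card)
        = ∑ π ∈ G, (∏ i, pw Ω (P ∪ G) (lam ω) (z ω) (W i)) * Real.log ((miss q W π).card) := by
      intro W _
      rw [← Finset.mul_sum]
      by_cases h0 : ∏ i, pw Ω (P ∪ G) (lam ω) (z ω) (W i) = 0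
      · rw [h0]; simp
      congr 1
      have hpos : ∀ i, 0 < pw Ω (P ∪ G) (lam ω) (z ω) (W i) := fun i =>
        lt_of_le_of_ne (hpnn _ _)
          (fun h => h0 (Finset.prod_eq_zero (Finset.mem_univ i) h.symm))
      have hmem : ∀ π ∈ G, ((miss q W π).card : ℝ) ≠ 0 := by
        intro π hπ
        have : 0 < (miss q W π).card := Finset.card_pos.2
          ⟨_, cl_mem_miss (hGs π hπ) (Finset.mem_union_right _ hπ) hpos⟩
        exact_mod_cast this.ne'
      rw [Fintype.card_piFinset]
      push_cast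
      rw [Real.log_prod (fun π _ => hmem π.1 π.2)]
      exact Finset.sum_coe_sort G (fun π => Real.log ((miss q W π).card))
    rw [Finset.sum_congr rfl hlog, Finset.sum_comm]
    exact Finset.sum_le_sum hpi
  have h3' := Finset.sum_le_sum (fun ω hω => mul_le_mul_of_nonneg_left (h3 ω hω) (hν ω hω))
  have hq0 : (0:ℝ) ≤ q := Nat.cast_nonneg q
  have := mul_le_mul_of_nonneg_left h2 hq0
  linarith

end Crest.Agent.R2.N640
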