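import Crest.Agent.R2.NoDrop640d
import Crest.Agent.R2.Defs149
import Crest.Agent.R2.Shape911

/-!
# R2 (Gaussian moat), block N1+N2 (helper640), part e: clusters from paths, entropy bounds
-/

set_option autoImplicit false

namespace Crest.Agent.R2.N640

open Finset Crest.Agent.R2.Gcd62

variable {ζ : Type*}

lemma HQ_le (Z : Finset ζ) (ν : ζ → ℝ) (hν : ∀ ω ∈ Z, 0 ≤ ν ω)
    (hν1 : ∑ ω ∈ Z, ν ω = 1) (z : ζ → GaussianInt) (Q : Finset GaussianInt)
    (hQ : ∀ π ∈ Q, Split π) : HQ Z ν z Q ≤ ∑ π ∈ Q, Real.log (Nn π) := by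
  classical
  have main := info_ineq_rel Z ν hν hν1 (fun _ => ()) (fun ω => resQ Q (z ω)) ({()} : Finset Unit)
    (fun _ _ => 1) (fun _ _ _ _ => by norm_num) (fun _ _ => by simp) (fun _ _ => 1)
    (fun _ _ _ => by norm_num) (fun _ => by simp) (fun _ _ _ => rfl) (fun _ _ _ _ _ => by norm_num) 0
    (fun _ => Fintype.piFinset (fun π : {π // π ∈ Q} => Finset.range (Nn π.1)))
    (fun ω _ W _ _ => by
      rw [Fintype.mem_piFinset]
      intro π
      exact Finset.mem_range.2 (cl_lt (hQ π.1 π.2) _))
  rw [Hn_resQ Z ν z hQ] at main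
  refine main.trans ?_
  have h1 : Hn Z ν (fun _ => ()) = 0 := by
    unfold Hn fm
    refine Finset.sum_eq_zero (fun ω _ => ?_)
    simp [hν1]
  rw [h1]
  have h2 : Real.log ((Fintype.piFinset (fun π : {π // π ∈ Q} => Finset.range (Nn π.1))).card)
      = ∑ π ∈ Q, Real.log (Nn π) := by
    rw [Fintype.card_piFinset]
    push_cast
    rw [Real.log_prod (fun π _ => ?_)]
    · simp only [Finset.card_range]
      exact Finset.sum_coe_sort Q (fun π => Real.log (Nn π))
    · rw [Finset.card_range]
      exact_mod_cast (hQ π.1 π.2 : Nat.Prime (Nn π.1)).pos.ne'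
  simp only [Nat.cast_zero, zero_mul, zero_add]
  rw [← h2]
  have h3 : ∀ ω ∈ Z, ν ω * ∑ W ∈ Fintype.piFinset (fun _ : Fin 0 => ({()} : Finset Unit)),
      (∏ _i : Fin 0, (1:ℝ)) * Real.log ((Fintype.piFinset
        (fun π : {π // π ∈ Q} => Finset.range (Nn π.1))).card)
      = ν ω * Real.log ((Fintype.piFinset
        (fun π : {π // π ∈ Q} => Finset.range (Nn π.1))).card) := by
    intro ω _
    congr 1
    rw [Finset.sum_const, Fintype.card_piFinset]
    simp
  rw [Finset.sum_congr rfl h3, ← Finset.sum_mul, hν1, one_mul]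

/-- strings with steps of length at most `D` -/
noncomputable def str (D : ℝ) (l : ℕ) : Finset (Fin l → GaussianInt) :=
  open Classical in
  ((Fintype.piFinset (fun _ : Fin l => ball D)).image
    (fun st => fun j : Fin l => ∑ i ∈ Finset.univ.filter (fun i : Fin l => i.val < j.val), st i)).filter
    (fun om => Function.Injective om)

lemma log_card_str_le {D : ℝ} (hD : 0 ≤ D) (l : ℕ) :
    Real.log ((str D l).card) ≤ l * Real.log ((2 * D + 1) ^ 2) := by
  classical
  have h1 : (str D l).card ≤ (ball D).card ^ l := by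
    unfold str
    refine (Finset.card_filter_le _ _).trans (Finset.card_image_le.trans ?_)
    rw [Fintype.card_piFinset]
    simp
  rcases Nat.eq_zero_or_pos (str D l).card with h0 | h0
  · rw [h0]
    simp only [Nat.cast_zero, Real.log_zero]
    have : 1 ≤ (2 * D + 1) ^ 2 := by nlinarith
    exact mul_nonneg (Nat.cast_nonneg _) (Real.log_nonneg this)
  · have hb : ((ball D).card : ℝ) ≤ (2 * D + 1) ^ 2 := card_ball hD
    have h2 : ((str D l).card : ℝ) ≤ ((2 * D + 1) ^ 2) ^ l := by
      calc ((str D l).card : ℝ) ≤ ((ball D).card : ℝ) ^ l := by exact_mod_cast h1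
        _ ≤ _ := pow_le_pow_left₀ (Nat.cast_nonneg _) hb l
    have := Real.log_le_log (by exact_mod_cast h0) h2
    rwa [Real.log_pow] at this

lemma str_inj {D : ℝ} {l : ℕ} {om : Fin l → GaussianInt} (h : om ∈ str D l) :
    Function.Injective om := by
  classical
  unfold str at h
  exact (Finset.mem_filter.1 h).2

lemma ab_sum_le {κ : Type*} (s : Finset κ) (f : κ → GaussianInt) :
    ab (∑ i ∈ s, f i) ≤ ∑ i ∈ s, ab (f i) := by
  classical
  induction s using Finset.induction_on with
  | empty => simp [ab_zero]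
  | insert a s ha ih =>
    rw [Finset.sum_insert ha, Finset.sum_insert ha]
    exact (ab_add_le _ _).trans (by linarith)

lemma str_ab {D : ℝ} (hD : 0 ≤ D) {l : ℕ} {om : Fin l → GaussianInt} (h : om ∈ str D l) (j : Fin l) :
    ab (om j) ≤ D * l := by
  classical
  unfold str at h
  obtain ⟨st, hst, rfl⟩ := Finset.mem_image.1 (Finset.mem_filter.1 h).1
  rw [Fintype.mem_piFinset] at hst
  refine (ab_sum_le _ _).trans ?_
  refine (Finset.sum_le_sum (fun i _ => mem_ball.1 (hst i))).trans ?_
  rw [Finset.sum_const, nsmul_eq_mul, mul_comm]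
  refine mul_le_mul_of_nonneg_left ?_ hD
  have : (Finset.univ.filter (fun i : Fin l => i.val < j.val)).card ≤ l := by
    refine (Finset.card_filter_le _ _).trans ?_
    simp
  exact_mod_cast this

lemma mem_str {D : ℝ} {l : ℕ} {γ : ℕ → GaussianInt} (h1 : ∀ i < l, ab (γ (i + 1) - γ i) ≤ D)
    (h2 : ∀ i < l, ∀ j < l, γ i = γ j → i = j) :
    (fun j : Fin l => γ j.val - γ 0) ∈ str D l := by
  classical
  unfold str
  rw [Finset.mem_filter]
  refine ⟨Finset.mem_image.2 ⟨fun i => γ (i.val + 1) - γ i.val, ?_, ?_⟩, ?_⟩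
  · rw [Fintype.mem_piFinset]
    exact fun i => mem_ball.2 (h1 i i.2)
  · funext j
    have : ∑ i ∈ Finset.univ.filter (fun i : Fin l => i.val < j.val), (γ (i.val + 1) - γ i.val)
        = ∑ i ∈ Finset.range j.val, (γ (i + 1) - γ i) := by
      refine Finset.sum_bij (fun i _ => i.val) ?_ ?_ ?_ ?_
      · intro i hi
        exact Finset.mem_range.2 (Finset.mem_filter.1 hi).2
      · intro i _ i' _ h
        exact Fin.ext h
      · intro i hi
        have hi' := Finset.mem_range.1 hi
        exact ⟨⟨i, hi'.trans j.2⟩, Finset.mem_filter.2 ⟨Finset.mem_univ _, hi'⟩, rfl⟩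
      · intro i _
        rfl
    rw [this, Finset.sum_range_sub]
  · intro i j hij
    have : γ i.val = γ j.val := by
      have := hij
      simp only at this
      exact sub_left_inj.1 this
    exact Fin.ext (h2 i i.2 j j.2 this)

/-- a `D`-path of large displacement inside `E` can be taken injective and long -/
lemma exists_string {D : ℝ} (hD : 0 < D) {E : Set GaussianInt} (hE : X149.ClosedE D E)
    {x : GaussianInt} (hx : x ∈ E) (l : ℕ) :
    ∃ om ∈ str D l, ∀ j : Fin l, x + om j ∈ E := by
  classical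
  have hex : ∃ n : ℕ, ∃ γ : ℕ → GaussianInt, γ 0 = x ∧ (∀ i ≤ n, γ i ∈ E) ∧
      (∀ i < n, ab (γ (i + 1) - γ i) ≤ D) ∧ D * l ≤ ab (γ n - x) := hE x hx (D * l)
  set n := Nat.find hex with hn
  obtain ⟨γ, h0, h1, h2, h3⟩ := Nat.find_spec hex
  rw [← hn] at h1 h2 h3
  -- length
  have hlen : ∀ k ≤ n, ab (γ k - x) ≤ D * k := by
    intro k
    induction k with
    | zero => intro _; rw [h0]; simp [ab_zero]
    | succ k ih =>
      intro hk
      have e : γ (k + 1) - x = (γ (k + 1) - γ k) + (γ k - x) := by ring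
      rw [e]
      refine (ab_add_le _ _).trans ?_
      have := ih (by omega)
      have := h2 k (by omega)
      push_cast
      linarith
  have hln : l ≤ n := by
    have h4 := h3.trans (hlen n le_rfl)
    have := le_of_mul_le_mul_left h4 hD
    exact_mod_cast this
  -- injectivity
  have hinj : ∀ a b, a < b → b ≤ n → γ a ≠ γ b := by
    intro a b hab hb heq
    refine Nat.find_min hex (m := n - (b - a)) (by omega)
      ⟨fun i => if i ≤ a then γ i else γ (i + (b - a)), ?_, ?_, ?_, ?_⟩
    · simp [h0]
    · intro i hi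
      dsimp only
      split_ifs with h
      · exact h1 i (by omega)
      · exact h1 _ (by omega)
    · intro i hi
      dsimp only
      by_cases h : i + 1 ≤ a
      · rw [if_pos h, if_pos (by omega)]
        exact h2 i (by omega)
      · rw [if_neg h]
        by_cases h' : i ≤ a
        · have : i = a := by omega
          subst this
          rw [if_pos le_rfl, heq]
          have e : i + 1 + (b - i) = b + 1 := by omega
          rw [e]
          exact h2 b (by omega)
        · rw [if_neg h']
          have e : i + 1 + (b - a) = (i + (b - a)) + 1 := by omega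
          rw [e]
          exact h2 _ (by omega)
    · dsimp only
      by_cases h : n - (b - a) ≤ a
      · rw [if_pos h]
        have e1 : n - (b - a) = a := by omega
        have e2 : n = b := by omega
        rw [e1, heq, ← e2]
        exact h3
      · rw [if_neg h]
        have e : n - (b - a) + (b - a) = n := by omega
        rw [e]
        exact h3
  refine ⟨fun j : Fin l => γ j.val - γ 0, mem_str (fun i hi => h2 i (by omega)) ?_, ?_⟩
  · intro i hi j hj hij
    rcases lt_trichotomy i j with h | h | h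
    · exact absurd hij (hinj i j h (by omega))
    · exact h
    · exact absurd hij.symm (hinj j i h (by omega))
  · intro j
    have e : x + (γ j.val - γ 0) = γ j.val := by rw [h0]; ring
    rw [e]
    exact h1 _ (by have := j.2; omega)

lemma pth_nonempty {D : ℝ} (hD : 0 < D) {E : Set GaussianInt} (hE : X149.ClosedE D E)
    {Q : Finset GaussianInt} (hQ : ∀ π ∈ Q, ∀ x ∈ E, ¬ π ∣ x) {x : GaussianInt} (hx : x ∈ E)
    (l : ℕ) : (pth (str D l) Q x).Nonempty := by
  obtain ⟨om, h1, h2⟩ := exists_string hD hE hx l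
  exact ⟨om, mem_pth.2 ⟨h1, fun π hπ j => hQ π hπ _ (h2 j)⟩⟩

end Crest.Agent.R2.N640
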