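import Crest.Agent.R2.NoDrop640e

/-!
# R2 (Gaussian moat), block N1+N2 (helper640), part f: choice of the scale and of the state
-/

set_option autoImplicit false

namespace Crest.Agent.R2.N640

open Finset Crest.Agent.R2.Gcd62

variable {ζ : Type*} {l : ℕ}

/-- the union of the first `k` windows -/
def PU (G : ℕ → Finset GaussianInt) (k : ℕ) : Finset GaussianInt := (Finset.range k).biUnion G

lemma PU_zero (G : ℕ → Finset GaussianInt) : PU G 0 = ∅ := by simp [PU]

lemma PU_succ (G : ℕ → Finset GaussianInt) (k : ℕ) : PU G (k + 1) = PU G k ∪ G k := by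
  unfold PU
  rw [Finset.range_add_one, Finset.biUnion_insert, Finset.union_comm]

lemma mem_PU {G : ℕ → Finset GaussianInt} {k : ℕ} {π : GaussianInt} :
    π ∈ PU G k ↔ ∃ j < k, π ∈ G j := by
  unfold PU
  simp

lemma sum_PU_le (G : ℕ → Finset GaussianInt) {f : GaussianInt → ℝ} (hf : ∀ π, 0 ≤ f π) (k : ℕ) :
    ∑ π ∈ PU G k, f π ≤ ∑ j ∈ Finset.range k, ∑ π ∈ G j, f π := by
  induction k with
  | zero => simp [PU_zero]
  | succ k ih =>
    rw [PU_succ, Finset.sum_range_succ]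
    have h1 := Finset.sum_union_inter (s₁ := PU G k) (s₂ := G k) (f := f)
    have h2 : 0 ≤ ∑ π ∈ PU G k ∩ G k, f π := Finset.sum_nonneg (fun π _ => hf π)
    linarith

lemma log_card_mono {α : Type*} {s t : Finset α} (h : s ⊆ t) :
    Real.log (s.card : ℝ) ≤ Real.log (t.card : ℝ) := by
  rcases Nat.eq_zero_or_pos s.card with h0 | h0
  · rw [h0]
    simpa using Real.log_natCast_nonneg t.card
  · exact Real.log_le_log (by exact_mod_cast h0) (by exact_mod_cast Finset.card_le_card h)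

lemma FF_nonneg {Z : Finset ζ} {ν : ζ → ℝ} (hν : ∀ ω ∈ Z, 0 ≤ ν ω) (z : ζ → GaussianInt)
    (Ω : Finset (Fin l → GaussianInt)) (B : Finset GaussianInt) {lam : ζ → GaussianInt → ℝ}
    (hlam : ∀ ω y, 0 ≤ lam ω y) (Q : Finset GaussianInt) : 0 ≤ FF Z ν z Ω B lam Q := by
  unfold FF
  exact Finset.sum_nonneg (fun ω hω => mul_nonneg (hν ω hω)
    (Finset.sum_nonneg (fun y _ => mul_nonneg (hlam ω y) (Real.log_natCast_nonneg _))))

lemma FF_anti {Z : Finset ζ} {ν : ζ → ℝ} (hν : ∀ ω ∈ Z, 0 ≤ ν ω) (z : ζ → GaussianInt)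
    (Ω : Finset (Fin l → GaussianInt)) (B : Finset GaussianInt) {lam : ζ → GaussianInt → ℝ}
    (hlam : ∀ ω y, 0 ≤ lam ω y) {Q Q' : Finset GaussianInt} (h : Q ⊆ Q') :
    FF Z ν z Ω B lam Q' ≤ FF Z ν z Ω B lam Q := by
  unfold FF
  exact Finset.sum_le_sum (fun ω hω => mul_le_mul_of_nonneg_left
    (Finset.sum_le_sum (fun y _ => mul_le_mul_of_nonneg_left (log_card_mono (pth_anti Ω h _))
      (hlam ω y))) (hν ω hω))

lemma FF_le {Z : Finset ζ} {ν : ζ → ℝ} (hν : ∀ ω ∈ Z, 0 ≤ ν ω) (hν1 : ∑ ω ∈ Z, ν ω = 1)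
    (z : ζ → GaussianInt)
    (Ω : Finset (Fin l → GaussianInt)) (B : Finset GaussianInt) {lam : ζ → GaussianInt → ℝ}
    (hlam : ∀ ω y, 0 ≤ lam ω y) (hlam1 : ∀ ω ∈ Z, ∑ y ∈ B, lam ω y = 1) (Q : Finset GaussianInt) :
    FF Z ν z Ω B lam Q ≤ Real.log Ω.card := by
  unfold FF
  have : ∀ ω ∈ Z, ν ω * ∑ y ∈ B, lam ω y * Real.log ((pth Ω Q (z ω + y)).card)
      ≤ ν ω * Real.log Ω.card := by
    intro ω hω
    refine mul_le_mul_of_nonneg_left ?_ (hν ω hω)
    calc ∑ y ∈ B, lam ω y * Real.log ((pth Ω Q (z ω + y)).card)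
        ≤ ∑ y ∈ B, lam ω y * Real.log Ω.card :=
          Finset.sum_le_sum (fun y _ => mul_le_mul_of_nonneg_left
            (log_card_mono (pth_subset Ω Q _)) (hlam ω y))
      _ = Real.log Ω.card := by rw [← Finset.sum_mul, hlam1 ω hω, one_mul]
  refine (Finset.sum_le_sum this).trans ?_
  rw [← Finset.sum_mul, hν1, one_mul]

/-- pure real-number form of the telescoping -/
lemma exists_scale_real (n : ℕ) (F L : ℕ → ℝ) (lr LB LD c H : ℝ) (hl : 0 < lr) (hc : 0 < c)
    (hF0 : F 0 ≤ lr * LD) (hFn : 0 ≤ F n) (hLB : n * LB ≤ lr)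
    (hH : (2 + LD) / c ≤ H) (hsum : H ≤ ∑ k ∈ Finset.range n, 1 / L k) :
    ∃ k < n, LB + F k - F (k + 1) ≤ c * lr * (1 / L k) := by
  by_contra hcon
  push Not at hcon
  have h1 : ∑ k ∈ Finset.range n, c * lr * (1 / L k)
      ≤ ∑ k ∈ Finset.range n, (LB + (F k - F (k + 1))) :=
    Finset.sum_le_sum (fun k hk => by
      have := hcon k (Finset.mem_range.1 hk)
      linarith)
  rw [← Finset.mul_sum, Finset.sum_add_distrib, Finset.sum_range_sub', Finset.sum_const,
    Finset.card_range, nsmul_eq_mul] at h1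
  have h2 : c * lr * H ≤ c * lr * ∑ k ∈ Finset.range n, 1 / L k :=
    mul_le_mul_of_nonneg_left hsum (by positivity)
  have h3 : (2 + LD) * lr ≤ c * lr * H := by
    have := (div_le_iff₀ hc).1 hH
    nlinarith
  nlinarith

/-- lacunary sums -/
lemma sum_lacunary (n : ℕ) (w : ℕ → ℝ) (κ : ℝ) (hκ : 2 ≤ κ) (hw : ∀ k < n, 0 ≤ w k)
    (h : ∀ k, k + 1 < n → κ * w k ≤ w (k + 1)) :
    ∀ k < n, ∑ j ∈ Finset.range k, w j ≤ 2 * w k / κ := by
  intro k
  induction k with
  | zero =>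
    intro hk
    have := hw 0 hk
    simp only [Finset.range_zero, Finset.sum_empty]
    positivity
  | succ k ih =>
    intro hk
    have h1 := ih (by omega)
    have h2 := h k hk
    have h0 := hw k (by omega)
    have hκ0 : 0 < κ := by linarith
    rw [Finset.sum_range_succ, le_div_iff₀ hκ0]
    rw [le_div_iff₀ hκ0] at h1
    nlinarith

/-- numerical facts for a window -/
lemma blk_numbers {c0 w mI τ : ℝ} (hm : 0 < mI) (hτ : 0 < τ) (hτ1 : τ ≤ 1 / 100)
    {G : Finset GaussianInt} (hlog : 4 / τ ≤ Real.log w) (hw : 1 ≤ w)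
    (hB : X149.Blk w G) (h1 : c0 * w / Real.log w ≤ mI * G.card)
    (h2 : (G.card : ℝ) ≤ 2 * c0 * w / Real.log w) :
    (c0 / mI) * w ≤ ∑ π ∈ G, Real.log (Nn π) ∧ ∑ π ∈ G, Real.log (Nn π) ≤ 4 * c0 * w := by
  have h400 : 400 ≤ Real.log w := by
    refine le_trans ?_ hlog
    rw [le_div_iff₀ hτ]; linarith
  have hLpos : 0 < Real.log w := by linarith
  have hw0 : 0 < w := by linarith
  have hNn : ∀ π : GaussianInt, ((Nn π : ℕ) : ℝ) = (π.norm : ℝ) := by
    intro π
    have := Nn_cast π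
    exact_mod_cast congrArg (fun z : ℤ => (z : ℝ)) this
  constructor
  · have : ∑ π ∈ G, Real.log w ≤ ∑ π ∈ G, Real.log (Nn π) := by
      refine Finset.sum_le_sum (fun π hπ => ?_)
      refine Real.log_le_log hw0 ?_
      rw [hNn]
      exact (hB.lo π hπ).le
    refine le_trans ?_ this
    rw [Finset.sum_const, nsmul_eq_mul]
    rw [div_le_iff₀ hLpos] at h1
    rw [div_mul_eq_mul_div, div_le_iff₀ hm]
    nlinarith
  · have : ∑ π ∈ G, Real.log (Nn π) ≤ ∑ π ∈ G, 2 * Real.log w := by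
      refine Finset.sum_le_sum (fun π hπ => ?_)
      have h3 : Real.log (Nn π) ≤ Real.log (4 * w) := by
        refine Real.log_le_log ?_ ?_
        · rw [hNn]; linarith [hB.lo π hπ]
        · rw [hNn]; exact hB.hi π hπ
      rw [Real.log_mul (by norm_num) hw0.ne'] at h3
      have h4 : Real.log 4 ≤ 3 := by
        have := Real.log_le_sub_one_of_pos (show (0:ℝ) < 4 by norm_num)
        linarith
      linarith
    refine this.trans ?_
    rw [Finset.sum_const, nsmul_eq_mul]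
    rw [le_div_iff₀ hLpos] at h2
    nlinarith

lemma ab_sq_Nn (π : GaussianInt) : ab π ^ 2 = (Nn π : ℝ) := by
  rw [ab_sq]
  have := Nn_cast π
  exact_mod_cast (congrArg (fun z : ℤ => (z : ℝ)) this).symm

lemma hdist_aux {D w : ℝ} (hD : 0 ≤ D) {l : ℕ} {G : Finset GaussianInt} (hB : X149.Blk w G)
    (hw : (2 * D * l) ^ 2 ≤ w) :
    ∀ om ∈ str D l, ∀ π ∈ G, ∀ i j : Fin l, i ≠ j → ¬ π ∣ om i - om j := by
  intro om hom π hπ i j hij hd
  have h0 : om i - om j ≠ 0 := fun h => hij (str_inj hom (sub_eq_zero.1 h))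
  have h1 := ab_dvd hd h0
  have h2 : ab (om i - om j) ≤ 2 * D * l := by
    refine (ab_sub_le _ _).trans ?_
    have := str_ab hD hom i
    have := str_ab hD hom j
    linarith
  have h3 : ab π ^ 2 ≤ (2 * D * l) ^ 2 := pow_le_pow_left₀ (ab_nonneg _) (h1.trans h2) 2
  have h4 := hB.lo π hπ
  rw [ab_sq] at h3
  linarith

/-- **choice of scale and state** -/
theorem exists_scale (D c0 τ : ℝ) (mI : ℕ) (hD : 1 ≤ D) (hc0 : 0 < c0) (hτ : 0 < τ)
    (hτ1 : τ ≤ 1 / 100) (hmI : 0 < mI) (n : ℕ) (w : ℕ → ℝ) (G' : ℕ → Finset GaussianInt)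
    (E : Set GaussianInt) (l : ℕ) (R : ℝ)
    (hW : ∀ k < n, Real.exp (4 / τ) ≤ w k) (hlac : ∀ k, k + 1 < n → (8 * mI / τ) * w k ≤ w (k + 1))
    (hBlk : ∀ k < n, X149.Blk (w k) (G' k))
    (hlow : ∀ k < n, c0 * w k / Real.log (w k) ≤ mI * (G' k).card)
    (hupp : ∀ k < n, ((G' k).card : ℝ) ≤ 2 * c0 * w k / Real.log (w k))
    (hH : (2 + Real.log ((2 * D + 1) ^ 2)) / (τ * c0 / (64 * mI))
      ≤ ∑ k ∈ Finset.range n, 1 / Real.log (w k))
    (hR : 1 ≤ R) (hl : (n : ℝ) * (2 * Real.log R + 2 * Real.log 3) ≤ l)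
    (hDl : ∀ k < n, (2 * D * l) ^ 2 ≤ w k)
    (hE : X149.ClosedE D E) (hav : ∀ k < n, ∀ p ∈ G' k, ∀ x ∈ E, ¬ p ∣ x)
    (Z : Finset ζ) (ν : ζ → ℝ) (hν : ∀ ω ∈ Z, 0 ≤ ν ω) (hν1 : ∑ ω ∈ Z, ν ω = 1)
    (z : ζ → GaussianInt) (lam : ζ → GaussianInt → ℝ) (hlam : ∀ ω y, 0 ≤ lam ω y)
    (hlam1 : ∀ ω ∈ Z, ∑ y ∈ ball R, lam ω y = 1)
    (hlamE : ∀ ω ∈ Z, ∀ y, 0 < lam ω y → z ω + y ∈ E)
    (hKac : ∀ k < n, (1 - τ) * ∑ p ∈ G' k, Real.log (Nn p) ≤ HQ Z ν z (G' k)) :
    0 < l ∧ ∃ k < n, ∃ ω ∈ Z, (1 - 3 * τ) * ∑ p ∈ G' k, Real.log (Nn p)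
      ≤ ∑ p ∈ G' k, Real.log (1 + ((light (str D l) (PU G' (k + 1)) (ball R) (lam ω) (z ω) p).card : ℝ)) := by
  classical
  have hmI' : (0:ℝ) < mI := by exact_mod_cast hmI
  have hD0 : (0:ℝ) ≤ D := by linarith
  have hDpos : (0:ℝ) < D := by linarith
  set LD := Real.log ((2 * D + 1) ^ 2) with hLD
  have hLD0 : 0 ≤ LD := Real.log_nonneg (by nlinarith)
  set c := τ * c0 / (64 * mI) with hc
  have hcpos : 0 < c := by positivity
  have hlogR : 0 ≤ Real.log R := Real.log_nonneg hR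
  have hlog3 : 1 ≤ Real.log 3 := by
    rw [Real.le_log_iff_exp_le (by norm_num)]
    have := Real.exp_one_lt_d9
    linarith
  have hn : 0 < n := by
    rcases Nat.eq_zero_or_pos n with h | h
    · subst h
      simp only [Finset.range_zero, Finset.sum_empty] at hH
      have : 0 < (2 + LD) / c := by positivity
      linarith
    · exact h
  have hn' : (1:ℝ) ≤ n := by exact_mod_cast hn
  have hl1 : (1:ℝ) ≤ l := by nlinarith
  have hlpos : 0 < l := by
    have : (0:ℝ) < l := by linarith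
    exact_mod_cast this
  refine ⟨hlpos, ?_⟩
  have hl0 : (0:ℝ) < l := by linarith
  have hlogw : ∀ k < n, 4 / τ ≤ Real.log (w k) := fun k hk => by
    rw [Real.le_log_iff_exp_le ((Real.exp_pos _).trans_le (hW k hk))]
    exact hW k hk
  have h400 : ∀ k < n, 400 ≤ Real.log (w k) := fun k hk => by
    refine le_trans ?_ (hlogw k hk)
    rw [le_div_iff₀ hτ]; linarith
  have hw0 : ∀ k < n, 0 < w k := fun k hk => (Real.exp_pos _).trans_le (hW k hk)
  have hw1 : ∀ k < n, 1 ≤ w k := fun k hk =>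
    (Real.one_le_exp (by positivity)).trans (hW k hk)
  have hlw : ∀ k < n, (l:ℝ) ≤ w k := fun k hk => by
    have h1 := hDl k hk
    have h2 : (l:ℝ) ≤ 2 * D * l := by nlinarith
    have h3 : (1:ℝ) ≤ 2 * D * l := by linarith
    nlinarith
  have hsplit : ∀ k < n, ∀ π ∈ G' k, Split π := fun k hk π hπ => (hBlk k hk).rat π hπ
  have hsplitP : ∀ k ≤ n, ∀ π ∈ PU G' k, Split π := fun k hk π hπ => by
    obtain ⟨j, hj, hj'⟩ := mem_PU.1 hπ
    exact hsplit j (by omega) π hj'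
  have havP : ∀ k ≤ n, ∀ π ∈ PU G' k, ∀ x ∈ E, ¬ π ∣ x := fun k hk π hπ => by
    obtain ⟨j, hj, hj'⟩ := mem_PU.1 hπ
    exact hav j (by omega) π hj'
  -- choice of the scale
  set F : ℕ → ℝ := fun k => FF Z ν z (str D l) (ball R) lam (PU G' k) with hF
  have hBR : (ball R).Nonempty := ⟨0, mem_ball.2 (by rw [ab_zero]; linarith)⟩
  have hBRc : (0:ℝ) < (ball R).card := by exact_mod_cast Finset.card_pos.2 hBR
  have hLB : Real.log (ball R).card ≤ 2 * Real.log R + 2 * Real.log 3 := by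
    have h1 : ((ball R).card : ℝ) ≤ (3 * R) ^ 2 := by
      refine (card_ball (by linarith : (0:ℝ) ≤ R)).trans ?_
      have : 2 * R + 1 ≤ 3 * R := by linarith
      exact pow_le_pow_left₀ (by linarith) this 2
    have h2 := Real.log_le_log hBRc h1
    rw [Real.log_pow, Real.log_mul (by norm_num) (by linarith)] at h2
    push_cast at h2
    linarith
  have hLB0 : 0 ≤ Real.log (ball R).card := Real.log_natCast_nonneg _
  obtain ⟨k, hk, hkF⟩ := exists_scale_real n F (fun k => Real.log (w k)) l (Real.log (ball R).card)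
    LD c _ hl0 hcpos ((FF_le hν hν1 z _ _ hlam hlam1 _).trans (log_card_str_le hD0 l))
    (FF_nonneg hν z _ _ hlam _) (le_trans (by
      have h0 : (0:ℝ) ≤ n := by linarith
      exact mul_le_mul_of_nonneg_left hLB h0) hl) le_rfl hH
  refine ⟨k, hk, ?_⟩
  obtain ⟨hb1, hb2⟩ := blk_numbers hmI' hτ hτ1 (hlogw k hk) (hw1 k hk) (hBlk k hk)
    (hlow k hk) (hupp k hk)
  set b := ∑ p ∈ G' k, Real.log (Nn p) with hb
  have hwk := hw0 k hk
  have hLk := h400 k hk
  have hLk0 : 0 < Real.log (w k) := by linarith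
  have hNn : ∀ π : GaussianInt, ((Nn π : ℕ) : ℝ) = (π.norm : ℝ) := by
    intro π
    have := Nn_cast π
    exact_mod_cast congrArg (fun z : ℤ => (z : ℝ)) this
  -- number of samples
  set q : ℕ := ⌈32 * w k * Real.log (w k) / l⌉₊ with hq
  have hq1 : 32 * w k * Real.log (w k) / l ≤ q := Nat.le_ceil _
  have hq2 : (q:ℝ) ≤ 64 * w k * Real.log (w k) / l := by
    have h1 : (q:ℝ) < 32 * w k * Real.log (w k) / l + 1 := Nat.ceil_lt_add_one (by positivity)
    have h2 : 1 ≤ 32 * w k * Real.log (w k) / l := by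
      rw [le_div_iff₀ hl0]
      have := hlw k hk
      nlinarith
    have h3 : 64 * w k * Real.log (w k) / l = 32 * w k * Real.log (w k) / l
      + 32 * w k * Real.log (w k) / l := by ring
    linarith
  have hscale := scale_ineq Z ν hν hν1 z (PU G' k) (G' k) (hsplitP k hk.le) (hsplit k hk)
    (ball R) hBR lam hlam hlam1 (str D l)
    (fun ω hω y _ hy => by
      rw [← PU_succ]
      exact pth_nonempty hDpos hE (havP (k + 1) hk) (hlamE ω hω y hy) l)
    hlpos (hdist_aux hD0 (hBlk k hk) (hDl k hk)) q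
    (fun π hπ => by
      have hN1 : w k < (Nn π : ℝ) := by rw [hNn]; exact (hBlk k hk).lo π hπ
      have hN2 : (Nn π : ℝ) ≤ 4 * w k := by rw [hNn]; exact (hBlk k hk).hi π hπ
      have hN0 : (0:ℝ) < Nn π := by linarith
      have h1 : Real.log (Nn π) ≤ q * (l / (4 * Nn π)) := by
        have h2 : Real.log (Nn π) ≤ 2 * Real.log (w k) := by
          have h3 := Real.log_le_log hN0 hN2
          rw [Real.log_mul (by norm_num) hwk.ne'] at h3
          have h4 : Real.log 4 ≤ 3 := by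
            have := Real.log_le_sub_one_of_pos (show (0:ℝ) < 4 by norm_num)
            linarith
          linarith
        refine h2.trans ?_
        have h5 : 32 * w k * Real.log (w k) ≤ q * l := by
          rwa [div_le_iff₀ hl0] at hq1
        rw [mul_div_assoc', le_div_iff₀ (by positivity)]
        nlinarith
      rw [Real.exp_neg]
      have h6 : (Nn π : ℝ) ≤ Real.exp (q * (l / (4 * Nn π))) := by
        rw [← Real.log_le_iff_le_exp hN0]; exact h1
      rw [mul_inv_le_iff₀ (Real.exp_pos _), one_mul]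
      exact h6)
  rw [← PU_succ] at hscale
  -- the information term
  have hI : q * (Real.log (ball R).card + FF Z ν z (str D l) (ball R) lam (PU G' k)
      - FF Z ν z (str D l) (ball R) lam (PU G' (k + 1))) ≤ τ * b := by
    have hΔ : 0 ≤ Real.log (ball R).card + F k - F (k + 1) := by
      have : F (k + 1) ≤ F k := FF_anti hν z _ _ hlam (by rw [PU_succ]; exact Finset.subset_union_left)
      linarith
    have h1 : (q:ℝ) * (Real.log (ball R).card + F k - F (k + 1))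
        ≤ (64 * w k * Real.log (w k) / l) * (c * l * (1 / Real.log (w k))) :=
      mul_le_mul hq2 hkF hΔ (by positivity)
    have h2 : (64 * w k * Real.log (w k) / l) * (c * l * (1 / Real.log (w k)))
        = τ * ((c0 / mI) * w k) := by
      rw [hc]
      field_simp
    calc _ ≤ _ := h1
      _ = _ := h2
      _ ≤ τ * b := mul_le_mul_of_nonneg_left hb1 hτ.le
  -- the past term
  have hP : HQ Z ν z (PU G' k) ≤ τ * b := by
    refine (HQ_le Z ν hν hν1 z _ (hsplitP k hk.le)).trans ?_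
    have h1 : ∑ π ∈ PU G' k, Real.log (Nn π) ≤ ∑ j ∈ Finset.range k, ∑ π ∈ G' j, Real.log (Nn π) := by
      exact sum_PU_le G' (fun π => Real.log_natCast_nonneg (Nn π)) k
    have h2 : ∑ j ∈ Finset.range k, ∑ π ∈ G' j, Real.log (Nn π)
        ≤ ∑ j ∈ Finset.range k, 4 * c0 * w j := by
      refine Finset.sum_le_sum (fun j hj => ?_)
      have hj' : j < n := (Finset.mem_range.1 hj).trans hk
      exact (blk_numbers hmI' hτ hτ1 (hlogw j hj') (hw1 j hj') (hBlk j hj')
        (hlow j hj') (hupp j hj')).2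
    have hκ : 2 ≤ 8 * (mI:ℝ) / τ := by
      rw [le_div_iff₀ hτ]
      have : (1:ℝ) ≤ mI := by exact_mod_cast hmI
      linarith
    have h3 := sum_lacunary n w (8 * mI / τ) hκ (fun k hk => (hw0 k hk).le) hlac k hk
    rw [← Finset.mul_sum] at h2
    have h4 : 4 * c0 * (2 * w k / (8 * mI / τ)) = τ * ((c0 / mI) * w k) := by
      field_simp
      ring
    calc _ ≤ _ := h1
      _ ≤ _ := h2
      _ ≤ 4 * c0 * (2 * w k / (8 * mI / τ)) := mul_le_mul_of_nonneg_left h3 (by positivity)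
      _ = _ := h4
      _ ≤ τ * b := mul_le_mul_of_nonneg_left hb1 hτ.le
  have hK := hKac k hk
  -- the state
  have hZ : Z.Nonempty := by
    by_contra h
    rw [Finset.not_nonempty_iff_eq_empty] at h
    rw [h] at hν1
    simp at hν1
  obtain ⟨ω, hω, hmax⟩ := Finset.exists_max_image Z (fun ω => ∑ p ∈ G' k,
    Real.log (1 + ((light (str D l) (PU G' (k + 1)) (ball R) (lam ω) (z ω) p).card : ℝ))) hZ
  refine ⟨ω, hω, ?_⟩
  have hsum : ∑ ω' ∈ Z, ν ω' * ∑ p ∈ G' k,
      Real.log (1 + ((light (str D l) (PU G' (k + 1)) (ball R) (lam ω') (z ω') p).card : ℝ))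
      ≤ ∑ ω' ∈ Z, ν ω' * ∑ p ∈ G' k,
      Real.log (1 + ((light (str D l) (PU G' (k + 1)) (ball R) (lam ω) (z ω) p).card : ℝ)) :=
    Finset.sum_le_sum (fun ω' hω' => mul_le_mul_of_nonneg_left (hmax ω' hω') (hν ω' hω'))
  rw [← Finset.sum_mul, hν1, one_mul] at hsum
  linarith

end Crest.Agent.R2.N640
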