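import Crest.Agent.R2.NoDrop640f

/-!
# R2 (Gaussian moat), block N1+N2 (helper640), part g: half of the primes, output shape
-/

set_option autoImplicit false

namespace Crest.Agent.R2.N640

open Finset Crest.Agent.R2.Gcd62

variable {l : ℕ}

lemma Nn_cast_real (π : GaussianInt) : ((Nn π : ℕ) : ℝ) = (π.norm : ℝ) := by
  have := Nn_cast π
  exact_mod_cast congrArg (fun z : ℤ => (z : ℝ)) this

lemma light_card_le (Ω : Finset (Fin l → GaussianInt)) (Q : Finset GaussianInt)
    (B : Finset GaussianInt) (lam : GaussianInt → ℝ) (z π : GaussianInt) :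
    (light Ω Q B lam z π).card ≤ Nn π := by
  classical
  unfold light
  exact (Finset.card_filter_le _ _).trans (by rw [Finset.card_range])

/-- at least half of the primes have many light classes -/
lemma half_light {τ w : ℝ} (hτ : 0 < τ) (hτ1 : τ ≤ 1 / 100) (hlog : 4 / τ ≤ Real.log w)
    (hw : 1 ≤ w) {G : Finset GaussianInt} (hB : X149.Blk w G) (L : GaussianInt → ℕ)
    (hL : ∀ p ∈ G, L p ≤ Nn p)
    (h : (1 - 3 * τ) * ∑ p ∈ G, Real.log (Nn p) ≤ ∑ p ∈ G, Real.log (1 + (L p : ℝ))) :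
    (G.card : ℝ) / 2
      ≤ ((G.filter (fun p => ((p.norm : ℝ) ^ (1 - 8 * τ)) ≤ (L p : ℝ))).card : ℝ) := by
  classical
  have hw0 : 0 < w := by linarith
  have hL4 : 4 ≤ τ * Real.log w := by
    rw [div_le_iff₀ hτ] at hlog; linarith
  have h400 : 400 ≤ Real.log w := by
    refine le_trans ?_ hlog
    rw [le_div_iff₀ hτ]; linarith
  have hlog2 : Real.log 2 ≤ 1 := by
    have := Real.log_le_sub_one_of_pos (show (0:ℝ) < 2 by norm_num)
    linarith
  have hlog4 : Real.log 4 ≤ 3 := by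
    have := Real.log_le_sub_one_of_pos (show (0:ℝ) < 4 by norm_num)
    linarith
  set T := G.filter (fun p => ((p.norm : ℝ) ^ (1 - 8 * τ)) ≤ (L p : ℝ)) with hT
  set T' := G.filter (fun p => ¬ ((p.norm : ℝ) ^ (1 - 8 * τ)) ≤ (L p : ℝ)) with hT'
  have hcard : (T.card : ℝ) + (T'.card : ℝ) = (G.card : ℝ) := by
    have := Finset.card_filter_add_card_filter_not (s := G)
      (fun p => ((p.norm : ℝ) ^ (1 - 8 * τ)) ≤ (L p : ℝ))
    exact_mod_cast this
  by_contra hcon
  push Not at hcon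
  have hT'big : (G.card : ℝ) / 2 < T'.card := by linarith
  -- pointwise bounds
  have hlow : ∀ p ∈ G, Real.log w ≤ Real.log (Nn p) := fun p hp => by
    refine Real.log_le_log hw0 ?_
    rw [Nn_cast_real]; exact (hB.lo p hp).le
  have hupp : ∀ p ∈ G, Real.log (Nn p) ≤ Real.log w + 3 := fun p hp => by
    have h3 : Real.log (Nn p) ≤ Real.log (4 * w) := by
      refine Real.log_le_log ?_ ?_
      · rw [Nn_cast_real]; linarith [hB.lo p hp]
      · rw [Nn_cast_real]; exact hB.hi p hp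
    rw [Real.log_mul (by norm_num) hw0.ne'] at h3
    linarith
  have hNpos : ∀ p ∈ G, (1:ℝ) < Nn p := fun p hp => by
    rw [Nn_cast_real]; linarith [hB.lo p hp]
  have h1 : ∀ p ∈ T, Real.log (1 + (L p : ℝ)) ≤ Real.log (Nn p) + 1 := by
    intro p hp
    have hpG : p ∈ G := (Finset.mem_filter.1 hp).1
    have hN := hNpos p hpG
    have hLp : (L p : ℝ) ≤ Nn p := by exact_mod_cast hL p hpG
    have : Real.log (1 + (L p : ℝ)) ≤ Real.log (2 * Nn p) :=
      Real.log_le_log (by positivity) (by linarith)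
    rw [Real.log_mul (by norm_num) (by linarith)] at this
    linarith
  have h2 : ∀ p ∈ T', Real.log (1 + (L p : ℝ)) ≤ (1 - 8 * τ) * Real.log (Nn p) + 1 := by
    intro p hp
    have hpG : p ∈ G := (Finset.mem_filter.1 hp).1
    have hlt := not_le.1 (Finset.mem_filter.1 hp).2
    have hN := hNpos p hpG
    rw [← Nn_cast_real] at hlt
    have hx1 : (1:ℝ) ≤ (Nn p : ℝ) ^ (1 - 8 * τ) := Real.one_le_rpow hN.le (by linarith)
    have : Real.log (1 + (L p : ℝ)) ≤ Real.log (2 * (Nn p : ℝ) ^ (1 - 8 * τ)) :=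
      Real.log_le_log (by positivity) (by linarith)
    rw [Real.log_mul (by norm_num) (by linarith), Real.log_rpow (by linarith)] at this
    linarith
  have hsum : ∑ p ∈ G, Real.log (1 + (L p : ℝ)) ≤
      ∑ p ∈ G, Real.log (Nn p) + G.card - 8 * τ * ∑ p ∈ T', Real.log (Nn p) := by
    have e1 : ∑ p ∈ G, Real.log (1 + (L p : ℝ)) = ∑ p ∈ T, Real.log (1 + (L p : ℝ))
        + ∑ p ∈ T', Real.log (1 + (L p : ℝ)) := by
      rw [hT, hT', Finset.sum_filter_add_sum_filter_not]
    have e2 : ∑ p ∈ G, Real.log (Nn p) = ∑ p ∈ T, Real.log (Nn p) + ∑ p ∈ T', Real.log (Nn p) := by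
      rw [hT, hT', Finset.sum_filter_add_sum_filter_not]
    have e3 := Finset.sum_le_sum h1
    have e4 := Finset.sum_le_sum h2
    rw [Finset.sum_add_distrib, Finset.sum_const, nsmul_eq_mul, mul_one] at e3 e4
    rw [← Finset.mul_sum] at e4
    rw [e1, e2]
    have : (1 - 8 * τ) * ∑ p ∈ T', Real.log (Nn p)
      = ∑ p ∈ T', Real.log (Nn p) - 8 * τ * ∑ p ∈ T', Real.log (Nn p) := by ring
    linarith
  have h3 : (T'.card : ℝ) * Real.log w ≤ ∑ p ∈ T', Real.log (Nn p) := by
    have := Finset.sum_le_sum (s := T') (fun p hp => hlow p (Finset.mem_filter.1 hp).1)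
    rwa [Finset.sum_const, nsmul_eq_mul] at this
  have h4 : ∑ p ∈ G, Real.log (Nn p) ≤ (G.card : ℝ) * (Real.log w + 3) := by
    have := Finset.sum_le_sum (s := G) (fun p hp => hupp p hp)
    rwa [Finset.sum_const, nsmul_eq_mul] at this
  have hg : (0:ℝ) ≤ G.card := Nat.cast_nonneg _
  have hgpos : (0:ℝ) < (T'.card : ℝ) := by linarith
  -- 8 τ ΣT' ≤ #G + 3 τ b
  have h5 : 8 * τ * ∑ p ∈ T', Real.log (Nn p) ≤ G.card + 3 * τ * ∑ p ∈ G, Real.log (Nn p) := by
    linarith
  have h6 : 8 * τ * ((T'.card : ℝ) * Real.log w) ≤ G.card + 3 * τ * ((G.card : ℝ) * (Real.log w + 3)) := by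
    have a1 := mul_le_mul_of_nonneg_left h3 (by positivity : (0:ℝ) ≤ 8 * τ)
    have a2 := mul_le_mul_of_nonneg_left h4 (by positivity : (0:ℝ) ≤ 3 * τ)
    linarith
  have hlw : 0 < Real.log w := by linarith
  have h7 : 8 * τ * ((G.card : ℝ) / 2 * Real.log w) < 8 * τ * ((T'.card : ℝ) * Real.log w) := by
    have : (G.card : ℝ) / 2 * Real.log w < (T'.card : ℝ) * Real.log w :=
      mul_lt_mul_of_pos_right hT'big hlw
    exact mul_lt_mul_of_pos_left this (by positivity)
  -- so 4 g X < g + 3 g X + 9 τ g, X = τ log w ≥ 4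
  have h8 : (G.card : ℝ) * (τ * Real.log w) < G.card + 9 * τ * G.card := by nlinarith
  have h9 : (G.card : ℝ) * 4 ≤ (G.card : ℝ) * (τ * Real.log w) := mul_le_mul_of_nonneg_left hL4 hg
  have h10 : 9 * τ * G.card ≤ (G.card : ℝ) := by nlinarith
  linarith

section Clusters

/-- support of the cluster law at `x` -/
noncomputable def cA (Ω : Finset (Fin l → GaussianInt)) (Q : Finset GaussianInt) (x : GaussianInt) :
    Finset GaussianInt :=
  open Classical in
  (pth Ω Q x).biUnion (fun om => Finset.univ.image (fun j : Fin l => x + om j))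

/-- the cluster law at `x` -/
noncomputable def cc (Ω : Finset (Fin l → GaussianInt)) (Q : Finset GaussianInt) (x v : GaussianInt) :
    ℝ :=
  open Classical in
  ∑ om ∈ pth Ω Q x, ((pth Ω Q x).card : ℝ)⁻¹ *
    ((l : ℝ)⁻¹ * ((Finset.univ.filter (fun j : Fin l => x + om j = v)).card : ℝ))

lemma mem_cA {Ω : Finset (Fin l → GaussianInt)} {Q : Finset GaussianInt} {x v : GaussianInt} :
    v ∈ cA Ω Q x ↔ ∃ om ∈ pth Ω Q x, ∃ j, x + om j = v := by
  classical
  unfold cA
  simp

lemma cc_nonneg (Ω : Finset (Fin l → GaussianInt)) (Q : Finset GaussianInt) (x v : GaussianInt) :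
    0 ≤ cc Ω Q x v := by
  unfold cc
  exact Finset.sum_nonneg (fun om _ => by positivity)

lemma cc_supp (Ω : Finset (Fin l → GaussianInt)) (Q : Finset GaussianInt) (x : GaussianInt) :
    ∀ v ∉ cA Ω Q x, cc Ω Q x v = 0 := by
  classical
  intro v hv
  unfold cc
  refine Finset.sum_eq_zero (fun om hom => ?_)
  have : Finset.univ.filter (fun j : Fin l => x + om j = v) = ∅ := by
    rw [Finset.filter_eq_empty_iff]
    intro j _ h
    exact hv (mem_cA.2 ⟨om, hom, j, h⟩)
  rw [this]
  simp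

lemma sum_cnt (A : Finset GaussianInt) (f : Fin l → GaussianInt) (hf : ∀ j, f j ∈ A)
    (p : GaussianInt → Prop) [DecidablePred p] :
    ∑ v ∈ A with p v, ((Finset.univ.filter (fun j => f j = v)).card : ℝ)
      = ((Finset.univ.filter (fun j => p (f j))).card : ℝ) := by
  classical
  have h := Finset.card_eq_sum_card_fiberwise (s := Finset.univ.filter (fun j => p (f j)))
    (t := A.filter p) (f := f) (fun j hj => by
      have hj' := (Finset.mem_filter.1 (Finset.mem_coe.1 hj)).2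
      exact Finset.mem_coe.2 (Finset.mem_filter.2 ⟨hf j, hj'⟩))
  rw [h]
  push_cast
  refine Finset.sum_congr rfl (fun v hv => ?_)
  have hpv := (Finset.mem_filter.1 hv).2
  congr 2
  ext j
  simp only [Finset.mem_filter, Finset.mem_univ, true_and]
  constructor
  · intro h; exact ⟨by rw [h]; exact hpv, h⟩
  · intro h; exact h.2

lemma cc_sum {Ω : Finset (Fin l → GaussianInt)} {Q : Finset GaussianInt} {x : GaussianInt}
    (A : Finset GaussianInt) (hA : cA Ω Q x ⊆ A) (p : GaussianInt → Prop) [DecidablePred p] :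
    ∑ v ∈ A with p v, cc Ω Q x v
      = ∑ om ∈ pth Ω Q x, ((pth Ω Q x).card : ℝ)⁻¹ *
        ((l : ℝ)⁻¹ * ((Finset.univ.filter (fun j : Fin l => p (x + om j))).card : ℝ)) := by
  classical
  unfold cc
  rw [Finset.sum_comm]
  refine Finset.sum_congr rfl (fun om hom => ?_)
  rw [← Finset.mul_sum, ← Finset.mul_sum]
  congr 2
  exact sum_cnt A (fun j => x + om j) (fun j => hA (mem_cA.2 ⟨om, hom, j, rfl⟩)) p

lemma cc_sum_one {Ω : Finset (Fin l → GaussianInt)} {Q : Finset GaussianInt} {x : GaussianInt}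
    (hl : 0 < l) (hne : (pth Ω Q x).Nonempty) : ∑ v ∈ cA Ω Q x, cc Ω Q x v = 1 := by
  classical
  have h := cc_sum (Ω := Ω) (Q := Q) (x := x) (cA Ω Q x) (Finset.Subset.refl _) (fun _ => True)
  rw [Finset.filter_true_of_mem (fun _ _ => trivial)] at h
  rw [h]
  have hl' : (l:ℝ) ≠ 0 := by exact_mod_cast hl.ne'
  have hc : ((pth Ω Q x).card : ℝ) ≠ 0 := by exact_mod_cast (Finset.card_pos.2 hne).ne'
  have : ∀ om ∈ pth Ω Q x, ((pth Ω Q x).card : ℝ)⁻¹ *
        ((l : ℝ)⁻¹ * ((Finset.univ.filter (fun j : Fin l => True)).card : ℝ))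
      = ((pth Ω Q x).card : ℝ)⁻¹ := by
    intro om _
    rw [Finset.filter_true_of_mem (fun _ _ => trivial), Finset.card_univ, Fintype.card_fin,
      inv_mul_cancel₀ hl', mul_one]
  rw [Finset.sum_congr rfl this, Finset.sum_const, nsmul_eq_mul, mul_inv_cancel₀ hc]

lemma cc_small {Ω : Finset (Fin l → GaussianInt)} {Q : Finset GaussianInt} {x : GaussianInt}
    (hinj : ∀ om ∈ Ω, Function.Injective om) (v : GaussianInt) :
    cc Ω Q x v ≤ 1 / (l : ℝ) := by
  classical
  unfold cc
  have : ∀ om ∈ pth Ω Q x, ((pth Ω Q x).card : ℝ)⁻¹ *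
      ((l : ℝ)⁻¹ * ((Finset.univ.filter (fun j : Fin l => x + om j = v)).card : ℝ))
      ≤ ((pth Ω Q x).card : ℝ)⁻¹ * (1 / (l:ℝ)) := by
    intro om hom
    refine mul_le_mul_of_nonneg_left ?_ (by positivity)
    have h1 : (Finset.univ.filter (fun j : Fin l => x + om j = v)).card ≤ 1 := by
      rw [Finset.card_le_one]
      intro a ha b hb
      have ha' := (Finset.mem_filter.1 ha).2
      have hb' := (Finset.mem_filter.1 hb).2
      exact hinj om (pth_subset _ _ _ hom) (add_left_cancel (ha'.trans hb'.symm))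
    have h2 : ((Finset.univ.filter (fun j : Fin l => x + om j = v)).card : ℝ) ≤ 1 := by
      exact_mod_cast h1
    calc (l:ℝ)⁻¹ * ((Finset.univ.filter (fun j : Fin l => x + om j = v)).card : ℝ)
        ≤ (l:ℝ)⁻¹ * 1 := mul_le_mul_of_nonneg_left h2 (by positivity)
      _ = 1 / (l:ℝ) := by rw [mul_one, one_div]
  refine (Finset.sum_le_sum this).trans ?_
  rw [Finset.sum_const, nsmul_eq_mul, ← mul_assoc]
  have h3 : ((pth Ω Q x).card : ℝ) * ((pth Ω Q x).card : ℝ)⁻¹ ≤ 1 := mul_inv_le_one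
  calc _ ≤ 1 * (1 / (l:ℝ)) := mul_le_mul_of_nonneg_right h3 (by positivity)
    _ = 1 / (l:ℝ) := one_mul _

/-- law of the leaves -/
noncomputable def lw {ι : Type} [Fintype ι] (leaf : ι → GaussianInt) (z : GaussianInt)
    (y : GaussianInt) : ℝ :=
  open Classical in
  ((Finset.univ.filter (fun i => leaf i - z = y)).card : ℝ) / (Fintype.card ι : ℝ)

lemma lw_nonneg {ι : Type} [Fintype ι] (leaf : ι → GaussianInt) (z y : GaussianInt) :
    0 ≤ lw leaf z y := by
  unfold lw; positivity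

lemma lw_pos {ι : Type} [Fintype ι] {leaf : ι → GaussianInt} {z y : GaussianInt}
    (h : 0 < lw leaf z y) : ∃ i, leaf i - z = y := by
  classical
  unfold lw at h
  by_contra hcon
  push Not at hcon
  have : Finset.univ.filter (fun i => leaf i - z = y) = ∅ := by
    rw [Finset.filter_eq_empty_iff]
    intro i _
    exact hcon i
  rw [this] at h
  simp at h

lemma lw_sum {ι : Type} [Fintype ι] (leaf : ι → GaussianInt) (z : GaussianInt)
    (B : Finset GaussianInt) (hB : ∀ i, leaf i - z ∈ B) (g : GaussianInt → ℝ) :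
    ∑ y ∈ B, lw leaf z y * g y = (∑ i, g (leaf i - z)) / (Fintype.card ι : ℝ) := by
  classical
  unfold lw
  have h := Finset.sum_fiberwise_of_maps_to (s := (Finset.univ : Finset ι)) (t := B)
    (g := fun i => leaf i - z) (fun i _ => hB i) (fun i => g (leaf i - z))
  rw [← h, Finset.sum_div]
  refine Finset.sum_congr rfl (fun y _ => ?_)
  have : ∑ i ∈ Finset.univ.filter (fun i => leaf i - z = y), g (leaf i - z)
      = ((Finset.univ.filter (fun i => leaf i - z = y)).card : ℝ) * g y := by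
    rw [Finset.sum_congr rfl (fun i hi => by rw [(Finset.mem_filter.1 hi).2]), Finset.sum_const,
      nsmul_eq_mul]
  rw [this]
  ring

lemma lw_sum_one {ι : Type} [Fintype ι] [Nonempty ι] (leaf : ι → GaussianInt) (z : GaussianInt)
    (B : Finset GaussianInt) (hB : ∀ i, leaf i - z ∈ B) : ∑ y ∈ B, lw leaf z y = 1 := by
  have h := lw_sum leaf z B hB (fun _ => 1)
  simp only [mul_one, Finset.sum_const, Finset.card_univ, nsmul_eq_mul] at h
  rw [h]
  have : (Fintype.card ι : ℝ) ≠ 0 := by exact_mod_cast Fintype.card_ne_zero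
  exact div_self this

/-- the mass of a class under the average of the cluster laws -/
lemma mass_eq {ι : Type} [Fintype ι] (leaf : ι → GaussianInt) (z : GaussianInt)
    (B : Finset GaussianInt) (hB : ∀ i, leaf i - z ∈ B) (Ω : Finset (Fin l → GaussianInt))
    (Q : Finset GaussianInt) (π n : GaussianInt) (A : Finset GaussianInt)
    (hA : ∀ i, cA Ω Q (leaf i) ⊆ A) [DecidablePred (fun v => π ∣ v - (z - n))] :
    ∑ v ∈ A with π ∣ v - (z - n), (∑ i, cc Ω Q (leaf i) v) / (Fintype.card ι : ℝ)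
      = mass Ω Q B (lw leaf z) z π n := by
  classical
  unfold mass
  rw [pw_sum Ω Q B (lw leaf z) z (fun s => (l : ℝ)⁻¹ *
    ((Finset.univ.filter (fun j : Fin l => π ∣ n + s.1 + s.2 j)).card : ℝ))]
  rw [lw_sum leaf z B hB (fun y => ∑ om ∈ pth Ω Q (z + y), ((pth Ω Q (z + y)).card : ℝ)⁻¹ *
    ((l : ℝ)⁻¹ * ((Finset.univ.filter (fun j : Fin l => π ∣ n + (y, om).1 + (y, om).2 j)).card : ℝ)))]
  rw [← Finset.sum_div, Finset.sum_comm]
  congr 1
  refine Finset.sum_congr rfl (fun i _ => ?_)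
  rw [cc_sum A (hA i) (fun v => π ∣ v - (z - n))]
  have e1 : z + (leaf i - z) = leaf i := by ring
  rw [e1]
  refine Finset.sum_congr rfl (fun om _ => ?_)
  congr 3
  refine congrArg Finset.card ?_
  ext j
  simp only [Finset.mem_filter, Finset.mem_univ, true_and]
  have e2 : leaf i + om j - (z - n) = n + (leaf i - z) + om j := by ring
  rw [e2]

end Clusters

end Crest.Agent.R2.N640
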