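import Crest.Agent.R2.NoDrop640g
import Crest.Agent.R2.End911n

/-!
# R2 (Gaussian moat), block N1+N2 (helper640), part h: the block statement `End911.LightStmt`
-/

set_option autoImplicit false

namespace Crest.Agent.R2.N640

open Finset Crest.Agent.R2.Gcd62
open Crest.Agent.R055 (IsProb ent cls)

lemma prod_dvd_iff {w : ℝ} {G : Finset GaussianInt} (hB : X149.Blk w G) (x : GaussianInt) :
    (∏ p ∈ G, p) ∣ x ↔ ∀ p ∈ G, p ∣ x := by
  classical
  constructor
  · intro h p hp
    exact (Finset.dvd_prod_of_mem (fun p => p) hp).trans h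
  · intro h
    refine Finset.prod_dvd_of_isRelPrime ?_ h
    intro p hp q hq hpq
    have hp' := hB.prime p hp
    have hq' := hB.prime q hq
    rw [Function.onFun, hp'.irreducible.isRelPrime_iff_not_dvd]
    intro hd
    exact hpq (hB.assoc p hp q hq ((hp'.dvd_prime_iff_associated hq').1 hd))

lemma ent_eq_HQ {Ω : Type} [Fintype Ω] (P : Ω → ℝ) (z : Ω → GaussianInt) {w : ℝ}
    {G : Finset GaussianInt} (hB : X149.Blk w G) :
    ent P (fun ω => X149.cl (∏ p ∈ G, p) (z ω)) = HQ Finset.univ P z G := by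
  classical
  unfold ent HQ
  refine Finset.sum_congr rfl (fun ω _ => ?_)
  congr 3
  unfold cls cm
  rw [Finset.sum_filter]
  refine Finset.sum_congr rfl (fun ω' _ => ?_)
  refine if_congr ?_ rfl rfl
  rw [X149.cl_eq_iff, prod_dvd_iff hB]

/-- **block N1+N2** -/
theorem lightStmt : End911.LightStmt := by
  classical
  intro D c0 τ mI hD hc0 hτ hτ1 hmI
  refine ⟨8 * mI / τ, Real.exp (4 / τ),
    (2 + Real.log ((2 * D + 1) ^ 2)) / (τ * c0 / (64 * mI)), 2 * Real.log 3, ?_⟩
  intro n w G' E l R hW hlac hBlk hlow hupp hH hR hl hDl hE hav Ω _ P z hP hzE hKac ι _ _ lf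
    hlfE hlfR
  have hB : ∀ ω i, lf ω i - z ω ∈ ball R := fun ω i => mem_ball.2 (hlfR ω i)
  obtain ⟨hlpos, k, hk, ω, -, hω⟩ := exists_scale D c0 τ mI hD hc0 hτ hτ1 hmI n w G' E l R hW hlac
    hBlk hlow hupp hH hR hl hDl hE hav (Finset.univ : Finset Ω) P (fun ω _ => hP.nonneg ω)
    hP.sum_eq z (fun ω => lw (lf ω) (z ω)) (fun ω y => lw_nonneg _ _ _)
    (fun ω _ => lw_sum_one (lf ω) (z ω) (ball R) (hB ω))
    (fun ω _ y hy => by
      obtain ⟨i, hi⟩ := lw_pos hy
      have e : z ω + y = lf ω i := by rw [← hi]; ring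
      rw [e]; exact hlfE ω i)
    (fun k hk => by
      rw [← ent_eq_HQ P z (hBlk k hk)]
      simp only [Nn_cast_real]
      exact hKac k hk)
  have hlogw : 4 / τ ≤ Real.log (w k) := by
    rw [Real.le_log_iff_exp_le ((Real.exp_pos _).trans_le (hW k hk))]
    exact hW k hk
  have hw1 : 1 ≤ w k := (Real.one_le_exp (by positivity)).trans (hW k hk)
  have hhalf := half_light hτ hτ1 hlogw hw1 (hBlk k hk)
    (fun p => (light (str D l) (PU G' (k + 1)) (ball R) (lw (lf ω) (z ω)) (z ω) p).card)
    (fun p _ => light_card_le _ _ _ _ _ _) hω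
  have hDpos : (0:ℝ) < D := by linarith
  have havP : ∀ π ∈ PU G' (k + 1), ∀ x ∈ E, ¬ π ∣ x := fun π hπ => by
    obtain ⟨j, hj, hj'⟩ := mem_PU.1 hπ
    exact hav j (by omega) π hj'
  refine ⟨k, hk, ω, fun i => cA (str D l) (PU G' (k + 1)) (lf ω i),
    fun i v => cc (str D l) (PU G' (k + 1)) (lf ω i) v, ?_, ?_⟩
  · refine ⟨fun i v => cc_nonneg _ _ _ _, fun i => cc_supp _ _ _,
      fun i => cc_sum_one hlpos (pth_nonempty hDpos hE havP (hlfE ω i) l), fun i v hv => ?_,
      fun i v => cc_small (fun om hom => str_inj hom) v⟩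
    obtain ⟨om, hom, j, rfl⟩ := mem_cA.1 hv
    have e : lf ω i + om j - lf ω i = om j := by ring
    rw [e]
    exact str_ab hDpos.le (pth_subset _ _ _ hom) j
  · refine ⟨(G' k).filter (fun p => ((p.norm : ℝ) ^ (1 - 8 * τ)) ≤
        ((light (str D l) (PU G' (k + 1)) (ball R) (lw (lf ω) (z ω)) (z ω) p).card : ℝ)),
      Finset.filter_subset _ _, ?_, ?_⟩
    · have h2 : ((G' k).card : ℝ) ≤ 2 * (((G' k).filter (fun p => ((p.norm : ℝ) ^ (1 - 8 * τ)) ≤
        ((light (str D l) (PU G' (k + 1)) (ball R) (lw (lf ω) (z ω)) (z ω) p).card : ℝ))).card : ℝ) := by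
        linarith
      exact_mod_cast h2
    · intro p hp
      have hpG : p ∈ G' k := (Finset.mem_filter.1 hp).1
      have hps : Split p := (hBlk k hk).rat p hpG
      have hcard := (Finset.mem_filter.1 hp).2
      set Lt := light (str D l) (PU G' (k + 1)) (ball R) (lw (lf ω) (z ω)) (z ω) p with hLt
      have hlt : ∀ m ∈ Lt, m < Nn p := by
        intro m hm
        rw [hLt] at hm
        unfold light at hm
        exact Finset.mem_range.1 (Finset.mem_filter.1 hm).1
      have hinj : ∀ m ∈ Lt, ∀ m' ∈ Lt, p ∣ (z ω - (m : GaussianInt)) - (z ω - (m' : GaussianInt)) →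
          m = m' := by
        intro m hm m' hm' hd
        have e : (z ω - (m : GaussianInt)) - (z ω - (m' : GaussianInt))
          = (m' : GaussianInt) - (m : GaussianInt) := by ring
        rw [e] at hd
        exact (nat_residue_unique hps (hlt m' hm') (hlt m hm) hd).symm
      refine ⟨Lt.image (fun m : ℕ => z ω - (m : GaussianInt)), ?_, ?_, ?_⟩
      · intro x hx y hy hd
        obtain ⟨m, hm, rfl⟩ := Finset.mem_image.1 hx
        obtain ⟨m', hm', rfl⟩ := Finset.mem_image.1 hy
        rw [hinj m hm m' hm' hd]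
      · rw [Finset.card_image_of_injOn]
        · exact hcard
        · intro m hm m' hm' h
          refine hinj m hm m' hm' ?_
          have h' : z ω - (m : GaussianInt) = z ω - (m' : GaussianInt) := h
          rw [h', sub_self]
          exact dvd_zero p
      · intro c hc
        obtain ⟨m, hm, rfl⟩ := Finset.mem_image.1 hc
        have h1 := mass_eq (lf ω) (z ω) (ball R) (hB ω) (str D l) (PU G' (k + 1)) p (m : GaussianInt)
          (Finset.univ.biUnion (fun i => cA (str D l) (PU G' (k + 1)) (lf ω i)))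
          (fun i => Finset.subset_biUnion_of_mem
            (fun i => cA (str D l) (PU G' (k + 1)) (lf ω i)) (Finset.mem_univ i))
        have h2 : mass (str D l) (PU G' (k + 1)) (ball R) (lw (lf ω) (z ω)) (z ω) p (m : GaussianInt)
            ≤ 1 / (4 * (Nn p : ℝ)) := by
          rw [hLt] at hm
          unfold light at hm
          exact (Finset.mem_filter.1 hm).2
        rw [Nn_cast_real] at h2
        rw [← h1] at h2
        convert h2

end Crest.Agent.R2.N640
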