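import Mathlib
import Crest.Agent.Lib.Mertens

/-!
# R2, block Z1: many primes `p ≡ 1 mod 4` in windows `(x, K x]` and `(w, 4 w]`

Elementary proof: `|∑_{n ≤ N} χ₄(n) Λ(n) / n| ≤ C`, then Mertens.
-/

set_option autoImplicit false

namespace Crest.Agent.R2.Z1

open Finset
open scoped ArithmeticFunction.vonMangoldt

/-- `χ₄` as a real valued function on `ℕ`. -/
noncomputable def ch (n : ℕ) : ℝ := ((ZMod.χ₄ (n : ZMod 4) : ℤ) : ℝ)

lemma ch_mul (a b : ℕ) : ch (a * b) = ch a * ch b := by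
  unfold ch
  rw [Nat.cast_mul, map_mul, Int.cast_mul]

lemma ch_eq (n : ℕ) : ch n = if n % 2 = 0 then 0 else if n % 4 = 1 then 1 else -1 := by
  unfold ch
  rw [ZMod.χ₄_nat_eq_if_mod_four]
  split_ifs <;> simp

/-- partial sums of `χ₄` -/
noncomputable def SS (n : ℕ) : ℝ := ∑ m ∈ Ioc 0 n, ch m

lemma SS_succ (n : ℕ) : SS (n + 1) = SS n + ch (n + 1) := by
  unfold SS
  rw [Finset.sum_Ioc_succ_top (by omega)]

lemma SS_eq (n : ℕ) : SS n = if n % 4 = 1 ∨ n % 4 = 2 then 1 else 0 := by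
  induction n with
  | zero => simp [SS]
  | succ n ih =>
    rw [SS_succ, ih, ch_eq]
    have h : n % 4 = 0 ∨ n % 4 = 1 ∨ n % 4 = 2 ∨ n % 4 = 3 := by omega
    rcases h with h | h | h | h
    · have h1 : (n + 1) % 4 = 1 := by omega
      have h2 : (n + 1) % 2 = 1 := by omega
      simp [h, h1, h2]
    · have h1 : (n + 1) % 4 = 2 := by omega
      have h2 : (n + 1) % 2 = 0 := by omega
      simp [h, h1, h2]
    · have h1 : (n + 1) % 4 = 3 := by omega
      have h2 : (n + 1) % 2 = 1 := by omega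
      simp [h, h1, h2]
    · have h1 : (n + 1) % 4 = 0 := by omega
      have h2 : (n + 1) % 2 = 0 := by omega
      simp [h, h1, h2]

lemma SS_diff (a b : ℕ) : |SS b - SS a| ≤ 1 := by
  rw [SS_eq, SS_eq]
  split_ifs <;> norm_num

lemma abel (g : ℕ → ℝ) (a : ℕ) (hg : ∀ n, a + 1 ≤ n → g (n + 1) ≤ g n) (b : ℕ) (hb : a + 1 ≤ b) :
    |∑ n ∈ Ioc a b, ch n * g n - (SS b - SS a) * g b| ≤ g (a + 1) - g b := by
  induction b, hb using Nat.le_induction with
  | base =>
    rw [Finset.sum_Ioc_succ_top le_rfl, SS_succ]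
    simp
  | succ b hb ih =>
    rw [Finset.sum_Ioc_succ_top (by omega), SS_succ]
    have h1 : ∑ k ∈ Ioc a b, ch k * g k + ch (b + 1) * g (b + 1) -
        (SS b + ch (b + 1) - SS a) * g (b + 1) =
        (∑ n ∈ Ioc a b, ch n * g n - (SS b - SS a) * g b) +
          (SS b - SS a) * (g b - g (b + 1)) := by ring
    rw [h1]
    have h2 : 0 ≤ g b - g (b + 1) := by linarith [hg b hb]
    calc |(∑ n ∈ Ioc a b, ch n * g n - (SS b - SS a) * g b) +
          (SS b - SS a) * (g b - g (b + 1))|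
        ≤ (g (a + 1) - g b) + 1 * (g b - g (b + 1)) := by
          refine (abs_add_le _ _).trans (add_le_add ih ?_)
          rw [abs_mul, abs_of_nonneg h2]
          exact mul_le_mul_of_nonneg_right (SS_diff a b) h2
      _ = g (a + 1) - g (b + 1) := by ring

lemma abel' (g : ℕ → ℝ) (a : ℕ) (hg : ∀ n, a + 1 ≤ n → g (n + 1) ≤ g n)
    (hg0 : ∀ n, a + 1 ≤ n → 0 ≤ g n) (b : ℕ) :
    |∑ n ∈ Ioc a b, ch n * g n| ≤ g (a + 1) := by
  rcases Nat.lt_or_ge a b with h | h
  · have h1 := abel g a hg b h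
    have h2 : |(SS b - SS a) * g b| ≤ g b := by
      rw [abs_mul, abs_of_nonneg (hg0 b h)]
      exact mul_le_of_le_one_left (hg0 b h) (SS_diff a b)
    calc |∑ n ∈ Ioc a b, ch n * g n| =
        |(∑ n ∈ Ioc a b, ch n * g n - (SS b - SS a) * g b) + (SS b - SS a) * g b| := by
          congr 1; ring
      _ ≤ (g (a + 1) - g b) + g b := (abs_add_le _ _).trans (add_le_add h1 h2)
      _ = g (a + 1) := by ring
  · rw [Finset.Ioc_eq_empty (by omega)]
    simpa using hg0 (a + 1) le_rfl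

/-- `L M = ∑_{m ≤ M} χ₄(m)/m`. -/
noncomputable def L (M : ℕ) : ℝ := ∑ m ∈ Ioc 0 M, ch m * (1 / (m : ℝ))

lemma L_diff {M N : ℕ} (h : M ≤ N) : |L N - L M| ≤ 1 / ((M : ℝ) + 1) := by
  have h1 : L N - L M = ∑ m ∈ Ioc M N, ch m * (1 / (m : ℝ)) := by
    unfold L
    rw [← Finset.sum_Ioc_consecutive _ (Nat.zero_le M) h]
    ring
  rw [h1]
  have h2 := abel' (fun n : ℕ => 1 / (n : ℝ)) M ?_ ?_ N
  · simpa using h2
  · intro n hn
    have : (0 : ℝ) < n := by exact_mod_cast (by omega : 0 < n)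
    apply one_div_le_one_div_of_le this
    push_cast
    linarith
  · intro n _
    positivity

lemma L_lower {N : ℕ} (h : 1 ≤ N) : 5 / 12 ≤ L N := by
  have hL1 : L 1 = 1 := by
    simp [L, ch_eq]
  have hL2 : L 2 = 1 := by
    unfold L
    rw [show (2 : ℕ) = 1 + 1 from rfl, Finset.sum_Ioc_succ_top (by norm_num)]
    simp [ch_eq]
  have hL3 : L 3 = 2 / 3 := by
    unfold L
    rw [show (3 : ℕ) = 1 + 1 + 1 from rfl, Finset.sum_Ioc_succ_top (by norm_num),
      Finset.sum_Ioc_succ_top (by norm_num)]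
    simp [ch_eq]
    norm_num
  rcases Nat.lt_or_ge N 3 with h3 | h3
  · interval_cases N
    · rw [hL1]; norm_num
    · rw [hL2]; norm_num
  · have h1 := L_diff h3
    rw [hL3] at h1
    norm_num at h1
    rw [abs_le] at h1
    linarith [h1.1]

/-- `f N = ∑_{n ≤ N} χ₄(n) log n / n` is bounded. -/
lemma f_bound (N : ℕ) : |∑ n ∈ Ioc 0 N, ch n * (Real.log n / n)| ≤ 2 := by
  have hdec : ∀ n : ℕ, 3 ≤ n → Real.log ((n + 1 : ℕ) : ℝ) / ((n + 1 : ℕ) : ℝ) ≤ Real.log n / n := by
    intro n hn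
    have h3 : Real.exp 1 ≤ (n : ℝ) := by
      have h4 : Real.exp 1 ≤ 3 := by
        have := Real.exp_one_lt_d9
        linarith
      have h5 : (3 : ℝ) ≤ n := by exact_mod_cast hn
      linarith
    apply Real.log_div_self_antitoneOn
    · exact h3
    · change Real.exp 1 ≤ ((n + 1 : ℕ) : ℝ)
      push_cast
      linarith
    · push_cast
      linarith
  rcases Nat.lt_or_ge N 3 with h3 | h3
  · interval_cases N
    · simp
    · simp
    · rw [show (2 : ℕ) = 1 + 1 from rfl, Finset.sum_Ioc_succ_top (by norm_num)]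
      simp [ch_eq]
  · rw [← Finset.sum_Ioc_consecutive _ (Nat.zero_le 2) (by omega : 2 ≤ N)]
    have h1 : ∑ n ∈ Ioc 0 2, ch n * (Real.log n / n) = 0 := by
      rw [show (2 : ℕ) = 1 + 1 from rfl, Finset.sum_Ioc_succ_top (by norm_num)]
      simp [ch_eq]
    rw [h1, zero_add]
    have h2 := abel' (fun n : ℕ => Real.log n / n) 2 (fun n hn => hdec n hn) ?_ N
    · refine h2.trans ?_
      have h4 : Real.log ((2 + 1 : ℕ) : ℝ) ≤ 3 := by
        refine (Real.log_le_sub_one_of_pos (by norm_num)).trans ?_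
        norm_num
      have h5 : Real.log ((2 + 1 : ℕ) : ℝ) / ((2 + 1 : ℕ) : ℝ) ≤ 3 / 3 := by
        norm_num at h4 ⊢
        linarith
      refine h5.trans ?_
      norm_num
    · intro n hn
      apply div_nonneg (Real.log_nonneg _) (by positivity)
      exact_mod_cast (by omega : 1 ≤ n)

/-- arithmetic function `χ₄ Λ / id` -/
noncomputable def FF : ArithmeticFunction ℝ := ⟨fun n => ch n * (Λ n / n), by simp⟩

/-- arithmetic function `χ₄ / id` -/
noncomputable def GG : ArithmeticFunction ℝ := ⟨fun n => ch n * (1 / n), by simp⟩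

lemma FF_apply (n : ℕ) : FF n = ch n * (Λ n / n) := rfl
lemma GG_apply (n : ℕ) : GG n = ch n * (1 / (n : ℝ)) := rfl

lemma FF_mul_GG (n : ℕ) : (FF * GG) n = ch n * (Real.log n / n) := by
  rw [ArithmeticFunction.mul_apply]
  rcases Nat.eq_zero_or_pos n with h0 | hn
  · subst h0; simp
  rw [← ArithmeticFunction.vonMangoldt_sum, Finset.sum_div, Finset.mul_sum,
    Nat.sum_divisorsAntidiagonal (f := fun a b => FF a * GG b)]
  refine Finset.sum_congr rfl fun d hd => ?_
  have hd' := Nat.dvd_of_mem_divisors hd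
  obtain ⟨m, rfl⟩ := hd'
  have hd0 : 0 < d := Nat.pos_of_ne_zero (by rintro rfl; simp at hn)
  have hm0 : 0 < m := Nat.pos_of_ne_zero (by rintro rfl; simp at hn)
  rw [Nat.mul_div_cancel_left _ hd0, FF_apply, GG_apply, ch_mul]
  push_cast
  have : (d : ℝ) ≠ 0 := by positivity
  have : (m : ℝ) ≠ 0 := by positivity
  field_simp

lemma psi_nat (N : ℕ) : ∑ n ∈ Ioc 0 N, Λ n ≤ 6 * N := by
  have h := Chebyshev.psi_le_const_mul_self (x := (N : ℝ)) (by positivity)
  unfold Chebyshev.psi at h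
  rw [Nat.floor_natCast] at h
  refine h.trans ?_
  gcongr
  have h4 : Real.log 4 ≤ 2 := by
    rw [show (4 : ℝ) = 2 ^ 2 by norm_num, Real.log_pow]
    have := Real.log_two_lt_d9
    push_cast
    linarith
  linarith

/-- `∑_{n ≤ N} χ₄(n) Λ(n)/n` is bounded -/
lemma char_bound (N : ℕ) : |∑ n ∈ Ioc 0 N, ch n * (Λ n / n)| ≤ 20 := by
  rcases Nat.eq_zero_or_pos N with h0 | hN
  · subst h0; simp
  have hN' : (0 : ℝ) < N := by exact_mod_cast hN
  have h1 := ArithmeticFunction.sum_Ioc_mul_eq_sum_sum FF GG N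
  simp_rw [FF_mul_GG] at h1
  have h2 : ∑ n ∈ Ioc 0 N, FF n * ∑ m ∈ Ioc 0 (N / n), GG m =
      L N * ∑ n ∈ Ioc 0 N, ch n * (Λ n / n) +
        ∑ n ∈ Ioc 0 N, ch n * (Λ n / n) * (L (N / n) - L N) := by
    rw [Finset.mul_sum, ← Finset.sum_add_distrib]
    refine Finset.sum_congr rfl fun n _ => ?_
    rw [FF_apply]
    change _ * L (N / n) = _
    ring
  rw [h2] at h1
  have hch : ∀ n : ℕ, |ch n| ≤ 1 := by
    intro n
    rw [ch_eq]
    split_ifs <;> norm_num
  have h3 : |∑ n ∈ Ioc 0 N, ch n * (Λ n / n) * (L (N / n) - L N)| ≤ 6 := by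
    calc |∑ n ∈ Ioc 0 N, ch n * (Λ n / n) * (L (N / n) - L N)|
        ≤ ∑ n ∈ Ioc 0 N, |ch n * (Λ n / n) * (L (N / n) - L N)| :=
          Finset.abs_sum_le_sum_abs _ _
      _ ≤ ∑ n ∈ Ioc 0 N, Λ n * (1 / N) := by
          refine Finset.sum_le_sum fun n hn => ?_
          rw [Finset.mem_Ioc] at hn
          have hn0 : (0 : ℝ) < n := by exact_mod_cast hn.1
          have hL : |L (N / n) - L N| ≤ n / N := by
            rw [abs_sub_comm]
            refine (L_diff (Nat.div_le_self N n)).trans ?_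
            rw [div_le_div_iff₀ (by positivity) hN', one_mul]
            have h5 : N < n * (N / n + 1) := by
              have := Nat.lt_mul_div_succ N hn.1
              simpa using this
            have h6 : (N : ℝ) < n * (((N / n : ℕ) : ℝ) + 1) := by exact_mod_cast h5
            exact h6.le
          have hΛ : (0 : ℝ) ≤ Λ n := ArithmeticFunction.vonMangoldt_nonneg
          rw [abs_mul, abs_mul, abs_of_nonneg (div_nonneg hΛ hn0.le)]
          calc |ch n| * (Λ n / n) * |L (N / n) - L N| ≤ 1 * (Λ n / n) * (n / N) := by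
                apply mul_le_mul _ hL (abs_nonneg _) (by positivity)
                exact mul_le_mul_of_nonneg_right (hch n) (by positivity)
            _ = Λ n * (1 / N) := by field_simp
      _ = (∑ n ∈ Ioc 0 N, Λ n) * (1 / N) := by rw [Finset.sum_mul]
      _ ≤ 6 * N * (1 / N) := by
          apply mul_le_mul_of_nonneg_right (psi_nat N) (by positivity)
      _ = 6 := by field_simp
  have h4 := f_bound N
  rw [h1] at h4
  have hLN := L_lower hN
  set X := ∑ n ∈ Ioc 0 N, ch n * (Λ n / n) with hX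
  set Y := ∑ n ∈ Ioc 0 N, ch n * (Λ n / n) * (L (N / n) - L N)
  have h5 : |L N * X| ≤ 8 := by
    have : L N * X = (L N * X + Y) - Y := by ring
    rw [this]
    refine (abs_sub _ _).trans ?_
    linarith
  rw [abs_mul, abs_of_nonneg (by linarith : (0 : ℝ) ≤ L N)] at h5
  nlinarith [abs_nonneg X]

/-- Mertens for `Λ`, upper bound. -/
lemma lambda_upper {N : ℕ} (hN : 1 ≤ N) : ∑ n ∈ Ioc 0 N, Λ n / n ≤ Real.log N + 6 := by
  have hN' : (0 : ℝ) < N := by exact_mod_cast hN
  have h1 := ArithmeticFunction.sum_Ioc_mul_zeta_eq_sum (R := ℝ) Λ N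
  rw [ArithmeticFunction.vonMangoldt_mul_zeta] at h1
  have h2 : ∑ n ∈ Ioc 0 N, (ArithmeticFunction.log n : ℝ) ≤ N * Real.log N := by
    calc ∑ n ∈ Ioc 0 N, (ArithmeticFunction.log n : ℝ) ≤ ∑ n ∈ Ioc 0 N, Real.log N := by
          refine Finset.sum_le_sum fun n hn => ?_
          rw [Finset.mem_Ioc] at hn
          rw [ArithmeticFunction.log_apply]
          apply Real.log_le_log (by exact_mod_cast hn.1) (by exact_mod_cast hn.2)
      _ = N * Real.log N := by simp
  have h3 : ∑ n ∈ Ioc 0 N, Λ n * (N / n - 1) ≤ ∑ n ∈ Ioc 0 N, Λ n * ((N / n : ℕ) : ℝ) := by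
    refine Finset.sum_le_sum fun n hn => ?_
    rw [Finset.mem_Ioc] at hn
    have hn0 : (0 : ℝ) < n := by exact_mod_cast hn.1
    have hΛ : (0 : ℝ) ≤ Λ n := ArithmeticFunction.vonMangoldt_nonneg
    apply mul_le_mul_of_nonneg_left _ hΛ
    have h5 : N < n * (N / n + 1) := by
      have := Nat.lt_mul_div_succ N hn.1
      simpa using this
    have h6 : (N : ℝ) < n * (((N / n : ℕ) : ℝ) + 1) := by exact_mod_cast h5
    rw [sub_le_iff_le_add, div_le_iff₀ hn0]
    linarith
  have h4 : ∑ n ∈ Ioc 0 N, Λ n * ((N : ℝ) / n - 1) =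
      N * ∑ n ∈ Ioc 0 N, Λ n / n - ∑ n ∈ Ioc 0 N, Λ n := by
    rw [Finset.mul_sum, ← Finset.sum_sub_distrib]
    refine Finset.sum_congr rfl fun n _ => ?_
    ring
  have h5 := psi_nat N
  have h6 : N * ∑ n ∈ Ioc 0 N, Λ n / n ≤ N * (Real.log N + 6) := by
    have h7 : ∑ n ∈ Ioc 0 N, Λ n * ((N / n : ℕ) : ℝ) ≤ N * Real.log N := by
      rw [← h1]; exact h2
    linarith
  exact le_of_mul_le_mul_left h6 hN'

open Crest.Agent.Lib in
/-- `∑_{p ≤ n} χ₄(p) log p / p` is bounded -/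
lemma char_prime_bound {N : ℕ} (hN : 1 ≤ N) :
    |∑ p ∈ Nat.primesLE N, ch p * (Real.log p / p)| ≤ 29 := by
  have h1 := char_bound N
  have h2 := lambda_upper hN
  have h3 := (abs_le.1 (Mertens.mertens_one N hN)).1
  have hsplit : ∀ g : ℕ → ℝ, ∑ n ∈ Ioc 0 N, g n =
      ∑ n ∈ Nat.primesLE N, g n + ∑ n ∈ (Ioc 0 N).filter (fun n => ¬ n.Prime), g n := by
    intro g
    rw [Nat.primesLE_eq_filter_Ioc_zero, Finset.sum_filter_add_sum_filter_not]
  rw [hsplit] at h1 h2
  have hp : ∀ c : ℕ → ℝ, ∑ n ∈ Nat.primesLE N, c n * (Λ n / n) =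
      ∑ p ∈ Nat.primesLE N, c p * (Real.log p / p) := by
    intro c
    refine Finset.sum_congr rfl fun p hp => ?_
    rw [Nat.primesLE_eq_filter_Ioc_zero, Finset.mem_filter] at hp
    rw [ArithmeticFunction.vonMangoldt_apply_prime hp.2]
  have hA : ∑ n ∈ Nat.primesLE N, (Λ n / n : ℝ) = Mertens.A N := by
    have := hp (fun _ => 1)
    simpa [Mertens.A] using this
  rw [hA] at h2
  rw [hp] at h1
  have hch : ∀ n : ℕ, |ch n| ≤ 1 := by
    intro n
    rw [ch_eq]
    split_ifs <;> norm_num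
  have h4 : |∑ n ∈ (Ioc 0 N).filter (fun n => ¬ n.Prime), ch n * (Λ n / n)| ≤
      ∑ n ∈ (Ioc 0 N).filter (fun n => ¬ n.Prime), (Λ n / n : ℝ) := by
    refine (Finset.abs_sum_le_sum_abs _ _).trans (Finset.sum_le_sum fun n _ => ?_)
    have hΛ : (0 : ℝ) ≤ Λ n := ArithmeticFunction.vonMangoldt_nonneg
    rw [abs_mul, abs_of_nonneg (div_nonneg hΛ (by positivity : (0 : ℝ) ≤ n))]
    exact mul_le_of_le_one_left (by positivity) (hch n)
  have h5 : ∑ p ∈ Nat.primesLE N, ch p * (Real.log p / p) =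
      (∑ p ∈ Nat.primesLE N, ch p * (Real.log p / p) +
        ∑ n ∈ (Ioc 0 N).filter (fun n => ¬ n.Prime), ch n * (Λ n / n)) -
        ∑ n ∈ (Ioc 0 N).filter (fun n => ¬ n.Prime), ch n * (Λ n / n) := by ring
  rw [h5]
  refine (abs_sub _ _).trans ?_
  linarith

/-- `∑_{p ≤ n, p ≡ 1 (4)} log p / p`. -/
noncomputable def S1 (n : ℕ) : ℝ := ∑ p ∈ (Ioc 0 n).filter (fun p => p.Prime ∧ p % 4 = 1), Real.log p / p

open Crest.Agent.Lib in
/-- Mertens' first theorem for `p ≡ 1 mod 4`. -/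
theorem S1_bound {N : ℕ} (hN : 1 ≤ N) : |S1 N - 1 / 2 * Real.log N| ≤ 17 := by
  have h1 := char_prime_bound hN
  have h3 := Mertens.mertens_one N hN
  have h4 : ∑ p ∈ Nat.primesLE N, ch p * (Real.log p / p) + Mertens.A N - 2 * S1 N =
      ∑ p ∈ Nat.primesLE N, (if p = 2 then Real.log p / p else 0) := by
    unfold Mertens.A S1
    rw [Finset.mul_sum]
    have h5 : ∑ p ∈ (Ioc 0 N).filter (fun p => p.Prime ∧ p % 4 = 1), 2 * (Real.log p / p) =
        ∑ p ∈ Nat.primesLE N, (if p % 4 = 1 then 2 * (Real.log p / p) else 0) := by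
      rw [← Finset.sum_filter, Nat.primesLE_eq_filter_Ioc_zero, Finset.filter_filter]
    rw [h5, ← Finset.sum_add_distrib, ← Finset.sum_sub_distrib]
    refine Finset.sum_congr rfl fun p hp => ?_
    rw [Nat.primesLE_eq_filter_Ioc_zero, Finset.mem_filter] at hp
    rw [ch_eq]
    rcases hp.2.eq_two_or_odd with h2 | h2
    · subst h2
      norm_num
    · have hne : p ≠ 2 := by omega
      rw [if_neg (by omega : ¬ p % 2 = 0), if_neg hne]
      split_ifs <;> ring
  have h5 : 0 ≤ ∑ p ∈ Nat.primesLE N, (if p = 2 then Real.log p / p else 0) := by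
    refine Finset.sum_nonneg fun p _ => ?_
    split_ifs with h
    · subst h
      positivity
    · exact le_rfl
  have h6 : ∑ p ∈ Nat.primesLE N, (if p = 2 then Real.log (p : ℝ) / p else 0) ≤ 1 := by
    rw [Finset.sum_ite_eq']
    split_ifs
    · have := Real.log_two_lt_d9
      push_cast
      linarith
    · norm_num
  rw [abs_le] at h1 h3 ⊢
  constructor <;> linarith [h1.1, h1.2, h3.1, h3.2]

/-- primes `p ≡ 1 mod 4` with `a < p ≤ b` -/
noncomputable def PP (a b : ℝ) : Finset ℕ :=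
  (Ioc ⌊a⌋₊ ⌊b⌋₊).filter (fun p => p.Prime ∧ p % 4 = 1)

lemma mem_PP {a b : ℝ} (ha : 0 ≤ a) (hb : 0 ≤ b) {p : ℕ} :
    p ∈ PP a b ↔ (a < p ∧ (p : ℝ) ≤ b) ∧ p.Prime ∧ p % 4 = 1 := by
  unfold PP
  rw [Finset.mem_filter, Finset.mem_Ioc, Nat.floor_lt ha, Nat.le_floor_iff hb]

lemma sum_PP {a b : ℝ} (hab : a ≤ b) :
    ∑ p ∈ PP a b, Real.log p / p = S1 ⌊b⌋₊ - S1 ⌊a⌋₊ := by
  unfold PP S1
  rw [Finset.sum_filter, Finset.sum_filter, Finset.sum_filter,
    ← Finset.sum_Ioc_consecutive _ (Nat.zero_le ⌊a⌋₊) (Nat.floor_le_floor hab)]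
  ring

/-- (Z1a) many primes in `(x, 4^60 x]`. -/
theorem card_PP_ge_aux {x K : ℝ} (hx : 1 ≤ x) (hK1 : 4 ≤ K) (hKlog : Real.log K = 120 * Real.log 2) :
    x / Real.log (K * x) ≤ #(PP x (K * x)) := by
  have hxK : x ≤ K * x := by nlinarith
  have h1K : (1 : ℝ) ≤ K * x := hx.trans hxK
  have hf1 : 1 ≤ ⌊x⌋₊ := Nat.le_floor (by exact_mod_cast hx)
  have hf2 : 1 ≤ ⌊K * x⌋₊ := Nat.le_floor (by exact_mod_cast h1K)
  have h1 := S1_bound hf1
  have h2 := S1_bound hf2
  have h3 := sum_PP hxK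
  have h4 : Real.log (⌊x⌋₊ : ℝ) ≤ Real.log x :=
    Real.log_le_log (by exact_mod_cast hf1) (Nat.floor_le (by linarith))
  have h5 : Real.log (K * x / 2) ≤ Real.log (⌊K * x⌋₊ : ℝ) := by
    apply Real.log_le_log (by positivity)
    have := Nat.lt_floor_add_one (K * x)
    have h6 : (4 : ℝ) ≤ K * x := by nlinarith
    linarith
  have h6 : Real.log (K * x / 2) = 119 * Real.log 2 + Real.log x := by
    rw [Real.log_div (by positivity) (by norm_num), Real.log_mul (by positivity) (by positivity),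
      hKlog]
    ring
  have h7 := Real.log_two_gt_d9
  rw [abs_le] at h1 h2
  have h8 : 1 ≤ ∑ p ∈ PP x (K * x), Real.log p / p := by
    rw [h3]
    linarith [h1.1, h1.2, h2.1, h2.2]
  have hlog : 0 < Real.log (K * x) := Real.log_pos (by nlinarith)
  have h9 : ∑ p ∈ PP x (K * x), Real.log p / p ≤
      ∑ p ∈ PP x (K * x), Real.log (K * x) / x := by
    refine Finset.sum_le_sum fun p hp => ?_
    rw [mem_PP (by linarith) (by linarith)] at hp
    have hp0 : (0 : ℝ) < p := by linarith [hp.1.1]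
    apply div_le_div₀ hlog.le _ (by linarith) hp.1.1.le
    exact Real.log_le_log hp0 hp.1.2
  rw [Finset.sum_const, nsmul_eq_mul] at h9
  rw [div_le_iff₀ hlog]
  have h10 := h8.trans h9
  rw [mul_div_assoc', le_div_iff₀ (by linarith)] at h10
  linarith

lemma log_K : Real.log ((4 : ℝ) ^ 60) = 120 * Real.log 2 := by
  rw [show (4 : ℝ) ^ 60 = 2 ^ 120 by norm_num, Real.log_pow]
  norm_num

/-- (Z1a) many primes in `(x, 4^60 x]`. -/
theorem card_PP_ge {x : ℝ} (hx : 1 ≤ x) :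
    x / Real.log (4 ^ 60 * x) ≤ #(PP x (4 ^ 60 * x)) :=
  card_PP_ge_aux hx (by norm_num) log_K

/-- (Z1b) a dyadic window `(w, 4 w]`, `w ∈ [x, 4^60 x]`, with many primes `≡ 1 mod 4`. -/
theorem exists_window : ∃ c x0 : ℝ, 0 < c ∧ 1 ≤ x0 ∧ ∀ x : ℝ, x0 ≤ x →
    ∃ i : ℕ, i < 60 ∧ c * (4 ^ i * x) / Real.log (4 ^ i * x) ≤ #(PP (4 ^ i * x) (4 * (4 ^ i * x))) := by
  refine ⟨1 / (120 * 4 ^ 60), 4 ^ 60, by positivity, by norm_num, fun x hx => ?_⟩
  have hx1 : (1 : ℝ) ≤ x := le_trans (by norm_num) hx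
  have hx2 : (4 : ℝ) ≤ x := le_trans (by norm_num) hx
  by_contra hcon
  push Not at hcon
  have h1 := card_PP_ge hx1
  have hsub : PP x (4 ^ 60 * x) ⊆ (Finset.range 60).biUnion
      (fun i => PP (4 ^ i * x) (4 * (4 ^ i * x))) := by
    have key : ∀ r : ℕ, PP x (4 ^ r * x) ⊆ (Finset.range r).biUnion
        (fun i => PP (4 ^ i * x) (4 * (4 ^ i * x))) := by
      intro r
      induction r with
      | zero =>
        intro p hp
        rw [mem_PP (by linarith) (by simp; linarith)] at hp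
        simp only [pow_zero, one_mul] at hp
        linarith [hp.1.1, hp.1.2]
      | succ r ih =>
        intro p hp
        have h0 : (0 : ℝ) ≤ 4 ^ r * x := by positivity
        have h0' : (0 : ℝ) ≤ 4 ^ (r + 1) * x := by positivity
        rw [mem_PP (by linarith) h0'] at hp
        rw [Finset.mem_biUnion]
        by_cases hc : (p : ℝ) ≤ 4 ^ r * x
        · have h2 : p ∈ PP x (4 ^ r * x) := by
            rw [mem_PP (by linarith) h0]
            exact ⟨⟨hp.1.1, hc⟩, hp.2⟩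
          have h3 := ih h2
          rw [Finset.mem_biUnion] at h3
          obtain ⟨i, hi, hi2⟩ := h3
          exact ⟨i, Finset.mem_range.2 (lt_trans (Finset.mem_range.1 hi) (Nat.lt_succ_self r)), hi2⟩
        · refine ⟨r, Finset.mem_range.2 (Nat.lt_succ_self r), ?_⟩
          rw [mem_PP h0 (by positivity)]
          refine ⟨⟨not_le.1 hc, ?_⟩, hp.2⟩
          have := hp.1.2
          rw [pow_succ] at this
          linarith
    exact key 60
  have hcard : (#(PP x (4 ^ 60 * x)) : ℝ) ≤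
      ∑ i ∈ Finset.range 60, (#(PP (4 ^ i * x) (4 * (4 ^ i * x))) : ℝ) := by
    have := (Finset.card_le_card hsub).trans Finset.card_biUnion_le
    exact_mod_cast this
  have hlogx : 0 < Real.log x := Real.log_pos (by linarith)
  have hterm : ∀ i ∈ Finset.range 60, (#(PP (4 ^ i * x) (4 * (4 ^ i * x))) : ℝ) <
      1 / 120 * (x / Real.log x) := by
    intro i hi
    rw [Finset.mem_range] at hi
    refine (hcon i hi).trans_le ?_
    have h4i : (4 : ℝ) ^ i ≤ 4 ^ 60 := pow_le_pow_right₀ (by norm_num) hi.le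
    have h4i' : (1 : ℝ) ≤ 4 ^ i := one_le_pow₀ (by norm_num)
    have hl : Real.log x ≤ Real.log (4 ^ i * x) := by
      apply Real.log_le_log (by linarith)
      nlinarith
    rw [mul_div_assoc', div_le_div_iff₀ (by linarith) hlogx]
    have h5 : 1 / (120 * 4 ^ 60) * (4 ^ i * x) ≤ 1 / 120 * x := by
      rw [div_mul_eq_mul_div, div_le_iff₀ (by positivity)]
      nlinarith
    exact mul_le_mul h5 hl hlogx.le (by positivity)
  have hsum : ∑ i ∈ Finset.range 60, (#(PP (4 ^ i * x) (4 * (4 ^ i * x))) : ℝ) <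
      ∑ _i ∈ Finset.range 60, 1 / 120 * (x / Real.log x) :=
    Finset.sum_lt_sum_of_nonempty ⟨0, by simp⟩ hterm
  rw [Finset.sum_const, Finset.card_range, nsmul_eq_mul] at hsum
  have h6 : x / (2 * Real.log x) ≤ x / Real.log (4 ^ 60 * x) := by
    apply div_le_div_of_nonneg_left (by linarith) (Real.log_pos (by nlinarith))
    rw [Real.log_mul (by norm_num) (by linarith)]
    have : Real.log (4 ^ 60) ≤ Real.log x := Real.log_le_log (by norm_num) hx
    linarith
  have h7 : x / (2 * Real.log x) = ((60 : ℕ) : ℝ) * (1 / 120 * (x / Real.log x)) := by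
    push_cast
    field_simp
    ring
  rw [← h7] at hsum
  exact absurd ((h6.trans h1).trans hcard) (not_le.2 hsum)

/-! ### Gaussian primes -/

lemma prime_of_norm_prime {z : GaussianInt} {p : ℕ} (hp : p.Prime) (hz : z.norm = p) : Prime z := by
  apply Irreducible.prime
  constructor
  · intro hu
    rw [← Zsqrtd.norm_eq_one_iff, hz] at hu
    have : p = 1 := by simpa using hu
    exact hp.one_lt.ne' this
  · intro a b hab
    have h1 : a.norm.natAbs * b.norm.natAbs = p := by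
      rw [← Int.natAbs_mul, ← Zsqrtd.norm_mul, ← hab, hz]
      simp
    rcases (Nat.prime_mul_iff.1 (h1 ▸ hp)) with h | h
    · exact Or.inr (Zsqrtd.norm_eq_one_iff.1 h.2)
    · exact Or.inl (Zsqrtd.norm_eq_one_iff.1 h.2)

lemma norm_eq_of_associated {z z' : GaussianInt} (h : Associated z z') : z.norm = z'.norm := by
  obtain ⟨u, rfl⟩ := h
  rw [Zsqrtd.norm_mul]
  have h1 : (u : GaussianInt).norm.natAbs = 1 := Zsqrtd.norm_eq_one_iff.2 u.isUnit
  have h2 : 0 ≤ (u : GaussianInt).norm := GaussianInt.norm_nonneg _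
  have h3 : (u : GaussianInt).norm = 1 := by omega
  rw [h3, mul_one]

lemma star_not_associated {z : GaussianInt} {p : ℕ} (hp : p.Prime) (hp4 : p % 4 = 1)
    (hz : z.norm = p) : ¬ Associated (star z) z := by
  rintro ⟨u, hu⟩
  have h1 : (u : GaussianInt).norm.natAbs = 1 := Zsqrtd.norm_eq_one_iff.2 u.isUnit
  have h2 : 0 ≤ (u : GaussianInt).norm := GaussianInt.norm_nonneg _
  have h3 : (u : GaussianInt).norm = 1 := by omega
  set s := (u : GaussianInt).re with hs
  set t := (u : GaussianInt).im with ht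
  have h4 : s * s + t * t = 1 := by
    rw [Zsqrtd.norm_def] at h3
    linarith
  have hre : z.re * s + z.im * t = z.re := by
    have := congrArg Zsqrtd.re hu
    simp only [Zsqrtd.re_mul, Zsqrtd.re_star, Zsqrtd.im_star] at this
    linarith
  have him : z.re * t - z.im * s = z.im := by
    have := congrArg Zsqrtd.im hu
    simp only [Zsqrtd.im_mul, Zsqrtd.re_star, Zsqrtd.im_star] at this
    linarith
  have hn : z.re * z.re + z.im * z.im = p := by
    rw [Zsqrtd.norm_def] at hz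
    linarith
  have hsq : ∀ a : ℤ, a * a ≠ p := by
    intro a ha
    have h5 : a.natAbs * a.natAbs = p := by
      have : ((a.natAbs * a.natAbs : ℕ) : ℤ) = p := by
        rw [Int.natAbs_mul_self]
        exact ha
      exact_mod_cast this
    rcases Nat.prime_mul_iff.1 (h5 ▸ hp) with h | h
    · have := h.1.one_lt
      omega
    · have := h.1.one_lt
      omega
  have hodd : ∀ a : ℤ, 2 * (a * a) ≠ p := by
    intro a ha
    omega
  have hcases : (s = 1 ∧ t = 0) ∨ (s = -1 ∧ t = 0) ∨ (s = 0 ∧ t = 1) ∨ (s = 0 ∧ t = -1) := by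
    have hs1 : -1 ≤ s ∧ s ≤ 1 := by constructor <;> nlinarith
    have ht1 : -1 ≤ t ∧ t ≤ 1 := by constructor <;> nlinarith
    obtain ⟨a1, a2⟩ := hs1
    obtain ⟨b1, b2⟩ := ht1
    have : s = -1 ∨ s = 0 ∨ s = 1 := by omega
    have : t = -1 ∨ t = 0 ∨ t = 1 := by omega
    rcases ‹s = -1 ∨ s = 0 ∨ s = 1› with h | h | h <;> rcases this with h' | h' | h' <;>
      rw [h, h'] at h4 <;> simp at h4 <;> simp [h, h']
  rcases hcases with ⟨h, h'⟩ | ⟨h, h'⟩ | ⟨h, h'⟩ | ⟨h, h'⟩ <;> rw [h, h'] at hre him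
  · have hb : z.im = 0 := by linarith
    rw [hb] at hn
    exact hsq z.re (by linarith)
  · have hb : z.re = 0 := by linarith
    rw [hb] at hn
    exact hsq z.im (by linarith)
  · have hb : z.im = z.re := by linarith
    rw [hb] at hn
    exact hodd z.re (by linarith)
  · have hb : z.im = -z.re := by linarith
    rw [hb] at hn
    exact hodd z.re (by linarith)

/-- a Gaussian prime above `p ≡ 1 mod 4`. -/
theorem exists_gauss (p : ℕ) (hp : p.Prime) (hp4 : p % 4 = 1) : ∃ z : GaussianInt, z.norm = p := by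
  have := Fact.mk hp
  obtain ⟨a, b, hab⟩ := Nat.Prime.sq_add_sq (p := p) (by omega)
  refine ⟨⟨a, b⟩, ?_⟩
  rw [Zsqrtd.norm_def]
  have : ((a ^ 2 + b ^ 2 : ℕ) : ℤ) = p := by exact_mod_cast hab
  push_cast at this
  simp only
  linarith

open Classical in
/-- the chosen Gaussian prime of norm `p`. -/
noncomputable def gp (p : ℕ) : GaussianInt :=
  if h : p.Prime ∧ p % 4 = 1 then (exists_gauss p h.1 h.2).choose else 0

lemma gp_norm {p : ℕ} (hp : p.Prime) (hp4 : p % 4 = 1) : (gp p).norm = p := by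
  unfold gp
  rw [dif_pos ⟨hp, hp4⟩]
  exact (exists_gauss p hp hp4).choose_spec

/-- A set of split Gaussian primes, one for each rational prime: the standing hypothesis. -/
structure SplitSet (G : Finset GaussianInt) : Prop where
  prime : ∀ z ∈ G, Prime z
  norm_prime : ∀ z ∈ G, ∃ p : ℕ, p.Prime ∧ p % 4 = 1 ∧ z.norm = p
  inj : ∀ z ∈ G, ∀ z' ∈ G, z.norm = z'.norm → z = z'

lemma SplitSet.assoc {G : Finset GaussianInt} (h : SplitSet G) :
    ∀ z ∈ G, ∀ z' ∈ G, Associated z z' → z = z' :=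
  fun z hz z' hz' ha => h.inj z hz z' hz' (norm_eq_of_associated ha)

lemma SplitSet.star_not {G : Finset GaussianInt} (h : SplitSet G) :
    ∀ z ∈ G, ∀ z' ∈ G, ¬ Associated (star z) z' := by
  intro z hz z' hz' ha
  have h1 : z = z' := by
    apply h.inj z hz z' hz'
    rw [← norm_eq_of_associated ha]
    simp
  obtain ⟨p, hp, hp4, hn⟩ := h.norm_prime z hz
  exact star_not_associated hp hp4 hn (h1 ▸ ha)

lemma SplitSet.mono {G G' : Finset GaussianInt} (h : SplitSet G) (hs : G' ⊆ G) : SplitSet G' :=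
  ⟨fun z hz => h.prime z (hs hz), fun z hz => h.norm_prime z (hs hz),
    fun z hz z' hz' => h.inj z (hs hz) z' (hs hz')⟩

lemma splitSet_image (S : Finset ℕ) (hS : ∀ p ∈ S, p.Prime ∧ p % 4 = 1) :
    SplitSet (S.image gp) ∧ #(S.image gp) = #S := by
  classical
  have hn : ∀ p ∈ S, (gp p).norm = p := fun p hp => gp_norm (hS p hp).1 (hS p hp).2
  refine ⟨⟨?_, ?_, ?_⟩, ?_⟩
  · intro z hz
    rw [Finset.mem_image] at hz
    obtain ⟨p, hp, rfl⟩ := hz
    exact prime_of_norm_prime (hS p hp).1 (hn p hp)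
  · intro z hz
    rw [Finset.mem_image] at hz
    obtain ⟨p, hp, rfl⟩ := hz
    exact ⟨p, (hS p hp).1, (hS p hp).2, hn p hp⟩
  · intro z hz z' hz' h
    rw [Finset.mem_image] at hz hz'
    obtain ⟨p, hp, rfl⟩ := hz
    obtain ⟨q, hq, rfl⟩ := hz'
    rw [hn p hp, hn q hq] at h
    have : p = q := by exact_mod_cast h
    rw [this]
  · apply Finset.card_image_of_injOn
    intro p hp q hq h
    have h1 := congrArg Zsqrtd.norm h
    rw [hn p hp, hn q hq] at h1
    exact_mod_cast h1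

/-- (Z1c) For every `m ≥ 1` and all large `x` there is `w ∈ [x, 4^60 x]` and a set `G` of
split Gaussian primes, one for each rational prime, with norms in `(w, 4 w]`, `m ∣ #G`,
`#G ≥ c w / log w`. -/
theorem exists_window_gauss : ∃ c : ℝ, 0 < c ∧ ∀ m : ℕ, 1 ≤ m → ∃ x0 : ℝ, 1 ≤ x0 ∧
    ∀ x : ℝ, x0 ≤ x → ∃ w : ℝ, x ≤ w ∧ w ≤ 4 ^ 60 * x ∧ ∃ G : Finset GaussianInt,
      SplitSet G ∧ (∀ z ∈ G, w < (z.norm : ℝ) ∧ (z.norm : ℝ) ≤ 4 * w) ∧ m ∣ #G ∧
      c * w / Real.log w ≤ #G := by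
  classical
  obtain ⟨c, x0, hc, hx0, h⟩ := exists_window
  refine ⟨c / 2, by positivity, fun m hm => ?_⟩
  -- for large `w`, `c w / log w ≥ 2 m`
  refine ⟨max (max x0 3) ((4 * m / c) ^ 2), le_max_of_le_left (le_max_of_le_left hx0), ?_⟩
  intro x hx
  have hxx0 : x0 ≤ x := (le_max_left _ _).trans ((le_max_left _ _).trans hx)
  have hx3 : 3 ≤ x := (le_max_right _ _).trans ((le_max_left _ _).trans hx)
  have hxm : (4 * m / c) ^ 2 ≤ x := (le_max_right _ _).trans hx
  obtain ⟨i, hi, hcard⟩ := h x hxx0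
  have h4i' : (1 : ℝ) ≤ 4 ^ i := one_le_pow₀ (by norm_num)
  have h4i : (4 : ℝ) ^ i ≤ 4 ^ 60 := pow_le_pow_right₀ (by norm_num) hi.le
  set w : ℝ := 4 ^ i * x with hw
  have hxw : x ≤ w := by nlinarith
  have hw2 : w ≤ 4 ^ 60 * x := mul_le_mul_of_nonneg_right h4i (by linarith)
  refine ⟨w, hxw, hw2, ?_⟩
  set S := PP w (4 * w) with hS
  have hSp : ∀ p ∈ S, p.Prime ∧ p % 4 = 1 := by
    intro p hp
    rw [hS, mem_PP (by linarith) (by linarith)] at hp
    exact hp.2
  obtain ⟨hG, hGc⟩ := splitSet_image S hSp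
  have hlogw : 0 < Real.log w := Real.log_pos (by linarith)
  have hbig : 2 * (m : ℝ) ≤ c * w / Real.log w := by
    rw [le_div_iff₀ hlogw]
    have h1 : Real.log w ≤ 2 * Real.sqrt w := by
      have h2 := Real.log_le_sub_one_of_pos (Real.sqrt_pos.2 (by linarith : 0 < w))
      rw [Real.log_sqrt (by linarith)] at h2
      linarith
    have h3 : 4 * m / c ≤ Real.sqrt w := by
      apply Real.le_sqrt_of_sq_le
      linarith
    rw [div_le_iff₀ hc] at h3
    have h4 : Real.sqrt w * Real.sqrt w = w := Real.mul_self_sqrt (by linarith)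
    have hm0 : (0 : ℝ) ≤ m := by positivity
    have hs0 := Real.sqrt_nonneg w
    calc 2 * (m : ℝ) * Real.log w ≤ 2 * m * (2 * Real.sqrt w) := by gcongr
      _ = (4 * m) * Real.sqrt w := by ring
      _ ≤ (Real.sqrt w * c) * Real.sqrt w := by gcongr
      _ = c * w := by rw [mul_right_comm, h4, mul_comm]
  obtain ⟨G, hGs, hGcard⟩ := Finset.exists_subset_card_eq
    (show m * (#(S.image gp) / m) ≤ #(S.image gp) from Nat.mul_div_le _ _)
  refine ⟨G, hG.mono hGs, ?_, ?_, ?_⟩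
  · intro z hz
    have hz' := hGs hz
    rw [Finset.mem_image] at hz'
    obtain ⟨p, hp, rfl⟩ := hz'
    rw [gp_norm (hSp p hp).1 (hSp p hp).2]
    rw [hS, mem_PP (by linarith) (by linarith)] at hp
    push_cast
    exact hp.1
  · rw [hGcard]
    exact Nat.dvd_mul_right _ _
  · rw [hGcard, hGc]
    have h5 : #S < m * (#S / m) + m := by
      have := Nat.lt_mul_div_succ #S (by omega : 0 < m)
      linarith
    have h6 : (#S : ℝ) < ((m * (#S / m) : ℕ) : ℝ) + m := by exact_mod_cast h5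
    have h7 : c / 2 * w / Real.log w = (c * w / Real.log w) / 2 := by ring
    rw [h7]
    linarith

end Crest.Agent.R2.Z1
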