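import Mathlib
import Crest.Agent.R2.Split306d
import Crest.Agent.R2.Defs149

/-! # R2, block Z1 in the exact shape of `Defs149` (helper358), on helper306's supply of primes. -/

set_option autoImplicit false

namespace Crest.Agent.R2.Z358

open Finset Crest.Agent.R2 Crest.Agent.R2.X149

lemma blk_of_good {w : ℝ} {G : Finset GaussianInt} (hw : 0 ≤ w) (h : Z306.Good w G) : Blk w G where
  prime := h.prime
  lo p hp := h.lo p hp
  hi p hp := (h.hi p hp).trans (by linarith)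
  rat p hp := (h.rat p hp).1
  conj p hp q hq := h.not_star hp hq
  assoc p hp q hq := h.assoc hp hq

lemma blk_mono {w : ℝ} {G G' : Finset GaussianInt} (h : Blk w G) (hG : G' ⊆ G) : Blk w G' where
  prime p hp := h.prime p (hG hp)
  lo p hp := h.lo p (hG hp)
  hi p hp := h.hi p (hG hp)
  rat p hp := h.rat p (hG hp)
  conj p hp q hq := h.conj p (hG hp) q (hG hq)
  assoc p hp q hq := h.assoc p (hG hp) q (hG hq)

/-- primes of blocks with disjoint windows are not associated, even up to conjugation -/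
lemma blk_disjoint {w w' : ℝ} {G G' : Finset GaussianInt} (h : Blk w G) (h' : Blk w' G')
    (hw : 4 * w ≤ w') {p q : GaussianInt} (hp : p ∈ G) (hq : q ∈ G') :
    ¬ Associated p q ∧ ¬ Associated p (star q) ∧ ¬ Associated (star p) q := by
  have h1 := h.hi p hp
  have h2 := h'.lo q hq
  refine ⟨fun ha => ?_, fun ha => ?_, fun ha => ?_⟩
  · have := Z306.norm_eq_of_assoc ha
    rw [this] at h1; linarith
  · have := Z306.norm_eq_of_assoc ha
    rw [Z306.norm_star] at this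
    rw [this] at h1; linarith
  · have := Z306.norm_eq_of_assoc ha
    rw [Z306.norm_star] at this
    rw [this] at h1; linarith

/-- **Z1** -/
theorem primesStmt : PrimesStmt := by
  refine ⟨1 / 320, 2 ^ 80, 2, by norm_num, by norm_num, ?_⟩
  intro X hX
  obtain ⟨w, G, h1, h2, h3, h4⟩ := Z306.supply hX
  refine ⟨w, h1, h2, G, blk_of_good (by linarith) h3, le_trans (le_of_eq ?_) h4⟩
  have : 0 < Real.log w := Real.log_pos (by linarith)
  field_simp
  ring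

/-- trimming a finset to a cardinality which is a multiple of `M` -/
lemma exists_trim {α : Type*} (G : Finset α) (M : ℕ) (hM : 0 < M) (t : ℝ) (ht : (M : ℝ) ≤ t)
    (hG : 2 * t ≤ (G.card : ℝ)) :
    ∃ G' ⊆ G, M ∣ G'.card ∧ t ≤ (G'.card : ℝ) ∧ (G'.card : ℝ) ≤ 2 * t := by
  have hM' : (0 : ℝ) < M := by exact_mod_cast hM
  set q : ℕ := ⌈t / M⌉₊ with hq
  have h1 : t / M ≤ q := Nat.le_ceil _
  have ht0 : 0 ≤ t := hM'.le.trans ht
  have h2 : (q : ℝ) < t / M + 1 := Nat.ceil_lt_add_one (by positivity)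
  have h3 : t ≤ q * M := by
    rwa [div_le_iff₀ hM'] at h1
  have h4 : (q : ℝ) * M ≤ 2 * t := by
    have : (q : ℝ) * M ≤ (t / M + 1) * M := mul_le_mul_of_nonneg_right h2.le hM'.le
    have h5 : (t / M + 1) * M = t + M := by field_simp
    linarith
  have h5 : q * M ≤ G.card := by
    have : ((q * M : ℕ) : ℝ) ≤ (G.card : ℝ) := by push_cast; linarith
    exact_mod_cast this
  obtain ⟨G', hG', hc⟩ := Finset.exists_subset_card_eq h5
  refine ⟨G', hG', ?_, ?_, ?_⟩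
  · rw [hc]; exact dvd_mul_left _ _
  · rw [hc]; push_cast; exact h3
  · rw [hc]; push_cast; exact h4

lemma log_le_two_sqrt {w : ℝ} (hw : 0 < w) : Real.log w ≤ 2 * Real.sqrt w := by
  have h1 : Real.log w = 2 * Real.log (Real.sqrt w) := by
    rw [Real.log_sqrt hw.le]; ring
  have h2 : 0 < Real.sqrt w := Real.sqrt_pos.2 hw
  have h3 := Real.log_le_sub_one_of_pos h2
  linarith

/-- the size needed for `t ≤ c w / log w` -/
lemma le_c_div_log {c t w : ℝ} (hc : 0 < c) (ht : 0 ≤ t) (hw : 1 < w) (h : (2 * t / c) ^ 2 ≤ w) :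
    t ≤ c * w / Real.log w := by
  have hl : 0 < Real.log w := Real.log_pos hw
  have h0 : 0 < w := by linarith
  rw [le_div_iff₀ hl]
  have h1 : 2 * t / c ≤ Real.sqrt w := by
    rw [show 2 * t / c = Real.sqrt ((2 * t / c) ^ 2) from (Real.sqrt_sq (by positivity)).symm]
    exact Real.sqrt_le_sqrt h
  have h2 : 2 * t ≤ c * Real.sqrt w := by
    rw [div_le_iff₀ hc] at h1; linarith
  have h3 : Real.sqrt w * Real.sqrt w = w := Real.mul_self_sqrt h0.le
  calc t * Real.log w ≤ t * (2 * Real.sqrt w) :=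
        mul_le_mul_of_nonneg_left (log_le_two_sqrt h0) ht
    _ = (2 * t) * Real.sqrt w := by ring
    _ ≤ (c * Real.sqrt w) * Real.sqrt w :=
        mul_le_mul_of_nonneg_right h2 (Real.sqrt_nonneg _)
    _ = c * w := by rw [mul_assoc, h3]

/-- **Z1, trimmed**: from any supply `PrimesStmt`, for every `M ≥ 1` windows with `M ∣ #G` and the
two-sided count of `KacStmt`. -/
theorem kac_supply_of (hP : PrimesStmt) : ∃ c0 K : ℝ, 0 < c0 ∧ 1 ≤ K ∧ ∀ M : ℕ, 0 < M →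
    ∃ X1 : ℝ, 2 ≤ X1 ∧ ∀ X : ℝ, X1 ≤ X → ∃ w : ℝ, X ≤ w ∧ w ≤ K * X ∧
      ∃ G : Finset GaussianInt, Blk w G ∧ M ∣ G.card ∧ c0 * w / Real.log w ≤ (G.card : ℝ) ∧
      (G.card : ℝ) ≤ 2 * c0 * w / Real.log w := by
  obtain ⟨c0, K, X0, hc0, hK, h⟩ := hP
  refine ⟨c0, K, hc0, hK, fun M hM => ?_⟩
  refine ⟨max (max X0 2) ((2 * M / c0) ^ 2), le_trans (le_max_right X0 2) (le_max_left _ _),
    fun X hX => ?_⟩
  have hX0 : X0 ≤ X := le_trans (le_trans (le_max_left _ _) (le_max_left _ _)) hX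
  have hX2 : 2 ≤ X := le_trans (le_trans (le_max_right _ _) (le_max_left _ _)) hX
  have hXM : (2 * M / c0) ^ 2 ≤ X := le_trans (le_max_right _ _) hX
  obtain ⟨w, h1, h2, G, hG, hcard⟩ := h X hX0
  have ht : (M : ℝ) ≤ c0 * w / Real.log w :=
    le_c_div_log hc0 (by positivity) (by linarith) (hXM.trans h1)
  obtain ⟨G', hG', hd, hlo, hhi⟩ := exists_trim G M hM (c0 * w / Real.log w) ht (by
    refine le_trans (le_of_eq ?_) hcard; ring)
  exact ⟨w, h1, h2, G', blk_mono hG hG', hd, hlo, hhi.trans (le_of_eq (by ring))⟩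

/-- **Z1, trimmed** -/
theorem kac_supply : ∃ c0 K : ℝ, 0 < c0 ∧ 1 ≤ K ∧ ∀ M : ℕ, 0 < M →
    ∃ X1 : ℝ, 2 ≤ X1 ∧ ∀ X : ℝ, X1 ≤ X → ∃ w : ℝ, X ≤ w ∧ w ≤ K * X ∧
      ∃ G : Finset GaussianInt, Blk w G ∧ M ∣ G.card ∧ c0 * w / Real.log w ≤ (G.card : ℝ) ∧
      (G.card : ℝ) ≤ 2 * c0 * w / Real.log w := kac_supply_of primesStmt

/-- **Z1, lacunary**: for every `M ≥ 1` and every ratio `κ ≥ 1` a sequence of windows with
`κ w_k ≤ w_{k+1} ≤ K κ w_k`, with the hypotheses of `KacStmt` for all `k`. -/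
theorem kac_lacunary : ∃ c0 K : ℝ, 0 < c0 ∧ 1 ≤ K ∧ ∀ M : ℕ, 0 < M → ∃ X1 : ℝ, 2 ≤ X1 ∧
    ∀ κ X : ℝ, 1 ≤ κ → X1 ≤ X → ∃ (w : ℕ → ℝ) (G : ℕ → Finset GaussianInt),
      X ≤ w 0 ∧ w 0 ≤ K * X ∧ (∀ k, κ * w k ≤ w (k + 1)) ∧ (∀ k, w (k + 1) ≤ K * κ * w k) ∧
      (∀ k, κ ^ k * X ≤ w k) ∧ (∀ k, w k ≤ K * X * (K * κ) ^ k) ∧ (∀ k, X ≤ w k) ∧
      (∀ k, Blk (w k) (G k)) ∧ (∀ k, M ∣ (G k).card) ∧
      (∀ k, c0 * w k / Real.log (w k) ≤ ((G k).card : ℝ)) ∧
      (∀ k, ((G k).card : ℝ) ≤ 2 * c0 * w k / Real.log (w k)) := by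
  obtain ⟨c0, K, hc0, hK, h⟩ := kac_supply
  refine ⟨c0, K, hc0, hK, fun M hM => ?_⟩
  obtain ⟨X1, hX1, h'⟩ := h M hM
  refine ⟨X1, hX1, fun κ X hκ hX => ?_⟩
  have hch : ∀ x : ℝ, ∃ w : ℝ, ∃ G : Finset GaussianInt, X1 ≤ x → x ≤ w ∧ w ≤ K * x ∧
      Blk w G ∧ M ∣ G.card ∧ c0 * w / Real.log w ≤ (G.card : ℝ) ∧
      (G.card : ℝ) ≤ 2 * c0 * w / Real.log w := by
    intro x
    by_cases hx : X1 ≤ x
    · obtain ⟨w, h1, h2, G, h3⟩ := h' x hx
      exact ⟨w, G, fun _ => ⟨h1, h2, h3⟩⟩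
    · exact ⟨0, ∅, fun h => absurd h hx⟩
  choose f g hfg using hch
  let w : ℕ → ℝ := fun k => Nat.rec (f X) (fun _ y => f (κ * y)) k
  have hw0 : w 0 = f X := rfl
  have hws : ∀ k, w (k + 1) = f (κ * w k) := fun k => rfl
  let u : ℕ → ℝ := fun k => match k with
    | 0 => X
    | k + 1 => κ * w k
  have hwu : ∀ k, w k = f (u k) := by
    intro k
    cases k with
    | zero => rfl
    | succ k => rfl
  have hXw : ∀ k, X ≤ u k ∧ X ≤ w k := by
    intro k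
    induction k with
    | zero => exact ⟨le_rfl, by rw [hw0]; exact (hfg X hX).1⟩
    | succ k ih =>
      have h1 : X ≤ κ * w k := by
        have : 0 ≤ w k := by linarith [ih.2]
        nlinarith [ih.2]
      refine ⟨h1, ?_⟩
      rw [hws]
      exact h1.trans (hfg _ (hX.trans h1)).1
  have hu : ∀ k, X1 ≤ u k := fun k => hX.trans (hXw k).1
  have hlow : ∀ k, κ * w k ≤ w (k + 1) := fun k => by
    rw [hws]; exact (hfg _ (hu (k + 1))).1
  have hup : ∀ k, w (k + 1) ≤ K * κ * w k := fun k => by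
    rw [hws, mul_assoc]; exact (hfg _ (hu (k + 1))).2.1
  have hX0 : 0 ≤ X := by linarith
  refine ⟨w, fun k => g (u k), (hfg X hX).1, (hfg X hX).2.1, hlow, hup, ?_, ?_,
    fun k => (hXw k).2, ?_, ?_, ?_, ?_⟩
  · intro k
    induction k with
    | zero => simpa using (hXw 0).2
    | succ k ih =>
      calc κ ^ (k + 1) * X = κ * (κ ^ k * X) := by ring
        _ ≤ κ * w k := mul_le_mul_of_nonneg_left ih (by linarith)
        _ ≤ w (k + 1) := hlow k
  · intro k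
    induction k with
    | zero => rw [pow_zero, mul_one]; exact (hfg X hX).2.1
    | succ k ih =>
      calc w (k + 1) ≤ K * κ * w k := hup k
        _ ≤ K * κ * (K * X * (K * κ) ^ k) := mul_le_mul_of_nonneg_left ih (by positivity)
        _ = K * X * (K * κ) ^ (k + 1) := by ring
  · intro k; rw [hwu]; exact (hfg _ (hu k)).2.2.1
  · intro k; exact (hfg _ (hu k)).2.2.2.1
  · intro k; rw [hwu]; exact (hfg _ (hu k)).2.2.2.2.1
  · intro k; rw [hwu]; exact (hfg _ (hu k)).2.2.2.2.2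

end Crest.Agent.R2.Z358
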