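import Crest.Agent.R2.Reg549b
import Crest.Agent.R2.Bias717d
import Crest.Agent.R2.Num306
import Crest.Agent.R2.Shape911

/-!
# R2 (Gaussian moat): front of `right_half`

From the tree with its clusters and the light classes (common form of helper911) to helper717's
large coefficients at half of the primes.
-/

set_option autoImplicit false

namespace Crest.Agent.R2.RF763

open Finset
open Crest.Agent.R2.Gcd62 (ab)
open Crest.Agent.R2.T1
open Crest.Agent.R2.T2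
open Crest.Agent.R2.B717 (PrimeSet)
open Crest.Agent.R2.E717 (mhat)

/-! ### the box averages -/

/-- box average of a weight with small ball masses (helper488's `om`) -/
theorem om488_le {A : Finset GaussianInt} {m : GaussianInt → ℝ} (hm : ∀ v, 0 ≤ m v) {ρ : ℕ}
    (hρ : 0 < ρ) {b : ℝ}
    (hball : ∀ y : ℂ, ∀ B : Finset GaussianInt, (∀ v ∈ B, ‖(v : ℂ) - y‖ ≤ (ρ : ℝ)) →
      ∑ v ∈ B, m v ≤ b) (v : GaussianInt) :
    B488.om A m ρ v ≤ b / (ρ : ℝ) ^ 2 := by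
  classical
  unfold B488.om
  rw [one_div, div_eq_inv_mul]
  refine mul_le_mul_of_nonneg_left ?_ (by positivity)
  have h1 : ∑ h ∈ B488.bx ρ, (if v + h ∈ A then m (v + h) else 0)
      ≤ ∑ h ∈ B488.bx ρ, m (v + h) := by
    refine Finset.sum_le_sum fun h _ => ?_
    split_ifs
    · exact le_rfl
    · exact hm _
  have h2 : ∑ h ∈ B488.bx ρ, m (v + h) = ∑ u ∈ (B488.bx ρ).image (fun h => v + h), m u := by
    rw [Finset.sum_image]
    intro a _ b _ hab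
    exact add_left_cancel hab
  refine (h1.trans h2.le).trans ?_
  refine hball ((v : ℂ) + ((ρ : ℝ) / 2 : ℝ) + ((ρ : ℝ) / 2 : ℝ) * Complex.I) _ ?_
  intro u hu
  obtain ⟨h, hh, rfl⟩ := Finset.mem_image.1 hu
  rw [B488.mem_bx] at hh
  obtain ⟨⟨a1, a2⟩, a3, a4⟩ := hh
  have b1 : (0 : ℝ) ≤ h.re := by exact_mod_cast a1
  have b2 : (h.re : ℝ) ≤ ρ := by exact_mod_cast a2.le
  have b3 : (0 : ℝ) ≤ h.im := by exact_mod_cast a3
  have b4 : (h.im : ℝ) ≤ ρ := by exact_mod_cast a4.le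
  refine (Complex.norm_le_abs_re_add_abs_im _).trans ?_
  have e1 : (((v + h : GaussianInt) : ℂ) -
      ((v : ℂ) + ((ρ : ℝ) / 2 : ℝ) + ((ρ : ℝ) / 2 : ℝ) * Complex.I)).re
      = (h.re : ℝ) - ρ / 2 := by
    rw [GaussianInt.toComplex_add, Complex.sub_re, Complex.add_re, Complex.add_re, Complex.add_re,
      Complex.mul_re, Complex.ofReal_re, Complex.ofReal_im, Complex.I_re, Complex.I_im,
      ← GaussianInt.intCast_re, ← GaussianInt.intCast_re]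
    ring
  have e2 : (((v + h : GaussianInt) : ℂ) -
      ((v : ℂ) + ((ρ : ℝ) / 2 : ℝ) + ((ρ : ℝ) / 2 : ℝ) * Complex.I)).im
      = (h.im : ℝ) - ρ / 2 := by
    rw [GaussianInt.toComplex_add, Complex.sub_im, Complex.add_im, Complex.add_im, Complex.add_im,
      Complex.mul_im, Complex.ofReal_re, Complex.ofReal_im, Complex.I_re, Complex.I_im,
      ← GaussianInt.intCast_im, ← GaussianInt.intCast_im]
    ring
  rw [e1, e2]
  have f1 : |(h.re : ℝ) - ρ / 2| ≤ ρ / 2 := by rw [abs_le]; constructor <;> linarith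
  have f2 : |(h.im : ℝ) - ρ / 2| ≤ ρ / 2 := by rw [abs_le]; constructor <;> linarith
  linarith

/-- size of `A - box` when `A` is covered by few balls of radius `ρ` -/
theorem card_V {A Z : Finset GaussianInt} {ρ : ℕ}
    (hZ : ∀ v ∈ A, ∃ z ∈ Z, ab (v - z) ≤ (ρ : ℝ)) :
    ((A ×ˢ B937.bx ρ).image fun p => p.1 - B937.hh p.2).card ≤ Z.card * (9 * ρ ^ 2) := by
  classical
  have hsub : ((A ×ˢ B937.bx ρ).image fun p => p.1 - B937.hh p.2) ⊆ Z.biUnion (fun z =>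
      ((Finset.Ioc (-2 * (ρ : ℤ)) ρ) ×ˢ (Finset.Ioc (-2 * (ρ : ℤ)) ρ)).image
        (fun q : ℤ × ℤ => z + ⟨q.1, q.2⟩)) := by
    intro v hv
    obtain ⟨⟨a, h⟩, hp, rfl⟩ := Finset.mem_image.1 hv
    rw [Finset.mem_product] at hp
    obtain ⟨ha, hh⟩ := hp
    simp only [B937.bx, Finset.mem_product, Finset.mem_range] at hh
    obtain ⟨z, hz, haz⟩ := hZ a ha
    have h2 := (T2.abs_re_le_ab (a - z)).trans haz
    have h3 := (T2.abs_im_le_ab (a - z)).trans haz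
    rw [Zsqrtd.re_sub] at h2
    rw [Zsqrtd.im_sub] at h3
    have h2' : |(a.re - z.re : ℤ)| ≤ (ρ : ℤ) := by exact_mod_cast h2
    have h3' : |(a.im - z.im : ℤ)| ≤ (ρ : ℤ) := by exact_mod_cast h3
    rw [abs_le] at h2' h3'
    have c1 : (h.1 : ℤ) < ρ := by exact_mod_cast hh.1
    have c2 : (h.2 : ℤ) < ρ := by exact_mod_cast hh.2
    refine Finset.mem_biUnion.2 ⟨z, hz, ?_⟩
    refine Finset.mem_image.2 ⟨(a.re - h.1 - z.re, a.im - h.2 - z.im), ?_, ?_⟩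
    · simp only [Finset.mem_product, Finset.mem_Ioc]
      refine ⟨⟨?_, ?_⟩, ⟨?_, ?_⟩⟩ <;> omega
    · ext <;> simp [B937.hh]
  refine (Finset.card_le_card hsub).trans ?_
  refine Finset.card_biUnion_le.trans ?_
  have hcard : ∀ z : GaussianInt, (((Finset.Ioc (-2 * (ρ : ℤ)) ρ) ×ˢ
      (Finset.Ioc (-2 * (ρ : ℤ)) ρ)).image
        (fun q : ℤ × ℤ => z + ⟨q.1, q.2⟩)).card ≤ 9 * ρ ^ 2 := by
    intro z
    refine Finset.card_image_le.trans ?_
    rw [Finset.card_product, Int.card_Ioc]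
    have : ((ρ : ℤ) - -2 * (ρ : ℤ)).toNat = 3 * ρ := by
      have : ((ρ : ℤ) - -2 * (ρ : ℤ)) = ((3 * ρ : ℕ) : ℤ) := by push_cast; ring
      rw [this, Int.toNat_natCast]
    rw [this]
    exact le_of_eq (by ring)
  calc ∑ z ∈ Z, _ ≤ ∑ _z ∈ Z, 9 * ρ ^ 2 := Finset.sum_le_sum fun z _ => hcard z
    _ = Z.card * (9 * ρ ^ 2) := by rw [Finset.sum_const, smul_eq_mul]

/-- centres for the localised large sieve -/
theorem centres {A Z : Finset GaussianInt} {ρ : ℕ} {w : ℝ} (hw : 1 ≤ w) (hρ : (ρ : ℝ) ≤ 8 * w ^ 2)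
    (hZ : ∀ v ∈ A, ∃ z ∈ Z, ab (v - z) ≤ 8 * w ^ 2) :
    ∀ v ∈ B488.Zb A ρ, ∃ c ∈ Z, |(v.re : ℝ) - c.re| * (2 * (1 / (32 * w ^ 2))) ≤ 1 ∧
        |(v.im : ℝ) - c.im| * (2 * (1 / (32 * w ^ 2))) ≤ 1 := by
  intro v hv
  rw [B488.mem_Zb] at hv
  obtain ⟨h, hh, hvA⟩ := hv
  rw [B488.mem_bx] at hh
  obtain ⟨⟨a1, a2⟩, a3, a4⟩ := hh
  obtain ⟨z, hz, hvz⟩ := hZ _ hvA
  have b1 : (0 : ℝ) ≤ h.re := by exact_mod_cast a1
  have b2 : (h.re : ℝ) ≤ ρ := by exact_mod_cast a2.le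
  have b3 : (0 : ℝ) ≤ h.im := by exact_mod_cast a3
  have b4 : (h.im : ℝ) ≤ ρ := by exact_mod_cast a4.le
  have h2 := (T2.abs_re_le_ab (v + h - z)).trans hvz
  have h3 := (T2.abs_im_le_ab (v + h - z)).trans hvz
  rw [Zsqrtd.re_sub, Zsqrtd.re_add] at h2
  rw [Zsqrtd.im_sub, Zsqrtd.im_add] at h3
  push_cast at h2 h3
  rw [abs_le] at h2 h3
  have hw2 : 0 < w ^ 2 := by positivity
  refine ⟨z, hz, ?_, ?_⟩
  · have : |(v.re : ℝ) - z.re| ≤ 16 * w ^ 2 := by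
      rw [abs_le]; constructor <;> linarith [h2.1, h2.2]
    rw [show (2 : ℝ) * (1 / (32 * w ^ 2)) = 1 / (16 * w ^ 2) by field_simp; norm_num,
      mul_one_div, div_le_one (by positivity)]
    exact this
  · have : |(v.im : ℝ) - z.im| ≤ 16 * w ^ 2 := by
      rw [abs_le]; constructor <;> linarith [h3.1, h3.2]
    rw [show (2 : ℝ) * (1 / (32 * w ^ 2)) = 1 / (16 * w ^ 2) by field_simp; norm_num,
      mul_one_div, div_le_one (by positivity)]
    exact this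

/-! ### the numbers -/

theorem num1 {w ε ε1 ρ : ℝ} (hw : 1 ≤ w) (hε : 0 < ε) (hε10 : ε ≤ 1 / 10) (h1 : 0 < ε1)
    (h2 : ε1 ≤ ε / 16) (hρ0 : 0 ≤ ρ) (hρ2 : ρ ≤ 2 * w ^ (1 - 2 * ε)) :
    ρ * ρ ^ ε1 ≤ 4 * w ^ (1 - 2 * ε + ε / 8) := by
  have hw0 : 0 < w := by linarith
  have hp : 0 < w ^ (1 - 2 * ε) := Real.rpow_pos_of_pos hw0 _
  have e1 : ρ ^ ε1 ≤ (2 * w ^ (1 - 2 * ε)) ^ ε1 := Real.rpow_le_rpow hρ0 hρ2 h1.le
  have e2 : (2 * w ^ (1 - 2 * ε)) ^ ε1 = 2 ^ ε1 * w ^ ((1 - 2 * ε) * ε1) := by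
    rw [Real.mul_rpow (by norm_num) hp.le, ← Real.rpow_mul hw0.le]
  have e3 : (2 : ℝ) ^ ε1 ≤ 2 := by
    calc (2 : ℝ) ^ ε1 ≤ 2 ^ (1 : ℝ) :=
          Real.rpow_le_rpow_of_exponent_le (by norm_num) (by linarith)
      _ = 2 := Real.rpow_one 2
  have e4 : w ^ ((1 - 2 * ε) * ε1) ≤ w ^ (ε / 8) := by
    refine Real.rpow_le_rpow_of_exponent_le hw ?_
    nlinarith
  have e5 : ρ ^ ε1 ≤ 2 * w ^ (ε / 8) := by
    rw [e2] at e1
    refine e1.trans ?_
    exact mul_le_mul e3 e4 (by positivity) (by norm_num)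
  calc ρ * ρ ^ ε1 ≤ (2 * w ^ (1 - 2 * ε)) * (2 * w ^ (ε / 8)) :=
        mul_le_mul hρ2 e5 (by positivity) (by positivity)
    _ = 4 * (w ^ (1 - 2 * ε) * w ^ (ε / 8)) := by ring
    _ = 4 * w ^ (1 - 2 * ε + ε / 8) := by rw [← Real.rpow_add hw0]

theorem num2 {w ε ε1 ρ : ℝ} (hw : 1 ≤ w) (hε : 0 < ε) (hε10 : ε ≤ 1 / 10) (h1 : 0 < ε1)
    (h2 : ε1 ≤ ε / 16) (hρ1 : w ^ (1 - 2 * ε) ≤ ρ) :
    w ^ 2 / ρ * (8 * w ^ 2 / ρ) ^ ε1 ≤ 8 * w ^ (1 + 2 * ε + ε / 8) := by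
  have hw0 : 0 < w := by linarith
  have hp : 0 < w ^ (1 - 2 * ε) := Real.rpow_pos_of_pos hw0 _
  have hρ0 : 0 < ρ := hp.trans_le hρ1
  have e1 : w ^ 2 / ρ ≤ w ^ (1 + 2 * ε) := by
    rw [div_le_iff₀ hρ0]
    calc w ^ 2 = w ^ (1 + 2 * ε) * w ^ (1 - 2 * ε) := by
          rw [← Real.rpow_add hw0, ← Real.rpow_natCast]
          congr 1
          push_cast
          ring
      _ ≤ w ^ (1 + 2 * ε) * ρ := mul_le_mul_of_nonneg_left hρ1 (by positivity)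
  have e2 : 8 * w ^ 2 / ρ ≤ 8 * w ^ (1 + 2 * ε) := by
    rw [mul_div_assoc]
    exact mul_le_mul_of_nonneg_left e1 (by norm_num)
  have e3 : (8 * w ^ 2 / ρ) ^ ε1 ≤ 8 * w ^ (ε / 8) := by
    calc (8 * w ^ 2 / ρ) ^ ε1 ≤ (8 * w ^ (1 + 2 * ε)) ^ ε1 :=
          Real.rpow_le_rpow (by positivity) e2 h1.le
      _ = 8 ^ ε1 * w ^ ((1 + 2 * ε) * ε1) := by
          rw [Real.mul_rpow (by norm_num) (by positivity), ← Real.rpow_mul hw0.le]
      _ ≤ 8 * w ^ (ε / 8) := by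
          refine mul_le_mul ?_ ?_ (by positivity) (by norm_num)
          · calc (8 : ℝ) ^ ε1 ≤ 8 ^ (1 : ℝ) :=
                  Real.rpow_le_rpow_of_exponent_le (by norm_num) (by linarith)
              _ = 8 := Real.rpow_one 8
          · refine Real.rpow_le_rpow_of_exponent_le hw ?_
            nlinarith
  calc w ^ 2 / ρ * (8 * w ^ 2 / ρ) ^ ε1 ≤ w ^ (1 + 2 * ε) * (8 * w ^ (ε / 8)) :=
        mul_le_mul e1 e3 (by positivity) (by positivity)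
    _ = 8 * (w ^ (1 + 2 * ε) * w ^ (ε / 8)) := by ring
    _ = 8 * w ^ (1 + 2 * ε + ε / 8) := by rw [← Real.rpow_add hw0]

theorem num3 {w ε ρ : ℝ} (hw : 1 ≤ w) (hε : 0 < ε) (hρ1 : w ^ (1 - 2 * ε) ≤ ρ) :
    (w / ρ + 2) ^ 2 ≤ 9 * w ^ (4 * ε) := by
  have hw0 : 0 < w := by linarith
  have hp : 0 < w ^ (1 - 2 * ε) := Real.rpow_pos_of_pos hw0 _
  have hρ0 : 0 < ρ := hp.trans_le hρ1
  have e1 : w / ρ ≤ w ^ (2 * ε) := by
    rw [div_le_iff₀ hρ0]
    calc w = w ^ (2 * ε) * w ^ (1 - 2 * ε) := by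
          rw [← Real.rpow_add hw0]
          conv_lhs => rw [← Real.rpow_one w]
          congr 1
          ring
      _ ≤ w ^ (2 * ε) * ρ := mul_le_mul_of_nonneg_left hρ1 (by positivity)
  have e2 : 1 ≤ w ^ (2 * ε) := Real.one_le_rpow hw (by linarith)
  have e3 : w / ρ + 2 ≤ 3 * w ^ (2 * ε) := by linarith
  calc (w / ρ + 2) ^ 2 ≤ (3 * w ^ (2 * ε)) ^ 2 := pow_le_pow_left₀ (by positivity) e3 2
    _ = 9 * w ^ (4 * ε) := by
        rw [mul_pow, ← Real.rpow_natCast (w ^ (2 * ε)), ← Real.rpow_mul hw0.le]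
        norm_num
        congr 1
        ring

/-- the cardinality hypothesis of `bias_half` -/
theorem card_lower {c ε : ℝ} (hc : 0 < c) (hε : 0 < ε) :
    ∃ X0 : ℝ, 1 ≤ X0 ∧ ∀ w : ℝ, X0 ≤ w → ∀ g : ℝ, c * w / Real.log w ≤ g →
      w ^ (1 - ε) ≤ g := by
  obtain ⟨X1, h1, h2⟩ := N306.polylog_le 1 hε (1 / c)
  refine ⟨max X1 2, h1.trans (le_max_left _ _), fun w hw g hg => ?_⟩
  have hw1 : X1 ≤ w := (le_max_left _ _).trans hw
  have hw2 : 2 ≤ w := (le_max_right _ _).trans hw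
  have hw0 : 0 < w := by linarith
  have hlog : 0 < Real.log w := Real.log_pos (by linarith)
  refine le_trans ?_ hg
  have h3 := h2 w hw1
  rw [pow_one, one_div, inv_mul_le_iff₀ hc] at h3
  rw [le_div_iff₀ hlog]
  calc w ^ (1 - ε) * Real.log w ≤ w ^ (1 - ε) * (c * w ^ ε) :=
        mul_le_mul_of_nonneg_left h3 (by positivity)
    _ = c * (w ^ (1 - ε) * w ^ ε) := by ring
    _ = c * w := by
        rw [← Real.rpow_add hw0]
        congr 1
        conv_rhs => rw [← Real.rpow_one w]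
        congr 1
        ring

/-! ### the front -/

set_option maxHeartbeats 1000000 in
/-- **Front of `right_half`**: tree, clusters, light classes ⇒ large coefficients at half of the
primes. -/
theorem front (ε ε1 : ℝ) (hε : 0 < ε) (hε10 : ε ≤ 1 / 10) (h1 : 0 < ε1) (h2 : ε1 ≤ ε / 16)
    (N : ℕ) (hN1 : 1 ≤ N) (hN : (3 * (N : ℝ) + 2) ^ (1 - ε1) ≤ N) (D : ℝ) (hD : 1 ≤ D)
    (c c' C2 C4 : ℝ) (hc : 0 < c) (hc' : 0 < c') (hC2 : 2 ≤ C2) :
    ∃ X0 : ℝ, 1 ≤ X0 ∧ ∀ w W : ℝ, X0 ≤ w → w ≤ W → c * Real.log W ≤ Real.log w →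
      ∀ l : ℕ, 1 ≤ l → (l : ℝ) ≤ C4 * (Real.log W) ^ 2 →
      ∀ J : ℕ, Real.exp (2 * (C2 * Real.log W)) < TT N (2 * D * l) (J + 1) →
      ∀ (E : Set GaussianInt) (x : GaussianInt) (node : List (Fin N) → GaussianInt),
      IsTree E N (TT N (2 * D * l)) J x node →
      ∀ (C : (Fin J → Fin N) → Finset GaussianInt) (cl : (Fin J → Fin N) → GaussianInt → ℝ),
      Clus (leaf node) (D * l) l C cl →
      ∀ G : Finset GaussianInt, PrimeSet G w → c' * w / Real.log w ≤ (G.card : ℝ) →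
      (∀ q ∈ G, LightAt (Finset.univ.biUnion C)
        (fun v => (∑ i, cl i v) / (Fintype.card (Fin J → Fin N) : ℝ)) q
        ((q.norm : ℝ) ^ (1 - ε))) →
      ∃ G3 ⊆ G, G.card ≤ 2 * G3.card ∧ ∃ b : GaussianInt → GaussianInt,
        (∀ q ∈ G3, ¬ q ∣ b q) ∧
        ∀ q ∈ G3, w ^ (-(7 / 2 * ε)) ≤ ‖mhat (Finset.univ.biUnion C)
          (fun v => (∑ i, cl i v) / (Fintype.card (Fin J → Fin N) : ℝ)) ((b q : ℂ) / q)‖ := by
  classical
  set L : ℝ := 3 * (N : ℝ) + 2 with hL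
  have hNr : (1 : ℝ) ≤ N := by exact_mod_cast hN1
  have hL1 : 1 ≤ L := by rw [hL]; linarith
  set K : ℝ := 4608 * L * D + 2048000 * N * L + 9 with hK
  have hLD : 0 ≤ L * D := by positivity
  have hNL : 0 ≤ (N : ℝ) * L := by positivity
  have hK1 : 1 ≤ K := by rw [hK]; nlinarith
  have hKa : 4608 * L * D ≤ K := by rw [hK]; nlinarith
  have hKb : 2048000 * N * L ≤ K := by rw [hK]; nlinarith
  have hKc : 9 ≤ K := by rw [hK]; nlinarith
  obtain ⟨W0, hW01, hbias⟩ := B717.bias_half ε K hε hε10 hK1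
  obtain ⟨X1, hX11, hX1⟩ := card_lower (c := c') (ε := ε / 8) hc' (by positivity)
  obtain ⟨X2, hX21, hX2⟩ := N306.polylog_le₂ 2 (ε := 1 / 2) (c := c) (by norm_num) hc (2 * D * C4)
  refine ⟨max (max W0 X1) (max X2 (9 * L)), hW01.trans ((le_max_left _ _).trans (le_max_left _ _)),
    ?_⟩
  intro w W hw hwW hlogW l hl hlC4 J hJ E x node htree C cl hclus G hG hcard hlight
  have hwW0 : W0 ≤ w := ((le_max_left _ _).trans (le_max_left _ _)).trans hw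
  have hwX1 : X1 ≤ w := ((le_max_right _ _).trans (le_max_left _ _)).trans hw
  have hwX2 : X2 ≤ w := ((le_max_left _ _).trans (le_max_right _ _)).trans hw
  have hwL : 9 * L ≤ w := ((le_max_right _ _).trans (le_max_right _ _)).trans hw
  have hw1 : 1 ≤ w := hW01.trans hwW0
  have hw0 : 0 < w := by linarith
  have hlr : (1 : ℝ) ≤ l := by exact_mod_cast hl
  -- the radius
  set ρ : ℕ := ⌈w ^ (1 - 2 * ε)⌉₊ with hρ
  have hp : 1 ≤ w ^ (1 - 2 * ε) := Real.one_le_rpow hw1 (by linarith)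
  have hρ1 : w ^ (1 - 2 * ε) ≤ ρ := Nat.le_ceil _
  have hρ2 : (ρ : ℝ) ≤ 2 * w ^ (1 - 2 * ε) := by
    have := (Nat.ceil_lt_add_one (by positivity : 0 ≤ w ^ (1 - 2 * ε))).le
    rw [hρ]
    linarith
  have hρr : (1 : ℝ) ≤ ρ := hp.trans hρ1
  have hρpos : 0 < ρ := by exact_mod_cast (by linarith : (0 : ℝ) < ρ)
  have hρw : (ρ : ℝ) ≤ 2 * w := by
    refine hρ2.trans ?_
    have : w ^ (1 - 2 * ε) ≤ w := by
      calc w ^ (1 - 2 * ε) ≤ w ^ (1 : ℝ) := Real.rpow_le_rpow_of_exponent_le hw1 (by linarith)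
        _ = w := Real.rpow_one w
    linarith
  have hρR : (ρ : ℝ) ≤ 8 * w ^ 2 := by nlinarith
  -- the tree
  have hT0 : (2 * D * (l : ℝ)) ≤ ρ := by
    have e1 : 2 * D * (l : ℝ) ≤ 2 * D * C4 * (Real.log W) ^ 2 := by
      have : 0 ≤ 2 * D := by linarith
      calc 2 * D * (l : ℝ) ≤ 2 * D * (C4 * (Real.log W) ^ 2) := mul_le_mul_of_nonneg_left hlC4 this
        _ = _ := by ring
    have e2 := hX2 w W hwX2 hwW hlogW
    have e3 : w ^ (1 / 2 : ℝ) ≤ w ^ (1 - 2 * ε) :=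
      Real.rpow_le_rpow_of_exponent_le hw1 (by linarith)
    linarith
  have hT01 : 1 ≤ 2 * D * (l : ℝ) := by nlinarith
  have hRJ : 8 * w ^ 2 < TT N (2 * D * l) J := by
    have hW1 : 1 ≤ W := hw1.trans hwW
    have hlogw : 0 ≤ Real.log W := Real.log_nonneg hW1
    have e1 : w ^ 4 ≤ Real.exp (2 * (C2 * Real.log W)) := by
      calc w ^ 4 ≤ W ^ 4 := pow_le_pow_left₀ hw0.le hwW 4
        _ = Real.exp (4 * Real.log W) := by
            rw [← Real.exp_log (by linarith : 0 < W), ← Real.exp_nat_mul, Real.log_exp]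
            norm_num
        _ ≤ Real.exp (2 * (C2 * Real.log W)) := by
            rw [Real.exp_le_exp]
            nlinarith
    rw [TT_succ] at hJ
    have e2 : w ^ 4 < L * TT N (2 * D * l) J := lt_of_le_of_lt e1 hJ
    by_contra hcon
    push Not at hcon
    have e3 : L * TT N (2 * D * l) J ≤ L * (8 * w ^ 2) :=
      mul_le_mul_of_nonneg_left hcon (by linarith)
    have e4 : w ^ 4 < L * (8 * w ^ 2) := lt_of_lt_of_le e2 e3
    have e5 : L * 8 ≤ w := by linarith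
    have e6 : L * (8 * w ^ 2) ≤ w ^ 4 := by
      calc L * (8 * w ^ 2) = (L * 8) * w ^ 2 := by ring
        _ ≤ w * w ^ 2 := mul_le_mul_of_nonneg_right e5 (by positivity)
        _ ≤ w * w * w ^ 2 := by
            refine mul_le_mul_of_nonneg_right ?_ (by positivity)
            nlinarith
        _ = w ^ 4 := by ring
    linarith
  have hr : D * (l : ℝ) < 2 * D * l := by nlinarith
  obtain ⟨M, hM0, hMa, ⟨Z, hZc, hZ⟩, hMb, ⟨Z1, hZ1c, hZ1⟩⟩ :=
    reg_tree htree hN1 hT01 hl hr (C := C) (cl := cl) hclus.near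
      (fun f v _ => hclus.nonneg f v) hclus.sum_one (fun f v _ => hclus.small f v) h1.le
      (by linarith) hN hT0 hρR hRJ
  -- the weight
  have hmu : (fun v => (∑ i, cl i v) / (Fintype.card (Fin J → Fin N) : ℝ)) = mu C cl := by
    funext v
    rw [mu_eq_avg hclus.supp v]
    unfold B3.avg
    rw [div_eq_inv_mul]
  have hA : (Finset.univ.biUnion C : Finset GaussianInt) = supp C := rfl
  rw [hmu] at hlight ⊢
  rw [hA] at hlight ⊢
  have hFN : Nonempty (Fin J → Fin N) := ⟨fun _ => ⟨0, hN1⟩⟩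
  have hmu0 : ∀ v, 0 ≤ mu C cl v := fun v => mu_nonneg (fun f v _ => hclus.nonneg f v) v
  have hmu1 : ∑ v ∈ supp C, mu C cl v = 1 := sum_mu_supp hclus.sum_one
  have hTl : 2 * D * (l : ℝ) / l = 2 * D := by field_simp
  rw [hTl] at hMa
  refine hbias w hwW0 G hG ?_ (supp C) (mu C cl) (fun v _ => hmu0 v) hmu1 ρ hρpos ?_
    ((supp C ×ˢ B937.bx ρ).image fun p => p.1 - B937.hh p.2) ?_
    (L * (2 * D) * (ρ : ℝ) ^ ε1 / (M * ρ)) (M * (9 * (ρ : ℝ) ^ 2)) ?_ (by positivity) ?_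
    Z1 (centres hw1 hρR hZ1) (25 * N / M / (ρ : ℝ) ^ 2) (by positivity)
    (fun v _ => om488_le hmu0 hρpos hMb v) ?_ ?_ ?_ hlight
  · exact hX1 w hwX1 _ hcard
  · have e1 : w ≤ (w ^ (1 - 2 * ε)) ^ 2 := by
      rw [← Real.rpow_natCast, ← Real.rpow_mul hw0.le]
      calc w = w ^ (1 : ℝ) := (Real.rpow_one w).symm
        _ ≤ w ^ ((1 - 2 * ε) * ((2 : ℕ) : ℝ)) := by
            refine Real.rpow_le_rpow_of_exponent_le hw1 ?_
            push_cast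
            linarith
    have e2 : (w ^ (1 - 2 * ε)) ^ 2 ≤ (ρ : ℝ) ^ 2 := pow_le_pow_left₀ (by positivity) hρ1 2
    nlinarith
  · intro z hz p hp
    exact Finset.mem_image.2 ⟨(z, p), Finset.mem_product.2 ⟨hz, hp⟩, rfl⟩
  · intro z _
    exact hMa z
  · have e1 : ((((supp C ×ˢ B937.bx ρ).image fun p => p.1 - B937.hh p.2).filter
        fun v => B937.om (supp C) (mu C cl) ρ v ≠ 0).card : ℝ)
        ≤ (((supp C ×ˢ B937.bx ρ).image fun p => p.1 - B937.hh p.2).card : ℝ) := by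
      exact_mod_cast Finset.card_filter_le _ _
    have e2 : ((((supp C ×ˢ B937.bx ρ).image fun p => p.1 - B937.hh p.2).card : ℕ) : ℝ)
        ≤ (Z.card : ℝ) * (9 * (ρ : ℝ) ^ 2) := by
      exact_mod_cast card_V hZ
    refine e1.trans (e2.trans ?_)
    exact mul_le_mul_of_nonneg_right hZc (by positivity)
  · -- first number
    have e1 := num1 (ρ := (ρ : ℝ)) hw1 hε hε10 h1 h2 (by positivity) hρ2
    have e2 : 64 * (L * (2 * D) * (ρ : ℝ) ^ ε1 / (M * ρ) * (M * (9 * (ρ : ℝ) ^ 2)))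
        = 1152 * L * D * ((ρ : ℝ) * (ρ : ℝ) ^ ε1) := by
      have hρne : (ρ : ℝ) ≠ 0 := by positivity
      field_simp
      ring
    rw [e2]
    calc 1152 * L * D * ((ρ : ℝ) * (ρ : ℝ) ^ ε1)
        ≤ 1152 * L * D * (4 * w ^ (1 - 2 * ε + ε / 8)) :=
          mul_le_mul_of_nonneg_left e1 (by positivity)
      _ = (4608 * L * D) * w ^ (1 - 2 * ε + ε / 8) := by ring
      _ ≤ K * w ^ (1 - 2 * ε + ε / 8) := mul_le_mul_of_nonneg_right hKa (by positivity)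
  · -- second number
    have e1 := num2 (ρ := (ρ : ℝ)) hw1 hε hε10 h1 h2 hρ1
    have hρne : (ρ : ℝ) ≠ 0 := by positivity
    have e2 : (Z1.card : ℝ) * (25 * N / M / (ρ : ℝ) ^ 2)
        ≤ (M * (L * ((ρ : ℝ) / (8 * w ^ 2) * (8 * w ^ 2 / ρ) ^ ε1))) * (25 * N / M / (ρ : ℝ) ^ 2) :=
      mul_le_mul_of_nonneg_right hZ1c (by positivity)
    have e3 : 2 * (40960 * w ^ 4 * ((M * (L * ((ρ : ℝ) / (8 * w ^ 2) * (8 * w ^ 2 / ρ) ^ ε1)))
          * (25 * N / M / (ρ : ℝ) ^ 2)))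
        = 256000 * N * L * (w ^ 2 / ρ * (8 * w ^ 2 / ρ) ^ ε1) := by
      field_simp
      ring
    calc 2 * (40960 * w ^ 4 * ((Z1.card : ℝ) * (25 * N / M / (ρ : ℝ) ^ 2)))
        ≤ 2 * (40960 * w ^ 4 * ((M * (L * ((ρ : ℝ) / (8 * w ^ 2) * (8 * w ^ 2 / ρ) ^ ε1)))
          * (25 * N / M / (ρ : ℝ) ^ 2))) := by
          refine mul_le_mul_of_nonneg_left ?_ (by norm_num)
          exact mul_le_mul_of_nonneg_left e2 (by positivity)
      _ = 256000 * N * L * (w ^ 2 / ρ * (8 * w ^ 2 / ρ) ^ ε1) := e3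
      _ ≤ 256000 * N * L * (8 * w ^ (1 + 2 * ε + ε / 8)) :=
          mul_le_mul_of_nonneg_left e1 (by positivity)
      _ = (2048000 * N * L) * w ^ (1 + 2 * ε + ε / 8) := by ring
      _ ≤ K * w ^ (1 + 2 * ε + ε / 8) := mul_le_mul_of_nonneg_right hKb (by positivity)
  · refine (num3 hw1 hε hρ1).trans ?_
    exact mul_le_mul_of_nonneg_right hKc (by positivity)

end Crest.Agent.R2.RF763
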