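import Crest.Agent.R2.Gcd62
import Crest.Agent.R2.Tree763

/-!
# R2 (Gaussian moat), block T2: regularity numbers of the cluster measure

A finite family of clusters `C lam` (`lam : Λ`), each with a probability weight `cl lam`; the
cluster measure is the average `mu`.  A *level* is a map `a : Λ → κ` (ancestor) with positions
`pos : κ → ℤ[i]` that are `2T`-separated, every cluster lying in the `T`-ball around the position
of its ancestor.
-/

set_option autoImplicit false

namespace Crest.Agent.R2.T2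

open Finset
open Crest.Agent.R2.Gcd62 (ab)

noncomputable section

/-! ### packing -/

/-- Points of `ℂ` which are `2T`-separated and lie in a closed ball of radius `2T`: at most 25. -/
theorem packing {κ : Type*} [DecidableEq κ] (F : Finset κ) (pos : κ → ℂ) (x : ℂ) (T : ℝ) (hT : 0 < T)
    (hsep : ∀ k ∈ F, ∀ k' ∈ F, k ≠ k' → 2 * T ≤ ‖pos k - pos k'‖)
    (hF : ∀ k ∈ F, ‖pos k - x‖ ≤ 2 * T) : F.card ≤ 25 := by
  classical
  have key : F.card ≤ ((Finset.Icc (-2 : ℤ) 2) ×ˢ (Finset.Icc (-2 : ℤ) 2)).card := by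
    refine Finset.card_le_card_of_injOn
      (fun k => (⌊((pos k - x).re) / T⌋, ⌊((pos k - x).im) / T⌋)) ?_ ?_
    · intro k hk
      have h := hF k hk
      have h1 := (Complex.abs_re_le_norm (pos k - x)).trans h
      have h2 := (Complex.abs_im_le_norm (pos k - x)).trans h
      rw [abs_le] at h1 h2
      simp only [Finset.coe_product, Set.mem_prod, Finset.coe_Icc, Set.mem_Icc]
      refine ⟨⟨?_, ?_⟩, ⟨?_, ?_⟩⟩
      · rw [Int.le_floor, le_div_iff₀ hT]; push_cast; linarith [h1.1]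
      · have : (pos k - x).re / T < ((3 : ℤ) : ℝ) := by
          rw [div_lt_iff₀ hT]; push_cast; linarith [h1.2]
        have := Int.floor_lt.2 this
        omega
      · rw [Int.le_floor, le_div_iff₀ hT]; push_cast; linarith [h2.1]
      · have : (pos k - x).im / T < ((3 : ℤ) : ℝ) := by
          rw [div_lt_iff₀ hT]; push_cast; linarith [h2.2]
        have := Int.floor_lt.2 this
        omega
    · intro k hk k' hk' hkk
      by_contra hne
      simp only [Prod.mk.injEq] at hkk
      have e1 := Int.abs_sub_lt_one_of_floor_eq_floor hkk.1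
      have e2 := Int.abs_sub_lt_one_of_floor_eq_floor hkk.2
      have r1 : |(pos k - pos k').re| < T := by
        have : (pos k - x).re / T - (pos k' - x).re / T = (pos k - pos k').re / T := by
          simp only [Complex.sub_re]; ring
        rw [this, abs_div, abs_of_pos hT, div_lt_one hT] at e1
        exact e1
      have r2 : |(pos k - pos k').im| < T := by
        have : (pos k - x).im / T - (pos k' - x).im / T = (pos k - pos k').im / T := by
          simp only [Complex.sub_im]; ring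
        rw [this, abs_div, abs_of_pos hT, div_lt_one hT] at e2
        exact e2
      have h3 := hsep k hk k' hk' hne
      have h4 := Complex.norm_le_abs_re_add_abs_im (pos k - pos k')
      linarith
  refine key.trans ?_
  rw [Finset.card_product]
  simp

/-! ### the cluster measure -/

variable {Λ : Type*} [Fintype Λ]

/-- the union of the clusters -/
def supp (C : Λ → Finset GaussianInt) : Finset GaussianInt := Finset.univ.biUnion C

/-- the average of the cluster weights -/
def mu (C : Λ → Finset GaussianInt) (cl : Λ → GaussianInt → ℝ) (v : GaussianInt) : ℝ :=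
  (Fintype.card Λ : ℝ)⁻¹ * ∑ lam, if v ∈ C lam then cl lam v else 0

theorem mem_supp {C : Λ → Finset GaussianInt} {v : GaussianInt} :
    v ∈ supp C ↔ ∃ lam, v ∈ C lam := by simp [supp]

theorem mu_nonneg {C : Λ → Finset GaussianInt} {cl : Λ → GaussianInt → ℝ}
    (h0 : ∀ lam, ∀ v ∈ C lam, 0 ≤ cl lam v) (v : GaussianInt) : 0 ≤ mu C cl v := by
  unfold mu
  refine mul_nonneg (by positivity) (Finset.sum_nonneg fun lam _ => ?_)
  split_ifs with h
  · exact h0 lam v h
  · exact le_rfl

theorem sum_mu {C : Λ → Finset GaussianInt} {cl : Λ → GaussianInt → ℝ} (B : Finset GaussianInt) :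
    ∑ v ∈ B, mu C cl v
      = (Fintype.card Λ : ℝ)⁻¹ * ∑ lam, ∑ v ∈ B.filter (fun v => v ∈ C lam), cl lam v := by
  unfold mu
  rw [← Finset.mul_sum, Finset.sum_comm]
  congr 1
  refine Finset.sum_congr rfl fun lam _ => ?_
  rw [Finset.sum_filter]

theorem sum_mu_supp [Nonempty Λ] {C : Λ → Finset GaussianInt} {cl : Λ → GaussianInt → ℝ}
    (h1 : ∀ lam, ∑ v ∈ C lam, cl lam v = 1) : ∑ v ∈ supp C, mu C cl v = 1 := by
  rw [sum_mu]
  have : ∀ lam : Λ, (supp C).filter (fun v => v ∈ C lam) = C lam := by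
    intro lam
    ext v
    simp only [Finset.mem_filter, and_iff_right_iff_imp]
    intro h
    exact mem_supp.2 ⟨lam, h⟩
  simp only [this, h1, Finset.sum_const, Finset.card_univ, nsmul_eq_mul, mul_one]
  have : (Fintype.card Λ : ℝ) ≠ 0 := by
    have := Fintype.card_ne_zero (α := Λ)
    exact_mod_cast this
  field_simp

/-- Pointwise bound: if at every point at most one cluster is present. -/
theorem mu_le {C : Λ → Finset GaussianInt} {cl : Λ → GaussianInt → ℝ} {s : ℝ} (hs : 0 ≤ s)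
    (hcl : ∀ lam, ∀ v ∈ C lam, cl lam v ≤ s)
    (hdisj : ∀ lam lam', lam ≠ lam' → ∀ v, v ∈ C lam → v ∉ C lam') (v : GaussianInt) :
    mu C cl v ≤ s / Fintype.card Λ := by
  classical
  unfold mu
  rw [div_eq_inv_mul]
  refine mul_le_mul_of_nonneg_left ?_ (by positivity)
  by_cases h : ∃ lam, v ∈ C lam
  · obtain ⟨lam, hlam⟩ := h
    rw [Finset.sum_eq_single lam]
    · simp [hlam, hcl lam v hlam]
    · intro lam' _ hne
      rw [if_neg]
      exact hdisj lam lam' (Ne.symm hne) v hlam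
    · intro h; exact absurd (Finset.mem_univ _) h
  · push Not at h
    rw [Finset.sum_eq_zero]
    · exact hs
    · intro lam _; simp [h lam]

/-- Mass of a set is at most the proportion of the clusters that meet it. -/
theorem mass_le {C : Λ → Finset GaussianInt} {cl : Λ → GaussianInt → ℝ}
    (h0 : ∀ lam, ∀ v ∈ C lam, 0 ≤ cl lam v) (h1 : ∀ lam, ∑ v ∈ C lam, cl lam v = 1)
    (B : Finset GaussianInt) [DecidablePred fun lam : Λ => ∃ v ∈ B, v ∈ C lam] :
    ∑ v ∈ B, mu C cl v
      ≤ (((Finset.univ.filter fun lam : Λ => ∃ v ∈ B, v ∈ C lam).card : ℕ) : ℝ) /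
        Fintype.card Λ := by
  rw [sum_mu, div_eq_inv_mul]
  refine mul_le_mul_of_nonneg_left ?_ (by positivity)
  rw [Finset.card_filter, Nat.cast_sum]
  refine Finset.sum_le_sum fun lam _ => ?_
  split_ifs with h
  · rw [Nat.cast_one, ← h1 lam]
    refine Finset.sum_le_sum_of_subset_of_nonneg ?_ ?_
    · intro v hv
      exact (Finset.mem_filter.1 hv).2
    · intro v hv _
      exact h0 lam v hv
  · have : B.filter (fun v => v ∈ C lam) = ∅ := by
      rw [Finset.filter_eq_empty_iff]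
      intro v hv hvC
      exact h ⟨v, hv, hvC⟩
    rw [this]
    simp

/-! ### levels -/

/-- A level of the tree: ancestors, `2T`-separated, clusters within `T` of the ancestor, at most
`n` leaves below every node. -/
structure Level {κ : Type*} (C : Λ → Finset GaussianInt) (a : Λ → κ) (pos : κ → GaussianInt) (T : ℝ)
    (n : ℕ) : Prop where
  pos_T : 0 < T
  sep : ∀ k k', k ≠ k' → 2 * T ≤ ab (pos k - pos k')
  near : ∀ lam, ∀ v ∈ C lam, ab (v - pos (a lam)) ≤ T
  fib : ∀ k, ∀ S : Finset Λ, (∀ lam ∈ S, a lam = k) → S.card ≤ n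

omit [Fintype Λ] in
/-- Number of clusters that meet a ball of radius `T` (complex centre). -/
theorem Level.count {κ : Type*} {C : Λ → Finset GaussianInt} {a : Λ → κ} {pos : κ → GaussianInt}
    {T : ℝ} {n : ℕ} (h : Level C a pos T n) (x : ℂ) (S : Finset Λ)
    (hS : ∀ lam ∈ S, ∃ v ∈ C lam, ‖(v : ℂ) - x‖ ≤ T) : S.card ≤ 25 * n := by
  classical
  have h25 : (S.image a).card ≤ 25 := by
    refine packing (S.image a) (fun k => (pos k : ℂ)) x T h.pos_T ?_ ?_
    · intro k _ k' _ hne
      have := h.sep k k' hne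
      rwa [ab, GaussianInt.toComplex_sub] at this
    · intro k hk
      obtain ⟨lam, hlam, rfl⟩ := Finset.mem_image.1 hk
      obtain ⟨v, hv, hvx⟩ := hS lam hlam
      have h1 := h.near lam v hv
      rw [ab, GaussianInt.toComplex_sub] at h1
      have h2 : (pos (a lam) : ℂ) - x = ((v : ℂ) - x) - ((v : ℂ) - pos (a lam)) := by ring
      rw [h2]
      refine (norm_sub_le _ _).trans ?_
      linarith
  calc S.card ≤ ∑ k ∈ S.image a, (S.filter fun lam => a lam = k).card :=
        le_of_eq (Finset.card_eq_sum_card_image a S)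
    _ ≤ ∑ k ∈ S.image a, n := by
        refine Finset.sum_le_sum fun k _ => ?_
        exact h.fib k _ (fun lam hlam => (Finset.mem_filter.1 hlam).2)
    _ = (S.image a).card * n := by rw [Finset.sum_const, smul_eq_mul]
    _ ≤ 25 * n := Nat.mul_le_mul_right _ h25

/-- Mass of a ball of radius `T`. -/
theorem Level.mass {κ : Type*} {C : Λ → Finset GaussianInt} {a : Λ → κ} {pos : κ → GaussianInt}
    {T : ℝ} {n : ℕ} (h : Level C a pos T n) {cl : Λ → GaussianInt → ℝ}
    (h0 : ∀ lam, ∀ v ∈ C lam, 0 ≤ cl lam v) (h1 : ∀ lam, ∑ v ∈ C lam, cl lam v = 1) (x : ℂ)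
    (B : Finset GaussianInt) (hB : ∀ v ∈ B, ‖(v : ℂ) - x‖ ≤ T) :
    ∑ v ∈ B, mu C cl v ≤ 25 * n / Fintype.card Λ := by
  classical
  refine (mass_le h0 h1 B).trans ?_
  refine div_le_div_of_nonneg_right ?_ (by positivity)
  have := h.count x (Finset.univ.filter fun lam : Λ => ∃ v ∈ B, v ∈ C lam) ?_
  · exact_mod_cast this
  · intro lam hlam
    obtain ⟨v, hv, hvC⟩ := (Finset.mem_filter.1 hlam).2
    exact ⟨v, hvC, hB v hv⟩

/-! ### covering numbers -/

/-- `u - v` lies in the box `[0,ρ)²`. -/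
def InBox (ρ : ℝ) (d : GaussianInt) : Prop :=
  0 ≤ (d.re : ℝ) ∧ (d.re : ℝ) < ρ ∧ 0 ≤ (d.im : ℝ) ∧ (d.im : ℝ) < ρ

theorem abs_re_le_ab (z : GaussianInt) : |(z.re : ℝ)| ≤ ab z := by
  have := Complex.abs_re_le_norm (GaussianInt.toComplex z)
  rwa [← GaussianInt.intCast_re] at this

theorem abs_im_le_ab (z : GaussianInt) : |(z.im : ℝ)| ≤ ab z := by
  have := Complex.abs_im_le_norm (GaussianInt.toComplex z)
  rwa [← GaussianInt.intCast_im] at this

/-- Size of `supp - box`. -/
theorem Level.card_V {κ : Type*} [Fintype κ] {C : Λ → Finset GaussianInt} {a : Λ → κ}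
    {pos : κ → GaussianInt} {T : ℝ} {n : ℕ} (h : Level C a pos T n) (ρ : ℕ)
    (hT : T ≤ ρ) (V : Finset GaussianInt)
    (hV : ∀ v ∈ V, ∃ u ∈ supp C, InBox ρ (u - v)) :
    V.card ≤ 9 * ρ ^ 2 * Fintype.card κ := by
  classical
  have hsub : V ⊆ (Finset.univ : Finset κ).biUnion (fun k =>
      ((Finset.Ioc (-2 * (ρ : ℤ)) ρ) ×ˢ (Finset.Ioc (-2 * (ρ : ℤ)) ρ)).image
        (fun q : ℤ × ℤ => pos k + ⟨q.1, q.2⟩)) := by
    intro v hv
    obtain ⟨u, hu, hb⟩ := hV v hv
    obtain ⟨lam, hlam⟩ := mem_supp.1 hu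
    have h1 := h.near lam u hlam
    have h2 := (abs_re_le_ab (u - pos (a lam))).trans (h1.trans hT)
    have h3 := (abs_im_le_ab (u - pos (a lam))).trans (h1.trans hT)
    obtain ⟨b1, b2, b3, b4⟩ := hb
    rw [Zsqrtd.re_sub] at h2 b1 b2
    rw [Zsqrtd.im_sub] at h3 b3 b4
    have h2' : |(u.re - (pos (a lam)).re : ℤ)| ≤ (ρ : ℤ) := by exact_mod_cast h2
    have h3' : |(u.im - (pos (a lam)).im : ℤ)| ≤ (ρ : ℤ) := by exact_mod_cast h3
    have b1' : (0 : ℤ) ≤ u.re - v.re := by exact_mod_cast b1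
    have b2' : u.re - v.re < (ρ : ℤ) := by exact_mod_cast b2
    have b3' : (0 : ℤ) ≤ u.im - v.im := by exact_mod_cast b3
    have b4' : u.im - v.im < (ρ : ℤ) := by exact_mod_cast b4
    rw [abs_le] at h2' h3'
    refine Finset.mem_biUnion.2 ⟨a lam, Finset.mem_univ _, ?_⟩
    refine Finset.mem_image.2 ⟨(v.re - (pos (a lam)).re, v.im - (pos (a lam)).im), ?_, ?_⟩
    · simp only [Finset.mem_product, Finset.mem_Ioc]
      refine ⟨⟨?_, ?_⟩, ⟨?_, ?_⟩⟩ <;> omega
    · ext <;> simp
  refine (Finset.card_le_card hsub).trans ?_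
  refine Finset.card_biUnion_le.trans ?_
  have hcard : ∀ k : κ, (((Finset.Ioc (-2 * (ρ : ℤ)) ρ) ×ˢ (Finset.Ioc (-2 * (ρ : ℤ)) ρ)).image
        (fun q : ℤ × ℤ => pos k + ⟨q.1, q.2⟩)).card ≤ 9 * ρ ^ 2 := by
    intro k
    refine Finset.card_image_le.trans ?_
    rw [Finset.card_product, Int.card_Ioc]
    have : ((ρ : ℤ) - -2 * (ρ : ℤ)).toNat = 3 * ρ := by
      have : ((ρ : ℤ) - -2 * (ρ : ℤ)) = ((3 * ρ : ℕ) : ℤ) := by push_cast; ring
      rw [this, Int.toNat_natCast]
    rw [this]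
    exact le_of_eq (by ring)
  calc ∑ k : κ, _ ≤ ∑ _k : κ, 9 * ρ ^ 2 := Finset.sum_le_sum fun k _ => hcard k
    _ = 9 * ρ ^ 2 * Fintype.card κ := by
      rw [Finset.sum_const, Finset.card_univ, smul_eq_mul, mul_comm]

/-- Number of boxes of the grid `R ℤ[i]` that meet `supp - box`. -/
theorem Level.card_Q {κ : Type*} [Fintype κ] {C : Λ → Finset GaussianInt} {a : Λ → κ}
    {pos : κ → GaussianInt} {T : ℝ} {n : ℕ} (h : Level C a pos T n) (ρ : ℕ) (R : ℝ)
    (hT : T ≤ R) (hρR : (ρ : ℝ) ≤ R) (Q : Finset (ℤ × ℤ))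
    (hQ : ∀ q ∈ Q, ∃ v : GaussianInt, (∃ u ∈ supp C, InBox ρ (u - v)) ∧
      ⌊(v.re : ℝ) / R⌋ = q.1 ∧ ⌊(v.im : ℝ) / R⌋ = q.2) :
    Q.card ≤ 16 * Fintype.card κ := by
  classical
  have hR : 0 < R := lt_of_lt_of_le h.pos_T hT
  have hsub : Q ⊆ (Finset.univ : Finset κ).biUnion (fun k =>
      (Finset.Icc (⌊((pos k).re : ℝ) / R⌋ - 2) (⌊((pos k).re : ℝ) / R⌋ + 1)) ×ˢ
      (Finset.Icc (⌊((pos k).im : ℝ) / R⌋ - 2) (⌊((pos k).im : ℝ) / R⌋ + 1))) := by
    intro q hq
    obtain ⟨v, ⟨u, hu, b1, b2, b3, b4⟩, hq1, hq2⟩ := hQ q hq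
    obtain ⟨lam, hlam⟩ := mem_supp.1 hu
    have h1 := h.near lam u hlam
    have h2 := (abs_re_le_ab (u - pos (a lam))).trans (h1.trans hT)
    have h3 := (abs_im_le_ab (u - pos (a lam))).trans (h1.trans hT)
    rw [Zsqrtd.re_sub] at h2 b1 b2
    rw [Zsqrtd.im_sub] at h3 b3 b4
    push_cast at h2 h3 b1 b2 b3 b4
    rw [abs_le] at h2 h3
    refine Finset.mem_biUnion.2 ⟨a lam, Finset.mem_univ _, ?_⟩
    rw [Finset.mem_product, Finset.mem_Icc, Finset.mem_Icc, ← hq1, ← hq2]
    have key : ∀ x y : ℝ, -(2 * R) ≤ x - y → x - y ≤ R →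
        ⌊y / R⌋ - 2 ≤ ⌊x / R⌋ ∧ ⌊x / R⌋ ≤ ⌊y / R⌋ + 1 := by
      intro x y hx1 hx2
      constructor
      · rw [← Int.floor_sub_ofNat (y / R) 2]
        refine Int.floor_le_floor ?_
        have : x / R - (y / R - 2) = (x - y + 2 * R) / R := by field_simp; ring
        have h0 : 0 ≤ (x - y + 2 * R) / R := div_nonneg (by linarith) hR.le
        norm_num
        linarith
      · rw [← Int.floor_add_one (y / R)]
        refine Int.floor_le_floor ?_
        have : (y / R + 1) - x / R = (R - (x - y)) / R := by field_simp; ring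
        have h0 : 0 ≤ (R - (x - y)) / R := div_nonneg (by linarith) hR.le
        linarith
    exact ⟨key _ _ (by linarith [h2.1]) (by linarith [h2.2]),
      key _ _ (by linarith [h3.1]) (by linarith [h3.2])⟩
  refine (Finset.card_le_card hsub).trans ?_
  refine Finset.card_biUnion_le.trans ?_
  calc ∑ k : κ, _ ≤ ∑ _k : κ, 16 := Finset.sum_le_sum fun k _ => by
        rw [Finset.card_product, Int.card_Icc, Int.card_Icc]
        have e1 : (⌊((pos k).re : ℝ) / R⌋ + 1 + 1 - (⌊((pos k).re : ℝ) / R⌋ - 2)).toNat = 4 := by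
          have : (⌊((pos k).re : ℝ) / R⌋ + 1 + 1 - (⌊((pos k).re : ℝ) / R⌋ - 2)) = 4 := by ring
          rw [this]; rfl
        have e2 : (⌊((pos k).im : ℝ) / R⌋ + 1 + 1 - (⌊((pos k).im : ℝ) / R⌋ - 2)).toNat = 4 := by
          have : (⌊((pos k).im : ℝ) / R⌋ + 1 + 1 - (⌊((pos k).im : ℝ) / R⌋ - 2)) = 4 := by ring
          rw [this]; rfl
        rw [e1, e2]
    _ = 16 * Fintype.card κ := by
      rw [Finset.sum_const, Finset.card_univ, smul_eq_mul, mul_comm]

/-- Mass of a translate of the box `[0,ρ)²`, `ρ ≤ T`. -/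
theorem Level.mass_box {κ : Type*} {C : Λ → Finset GaussianInt} {a : Λ → κ} {pos : κ → GaussianInt}
    {T : ℝ} {n : ℕ} (h : Level C a pos T n) {cl : Λ → GaussianInt → ℝ}
    (h0 : ∀ lam, ∀ v ∈ C lam, 0 ≤ cl lam v) (h1 : ∀ lam, ∑ v ∈ C lam, cl lam v = 1)
    (ρ : ℝ) (hρ : ρ ≤ T) (y : GaussianInt)
    (B : Finset GaussianInt) (hB : ∀ v ∈ B, InBox ρ (v - y)) :
    ∑ v ∈ B, mu C cl v ≤ 25 * n / Fintype.card Λ := by
  refine h.mass h0 h1 ((y : ℂ) + (ρ / 2 : ℝ) + (ρ / 2 : ℝ) * Complex.I) B ?_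
  intro v hv
  obtain ⟨b1, b2, b3, b4⟩ := hB v hv
  rw [Zsqrtd.re_sub] at b1 b2
  rw [Zsqrtd.im_sub] at b3 b4
  push_cast at b1 b2 b3 b4
  refine (Complex.norm_le_abs_re_add_abs_im _).trans ?_
  have e1 : ((v : ℂ) - ((y : ℂ) + (ρ / 2 : ℝ) + (ρ / 2 : ℝ) * Complex.I)).re
      = (v.re : ℝ) - y.re - ρ / 2 := by
    rw [Complex.sub_re, Complex.add_re, Complex.add_re, Complex.mul_re, Complex.ofReal_re,
      Complex.ofReal_im, Complex.I_re, Complex.I_im, ← GaussianInt.intCast_re,
      ← GaussianInt.intCast_re]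
    ring
  have e2 : ((v : ℂ) - ((y : ℂ) + (ρ / 2 : ℝ) + (ρ / 2 : ℝ) * Complex.I)).im
      = (v.im : ℝ) - y.im - ρ / 2 := by
    rw [Complex.sub_im, Complex.add_im, Complex.add_im, Complex.mul_im, Complex.ofReal_re,
      Complex.ofReal_im, Complex.I_re, Complex.I_im, ← GaussianInt.intCast_im,
      ← GaussianInt.intCast_im]
    ring
  rw [e1, e2]
  have f1 : |(v.re : ℝ) - y.re - ρ / 2| ≤ ρ / 2 := by rw [abs_le]; constructor <;> linarith
  have f2 : |(v.im : ℝ) - y.im - ρ / 2| ≤ ρ / 2 := by rw [abs_le]; constructor <;> linarith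
  linarith

/-! ### the levels of helper763's tree -/

open Crest.Agent.R2.T1

/-- the ancestor at level `i` of a leaf -/
def anc {N J : ℕ} (i : ℕ) (f : Fin J → Fin N) : List.Vector (Fin N) (J - i) :=
  ⟨(List.ofFn f).take (J - i), by simp⟩

theorem level_of_tree {E : Set GaussianInt} {N : ℕ} {T : ℕ → ℝ} {J : ℕ} {x : GaussianInt}
    {node : List (Fin N) → GaussianInt} (h : IsTree E N T J x node)
    (C : (Fin J → Fin N) → Finset GaussianInt)
    (hC : ∀ f, ∀ v ∈ C f, ab (v - leaf node f) ≤ T 0)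
    {i : ℕ} (hi : i ≤ J) (hT : 0 < T i) :
    Level C (anc i) (fun w : List.Vector (Fin N) (J - i) => node w.1) (T i) (N ^ i) := by
  classical
  refine ⟨hT, ?_, ?_, ?_⟩
  · intro w w' hne
    have hl : w.1.length = J - i := w.2
    have hl' : w'.1.length = J - i := w'.2
    have := h.sep w.1 w'.1 (by rw [hl, hl']) (by omega) (fun hh => hne (Subtype.ext hh))
    rw [hl] at this
    have e : J - (J - i) = i := by omega
    rwa [e] at this
  · intro f v hv
    have h1 := hC f v hv
    have h2 := h.near ((List.ofFn f).take (J - i)) ((List.ofFn f).drop (J - i)) (by simp)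
    rw [List.take_append_drop] at h2
    have e1 : J - ((List.ofFn f).take (J - i)).length = i := by simp; omega
    have e2 : i - ((List.ofFn f).drop (J - i)).length = 0 := by simp; omega
    rw [e1, e2] at h2
    have e3 : v - node ((List.ofFn f).take (J - i))
        = (v - leaf node f) + (node (List.ofFn f) - node ((List.ofFn f).take (J - i))) := by
      unfold leaf; ring
    show ab (v - node ((List.ofFn f).take (J - i))) ≤ T i
    rw [e3]
    refine (Gcd62.ab_add_le _ _).trans ?_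
    have h2' : ab (node (List.ofFn f) - node ((List.ofFn f).take (J - i))) ≤ T i - T 0 := h2
    linarith
  · intro w S hS
    have : S.card ≤ (Finset.univ : Finset (List.Vector (Fin N) i)).card := by
      refine Finset.card_le_card_of_injOn
        (fun f => (⟨(List.ofFn f).drop (J - i), by simp; omega⟩ : List.Vector (Fin N) i))
        (fun _ _ => Finset.mem_coe.2 (Finset.mem_univ _)) ?_
      intro f hf g hg hfg
      have t1 : (List.ofFn f).take (J - i) = (List.ofFn g).take (J - i) := by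
        have := (hS f hf).trans (hS g hg).symm
        exact congrArg Subtype.val this
      have t2 : (List.ofFn f).drop (J - i) = (List.ofFn g).drop (J - i) :=
        congrArg Subtype.val hfg
      apply List.ofFn_injective
      rw [← List.take_append_drop (J - i) (List.ofFn f), t1, t2, List.take_append_drop]
    refine this.trans ?_
    rw [Finset.card_univ, card_vector, Fintype.card_fin]

theorem card_anc {N J i : ℕ} : Fintype.card (List.Vector (Fin N) (J - i)) = N ^ (J - i) := by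
  rw [card_vector, Fintype.card_fin]

end

end Crest.Agent.R2.T2
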