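import Crest.Agent.R2.ThmS717

/-!
# R2 (Gaussian moat): block B3 = (3.5) of #11312

Three nested scales and the application of Theorem S: a two-level average of one-dimensional
measures cannot have one large Fourier coefficient `a_π/π` at `w^{2-ε/4}` primes.
-/

set_option autoImplicit false

namespace Crest.Agent.R2.B3

open Finset
open Crest.Agent.R2.E717
open Crest.Agent.R2.Gcd62 (ab)

/-- average of a finite family of weights -/
noncomputable def avg {I : Type} [Fintype I] (m : I → GaussianInt → ℝ) (z : GaussianInt) : ℝ :=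
  (Fintype.card I : ℝ)⁻¹ * ∑ i, m i z

theorem avg_nonneg {I : Type} [Fintype I] (m : I → GaussianInt → ℝ) (z : GaussianInt)
    (h : ∀ i, 0 ≤ m i z) : 0 ≤ avg m z :=
  mul_nonneg (by positivity) (Finset.sum_nonneg fun i _ => h i)

theorem sum_avg {I : Type} [Fintype I] (m : I → GaussianInt → ℝ) (A : Finset GaussianInt) :
    ∑ z ∈ A, avg m z = (Fintype.card I : ℝ)⁻¹ * ∑ i, ∑ z ∈ A, m i z := by
  unfold avg
  rw [← Finset.mul_sum, Finset.sum_comm]

theorem isProbOn_avg {I : Type} [Fintype I] [Nonempty I] (m : I → GaussianInt → ℝ)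
    (A : Finset GaussianInt) (h : ∀ i, IsProbOn A (m i)) : IsProbOn A (avg m) := by
  refine ⟨fun z hz => avg_nonneg m z fun i => (h i).nonneg z hz, ?_⟩
  rw [sum_avg]
  have h1 : ∑ i : I, ∑ z ∈ A, m i z = Fintype.card I := by
    rw [Finset.sum_congr rfl fun i _ => (h i).sum_one]
    simp
  rw [h1, inv_mul_cancel₀]
  exact_mod_cast Fintype.card_ne_zero

theorem mhat_avg {I : Type} [Fintype I] (m : I → GaussianInt → ℝ) (A : Finset GaussianInt)
    (x : ℂ) : mhat A (avg m) x = ((Fintype.card I : ℝ)⁻¹ : ℝ) * ∑ i, mhat A (m i) x := by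
  unfold mhat avg
  rw [Finset.sum_comm, Finset.mul_sum]
  refine Finset.sum_congr rfl fun z _ => ?_
  rw [← Finset.sum_mul]
  push_cast
  ring

theorem norm_mhat_avg_le {I : Type} [Fintype I] (m : I → GaussianInt → ℝ)
    (A : Finset GaussianInt) (x : ℂ) :
    ‖mhat A (avg m) x‖ ≤ (Fintype.card I : ℝ)⁻¹ * ∑ i, ‖mhat A (m i) x‖ := by
  rw [mhat_avg, norm_mul]
  have : ‖(((Fintype.card I : ℝ)⁻¹ : ℝ) : ℂ)‖ = (Fintype.card I : ℝ)⁻¹ := by
    rw [Complex.norm_real, Real.norm_of_nonneg (by positivity)]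
  rw [this]
  exact mul_le_mul_of_nonneg_left (norm_sum_le _ _) (by positivity)

theorem norm_mhat_le_one (A : Finset GaussianInt) (m : GaussianInt → ℝ) (h : IsProbOn A m)
    (x : ℂ) : ‖mhat A m x‖ ≤ 1 := by
  have h1 : ‖mhat A m x‖ ≤ ∑ z ∈ A, m z := by
    unfold mhat
    refine (norm_sum_le _ _).trans (Finset.sum_le_sum fun z hz => ?_)
    rw [norm_mul, norm_chi, mul_one, Complex.norm_real, Real.norm_of_nonneg (h.nonneg z hz)]
  rw [h.sum_one] at h1
  exact h1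

/-- restriction of a weight to its support does not change the transform -/
theorem mhat_support (A : Finset GaussianInt) (m : GaussianInt → ℝ) (x : ℂ) :
    mhat (A.filter fun z => m z ≠ 0) m x = mhat A m x := by
  unfold mhat
  refine Finset.sum_filter_of_ne ?_
  intro z _ h h0
  exact h (by rw [h0]; simp)

theorem isProbOn_support (A : Finset GaussianInt) (m : GaussianInt → ℝ) (h : IsProbOn A m) :
    IsProbOn (A.filter fun z => m z ≠ 0) m := by
  refine ⟨fun z hz => h.nonneg z (Finset.mem_filter.1 hz).1, ?_⟩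
  rw [← h.sum_one]
  refine Finset.sum_filter_of_ne ?_
  intro z _ h h0
  exact h h0

theorem avg_ne_zero {I : Type} [Fintype I] (m : I → GaussianInt → ℝ) (z : GaussianInt)
    (h : avg m z ≠ 0) : ∃ i, m i z ≠ 0 := by
  by_contra hc
  push Not at hc
  apply h
  unfold avg
  rw [Finset.sum_eq_zero fun i _ => hc i, mul_zero]

/-- **Selection.**  `T p ≤ avg_i T2 i p`, `T2 i p ≤ avg_j T1 i j p`, all in `[0,1]`, `T p ≥ β`:
one pair `(i,j)` has `T2, T1 ≥ β²/2` for `(β²/2) #G` of the `p`. -/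
theorem exists_pair {I J P : Type} [Fintype I] [Fintype J] [Nonempty I] [Nonempty J]
    (G : Finset P) (T : P → ℝ) (T2 : I → P → ℝ) (T1 : I → J → P → ℝ) (β : ℝ) (hβ : 0 ≤ β)
    (hT : ∀ p ∈ G, β ≤ T p) (h2 : ∀ p ∈ G, T p ≤ (Fintype.card I : ℝ)⁻¹ * ∑ i, T2 i p)
    (h1 : ∀ i, ∀ p ∈ G, T2 i p ≤ (Fintype.card J : ℝ)⁻¹ * ∑ j, T1 i j p)
    (h20 : ∀ i p, 0 ≤ T2 i p) (h21 : ∀ i p, T2 i p ≤ 1) (h10 : ∀ i j p, 0 ≤ T1 i j p)
    (h11 : ∀ i j p, T1 i j p ≤ 1) :
    ∃ i j, β ^ 2 / 2 * G.card ≤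
      ((G.filter fun p => β ^ 2 / 2 ≤ T2 i p ∧ β ^ 2 / 2 ≤ T1 i j p).card : ℝ) := by
  classical
  set cI : ℝ := (Fintype.card I : ℝ) with hcI
  set cJ : ℝ := (Fintype.card J : ℝ) with hcJ
  have hcI0 : 0 < cI := by rw [hcI]; exact_mod_cast Fintype.card_pos
  have hcJ0 : 0 < cJ := by rw [hcJ]; exact_mod_cast Fintype.card_pos
  -- for each p: β² ≤ avg_i avg_j T2 T1
  have hp : ∀ p ∈ G, β ^ 2 * (cI * cJ) ≤ ∑ i, ∑ j, T2 i p * T1 i j p := by
    intro p hp
    have hc : (∑ i, T2 i p) ^ 2 ≤ cI * ∑ i, T2 i p ^ 2 := by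
      have := sq_sum_le_card_mul_sum_sq (s := (Finset.univ : Finset I)) (f := fun i => T2 i p)
      rwa [Finset.card_univ] at this
    have h3 : β * cI ≤ ∑ i, T2 i p := by
      have h4 := (hT p hp).trans (h2 p hp)
      rw [inv_mul_eq_div, le_div_iff₀ hcI0] at h4
      exact h4
    have h5 : (β * cI) ^ 2 ≤ cI * ∑ i, T2 i p ^ 2 :=
      (pow_le_pow_left₀ (by positivity) h3 2).trans hc
    have h6 : β ^ 2 * cI ≤ ∑ i, T2 i p ^ 2 := by
      have : cI * (β ^ 2 * cI) ≤ cI * ∑ i, T2 i p ^ 2 := by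
        calc cI * (β ^ 2 * cI) = (β * cI) ^ 2 := by ring
          _ ≤ _ := h5
      exact le_of_mul_le_mul_left this hcI0
    have h7 : ∀ i, cJ * T2 i p ^ 2 ≤ ∑ j, T2 i p * T1 i j p := by
      intro i
      have h8 := h1 i p hp
      rw [inv_mul_eq_div, le_div_iff₀ hcJ0] at h8
      rw [← Finset.mul_sum]
      calc cJ * T2 i p ^ 2 = T2 i p * (T2 i p * cJ) := by ring
        _ ≤ T2 i p * ∑ j, T1 i j p := mul_le_mul_of_nonneg_left h8 (h20 i p)
    calc β ^ 2 * (cI * cJ) = cJ * (β ^ 2 * cI) := by ring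
      _ ≤ cJ * ∑ i, T2 i p ^ 2 := mul_le_mul_of_nonneg_left h6 hcJ0.le
      _ = ∑ i, cJ * T2 i p ^ 2 := by rw [Finset.mul_sum]
      _ ≤ _ := Finset.sum_le_sum fun i _ => h7 i
  have hsum : β ^ 2 * (cI * cJ) * G.card ≤ ∑ i, ∑ j, ∑ p ∈ G, T2 i p * T1 i j p := by
    have h3 : β ^ 2 * (cI * cJ) * G.card ≤ ∑ p ∈ G, ∑ i, ∑ j, T2 i p * T1 i j p := by
      have := Finset.card_nsmul_le_sum G _ _ hp
      rw [nsmul_eq_mul] at this
      linarith
    rw [Finset.sum_comm] at h3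
    refine h3.trans (le_of_eq ?_)
    refine Finset.sum_congr rfl fun i _ => ?_
    rw [Finset.sum_comm]
  obtain ⟨i, j, hij⟩ : ∃ i j, β ^ 2 * G.card ≤ ∑ p ∈ G, T2 i p * T1 i j p := by
    by_contra hc
    push Not at hc
    have h3 : ∑ i, ∑ j, ∑ p ∈ G, T2 i p * T1 i j p < ∑ _i : I, ∑ _j : J, β ^ 2 * (G.card : ℝ) := by
      refine Finset.sum_lt_sum_of_nonempty Finset.univ_nonempty fun i _ => ?_
      exact Finset.sum_lt_sum_of_nonempty Finset.univ_nonempty fun j _ => hc i j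
    rw [Finset.sum_const, Finset.sum_const, Finset.card_univ, Finset.card_univ, nsmul_eq_mul,
      nsmul_eq_mul] at h3
    have h4 := hsum.trans_lt h3
    have h5 : β ^ 2 * (cI * cJ) * (G.card : ℝ) = cI * (cJ * (β ^ 2 * (G.card : ℝ))) := by ring
    rw [h5] at h4
    exact lt_irrefl _ h4
  refine ⟨i, j, ?_⟩
  set F := G.filter fun p => β ^ 2 / 2 ≤ T2 i p ∧ β ^ 2 / 2 ≤ T1 i j p with hF
  have h3 : ∑ p ∈ G, T2 i p * T1 i j p ≤ F.card + β ^ 2 / 2 * G.card := by
    have h4 : ∀ p ∈ G, T2 i p * T1 i j p ≤ (if p ∈ F then (1:ℝ) else 0) + β ^ 2 / 2 := by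
      intro p hp
      by_cases hpF : p ∈ F
      · rw [if_pos hpF]
        have : T2 i p * T1 i j p ≤ 1 := mul_le_one₀ (h21 i p) (h10 i j p) (h11 i j p)
        have : 0 ≤ β ^ 2 / 2 := by positivity
        linarith
      · rw [if_neg hpF, zero_add]
        rw [hF, Finset.mem_filter] at hpF
        push Not at hpF
        by_cases h5 : β ^ 2 / 2 ≤ T2 i p
        · have h6 := hpF hp h5
          calc T2 i p * T1 i j p ≤ 1 * T1 i j p :=
                mul_le_mul_of_nonneg_right (h21 i p) (h10 i j p)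
            _ ≤ _ := by rw [one_mul]; exact h6.le
        · push Not at h5
          calc T2 i p * T1 i j p ≤ T2 i p * 1 :=
                mul_le_mul_of_nonneg_left (h11 i j p) (h20 i p)
            _ ≤ _ := by rw [mul_one]; exact h5.le
    refine (Finset.sum_le_sum h4).trans ?_
    rw [Finset.sum_add_distrib, Finset.sum_const, nsmul_eq_mul, ← Finset.sum_filter,
      Finset.sum_const, nsmul_eq_mul, mul_one]
    have h5 : (G.filter fun p => p ∈ F) = F := by
      ext p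
      simp only [Finset.mem_filter, hF]
      tauto
    rw [h5]
    linarith
  linarith

set_option maxHeartbeats 1000000 in
/-- **(3.5) + Theorem S.** -/
theorem three_scales (ε : ℝ) (hε : 0 < ε) (hε1 : ε ≤ 1 / 40000) :
    ∃ U0 : ℝ, ∀ U w : ℝ, U0 ≤ U → 0 < w → Real.log U ≤ ε * Real.log w →
      Real.log w ≤ ε ^ 2 * U →
    ∀ (G : Finset GaussianInt), (∀ p ∈ G, Prime p) →
    (∀ p ∈ G, ∀ q ∈ G, Associated p q → p = q) →
    (∀ p ∈ G, w ≤ ab p) → (∀ p ∈ G, ab p ≤ 2 * w) →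
    Real.exp ((2 - ε / 4) * Real.log w) ≤ G.card →
    ∀ (a : GaussianInt → GaussianInt), (∀ p ∈ G, ¬ p ∣ a p) →
    ∀ (I J : Type) [Fintype I] [Fintype J] [Nonempty I] [Nonempty J]
      (A : Finset GaussianInt) (m : I → J → GaussianInt → ℝ)
      (v₁ : I → J → GaussianInt) (v₂ : I → GaussianInt) (v₃ : GaussianInt),
    (∀ i j, IsProbOn A (m i j)) →
    (∀ i j, ∀ z ∈ A, m i j z ≠ 0 → ab (z - v₁ i j) ≤ Real.exp U) →
    (∀ i j, ∀ z ∈ A, m i j z ≠ 0 → ab (z - v₂ i) ≤ Real.exp (3 / 2 * U)) →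
    (∀ i j, ∀ z ∈ A, m i j z ≠ 0 → ab (z - v₃) ≤ Real.exp (2 * U)) →
    (∀ i j, ∀ z ∈ A, m i j z ≤ Real.exp (-((1 - ε) * U))) →
    (∀ i, ∀ x : GaussianInt, ∀ B ⊆ A, (∀ z ∈ B, ab (z - x) ≤ Real.exp U) →
      ∑ z ∈ B, avg (m i) z ≤ Real.exp (-((1 / 2 - ε) * U))) →
    (∀ x : GaussianInt, ∀ B ⊆ A, (∀ z ∈ B, ab (z - x) ≤ Real.exp (3 / 2 * U)) →
      ∑ z ∈ B, avg (fun i => avg (m i)) z ≤ Real.exp (-((1 / 2 - ε) * U))) →
    (∀ p ∈ G, Real.exp (-(ε / 16 * Real.log w)) ≤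
      ‖mhat A (avg fun i => avg (m i)) (GaussianInt.toComplex (a p) / GaussianInt.toComplex p)‖) →
    False := by
  classical
  obtain ⟨U0, hS⟩ := theoremS ε hε hε1
  refine ⟨max U0 (Real.exp 2), ?_⟩
  intro U w hU hw0 hwlow hwup G hG hass hwl hwu hn a ha I J _ _ _ _ A m v₁ v₂ v₃ hpr hs1 hs2 hs3
    hP1 hP2 hP3 hbig
  have hU0 : U0 ≤ U := (le_max_left _ _).trans hU
  have hU2 : Real.exp 2 ≤ U := (le_max_right _ _).trans hU
  have hlogU : 2 ≤ Real.log U := by
    rw [Real.le_log_iff_exp_le (lt_of_lt_of_le (Real.exp_pos _) hU2)]; exact hU2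
  have hεw : 2 ≤ ε * Real.log w := hlogU.trans hwlow
  set β : ℝ := Real.exp (-(ε / 16 * Real.log w)) with hβ
  have hβ0 : 0 < β := Real.exp_pos _
  have hpr2 : ∀ i, IsProbOn A (avg (m i)) := fun i => isProbOn_avg (m i) A (hpr i)
  have hpr3 : IsProbOn A (avg fun i => avg (m i)) := isProbOn_avg _ A hpr2
  obtain ⟨i, j, hij⟩ := exists_pair (I := I) (J := J) G
    (fun p => ‖mhat A (avg fun i => avg (m i))
      (GaussianInt.toComplex (a p) / GaussianInt.toComplex p)‖)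
    (fun i p => ‖mhat A (avg (m i)) (GaussianInt.toComplex (a p) / GaussianInt.toComplex p)‖)
    (fun i j p => ‖mhat A (m i j) (GaussianInt.toComplex (a p) / GaussianInt.toComplex p)‖)
    β hβ0.le hbig
    (fun p _ => norm_mhat_avg_le _ A _) (fun i p _ => norm_mhat_avg_le _ A _)
    (fun i p => norm_nonneg _) (fun i p => norm_mhat_le_one A _ (hpr2 i) _)
    (fun i j p => norm_nonneg _) (fun i j p => norm_mhat_le_one A _ (hpr i j) _)
  set F := G.filter fun p =>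
    β ^ 2 / 2 ≤ ‖mhat A (avg (m i)) (GaussianInt.toComplex (a p) / GaussianInt.toComplex p)‖ ∧
    β ^ 2 / 2 ≤ ‖mhat A (m i j) (GaussianInt.toComplex (a p) / GaussianInt.toComplex p)‖ with hF
  have hFG : ∀ p ∈ F, p ∈ G := fun p hp => (Finset.mem_filter.1 hp).1
  have hβsq : β ^ 2 = Real.exp (-(ε / 8 * Real.log w)) := by
    rw [hβ, ← Real.exp_nat_mul]; congr 1; push_cast; ring
  have htwo : (2:ℝ) ≤ Real.exp (5 / 8 * (ε * Real.log w)) := by
    have h1 : (1:ℝ) + 5 / 8 * (ε * Real.log w) ≤ Real.exp (5 / 8 * (ε * Real.log w)) := by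
      have := Real.add_one_le_exp (5 / 8 * (ε * Real.log w)); linarith
    linarith
  have hhalf : Real.exp (-(5 / 8 * (ε * Real.log w))) ≤ 1 / 2 := by
    rw [Real.exp_neg, one_div]
    exact inv_anti₀ (by norm_num) htwo
  -- `β²/2 ≥ w^{-ε}`
  have hβhalf : Real.exp (-(ε * Real.log w)) ≤ β ^ 2 / 2 := by
    have h1 : Real.exp (-(ε * Real.log w)) ≤
        Real.exp (-(ε / 8 * Real.log w)) * Real.exp (-(5 / 8 * (ε * Real.log w))) := by
      rw [← Real.exp_add]
      apply Real.exp_le_exp.2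
      nlinarith
    rw [hβsq]
    refine h1.trans ?_
    have := mul_le_mul_of_nonneg_left hhalf (Real.exp_pos (-(ε / 8 * Real.log w))).le
    linarith
  have hFcard : Real.exp ((2 - ε) * Real.log w) ≤ F.card := by
    have h1 : Real.exp ((2 - ε) * Real.log w) ≤
        (Real.exp (-(ε / 8 * Real.log w)) * Real.exp (-(5 / 8 * (ε * Real.log w)))) *
          Real.exp ((2 - ε / 4) * Real.log w) := by
      rw [← Real.exp_add, ← Real.exp_add]
      apply Real.exp_le_exp.2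
      nlinarith
    refine h1.trans (le_trans ?_ hij)
    rw [hβsq]
    refine mul_le_mul ?_ hn (Real.exp_pos _).le (by positivity)
    have := mul_le_mul_of_nonneg_left hhalf (Real.exp_pos (-(ε / 8 * Real.log w))).le
    linarith
  refine hS U w hU0 hw0 hwlow hwup F (fun p hp => hG p (hFG p hp))
    (fun p hp q hq => hass p (hFG p hp) q (hFG q hq)) (fun p hp => hwl p (hFG p hp))
    (fun p hp => hwu p (hFG p hp)) hFcard a (fun p hp => ha p (hFG p hp))
    (A.filter fun z => m i j z ≠ 0) (A.filter fun z => avg (m i) z ≠ 0)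
    (A.filter fun z => avg (fun i => avg (m i)) z ≠ 0) (m i j) (avg (m i))
    (avg fun i => avg (m i)) (v₁ i j) (v₂ i) v₃
    (isProbOn_support _ _ (hpr i j)) (isProbOn_support _ _ (hpr2 i)) (isProbOn_support _ _ hpr3)
    ?_ ?_ ?_ ?_ ?_ ?_ ?_ ?_ ?_
  · intro z hz
    rw [Finset.mem_filter] at hz
    exact hs1 i j z hz.1 hz.2
  · intro z hz
    rw [Finset.mem_filter] at hz
    obtain ⟨j', hj'⟩ := avg_ne_zero _ _ hz.2
    exact hs2 i j' z hz.1 hj'
  · intro z hz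
    rw [Finset.mem_filter] at hz
    obtain ⟨i', hi'⟩ := avg_ne_zero _ _ hz.2
    obtain ⟨j', hj'⟩ := avg_ne_zero _ _ hi'
    exact hs3 i' j' z hz.1 hj'
  · intro z hz
    exact hP1 i j z (Finset.mem_filter.1 hz).1
  · intro x B hB hBx
    exact hP2 i x B (hB.trans (Finset.filter_subset _ _)) hBx
  · intro x B hB hBx
    exact hP3 x B (hB.trans (Finset.filter_subset _ _)) hBx
  · intro p hp
    rw [mhat_support]
    exact hβhalf.trans (Finset.mem_filter.1 hp).2.2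
  · intro p hp
    rw [mhat_support]
    exact hβhalf.trans (Finset.mem_filter.1 hp).2.1
  · intro p hp
    rw [mhat_support]
    refine le_trans ?_ (hbig p (hFG p hp))
    apply Real.exp_le_exp.2
    nlinarith

end Crest.Agent.R2.B3
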