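import Crest.Agent.R2.Reg549
import Crest.Agent.R2.Three330

/-!
# R2 (Gaussian moat), block T2, part 2

* regularity numbers of the cluster measure of helper763's tree at two radii (`reg_tree`);
* node measures of the tree and the application of helper330's `three_scales`
  (`tree_three_scales`).
-/

set_option autoImplicit false

namespace Crest.Agent.R2.T2

open Finset
open Crest.Agent.R2.Gcd62 (ab)
open Crest.Agent.R2.T1
open Crest.Agent.R2.B3 (avg)

noncomputable section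

/-! ### elementary: the level of a radius -/

theorem exists_level {T : ℕ → ℝ} {J : ℕ} {ρ : ℝ} (h0 : T 0 ≤ ρ) (hJ : ρ < T J) :
    ∃ i, i + 1 ≤ J ∧ T i ≤ ρ ∧ ρ < T (i + 1) := by
  classical
  have hex : ∃ k, ρ < T k := ⟨J, hJ⟩
  have hk := Nat.find_spec hex
  have hle : Nat.find hex ≤ J := Nat.find_min' hex hJ
  have hne : Nat.find hex ≠ 0 := by
    intro h
    rw [h] at hk
    exact absurd hk (not_lt.2 h0)
  obtain ⟨i, hi⟩ := Nat.exists_eq_succ_of_ne_zero hne
  refine ⟨i, by omega, ?_, ?_⟩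
  · have := Nat.find_min hex (m := i) (by omega)
    exact not_lt.1 this
  · rw [hi] at hk
    exact hk

/-- `(3N+2)^{1-ε} ≤ N` passes to powers: if `X ≤ (3N+2)^i` then `X^{1-ε} ≤ N^i`. -/
theorem pow_lower {N i : ℕ} {ε X : ℝ} (hε1 : ε ≤ 1)
    (hN : (3 * (N : ℝ) + 2) ^ (1 - ε) ≤ N) (hX0 : 0 ≤ X) (hX : X ≤ (3 * (N : ℝ) + 2) ^ i) :
    X ^ (1 - ε) ≤ (N : ℝ) ^ i := by
  have hL : (0 : ℝ) ≤ 3 * (N : ℝ) + 2 := by positivity
  calc X ^ (1 - ε) ≤ ((3 * (N : ℝ) + 2) ^ i) ^ (1 - ε) :=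
        Real.rpow_le_rpow hX0 hX (by linarith)
    _ = ((3 * (N : ℝ) + 2) ^ (1 - ε)) ^ i := by
        rw [← Real.rpow_natCast, ← Real.rpow_natCast, ← Real.rpow_mul hL, ← Real.rpow_mul hL]
        congr 1
        ring
    _ ≤ (N : ℝ) ^ i := pow_le_pow_left₀ (Real.rpow_nonneg hL _) hN i

/-- the same, in the form needed: `1 / N^i ≤ L Y (1/Y)^ε` when `1/(L Y) ≤ L^i`, `L = 3N+2`. -/
theorem inv_pow_upper {N i : ℕ} {ε Y : ℝ} (hN1 : 1 ≤ N) (hε0 : 0 ≤ ε) (hε1 : ε ≤ 1)
    (hN : (3 * (N : ℝ) + 2) ^ (1 - ε) ≤ N) (hY : 0 < Y)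
    (hX : 1 / ((3 * (N : ℝ) + 2) * Y) ≤ (3 * (N : ℝ) + 2) ^ i) :
    1 / (N : ℝ) ^ i ≤ (3 * (N : ℝ) + 2) * (Y * (1 / Y) ^ ε) := by
  have hL : (0 : ℝ) < 3 * (N : ℝ) + 2 := by positivity
  have hL1 : (1 : ℝ) ≤ 3 * (N : ℝ) + 2 := by
    have : (0 : ℝ) ≤ N := by positivity
    linarith
  have hNi : (0 : ℝ) < (N : ℝ) ^ i := by
    have : (0 : ℝ) < N := by exact_mod_cast hN1
    positivity
  have h1 := pow_lower (N := N) (i := i) hε1 hN (by positivity) hX
  have hLY : 0 < (3 * (N : ℝ) + 2) * Y := by positivity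
  have h2 : (1 / ((3 * (N : ℝ) + 2) * Y)) ^ (1 - ε)
      = 1 / ((3 * (N : ℝ) + 2) * Y) ^ (1 - ε) := by
    rw [Real.div_rpow zero_le_one hLY.le, Real.one_rpow]
  rw [h2] at h1
  have hpos : 0 < ((3 * (N : ℝ) + 2) * Y) ^ (1 - ε) := Real.rpow_pos_of_pos hLY _
  have h3 : 1 / (N : ℝ) ^ i ≤ ((3 * (N : ℝ) + 2) * Y) ^ (1 - ε) := by
    rw [div_le_iff₀ hNi]
    rw [div_le_iff₀ hpos] at h1
    linarith
  refine h3.trans ?_
  rw [Real.mul_rpow hL.le hY.le]
  have h4 : (3 * (N : ℝ) + 2) ^ (1 - ε) ≤ 3 * (N : ℝ) + 2 := by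
    calc (3 * (N : ℝ) + 2) ^ (1 - ε) ≤ (3 * (N : ℝ) + 2) ^ (1 : ℝ) :=
          Real.rpow_le_rpow_of_exponent_le hL1 (by linarith)
      _ = _ := Real.rpow_one _
  have h5 : Y ^ (1 - ε) = Y * (1 / Y) ^ ε := by
    rw [Real.rpow_sub hY, Real.rpow_one, Real.div_rpow zero_le_one hY.le, Real.one_rpow]
    ring
  rw [h5]
  exact mul_le_mul_of_nonneg_right h4 (by positivity)

/-! ### regularity of the cluster measure at two radii -/

theorem cover_level {Λ : Type*} {κ : Type*} [Fintype Λ] [Fintype κ] [DecidableEq κ]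
    {C : Λ → Finset GaussianInt} {a : Λ → κ} {pos : κ → GaussianInt} {T : ℝ} {n : ℕ}
    (h : Level C a pos T n) :
    ∃ Z : Finset GaussianInt, Z.card ≤ Fintype.card κ ∧
      ∀ v ∈ supp C, ∃ z ∈ Z, ab (v - z) ≤ T := by
  classical
  refine ⟨Finset.univ.image pos, ?_, ?_⟩
  · exact Finset.card_image_le.trans (by rw [Finset.card_univ])
  · intro v hv
    obtain ⟨lam, hlam⟩ := mem_supp.1 hv
    exact ⟨pos (a lam), Finset.mem_image_of_mem _ (Finset.mem_univ _), h.near lam v hlam⟩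

theorem clusters_disjoint {E : Set GaussianInt} {N : ℕ} {T : ℕ → ℝ} {J : ℕ} {x : GaussianInt}
    {node : List (Fin N) → GaussianInt} (h : IsTree E N T J x node) {r : ℝ} (hr : r < T 0)
    {C : (Fin J → Fin N) → Finset GaussianInt}
    (hnear : ∀ f, ∀ v ∈ C f, ab (v - leaf node f) ≤ r) :
    ∀ f g, f ≠ g → ∀ v, v ∈ C f → v ∉ C g := by
  intro f g hfg v hvf hvg
  have h1 := hnear f v hvf
  have h2 := hnear g v hvg
  have h3 := h.leaf_sep hfg
  have h4 : leaf node f - leaf node g = (v - leaf node g) - (v - leaf node f) := by ring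
  rw [h4] at h3
  have h5 := Gcd62.ab_sub_le (v - leaf node g) (v - leaf node f)
  have h3' : 2 * T 0 ≤ ab (v - leaf node g - (v - leaf node f)) := h3
  linarith

/-- **Regularity of the cluster measure** at two radii `ρ ≤ R1`: with `M` = number of pieces of
radius `ρ`. -/
theorem reg_tree {E : Set GaussianInt} {N : ℕ} {T0 : ℝ} {J : ℕ} {x : GaussianInt}
    {node : List (Fin N) → GaussianInt} (h : IsTree E N (TT N T0) J x node)
    (hN1 : 1 ≤ N) (hT0 : 1 ≤ T0) {l : ℕ} (hl : 1 ≤ l) {r : ℝ} (hr : r < T0)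
    {C : (Fin J → Fin N) → Finset GaussianInt} {cl : (Fin J → Fin N) → GaussianInt → ℝ}
    (hnear : ∀ f, ∀ v ∈ C f, ab (v - leaf node f) ≤ r)
    (h0 : ∀ f, ∀ v ∈ C f, 0 ≤ cl f v) (h1 : ∀ f, ∑ v ∈ C f, cl f v = 1)
    (hsm : ∀ f, ∀ v ∈ C f, cl f v ≤ 1 / (l : ℝ))
    {ε : ℝ} (hε0 : 0 ≤ ε) (hε1 : ε ≤ 1) (hN : (3 * (N : ℝ) + 2) ^ (1 - ε) ≤ N)
    {ρ R1 : ℝ} (hρ : T0 ≤ ρ) (hρR : ρ ≤ R1) (hRJ : R1 < TT N T0 J) :
    ∃ M : ℝ, 0 < M ∧
      (∀ v, mu C cl v ≤ (3 * N + 2) * (T0 / l) * ρ ^ ε / (M * ρ)) ∧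
      (∃ Z : Finset GaussianInt, (Z.card : ℝ) ≤ M ∧ ∀ v ∈ supp C, ∃ z ∈ Z, ab (v - z) ≤ ρ) ∧
      (∀ y : ℂ, ∀ B : Finset GaussianInt, (∀ v ∈ B, ‖(v : ℂ) - y‖ ≤ ρ) →
        ∑ v ∈ B, mu C cl v ≤ 25 * N / M) ∧
      (∃ Z1 : Finset GaussianInt, (Z1.card : ℝ) ≤ M * ((3 * N + 2) * (ρ / R1 * (R1 / ρ) ^ ε)) ∧
        ∀ v ∈ supp C, ∃ z ∈ Z1, ab (v - z) ≤ R1) := by
  classical
  have hT0' : (0 : ℝ) < T0 := by linarith
  have hTpos : ∀ i, 0 < TT N T0 i := fun i => TT_pos N hT0' i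
  have hρ0 : 0 < ρ := by linarith
  have hR0 : 0 < R1 := by linarith
  have hNr : (0 : ℝ) < N := by exact_mod_cast hN1
  have hL : (0 : ℝ) < 3 * (N : ℝ) + 2 := by positivity
  have hcl0 : ∀ f, ∀ v ∈ C f, ab (v - leaf node f) ≤ TT N T0 0 := by
    intro f v hv
    rw [TT_zero]
    exact (hnear f v hv).trans hr.le
  obtain ⟨i, hiJ, hi1, hi2⟩ := exists_level (T := TT N T0) (J := J) (ρ := ρ)
    (by rw [TT_zero]; exact hρ) (lt_of_le_of_lt hρR hRJ)
  obtain ⟨j, hjJ, hj1, hj2⟩ := exists_level (T := TT N T0) (J := J) (ρ := R1)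
    (by rw [TT_zero]; linarith) hRJ
  have hij : i ≤ j := by
    by_contra hcon
    push Not at hcon
    have := TT_mono N hT0' (i := j + 1) (j := i) hcon
    linarith
  have hcard : (Fintype.card (Fin J → Fin N) : ℝ) = (N : ℝ) ^ J := by
    simp
  set M : ℝ := (N : ℝ) ^ (J - i) with hM
  have hM0 : 0 < M := by positivity
  have hMi : (N : ℝ) ^ J = M * (N : ℝ) ^ i := by
    rw [hM, ← pow_add]; congr 1; omega
  have lev := level_of_tree h C hcl0 (i := i) (by omega) (hTpos i)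
  have lev1 := level_of_tree h C hcl0 (i := i + 1) (by omega) (hTpos (i + 1))
  have levj := level_of_tree h C hcl0 (i := j) (by omega) (hTpos j)
  refine ⟨M, hM0, ?_, ?_, ?_, ?_⟩
  · -- pointwise
    intro v
    have hd := clusters_disjoint h (r := r) (by rw [TT_zero]; exact hr) hnear
    have e1 := mu_le (C := C) (cl := cl) (s := 1 / (l : ℝ)) (by positivity) hsm hd v
    refine e1.trans ?_
    rw [hcard, hMi]
    have hY : 0 < T0 / ρ := by positivity
    have hX : 1 / ((3 * (N : ℝ) + 2) * (T0 / ρ)) ≤ (3 * (N : ℝ) + 2) ^ i := by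
      have e2 : ρ < (3 * (N : ℝ) + 2) * ((3 * (N : ℝ) + 2) ^ i * T0) := by
        have := hi2
        rw [TT_succ] at this
        exact this
      rw [div_le_iff₀ (by positivity)]
      have e3 : (3 * (N : ℝ) + 2) ^ i * ((3 * (N : ℝ) + 2) * (T0 / ρ))
          = ((3 * (N : ℝ) + 2) * ((3 * (N : ℝ) + 2) ^ i * T0)) / ρ := by ring
      rw [e3, le_div_iff₀ hρ0]
      linarith
    have e4 := inv_pow_upper (i := i) hN1 hε0 hε1 hN hY hX
    have e5 : (T0 / ρ) * (1 / (T0 / ρ)) ^ ε ≤ T0 * (ρ ^ ε / ρ) := by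
      have : (1 / (T0 / ρ)) ^ ε ≤ ρ ^ ε := by
        refine Real.rpow_le_rpow (by positivity) ?_ hε0
        rw [one_div_div, div_le_iff₀ hT0']
        nlinarith
      calc (T0 / ρ) * (1 / (T0 / ρ)) ^ ε ≤ (T0 / ρ) * ρ ^ ε :=
            mul_le_mul_of_nonneg_left this hY.le
        _ = T0 * (ρ ^ ε / ρ) := by ring
    have hNi : (0 : ℝ) < (N : ℝ) ^ i := by positivity
    have hlr : (0 : ℝ) < l := by exact_mod_cast hl
    calc 1 / (l : ℝ) / (M * (N : ℝ) ^ i) = (1 / ((l : ℝ) * M)) * (1 / (N : ℝ) ^ i) := by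
          field_simp
      _ ≤ (1 / ((l : ℝ) * M)) * ((3 * (N : ℝ) + 2) * (T0 * (ρ ^ ε / ρ))) := by
          refine mul_le_mul_of_nonneg_left (e4.trans ?_) (by positivity)
          exact mul_le_mul_of_nonneg_left e5 hL.le
      _ = (3 * N + 2) * (T0 / l) * ρ ^ ε / (M * ρ) := by
          field_simp
  · obtain ⟨Z, hZ1, hZ2⟩ := cover_level lev
    refine ⟨Z, ?_, ?_⟩
    · rw [card_anc] at hZ1
      rw [hM]
      exact_mod_cast hZ1
    · intro v hv
      obtain ⟨z, hz, hvz⟩ := hZ2 v hv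
      exact ⟨z, hz, hvz.trans hi1⟩
  · intro y B hB
    have e1 := lev1.mass h0 h1 y B (fun v hv => (hB v hv).trans hi2.le)
    refine e1.trans (le_of_eq ?_)
    rw [hcard, hMi]
    push_cast
    have hNi : (0 : ℝ) < (N : ℝ) ^ i := by positivity
    rw [pow_succ]
    field_simp
  · obtain ⟨Z, hZ1, hZ2⟩ := cover_level levj
    refine ⟨Z, ?_, ?_⟩
    · rw [card_anc] at hZ1
      have e1 : (Z.card : ℝ) ≤ (N : ℝ) ^ (J - j) := by exact_mod_cast hZ1
      have hY : 0 < ρ / R1 := by positivity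
      have hX : 1 / ((3 * (N : ℝ) + 2) * (ρ / R1)) ≤ (3 * (N : ℝ) + 2) ^ (j - i) := by
        have e2 : R1 < (3 * (N : ℝ) + 2) * ((3 * (N : ℝ) + 2) ^ j * T0) := by
          have := hj2
          rw [TT_succ] at this
          exact this
        have e3 : (3 * (N : ℝ) + 2) ^ i * T0 ≤ ρ := hi1
        rw [div_le_iff₀ (by positivity)]
        have e4 : (3 * (N : ℝ) + 2) ^ (j - i) * ((3 * (N : ℝ) + 2) * (ρ / R1))
          = ((3 * (N : ℝ) + 2) * ((3 * (N : ℝ) + 2) ^ (j - i) * ρ)) / R1 := by ring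
        rw [e4, le_div_iff₀ hR0, one_mul]
        have e5 : (3 * (N : ℝ) + 2) ^ j * T0
            = (3 * (N : ℝ) + 2) ^ (j - i) * ((3 * (N : ℝ) + 2) ^ i * T0) := by
          rw [← mul_assoc, ← pow_add]; congr 2; omega
        rw [e5] at e2
        refine e2.le.trans ?_
        refine mul_le_mul_of_nonneg_left ?_ hL.le
        exact mul_le_mul_of_nonneg_left e3 (by positivity)
      have e4 := inv_pow_upper (i := j - i) hN1 hε0 hε1 hN hY hX
      have e6 : (N : ℝ) ^ (J - j) = M * (1 / (N : ℝ) ^ (j - i)) := by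
        rw [hM, mul_one_div, eq_div_iff (by positivity), ← pow_add]
        congr 1
        omega
      rw [one_div_div] at e4
      refine e1.trans ?_
      rw [e6]
      exact mul_le_mul_of_nonneg_left e4 hM0.le
    · intro v hv
      obtain ⟨z, hz, hvz⟩ := hZ2 v hv
      exact ⟨z, hz, hvz.trans hj1⟩

/-! ### node measures and the three scales -/

/-- Averages over words: first `b`, then `c` letters = over `b + c` letters. -/
theorem avg_append {N b c : ℕ} (F : (Fin (b + c) → Fin N) → GaussianInt → ℝ) (z : GaussianInt) :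
    avg (fun j : Fin b → Fin N => avg fun g : Fin c → Fin N => F (Fin.append j g)) z = avg F z := by
  classical
  unfold avg
  have e1 : (Fintype.card (Fin (b + c) → Fin N) : ℝ)⁻¹
      = (Fintype.card (Fin b → Fin N) : ℝ)⁻¹ * (Fintype.card (Fin c → Fin N) : ℝ)⁻¹ := by
    simp only [Fintype.card_pi, Fintype.card_fin, Finset.prod_const, Finset.card_univ]
    push_cast
    rw [pow_add, mul_inv]
  rw [e1, ← Finset.mul_sum, ← mul_assoc]
  congr 1
  rw [← Finset.sum_product', Finset.univ_product_univ]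
  exact Fintype.sum_equiv (Fin.appendEquiv b c) _ _ (fun p => rfl)

theorem mu_eq_avg {Λ : Type} [Fintype Λ] {C : Λ → Finset GaussianInt}
    {cl : Λ → GaussianInt → ℝ} (hz : ∀ f, ∀ v, v ∉ C f → cl f v = 0) (v : GaussianInt) :
    mu C cl v = avg cl v := by
  unfold mu avg
  congr 1
  refine Finset.sum_congr rfl fun f _ => ?_
  split_ifs with h
  · rfl
  · exact (hz f v h).symm

/-- the subtree below the word `i` -/
theorem subtree {E : Set GaussianInt} {N : ℕ} {T : ℕ → ℝ} {a c : ℕ} {x : GaussianInt}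
    {node : List (Fin N) → GaussianInt} (h : IsTree E N T (a + c) x node) (i : Fin a → Fin N) :
    IsTree E N T c (node (List.ofFn i)) (fun v => node (List.ofFn i ++ v)) := by
  have := h.sub (List.ofFn i) (by simp)
  have e : a + c - (List.ofFn i).length = c := by simp
  rwa [e] at this

theorem leaf_append {N a c : ℕ} (node : List (Fin N) → GaussianInt) (i : Fin a → Fin N)
    (g : Fin c → Fin N) :
    leaf (fun v => node (List.ofFn i ++ v)) g = leaf node (Fin.append i g) := by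
  unfold leaf
  rw [List.ofFn_fin_append]

/-- Ball masses in a tree with `k + c` levels, `k ≥ 1`: a ball of radius `R ≤ T (c+1)`. -/
theorem ball_mass {E : Set GaussianInt} {N : ℕ} {T : ℕ → ℝ} {k c : ℕ} {x : GaussianInt}
    {node : List (Fin N) → GaussianInt} (h : IsTree E N T (k + c) x node) (hk : 1 ≤ k)
    (hN1 : 1 ≤ N) (hT : 0 < T (c + 1))
    {C : (Fin (k + c) → Fin N) → Finset GaussianInt} {cl : (Fin (k + c) → Fin N) → GaussianInt → ℝ}
    (hnear : ∀ f, ∀ v ∈ C f, ab (v - leaf node f) ≤ T 0)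
    (h0 : ∀ f, ∀ v ∈ C f, 0 ≤ cl f v) (h1 : ∀ f, ∑ v ∈ C f, cl f v = 1)
    {R : ℝ} (hR : R ≤ T (c + 1)) (y : GaussianInt) (B : Finset GaussianInt)
    (hB : ∀ z ∈ B, ab (z - y) ≤ R) :
    ∑ v ∈ B, mu C cl v ≤ 25 * N / (N : ℝ) ^ k := by
  have lev := level_of_tree h C hnear (i := c + 1) (by omega) hT
  have e1 := lev.mass h0 h1 (y : ℂ) B (fun v hv => by
    have := hB v hv
    rw [ab, GaussianInt.toComplex_sub] at this
    exact this.trans hR)
  refine e1.trans (le_of_eq ?_)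
  have hNr : (0 : ℝ) < N := by exact_mod_cast hN1
  have hcard : (Fintype.card (Fin (k + c) → Fin N) : ℝ) = (N : ℝ) ^ (k + c) := by simp
  rw [hcard]
  push_cast
  rw [pow_succ, pow_add]
  have h2 : (0 : ℝ) < (N : ℝ) ^ c := by positivity
  have h3 : (0 : ℝ) < (N : ℝ) ^ k := by positivity
  field_simp

set_option maxHeartbeats 1000000 in
/-- **Three nested scales in the tree**: application of `three_scales` (helper330) to the node
measures of helper763's tree with `J = a + (b + c)` levels. -/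
theorem tree_three_scales (ε : ℝ) (hε : 0 < ε) (hε1 : ε ≤ 1 / 40000) :
    ∃ U0 : ℝ, ∀ U w : ℝ, U0 ≤ U → 0 < w → Real.log U ≤ ε * Real.log w →
      Real.log w ≤ ε ^ 2 * U →
    ∀ (G : Finset GaussianInt), (∀ p ∈ G, Prime p) →
    (∀ p ∈ G, ∀ q ∈ G, Associated p q → p = q) →
    (∀ p ∈ G, w ≤ ab p) → (∀ p ∈ G, ab p ≤ 2 * w) →
    Real.exp ((2 - ε / 4) * Real.log w) ≤ G.card →
    ∀ (bb : GaussianInt → GaussianInt), (∀ p ∈ G, ¬ p ∣ bb p) →
    ∀ (E : Set GaussianInt) (N : ℕ) (T : ℕ → ℝ) (a b c : ℕ) (x : GaussianInt)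
      (node : List (Fin N) → GaussianInt),
    IsTree E N T (a + (b + c)) x node → 1 ≤ N → 1 ≤ a → 1 ≤ b → (∀ i, 0 < T i) →
    T c ≤ Real.exp U → Real.exp U ≤ T (c + 1) →
    T (b + c) ≤ Real.exp (3 / 2 * U) → Real.exp (3 / 2 * U) ≤ T (b + c + 1) →
    T (a + (b + c)) ≤ Real.exp (2 * U) →
    ∀ (l : ℕ) (r : ℝ) (C : (Fin (a + (b + c)) → Fin N) → Finset GaussianInt)
      (cl : (Fin (a + (b + c)) → Fin N) → GaussianInt → ℝ), r < T 0 → 1 ≤ l →
    (∀ f, ∀ v ∈ C f, ab (v - leaf node f) ≤ r) → (∀ f v, 0 ≤ cl f v) →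
    (∀ f, ∀ v, v ∉ C f → cl f v = 0) → (∀ f, ∑ v ∈ C f, cl f v = 1) →
    (∀ f v, cl f v ≤ 1 / (l : ℝ)) →
    1 / ((l : ℝ) * (N : ℝ) ^ c) ≤ Real.exp (-((1 - ε) * U)) →
    25 * N / (N : ℝ) ^ b ≤ Real.exp (-((1 / 2 - ε) * U)) →
    25 * N / (N : ℝ) ^ a ≤ Real.exp (-((1 / 2 - ε) * U)) →
    (∀ p ∈ G, Real.exp (-(ε / 16 * Real.log w)) ≤
      ‖E717.mhat (supp C) (mu C cl) (GaussianInt.toComplex (bb p) / GaussianInt.toComplex p)‖) →
    False := by
  classical
  obtain ⟨U0, hS⟩ := B3.three_scales ε hε hε1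
  refine ⟨U0, ?_⟩
  intro U w hU hw0 hwlow hwup G hG hass hwl hwu hn bb hbb E N T a b c x node h hN1 ha hb hT
    hTc hTc1 hTbc hTbc1 hTJ l r C cl hr hl hnear h0 hz h1 hsm hP1 hP2 hP3 hbias
  have hnear0 : ∀ f, ∀ v ∈ C f, ab (v - leaf node f) ≤ T 0 := fun f v hv =>
    (hnear f v hv).trans hr.le
  have hNr : (0 : ℝ) < N := by exact_mod_cast hN1
  have hFN : Nonempty (Fin N) := ⟨⟨0, hN1⟩⟩
  set m : (Fin a → Fin N) → (Fin b → Fin N) → GaussianInt → ℝ := fun i j =>
    avg fun g : Fin c → Fin N => cl (Fin.append i (Fin.append j g)) with hm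
  -- the average over `j`
  have hmi : ∀ i, ∀ z, avg (m i) z = avg (fun f : Fin (b + c) → Fin N => cl (Fin.append i f)) z := by
    intro i z
    exact avg_append (fun f : Fin (b + c) → Fin N => cl (Fin.append i f)) z
  have hmm : ∀ z, avg (fun i => avg (m i)) z = avg cl z := by
    intro z
    have : (fun i => avg (m i)) = fun i : Fin a → Fin N =>
        avg fun f : Fin (b + c) → Fin N => cl (Fin.append i f) := by
      funext i
      funext z
      exact hmi i z
    rw [this]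
    exact avg_append cl z
  -- supports
  have hCi : ∀ (i : Fin a → Fin N) (f : Fin (b + c) → Fin N), ∀ v ∈ C (Fin.append i f),
      ab (v - leaf (fun v => node (List.ofFn i ++ v)) f) ≤ T 0 := by
    intro i f v hv
    rw [leaf_append]
    exact hnear0 _ v hv
  have hmne : ∀ i j z, m i j z ≠ 0 → ∃ g : Fin c → Fin N, z ∈ C (Fin.append i (Fin.append j g)) := by
    intro i j z hne
    obtain ⟨g, hg⟩ := B3.avg_ne_zero _ z hne
    refine ⟨g, ?_⟩
    by_contra hcon
    exact hg (hz _ z hcon)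
  have hsum1 : ∀ f : Fin (a + (b + c)) → Fin N, ∑ v ∈ supp C, cl f v = 1 := by
    intro f
    rw [← h1 f]
    symm
    refine Finset.sum_subset ?_ ?_
    · intro v hv
      exact mem_supp.2 ⟨f, hv⟩
    · intro v _ hv
      exact hz f v hv
  -- trees
  have hsub : ∀ i : Fin a → Fin N,
      IsTree E N T (b + c) (node (List.ofFn i)) (fun v => node (List.ofFn i ++ v)) :=
    fun i => subtree h i
  have hsub2 : ∀ (i : Fin a → Fin N) (j : Fin b → Fin N),
      IsTree E N T c (node (List.ofFn i ++ List.ofFn j))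
        (fun v => node (List.ofFn i ++ (List.ofFn j ++ v))) := fun i j => subtree (hsub i) j
  refine hS U w hU hw0 hwlow hwup G hG hass hwl hwu hn bb hbb (Fin a → Fin N) (Fin b → Fin N)
    (supp C) m (fun i j => node (List.ofFn i ++ List.ofFn j)) (fun i => node (List.ofFn i)) x
    ?_ ?_ ?_ ?_ ?_ ?_ ?_ ?_
  · intro i j
    exact B3.isProbOn_avg _ _ (fun g => ⟨fun z _ => h0 _ z, hsum1 _⟩)
  · intro i j z _ hne
    obtain ⟨g, hg⟩ := hmne i j z hne
    have e1 := (hsub2 i j).leaf_near g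
    have e2 : leaf (fun v => node (List.ofFn i ++ (List.ofFn j ++ v))) g
        = leaf node (Fin.append i (Fin.append j g)) := by
      unfold leaf
      rw [List.ofFn_fin_append, List.ofFn_fin_append]
    rw [e2] at e1
    have e3 := hnear0 _ z hg
    have e4 : z - node (List.ofFn i ++ List.ofFn j)
        = (z - leaf node (Fin.append i (Fin.append j g)))
          + (leaf node (Fin.append i (Fin.append j g)) - node (List.ofFn i ++ List.ofFn j)) := by
      ring
    rw [e4]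
    refine (Gcd62.ab_add_le _ _).trans ?_
    have e1' : ab (leaf node (Fin.append i (Fin.append j g)) - node (List.ofFn i ++ List.ofFn j))
        ≤ T c - T 0 := e1
    linarith
  · intro i j z _ hne
    obtain ⟨g, hg⟩ := hmne i j z hne
    have e1 := (hsub i).leaf_near (Fin.append j g)
    rw [leaf_append] at e1
    have e3 := hnear0 _ z hg
    have e4 : z - node (List.ofFn i)
        = (z - leaf node (Fin.append i (Fin.append j g)))
          + (leaf node (Fin.append i (Fin.append j g)) - node (List.ofFn i)) := by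
      ring
    rw [e4]
    refine (Gcd62.ab_add_le _ _).trans ?_
    have e1' : ab (leaf node (Fin.append i (Fin.append j g)) - node (List.ofFn i))
        ≤ T (b + c) - T 0 := e1
    linarith
  · intro i j z _ hne
    obtain ⟨g, hg⟩ := hmne i j z hne
    have e1 := h.leaf_near (Fin.append i (Fin.append j g))
    have e3 := hnear0 _ z hg
    have e4 : z - x
        = (z - leaf node (Fin.append i (Fin.append j g)))
          + (leaf node (Fin.append i (Fin.append j g)) - x) := by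
      ring
    rw [e4]
    refine (Gcd62.ab_add_le _ _).trans ?_
    have e1' : ab (leaf node (Fin.append i (Fin.append j g)) - x)
        ≤ T (a + (b + c)) - T 0 := e1
    linarith
  · -- pointwise bound of the smallest node measure
    intro i j z _
    refine le_trans ?_ hP1
    have hC2 : ∀ g : Fin c → Fin N, ∀ v ∈ C (Fin.append i (Fin.append j g)),
        ab (v - leaf (fun v => node (List.ofFn i ++ (List.ofFn j ++ v))) g) ≤ r := by
      intro g v hv
      have e2 : leaf (fun v => node (List.ofFn i ++ (List.ofFn j ++ v))) g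
          = leaf node (Fin.append i (Fin.append j g)) := by
        unfold leaf
        rw [List.ofFn_fin_append, List.ofFn_fin_append]
      rw [e2]
      exact hnear _ v hv
    have hd := clusters_disjoint (hsub2 i j) hr hC2
    have e1 := mu_le (C := fun g : Fin c → Fin N => C (Fin.append i (Fin.append j g)))
      (cl := fun g => cl (Fin.append i (Fin.append j g))) (s := 1 / (l : ℝ)) (by positivity)
      (fun g v _ => hsm _ v) hd z
    rw [mu_eq_avg (C := fun g : Fin c → Fin N => C (Fin.append i (Fin.append j g)))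
      (cl := fun g => cl (Fin.append i (Fin.append j g))) (fun g v hv => hz _ v hv) z] at e1
    refine e1.trans (le_of_eq ?_)
    have hcard : (Fintype.card (Fin c → Fin N) : ℝ) = (N : ℝ) ^ c := by simp
    rw [hcard, div_div]
  · intro i y B _ hBy
    refine le_trans ?_ hP2
    have e1 := ball_mass (hsub i) hb hN1 (hT _)
      (C := fun f => C (Fin.append i f)) (cl := fun f => cl (Fin.append i f)) (hCi i)
      (fun f v _ => h0 _ v) (fun f => h1 _) hTc1 y B hBy
    refine le_trans (le_of_eq ?_) e1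
    refine Finset.sum_congr rfl fun z _ => ?_
    rw [hmi i z, mu_eq_avg (C := fun f : Fin (b + c) → Fin N => C (Fin.append i f))
      (cl := fun f => cl (Fin.append i f)) (fun g v hv => hz _ v hv) z]
  · intro y B _ hBy
    refine le_trans ?_ hP3
    have e1 := ball_mass h ha hN1 (hT _) hnear0
      (fun f v _ => h0 _ v) h1 hTbc1 y B hBy
    refine le_trans (le_of_eq ?_) e1
    refine Finset.sum_congr rfl fun z _ => ?_
    rw [hmm z, mu_eq_avg hz z]
  · intro p hp
    refine (hbias p hp).trans (le_of_eq ?_)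
    congr 1
    unfold E717.mhat
    refine Finset.sum_congr rfl fun z _ => ?_
    rw [hmm z, mu_eq_avg hz z]

end

end Crest.Agent.R2.T2
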