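import Crest.Agent.R2.Bias717e
import Crest.Agent.R2.Back549
import Crest.Agent.R2.End911n

/-!
# R2 (Gaussian moat), right half: no tree measure with light classes
-/

set_option autoImplicit false

namespace Crest.Agent.R2.B653

open Finset Crest.Agent.R2 Crest.Agent.R2.T1 Crest.Agent.R2.B717 Crest.Agent.R2.T2
open Crest.Agent.R2.Gcd62 (ab)
open Crest.Agent.R2.E717 (mhat)

set_option maxHeartbeats 1000000 in
/-- **RIGHT HALF** of the reduction. -/
theorem right_half :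
    ∃ ε2 : ℝ, 0 < ε2 ∧ ε2 ≤ 1 / 800 ∧ ∃ N : ℕ, 1 ≤ N ∧ ∃ C2 : ℝ, 0 < C2 ∧
    ∀ D : ℝ, 1 ≤ D → ∀ c : ℝ, 0 < c → ∀ C4 : ℝ,
    ∃ X0 : ℝ, ∀ w wmax : ℝ, X0 ≤ w → w ≤ wmax → c * Real.log wmax ≤ Real.log w →
    ∀ l : ℕ, 1 ≤ l → (l : ℝ) ≤ C4 * (Real.log wmax) ^ 2 →
    ∀ J : ℕ, TT N (2 * D * l) J ≤ Real.exp (2 * (C2 * Real.log wmax)) →
      Real.exp (2 * (C2 * Real.log wmax)) < TT N (2 * D * l) (J + 1) →
    ∀ (E : Set GaussianInt) (x : GaussianInt) (node : List (Fin N) → GaussianInt),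
      IsTree E N (TT N (2 * D * l)) J x node →
    ∀ (C : (Fin J → Fin N) → Finset GaussianInt) (cl : (Fin J → Fin N) → GaussianInt → ℝ),
      Clus (leaf node) (D * l) l C cl →
    ∀ G : Finset GaussianInt, PrimeSet G w → c * w / Real.log w ≤ (G.card : ℝ) →
      (∀ p ∈ G, LightAt (Finset.univ.biUnion C)
        (fun v => (∑ i, cl i v) / (Fintype.card (Fin J → Fin N) : ℝ)) p
          ((p.norm : ℝ) ^ (1 - ε2))) →
      False := by
  classical
  obtain ⟨εS, hεS⟩ : ∃ x : ℝ, x = 1 / 40000 := ⟨_, rfl⟩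
  obtain ⟨ε, hεdef⟩ : ∃ x : ℝ, x = εS / 128 := ⟨_, rfl⟩
  have hε : 0 < ε := by rw [hεdef, hεS]; norm_num
  have hε10 : ε ≤ 1 / 10 := by rw [hεdef, hεS]; norm_num
  obtain ⟨N, hN01, hN0⟩ := N306.exists_N (ε := ε / 16) (by positivity)
  have hN1 : 1 ≤ N := hN01
  have hNr : (1 : ℝ) ≤ N := by exact_mod_cast hN1
  have hNε : (3 * (N : ℝ) + 2) ^ (1 - ε / 16) ≤ N := hN0 N le_rfl
  have hNS : (3 * (N : ℝ) + 2) ^ (1 - εS / 2) ≤ N := by
    refine le_trans (Real.rpow_le_rpow_of_exponent_le (by linarith) ?_) hNε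
    rw [hεdef, hεS]; norm_num
  obtain ⟨C2, hC2⟩ : ∃ x : ℝ, x = 1 / (2 * εS ^ 2) := ⟨_, rfl⟩
  have hC2big : 2 ≤ C2 := by rw [hC2, hεS]; norm_num
  refine ⟨ε, hε, by rw [hεdef, hεS]; norm_num, N, hN1, C2, by linarith, ?_⟩
  intro D hD c hc C4
  obtain ⟨K, hK1, hKa, hKb, hKc⟩ : ∃ K : ℝ, 1 ≤ K ∧ (3 * (N : ℝ) + 2) * (2 * D) ≤ K ∧
      25 * (N : ℝ) ≤ K ∧ 3 * (N : ℝ) + 2 ≤ K := by
    refine ⟨(3 * (N : ℝ) + 2) * (2 * D) + 25 * N + (3 * (N : ℝ) + 2) + 1, ?_, ?_, ?_, ?_⟩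
    · have : 0 ≤ (3 * (N : ℝ) + 2) * (2 * D) := by positivity
      linarith
    · linarith
    · have : 0 ≤ (3 * (N : ℝ) + 2) * (2 * D) := by positivity
      linarith
    · have : 0 ≤ (3 * (N : ℝ) + 2) * (2 * D) := by positivity
      linarith
  obtain ⟨W0, hW01, hbias⟩ := bias_reg ε K hε hε10 hK1
  obtain ⟨X1, hback⟩ := right_back εS (by rw [hεS]; norm_num) hεS.le N hN1 hNS D hD (c / 2)
    (by positivity) C2 hC2.ge C4
  obtain ⟨X2, hX2, h2⟩ := N306.polylog_le₂ 2 (ε := 1 - 2 * ε) (by linarith) hc (4 * D * C4)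
  obtain ⟨X3, hX3, h3⟩ := N306.polylog_le 1 (ε := ε / 8) (by positivity) (1 / c)
  obtain ⟨X4, hX4, h4⟩ := N306.const_le (ε := 1) one_pos (15 * (3 * (N : ℝ) + 2))
  obtain ⟨X5, hX5, h5⟩ := N306.const_le (ε := 1 - 2 * ε) (by linarith) 2
  refine ⟨max (max (max W0 X1) (max X2 X3)) (max (max X4 X5) 2), ?_⟩
  intro w wmax hw hww hcw l hl1 hl2 J hJ1 hJ2 E x node htree C cl hcl G hG hGcard hlight
  have hwW0 : W0 ≤ w := le_trans (by simp) hw
  have hwX1 : X1 ≤ w := le_trans (by simp) hw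
  have hwX2 : X2 ≤ w := le_trans (by simp) hw
  have hwX3 : X3 ≤ w := le_trans (by simp) hw
  have hwX4 : X4 ≤ w := le_trans (by simp) hw
  have hwX5 : X5 ≤ w := le_trans (by simp) hw
  have hw2 : 2 ≤ w := le_trans (by simp) hw
  have hw0 : 0 < w := by linarith
  have hw1 : 1 ≤ w := by linarith
  have hlw0 : 0 < Real.log w := Real.log_pos (by linarith)
  have hlW : Real.log w ≤ Real.log wmax := Real.log_le_log hw0 hww
  have hlW0 : 0 < Real.log wmax := by linarith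
  have hlr : (1 : ℝ) ≤ l := by exact_mod_cast hl1
  have hDl : 1 ≤ D * l := by nlinarith
  have hT0 : 1 ≤ 2 * D * l := by nlinarith
  set A : Finset GaussianInt := Finset.univ.biUnion C with hA
  set m : GaussianInt → ℝ := fun v => (∑ i, cl i v) / (Fintype.card (Fin J → Fin N) : ℝ) with hm
  have hmu : mu C cl = m := mu_eq_div hcl.supp
  have hsupp : supp C = A := rfl
  -- ρ
  set y : ℝ := w ^ (1 - 2 * ε) with hy
  have hy2 : 2 ≤ y := h5 w hwX5
  set ρ : ℕ := ⌊y⌋₊ with hρ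
  have hρ1 : (ρ : ℝ) ≤ y := Nat.floor_le (by linarith)
  have hρ2 : y / 2 ≤ (ρ : ℝ) := by
    have := Nat.lt_floor_add_one y
    rw [← hρ] at this
    linarith
  have hTρ : 2 * D * l ≤ (ρ : ℝ) := by
    have e1 := h2 w wmax hwX2 hww hcw
    have e2 : 2 * D * (l : ℝ) ≤ 2 * D * (C4 * Real.log wmax ^ 2) :=
      mul_le_mul_of_nonneg_left hl2 (by linarith)
    have e3 : 4 * D * C4 * Real.log wmax ^ 2 = 2 * (2 * D * (C4 * Real.log wmax ^ 2)) := by ring
    rw [e3] at e1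
    linarith
  have hyw : y ≤ w := by
    calc y ≤ w ^ (1 : ℝ) := Real.rpow_le_rpow_of_exponent_le hw1 (by linarith)
      _ = w := Real.rpow_one w
  have hρR : (ρ : ℝ) ≤ 15 * w ^ 2 := by nlinarith
  have hRJ : 15 * w ^ 2 < TT N (2 * D * l) J := by
    have e1 : Real.exp (2 * (C2 * Real.log wmax)) < (3 * (N : ℝ) + 2) * TT N (2 * D * l) J := by
      rw [← TT_succ]; exact hJ2
    have e2 : w ^ (3 : ℕ) ≤ Real.exp (2 * (C2 * Real.log wmax)) := by
      have : w ^ (3 : ℕ) = Real.exp (3 * Real.log w) := by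
        rw [mul_comm, Real.exp_mul, Real.exp_log hw0]
        norm_cast
      rw [this]
      apply Real.exp_le_exp.2
      nlinarith
    have e3 : 15 * (3 * (N : ℝ) + 2) ≤ w := by
      have := h4 w hwX4
      rwa [Real.rpow_one] at this
    have e4 : 0 < 3 * (N : ℝ) + 2 := by positivity
    have e5 : (3 * (N : ℝ) + 2) * (15 * w ^ 2) ≤ w ^ 3 := by
      calc (3 * (N : ℝ) + 2) * (15 * w ^ 2) = (15 * (3 * (N : ℝ) + 2)) * w ^ 2 := by ring
        _ ≤ w * w ^ 2 := mul_le_mul_of_nonneg_right e3 (by positivity)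
        _ = w ^ 3 := by ring
    have e6 : (3 * (N : ℝ) + 2) * (15 * w ^ 2) < (3 * (N : ℝ) + 2) * TT N (2 * D * l) J := by
      linarith
    exact lt_of_mul_lt_mul_left e6 e4.le
  obtain ⟨M, hM0, r1, r2, r3, r4⟩ := reg_tree (ρ := (ρ : ℝ)) (R1 := 15 * w ^ 2) htree hN1 hT0 hl1
    (r := D * l) (by linarith) (C := C) (cl := cl) hcl.near (fun f v _ => hcl.nonneg f v)
    hcl.sum_one (fun f v _ => hcl.small f v) (ε := ε / 16) (by positivity) (by linarith) hNε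
    hTρ hρR hRJ
  rw [hmu] at r1 r3
  rw [hsupp] at r2 r4
  have hρ0 : 0 < (ρ : ℝ) := by linarith
  have hm0 : ∀ z, 0 ≤ m z := fun z => div_nonneg (Finset.sum_nonneg fun i _ => hcl.nonneg i z)
    (Nat.cast_nonneg _)
  have hmsum : ∑ z ∈ A, m z = 1 := by
    have hne : Nonempty (Fin J → Fin N) := ⟨fun _ => ⟨0, hN1⟩⟩
    have := sum_mu_supp (C := C) (cl := cl) hcl.sum_one
    rw [hmu, hsupp] at this
    exact this
  have hcardε : w ^ (1 - ε / 8) ≤ (G.card : ℝ) := by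
    refine le_trans ?_ hGcard
    have e1 := h3 w hwX3
    rw [pow_one, one_div, inv_mul_le_iff₀ hc] at e1
    rw [le_div_iff₀ hlw0]
    calc w ^ (1 - ε / 8) * Real.log w ≤ w ^ (1 - ε / 8) * (c * w ^ (ε / 8)) :=
          mul_le_mul_of_nonneg_left e1 (by positivity)
      _ = c * (w ^ (1 - ε / 8) * w ^ (ε / 8)) := by ring
      _ = c * w := by
          rw [← Real.rpow_add hw0]
          have : 1 - ε / 8 + ε / 8 = 1 := by ring
          rw [this, Real.rpow_one]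
  obtain ⟨G3, hG3, hhalf, b, hb, hbig⟩ := hbias w hwW0 G hG hcardε A m hm0 hmsum ρ hρ2 hρ1 M hM0
    (by
      intro v _
      refine (r1 v).trans ?_
      have e1 : (3 * (N : ℝ) + 2) * (2 * D * l / l) = (3 * (N : ℝ) + 2) * (2 * D) := by
        rw [mul_div_assoc, div_self (by positivity), mul_one]
      rw [e1]
      exact div_le_div_of_nonneg_right (mul_le_mul_of_nonneg_right hKa (by positivity))
        (by positivity))
    r2
    (by
      intro y' B hB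
      exact (r3 y' B hB).trans (div_le_div_of_nonneg_right hKb hM0.le))
    (by
      obtain ⟨Z1, hZ1, hZ2⟩ := r4
      refine ⟨Z1, hZ1.trans ?_, hZ2⟩
      exact mul_le_mul_of_nonneg_left (mul_le_mul_of_nonneg_right hKc (by positivity)) hM0.le)
    hlight
  refine hback w wmax hwX1 hww ?_ l hl1 hl2 J hJ1 hJ2 E x node htree C cl hcl G3
    (fun p hp => hG.prime p (hG3 hp)) (fun p hp => hG.lower p (hG3 hp))
    (fun p hp => hG.upper p (hG3 hp)) (fun p hp q hq => hG.ass p (hG3 hp) q (hG3 hq)) ?_ b hb ?_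
  · have : c / 2 * Real.log wmax ≤ c * Real.log wmax :=
      mul_le_mul_of_nonneg_right (by linarith) hlW0.le
    linarith
  · have e1 : (G.card : ℝ) ≤ 2 * (G3.card : ℝ) := by exact_mod_cast hhalf
    have e2 : c / 2 * w / Real.log w = (c * w / Real.log w) / 2 := by ring
    rw [e2]
    linarith
  · intro p hp
    refine le_trans ?_ (hbig p hp)
    apply Real.rpow_le_rpow_of_exponent_le hw1
    rw [hεdef, hεS]
    norm_num

/-- `RightStmt` of helper911's composition. -/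
theorem rightStmt : End911.RightStmt := by
  obtain ⟨ε2, h1, _, N, hN, C2, hC2, h⟩ := right_half
  refine ⟨ε2, h1, N, hN, C2, hC2, ?_⟩
  intro D hD c hc C4
  obtain ⟨X0, h⟩ := h D hD c hc C4
  refine ⟨X0, ?_⟩
  intro w wmax hw hww hcw l hl1 hl2 J hJ1 hJ2 E x node htree C c' hcl G hG hGc hlight
  exact h w wmax hw hww hcw l hl1 hl2 J hJ1 hJ2 E x node htree C c' hcl G
    ⟨hG.prime, hG.assoc, hG.rat, hG.lo, hG.hi⟩ hGc hlight

end Crest.Agent.R2.B653
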