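import Crest.Agent.R2.Back549
import Crest.Agent.R2.RFront763
import Crest.Agent.R2.End911n

/-!
# R2 (Gaussian moat): `right_half`

`RightStmt` of helper911's composition = `RF763.front` (tree regularity + helper717's large
coefficients at half of the primes) + `T2.right_back` (helper549's three scales).
-/

set_option autoImplicit false

namespace Crest.Agent.R2.RF763

open Finset
open Crest.Agent.R2.T1
open Crest.Agent.R2.T2
open Crest.Agent.R2.B717 (PrimeSet)
open Crest.Agent.R2.E717 (mhat)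

theorem rightStmt : End911.RightStmt := by
  classical
  obtain ⟨N, hN1, hN⟩ := N306.exists_N (ε := 1 / 40000 / 112 / 16) (by norm_num)
  have hNN := hN N le_rfl
  refine ⟨1 / 40000 / 112, by norm_num, N, hN1, 1 / (2 * (1 / 40000) ^ 2), by norm_num, ?_⟩
  intro D hD c hc C4
  have hNr : (1 : ℝ) ≤ N := by exact_mod_cast hN1
  have hNS : (3 * (N : ℝ) + 2) ^ (1 - (1 / 40000 : ℝ) / 2) ≤ N := by
    refine le_trans (Real.rpow_le_rpow_of_exponent_le (by linarith) (by norm_num)) hNN
  obtain ⟨X1, hX11, hfront⟩ := front (1 / 40000 / 112) (1 / 40000 / 112 / 16) (by norm_num)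
    (by norm_num) (by norm_num) (by norm_num) N hN1 hNN D hD c c (1 / (2 * (1 / 40000) ^ 2)) C4
    hc hc (by norm_num)
  obtain ⟨X2, hback⟩ := right_back (1 / 40000) (by norm_num) (by norm_num) N hN1 hNS D hD (c / 2)
    (by linarith) (1 / (2 * (1 / 40000) ^ 2)) (by norm_num) C4
  refine ⟨max X1 X2, ?_⟩
  intro w wmax hw hww hcw l hl1 hl2 J hJ1 hJ2 E x node htree C cl hcl G hG hGc hlight
  have hwX1 : X1 ≤ w := (le_max_left _ _).trans hw
  have hwX2 : X2 ≤ w := (le_max_right _ _).trans hw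
  have hw1 : 1 ≤ w := hX11.trans hwX1
  have hlogW : 0 ≤ Real.log wmax := Real.log_nonneg (hw1.trans hww)
  have hPS : PrimeSet G w := ⟨hG.prime, hG.assoc, hG.rat, hG.lo, hG.hi⟩
  obtain ⟨G3, hG3, hcard, b, hb, hbias⟩ := hfront w wmax hwX1 hww hcw l hl1 hl2 J hJ2 E x node
    htree C cl hcl G hPS hGc hlight
  refine hback w wmax hwX2 hww (le_trans (by nlinarith) hcw) l hl1 hl2 J hJ1 hJ2 E x node htree
    C cl hcl G3 (fun p hp => hG.prime p (hG3 hp)) (fun p hp => hG.lo p (hG3 hp))
    (fun p hp => hG.hi p (hG3 hp)) (fun p hp q hq => hG.assoc p (hG3 hp) q (hG3 hq)) ?_ b hb ?_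
  · have h2 : (G.card : ℝ) ≤ 2 * G3.card := by exact_mod_cast hcard
    have h3 : c / 2 * w / Real.log w = (c * w / Real.log w) / 2 := by ring
    rw [h3]; linarith
  · intro p hp
    have h4 : w ^ (-((1 / 40000 : ℝ) / 32)) = w ^ (-(7 / 2 * (1 / 40000 / 112) : ℝ)) := by
      norm_num
    rw [h4]
    exact hbias p hp

end Crest.Agent.R2.RF763
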