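import Crest.Agent.R2.Maj750

set_option autoImplicit false
set_option maxHeartbeats 400000

open Complex Finset
open scoped Real

namespace Crest.Agent.R2.M750

variable {ι : Type*}

/-- **(S0')** positivity identity with shift. -/
theorem hasSum_sq {r : ℝ} (hr : 0 < r) (hr2 : r ≤ 1 / 2) (T : Finset ι) (c x : ι → ℂ)
    (z : GaussianInt) :
    HasSum (fun v : GaussianInt => ((wt r v * ‖∑ i ∈ T, c i * chi (z + v) (x i)‖ ^ 2 : ℝ) : ℂ))
      (∑ i ∈ T, ∑ j ∈ T, c i * (starRingEnd ℂ) (c j) * chi z (x i - x j) *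
        ((phi r (x i - x j) : ℝ) : ℂ)) := by
  have h : HasSum (fun v : GaussianInt => ∑ i ∈ T, ∑ j ∈ T,
      c i * (starRingEnd ℂ) (c j) * chi z (x i - x j) * ((wt r v : ℂ) * chi v (x i - x j)))
      (∑ i ∈ T, ∑ j ∈ T, c i * (starRingEnd ℂ) (c j) * chi z (x i - x j) *
        ((phi r (x i - x j) : ℝ) : ℂ)) :=
    hasSum_sum fun i _ => hasSum_sum fun j _ => (hasSum_phi hr hr2 _).mul_left _
  have e : (fun v : GaussianInt => ((wt r v * ‖∑ i ∈ T, c i * chi (z + v) (x i)‖ ^ 2 : ℝ) : ℂ)) =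
      fun v : GaussianInt => ∑ i ∈ T, ∑ j ∈ T,
      c i * (starRingEnd ℂ) (c j) * chi z (x i - x j) * ((wt r v : ℂ) * chi v (x i - x j)) := by
    funext v
    rw [Complex.ofReal_mul, Complex.ofReal_pow, ← Complex.mul_conj', map_sum,
      Finset.sum_mul_sum, Finset.mul_sum]
    refine Finset.sum_congr rfl fun i _ => ?_
    rw [Finset.mul_sum]
    refine Finset.sum_congr rfl fun j _ => ?_
    rw [chi_sub_right, chi_sub_right, chi_add_left, chi_add_left, map_mul, map_mul]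
    ring
  rw [e]
  exact h

/-- the power of an exponential sum is an exponential sum over tuples -/
theorem pow_expsum [DecidableEq ι] (T : Finset ι) (c x : ι → ℂ) (v : GaussianInt) (k : ℕ) :
    (∑ i ∈ T, c i * chi v (x i)) ^ k =
      ∑ f ∈ Fintype.piFinset (fun _ : Fin k => T), (∏ l, c (f l)) * chi v (∑ l, x (f l)) := by
  have h := Finset.prod_univ_sum (fun _ : Fin k => T) (fun _ i => c i * chi v (x i))
  rw [Finset.prod_const, Finset.card_univ, Fintype.card_fin] at h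
  rw [h]
  refine Finset.sum_congr rfl fun f _ => ?_
  rw [Finset.prod_mul_distrib, chi_sum_right]

/-- the difference of sums attached to a pair of tuples -/
noncomputable def dsum {k : ℕ} (x : ι → ℂ) (f g : Fin k → ι) : ℂ := ∑ l, x (f l) - ∑ l, x (g l)

/-- **(S0')** `2k`-th moments. -/
theorem hasSum_pow [DecidableEq ι] {r : ℝ} (hr : 0 < r) (hr2 : r ≤ 1 / 2) (T : Finset ι)
    (c x : ι → ℂ) (z : GaussianInt) (k : ℕ) :
    HasSum (fun v : GaussianInt =>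
        ((wt r v * ‖∑ i ∈ T, c i * chi (z + v) (x i)‖ ^ (2 * k) : ℝ) : ℂ))
      (∑ f ∈ Fintype.piFinset (fun _ : Fin k => T), ∑ g ∈ Fintype.piFinset (fun _ : Fin k => T),
        (∏ l, c (f l)) * (starRingEnd ℂ) (∏ l, c (g l)) * chi z (dsum x f g) *
        ((phi r (dsum x f g) : ℝ) : ℂ)) := by
  have h := hasSum_sq hr hr2 (Fintype.piFinset (fun _ : Fin k => T)) (fun f => ∏ l, c (f l))
    (fun f => ∑ l, x (f l)) z
  have e : (fun v : GaussianInt =>
        ((wt r v * ‖∑ i ∈ T, c i * chi (z + v) (x i)‖ ^ (2 * k) : ℝ) : ℂ)) =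
      fun v : GaussianInt => ((wt r v * ‖∑ f ∈ Fintype.piFinset (fun _ : Fin k => T),
        (∏ l, c (f l)) * chi (z + v) (∑ l, x (f l))‖ ^ 2 : ℝ) : ℂ) := by
    funext v
    rw [← pow_expsum, norm_pow, ← pow_mul, mul_comm k 2]
  rw [e]
  exact h

/-- the finite sum over the box is at most ten times the full weighted sum -/
theorem sum_box_le {r : ℝ} (hr : 0 < r) (hr2 : r ≤ 1 / 2) (T : Finset ι) (c x : ι → ℂ)
    (z : GaussianInt) (V : Finset GaussianInt)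
    (hV : ∀ v ∈ V, |(v.re : ℝ)| * (2 * r) ≤ 1 ∧ |(v.im : ℝ)| * (2 * r) ≤ 1) :
    ∑ v ∈ V, ‖∑ i ∈ T, c i * chi (z + v) (x i)‖ ^ 2 ≤
      10 * ∑ i ∈ T, ∑ j ∈ T, ‖c i‖ * ‖c j‖ * phi r (x i - x j) := by
  have h := hasSum_sq hr hr2 T c x z
  have h1 : HasSum (fun v : GaussianInt => wt r v * ‖∑ i ∈ T, c i * chi (z + v) (x i)‖ ^ 2)
      (∑ i ∈ T, ∑ j ∈ T, c i * (starRingEnd ℂ) (c j) * chi z (x i - x j) *
        ((phi r (x i - x j) : ℝ) : ℂ)).re := by
    have := Complex.hasSum_re h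
    simpa only [Complex.ofReal_re] using this
  have h2 : ∑ v ∈ V, wt r v * ‖∑ i ∈ T, c i * chi (z + v) (x i)‖ ^ 2 ≤
      (∑ i ∈ T, ∑ j ∈ T, c i * (starRingEnd ℂ) (c j) * chi z (x i - x j) *
        ((phi r (x i - x j) : ℝ) : ℂ)).re :=
    sum_le_hasSum V (fun v _ => mul_nonneg (wt_nonneg _ _) (sq_nonneg _)) h1
  have h3 : (∑ i ∈ T, ∑ j ∈ T, c i * (starRingEnd ℂ) (c j) * chi z (x i - x j) *
        ((phi r (x i - x j) : ℝ) : ℂ)).re ≤
      ∑ i ∈ T, ∑ j ∈ T, ‖c i‖ * ‖c j‖ * phi r (x i - x j) := by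
    refine le_trans (Complex.re_le_norm _) ?_
    refine le_trans (norm_sum_le _ _) (Finset.sum_le_sum fun i _ => ?_)
    refine le_trans (norm_sum_le _ _) (Finset.sum_le_sum fun j _ => ?_)
    rw [norm_mul, norm_mul, norm_mul, norm_chi, mul_one, RCLike.norm_conj, Complex.norm_real,
      Real.norm_of_nonneg (phi_nonneg hr _)]
  have h4 : ∑ v ∈ V, ‖∑ i ∈ T, c i * chi (z + v) (x i)‖ ^ 2 ≤
      10 * ∑ v ∈ V, wt r v * ‖∑ i ∈ T, c i * chi (z + v) (x i)‖ ^ 2 := by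
    rw [Finset.mul_sum]
    refine Finset.sum_le_sum fun v hv => ?_
    have := wt_lower hr (hV v hv).1 (hV v hv).2
    nlinarith [sq_nonneg ‖∑ i ∈ T, c i * chi (z + v) (x i)‖]
  linarith

open Classical in
/-- **(S2a)**, `j = 1` with coefficients bounded by one. -/
theorem sum_box_le_card {r : ℝ} (hr : 0 < r) (hr2 : r ≤ 1 / 2) (T : Finset ι) (c x : ι → ℂ)
    (hc : ∀ i ∈ T, ‖c i‖ ≤ 1) (z : GaussianInt) (V : Finset GaussianInt)
    (hV : ∀ v ∈ V, |(v.re : ℝ)| * (2 * r) ≤ 1 ∧ |(v.im : ℝ)| * (2 * r) ≤ 1) :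
    ∑ v ∈ V, ‖∑ i ∈ T, c i * chi (z + v) (x i)‖ ^ 2 ≤
      10 / r ^ 2 * (((T ×ˢ T).filter fun p => inR r (x p.1 - x p.2)).card : ℝ) := by
  refine le_trans (sum_box_le hr hr2 T c x z V hV) ?_
  rw [← Finset.sum_product', Finset.card_filter]
  push_cast
  rw [div_mul_eq_mul_div, mul_div_assoc]
  refine mul_le_mul_of_nonneg_left ?_ (by norm_num)
  rw [Finset.sum_div]
  refine Finset.sum_le_sum fun p hp => ?_
  rw [Finset.mem_product] at hp
  by_cases h : inR r (x p.1 - x p.2)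
  · rw [if_pos h]
    calc ‖c p.1‖ * ‖c p.2‖ * phi r (x p.1 - x p.2) ≤ 1 * 1 * (1 / r ^ 2) := by
          have := hc _ hp.1
          have := hc _ hp.2
          have := phi_le hr (x p.1 - x p.2)
          have := phi_nonneg hr (x p.1 - x p.2)
          gcongr
      _ = 1 / r ^ 2 := by ring
  · rw [if_neg h, phi_eq_zero hr h]
    simp

open Classical in
/-- **(S2a)** moment bound: `∑_{v ∈ V} |S v|^{2k} ≤ (10/r²) #{(f,g) ∈ (T^k)² : ‖∑ x(f) - ∑ x(g)‖ < r}`. -/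
theorem sum_pow_le_card {r : ℝ} (hr : 0 < r) (hr2 : r ≤ 1 / 2) (T : Finset ι) (c x : ι → ℂ)
    (hc : ∀ i ∈ T, ‖c i‖ ≤ 1) (z : GaussianInt) (V : Finset GaussianInt)
    (hV : ∀ v ∈ V, |(v.re : ℝ)| * (2 * r) ≤ 1 ∧ |(v.im : ℝ)| * (2 * r) ≤ 1) (k : ℕ) :
    ∑ v ∈ V, ‖∑ i ∈ T, c i * chi (z + v) (x i)‖ ^ (2 * k) ≤
      10 / r ^ 2 * (((Fintype.piFinset (fun _ : Fin k => T) ×ˢ
        Fintype.piFinset (fun _ : Fin k => T)).filter fun p => inR r (dsum x p.1 p.2)).card : ℝ) := by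
  have h := sum_box_le_card hr hr2 (Fintype.piFinset (fun _ : Fin k => T)) (fun f => ∏ l, c (f l))
    (fun f => ∑ l, x (f l)) (by
      intro f hf
      rw [Fintype.mem_piFinset] at hf
      rw [norm_prod]
      exact Finset.prod_le_one (fun _ _ => norm_nonneg _) fun l _ => hc _ (hf l)) z V hV
  refine le_trans (le_of_eq ?_) h
  refine Finset.sum_congr rfl fun v _ => ?_
  rw [← pow_expsum, norm_pow, ← pow_mul, mul_comm k 2]

/-- Fourier transform of a finitely supported weight -/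
noncomputable def ft (Z : Finset GaussianInt) (μ : GaussianInt → ℝ) (x : ℂ) : ℂ :=
  ∑ z ∈ Z, (μ z : ℂ) * chi z x

theorem cos_lower {s : ℝ} (hs : |s| ≤ 1 / 20) : 1 / 2 ≤ Real.cos (2 * π * s) := by
  have hpi := Real.pi_pos
  rw [← Real.cos_pi_div_three, ← Real.cos_abs (2 * π * s)]
  apply Real.cos_le_cos_of_nonneg_of_le_pi (abs_nonneg _) (by linarith)
  rw [abs_mul, abs_of_pos (by positivity)]
  nlinarith

open Classical in
/-- **(S2b)** spectral lemma, lower bound. -/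
theorem spectral_lower (Z : Finset GaussianInt) (μ : GaussianInt → ℝ) (hμ : ∀ z ∈ Z, 0 ≤ μ z)
    (hμ1 : ∑ z ∈ Z, μ z = 1) (I : Finset ι) (x : ι → ℂ) {t : ℝ}
    (ht : ∀ i ∈ I, t ≤ ‖ft Z μ (x i)‖) (ht0 : 0 ≤ t)
    (B : Finset GaussianInt)
    (hB : ∀ y ∈ B, ∀ i ∈ I, |(GaussianInt.toComplex y * x i).re| ≤ 1 / 20)
    {m : ℝ} (hm : ∀ v, ∑ z ∈ Z.filter (fun z => v - z ∈ B), μ z ≤ m) :
    ∃ s : ι → ℂ, (∀ i, ‖s i‖ = 1) ∧ ∀ j : ℕ,
      (B.card : ℝ) * (t / 2 * I.card) ^ j ≤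
        m * ∑ v ∈ (Z ×ˢ B).image (fun p => p.1 + p.2), ‖∑ i ∈ I, s i * chi v (x i)‖ ^ j := by
  obtain ⟨s, hs1, hs2⟩ : ∃ s : ι → ℂ, (∀ i, ‖s i‖ = 1) ∧
      ∀ i, s i * ft Z μ (x i) = ((‖ft Z μ (x i)‖ : ℝ) : ℂ) := by
    have : ∀ w : ℂ, ∃ u : ℂ, ‖u‖ = 1 ∧ u * w = ((‖w‖ : ℝ) : ℂ) := by
      intro w
      by_cases hw : w = 0
      · exact ⟨1, by simp, by simp [hw]⟩
      · have hn : (‖w‖ : ℂ) ≠ 0 := by exact_mod_cast (norm_ne_zero_iff.mpr hw)
        refine ⟨(starRingEnd ℂ) w / ‖w‖, ?_, ?_⟩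
        · rw [norm_div, RCLike.norm_conj, Complex.norm_real, norm_norm,
            div_self (norm_ne_zero_iff.mpr hw)]
        · rw [div_mul_eq_mul_div, mul_comm, Complex.mul_conj', sq, mul_div_assoc, div_self hn,
            mul_one]
    choose g hg using this
    exact ⟨fun i => g (ft Z μ (x i)), fun i => (hg _).1, fun i => (hg _).2⟩
  refine ⟨s, hs1, fun j => ?_⟩
  set S : GaussianInt → ℂ := fun v => ∑ i ∈ I, s i * chi v (x i) with hS
  -- the averaged sum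
  have key : ∀ y ∈ B, t / 2 * I.card ≤ ∑ z ∈ Z, μ z * ‖S (z + y)‖ := by
    intro y hy
    have e1' : ∑ z ∈ Z, (μ z : ℂ) * S (z + y) = ∑ i ∈ I, chi y (x i) * ((‖ft Z μ (x i)‖ : ℝ) : ℂ) := by
      simp only [hS, Finset.mul_sum]
      rw [Finset.sum_comm]
      refine Finset.sum_congr rfl fun i _ => ?_
      rw [← hs2, ft, Finset.mul_sum, Finset.mul_sum]
      refine Finset.sum_congr rfl fun z _ => ?_
      rw [chi_add_left]
      ring
    have e2 : t / 2 * I.card ≤ (∑ i ∈ I, chi y (x i) * ((‖ft Z μ (x i)‖ : ℝ) : ℂ)).re := by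
      rw [Complex.re_sum]
      calc t / 2 * I.card = ∑ i ∈ I, t / 2 := by rw [Finset.sum_const, nsmul_eq_mul]; ring
        _ ≤ _ := Finset.sum_le_sum fun i hi => ?_
      rw [Complex.re_mul_ofReal, chi, e1_re]
      have h1 := cos_lower (hB y hy i hi)
      have h2 := ht i hi
      nlinarith
    calc t / 2 * I.card ≤ (∑ i ∈ I, chi y (x i) * ((‖ft Z μ (x i)‖ : ℝ) : ℂ)).re := e2
      _ ≤ ‖∑ i ∈ I, chi y (x i) * ((‖ft Z μ (x i)‖ : ℝ) : ℂ)‖ := Complex.re_le_norm _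
      _ = ‖∑ z ∈ Z, (μ z : ℂ) * S (z + y)‖ := by rw [e1']
      _ ≤ ∑ z ∈ Z, ‖(μ z : ℂ) * S (z + y)‖ := norm_sum_le _ _
      _ = ∑ z ∈ Z, μ z * ‖S (z + y)‖ := by
          refine Finset.sum_congr rfl fun z hz => ?_
          rw [norm_mul, Complex.norm_real, Real.norm_of_nonneg (hμ z hz)]
  have key2 : ∀ y ∈ B, (t / 2 * I.card) ^ j ≤ ∑ z ∈ Z, μ z * ‖S (z + y)‖ ^ j := by
    intro y hy
    refine le_trans (pow_le_pow_left₀ (by positivity) (key y hy) j) ?_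
    exact Real.pow_arith_mean_le_arith_mean_pow Z μ (fun z => ‖S (z + y)‖) hμ hμ1
      (fun _ _ => norm_nonneg _) j
  calc (B.card : ℝ) * (t / 2 * I.card) ^ j = ∑ y ∈ B, (t / 2 * I.card) ^ j := by
        rw [Finset.sum_const, nsmul_eq_mul]
    _ ≤ ∑ y ∈ B, ∑ z ∈ Z, μ z * ‖S (z + y)‖ ^ j := Finset.sum_le_sum key2
    _ = ∑ p ∈ Z ×ˢ B, μ p.1 * ‖S (p.1 + p.2)‖ ^ j := by
        rw [Finset.sum_comm, ← Finset.sum_product']
    _ = ∑ v ∈ (Z ×ˢ B).image (fun p => p.1 + p.2),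
          ∑ p ∈ (Z ×ˢ B).filter (fun p => p.1 + p.2 = v), μ p.1 * ‖S (p.1 + p.2)‖ ^ j :=
        (Finset.sum_fiberwise_of_maps_to (fun p hp => Finset.mem_image_of_mem _ hp) _).symm
    _ ≤ ∑ v ∈ (Z ×ˢ B).image (fun p => p.1 + p.2), m * ‖S v‖ ^ j := by
        refine Finset.sum_le_sum fun v _ => ?_
        have h1 : ∑ p ∈ (Z ×ˢ B).filter (fun p => p.1 + p.2 = v), μ p.1 * ‖S (p.1 + p.2)‖ ^ j =
            (∑ p ∈ (Z ×ˢ B).filter (fun p => p.1 + p.2 = v), μ p.1) * ‖S v‖ ^ j := by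
          rw [Finset.sum_mul]
          refine Finset.sum_congr rfl fun p hp => ?_
          rw [(Finset.mem_filter.mp hp).2]
        rw [h1]
        refine mul_le_mul_of_nonneg_right (le_trans (le_of_eq ?_) (hm v)) (by positivity)
        refine Finset.sum_bij' (fun p _ => p.1) (fun z _ => (z, v - z)) ?_ ?_ ?_ ?_ ?_
        · intro p hp
          rw [Finset.mem_filter, Finset.mem_product] at hp
          rw [Finset.mem_filter]
          refine ⟨hp.1.1, ?_⟩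
          rw [← hp.2, add_sub_cancel_left]
          exact hp.1.2
        · intro z hz
          rw [Finset.mem_filter] at hz
          rw [Finset.mem_filter, Finset.mem_product]
          exact ⟨⟨hz.1, hz.2⟩, by simp⟩
        · intro p hp
          rw [Finset.mem_filter] at hp
          refine Prod.ext rfl ?_
          simp only
          rw [← hp.2, add_sub_cancel_left]
        · intro z _
          rfl
        · intro p _
          rfl
    _ = m * ∑ v ∈ (Z ×ˢ B).image (fun p => p.1 + p.2), ‖S v‖ ^ j := by rw [Finset.mul_sum]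

end Crest.Agent.R2.M750
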