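import Crest.Agent.R2.Spec750

set_option autoImplicit false
set_option maxHeartbeats 400000

open Complex Finset
open scoped Real

namespace Crest.Agent.R2.M750

variable {ι : Type*}

/-- `|μ̂|²` is the transform of the difference law. -/
theorem ft_sq (Z : Finset GaussianInt) (μ : GaussianInt → ℝ) (x : ℂ) :
    ∑ p ∈ Z ×ˢ Z, ((μ p.1 * μ p.2 : ℝ) : ℂ) * chi (p.1 - p.2) x = ((‖ft Z μ x‖ ^ 2 : ℝ) : ℂ) := by
  rw [Complex.ofReal_pow, ← Complex.mul_conj', ft, map_sum, Finset.sum_mul_sum,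
    Finset.sum_product]
  refine Finset.sum_congr rfl fun i _ => Finset.sum_congr rfl fun j _ => ?_
  rw [chi_sub_left, map_mul, Complex.conj_ofReal, Complex.ofReal_mul]
  ring

/-- real-valued form of the moment identity for an average of characters -/
noncomputable def Av (T : Finset ι) (x : ι → ℂ) (z : GaussianInt) : ℂ :=
  ∑ i ∈ T, (1 / (T.card : ℂ)) * chi z (x i)

theorem hasSum_Av [DecidableEq ι] {r : ℝ} (hr : 0 < r) (hr2 : r ≤ 1 / 2) (T : Finset ι)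
    (x : ι → ℂ) (z : GaussianInt) (k : ℕ) :
    HasSum (fun v : GaussianInt => ((wt r v * ‖Av T x (z + v)‖ ^ (2 * k) : ℝ) : ℂ))
      ((((1 / (T.card : ℝ)) ^ (2 * k) : ℝ) : ℂ) *
        ∑ f ∈ Fintype.piFinset (fun _ : Fin k => T), ∑ g ∈ Fintype.piFinset (fun _ : Fin k => T),
        ((phi r (dsum x f g) : ℝ) : ℂ) * chi z (dsum x f g)) := by
  have h := hasSum_pow hr hr2 T (fun _ => 1 / (T.card : ℂ)) x z k
  unfold Av
  convert! h using 1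
  rw [Finset.mul_sum]
  refine Finset.sum_congr rfl fun f _ => ?_
  rw [Finset.mul_sum]
  refine Finset.sum_congr rfl fun g _ => ?_
  rw [Finset.prod_const, Finset.card_univ, Fintype.card_fin, map_pow, map_div₀, map_one,
    Complex.conj_natCast]
  push_cast
  ring

theorem sum4_comm {α β γ δ : Type*} (S1 : Finset α) (S2 : Finset β) (S3 : Finset γ) (S4 : Finset δ)
    (h : α → β → γ → δ → ℂ) :
    ∑ p ∈ S1, ∑ q ∈ S2, ∑ f ∈ S3, ∑ g ∈ S4, h p q f g =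
      ∑ f ∈ S3, ∑ g ∈ S4, ∑ p ∈ S1, ∑ q ∈ S2, h p q f g := by
  calc ∑ p ∈ S1, ∑ q ∈ S2, ∑ f ∈ S3, ∑ g ∈ S4, h p q f g
      = ∑ p ∈ S1, ∑ f ∈ S3, ∑ q ∈ S2, ∑ g ∈ S4, h p q f g :=
        Finset.sum_congr rfl fun p _ => Finset.sum_comm
    _ = ∑ f ∈ S3, ∑ p ∈ S1, ∑ q ∈ S2, ∑ g ∈ S4, h p q f g := Finset.sum_comm
    _ = ∑ f ∈ S3, ∑ p ∈ S1, ∑ g ∈ S4, ∑ q ∈ S2, h p q f g :=
        Finset.sum_congr rfl fun f _ => Finset.sum_congr rfl fun p _ => Finset.sum_comm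
    _ = ∑ f ∈ S3, ∑ g ∈ S4, ∑ p ∈ S1, ∑ q ∈ S2, h p q f g :=
        Finset.sum_congr rfl fun f _ => Finset.sum_comm

theorem re_two (a b : ℝ) (w : ℂ) : ((a : ℂ) * (b : ℂ) * w).re = a * b * w.re := by
  rw [← Complex.ofReal_mul, Complex.re_ofReal_mul]

theorem prod3 {α β γ : Type*} (S1 : Finset α) (S2 : Finset β) (S3 : Finset γ)
    (a1 : α → ℂ) (a2 : β → ℂ) (a3 : γ → ℂ) :
    (∑ s ∈ S1, a1 s) * (∑ p ∈ S2, a2 p) * (∑ q ∈ S3, a3 q) =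
      ∑ p ∈ S2, ∑ q ∈ S3, ∑ s ∈ S1, a2 p * a3 q * a1 s := by
  rw [mul_assoc, mul_comm, Finset.sum_mul_sum, Finset.sum_mul]
  refine Finset.sum_congr rfl fun p _ => ?_
  rw [Finset.sum_mul]
  refine Finset.sum_congr rfl fun q _ => ?_
  rw [Finset.mul_sum]

open Classical in
/-- **(F1)** lower bound for `W`. -/
theorem W_lower {r : ℝ} (hr : 0 < r) (hr2 : r ≤ 1 / 2) (T : Finset ι) (x : ι → ℂ)
    (Z1 Z2 Z3 : Finset GaussianInt) (μ1 μ2 μ3 : GaussianInt → ℝ)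
    (h1 : ∀ z ∈ Z1, 0 ≤ μ1 z) (h2 : ∀ z ∈ Z2, 0 ≤ μ2 z) (h3 : ∀ z ∈ Z3, 0 ≤ μ3 z)
    (s1 : ∑ z ∈ Z1, μ1 z = 1) (s2 : ∑ z ∈ Z2, μ2 z = 1) (s3 : ∑ z ∈ Z3, μ3 z = 1)
    (hbox : ∀ y ∈ Z1, ∀ y' ∈ Z1, |(((y - y').re : ℤ) : ℝ)| * (2 * r) ≤ 1 ∧
      |(((y - y').im : ℤ) : ℝ)| * (2 * r) ≤ 1)
    {m1 : ℝ} (hm0 : 0 < m1) (hm1 : ∀ z ∈ Z1, μ1 z ≤ m1) (k : ℕ) :
    1 / (10 * m1) * (1 / (T.card : ℝ) * ∑ i ∈ T,
        ‖ft Z1 μ1 (x i)‖ ^ 2 * ‖ft Z2 μ2 (x i)‖ ^ 2 * ‖ft Z3 μ3 (x i)‖ ^ 2) ^ (2 * k) ≤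
      (1 / (T.card : ℝ)) ^ (2 * k) *
        ∑ f ∈ Fintype.piFinset (fun _ : Fin k => T), ∑ g ∈ Fintype.piFinset (fun _ : Fin k => T),
        phi r (dsum x f g) * ‖ft Z2 μ2 (dsum x f g)‖ ^ 2 * ‖ft Z3 μ3 (dsum x f g)‖ ^ 2 := by
  set P := Fintype.piFinset (fun _ : Fin k => T) with hP
  set A : GaussianInt → ℂ := fun z => (((1 / (T.card : ℝ)) ^ (2 * k) : ℝ) : ℂ) *
        ∑ f ∈ P, ∑ g ∈ P, ((phi r (dsum x f g) : ℝ) : ℂ) * chi z (dsum x f g) with hA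
  -- (i)
  have e1' : (∑ p ∈ Z2 ×ˢ Z2, ∑ q ∈ Z3 ×ˢ Z3, (μ2 p.1 * μ2 p.2) * (μ3 q.1 * μ3 q.2) *
      (A (p.1 - p.2 + (q.1 - q.2))).re) = (1 / (T.card : ℝ)) ^ (2 * k) *
        ∑ f ∈ P, ∑ g ∈ P,
        phi r (dsum x f g) * ‖ft Z2 μ2 (dsum x f g)‖ ^ 2 * ‖ft Z3 μ3 (dsum x f g)‖ ^ 2 := by
    have hc : (∑ p ∈ Z2 ×ˢ Z2, ∑ q ∈ Z3 ×ˢ Z3, ((μ2 p.1 * μ2 p.2 : ℝ) : ℂ) *
        ((μ3 q.1 * μ3 q.2 : ℝ) : ℂ) * A (p.1 - p.2 + (q.1 - q.2))) =
        (((1 / (T.card : ℝ)) ^ (2 * k) *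
        ∑ f ∈ P, ∑ g ∈ P,
        phi r (dsum x f g) * ‖ft Z2 μ2 (dsum x f g)‖ ^ 2 * ‖ft Z3 μ3 (dsum x f g)‖ ^ 2 : ℝ) : ℂ) := by
      have step : ∀ f ∈ P, ∀ g ∈ P, (∑ p ∈ Z2 ×ˢ Z2, ∑ q ∈ Z3 ×ˢ Z3, ((μ2 p.1 * μ2 p.2 : ℝ) : ℂ) *
          ((μ3 q.1 * μ3 q.2 : ℝ) : ℂ) * ((((1 / (T.card : ℝ)) ^ (2 * k) : ℝ) : ℂ) *
          (((phi r (dsum x f g) : ℝ) : ℂ) * chi (p.1 - p.2 + (q.1 - q.2)) (dsum x f g)))) =
          (((1 / (T.card : ℝ)) ^ (2 * k) : ℝ) : ℂ) *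
          ((phi r (dsum x f g) * ‖ft Z2 μ2 (dsum x f g)‖ ^ 2 * ‖ft Z3 μ3 (dsum x f g)‖ ^ 2 : ℝ) : ℂ) := by
        intro f _ g _
        rw [Complex.ofReal_mul, Complex.ofReal_mul, ← ft_sq, ← ft_sq, mul_assoc
          ((phi r (dsum x f g) : ℝ) : ℂ), Finset.sum_mul_sum, Finset.mul_sum, Finset.mul_sum]
        refine Finset.sum_congr rfl fun p _ => ?_
        rw [Finset.mul_sum, Finset.mul_sum]
        refine Finset.sum_congr rfl fun q _ => ?_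
        rw [chi_add_left]
        ring
      have expand : ∀ z, A z = ∑ f ∈ P, ∑ g ∈ P, (((1 / (T.card : ℝ)) ^ (2 * k) : ℝ) : ℂ) *
          (((phi r (dsum x f g) : ℝ) : ℂ) * chi z (dsum x f g)) := by
        intro z
        simp only [hA, Finset.mul_sum]
      simp_rw [expand]
      calc (∑ p ∈ Z2 ×ˢ Z2, ∑ q ∈ Z3 ×ˢ Z3, ((μ2 p.1 * μ2 p.2 : ℝ) : ℂ) *
            ((μ3 q.1 * μ3 q.2 : ℝ) : ℂ) * ∑ f ∈ P, ∑ g ∈ P, (((1 / (T.card : ℝ)) ^ (2 * k) : ℝ) : ℂ) *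
          (((phi r (dsum x f g) : ℝ) : ℂ) * chi (p.1 - p.2 + (q.1 - q.2)) (dsum x f g)))
          = ∑ f ∈ P, ∑ g ∈ P, ∑ p ∈ Z2 ×ˢ Z2, ∑ q ∈ Z3 ×ˢ Z3, ((μ2 p.1 * μ2 p.2 : ℝ) : ℂ) *
          ((μ3 q.1 * μ3 q.2 : ℝ) : ℂ) * ((((1 / (T.card : ℝ)) ^ (2 * k) : ℝ) : ℂ) *
          (((phi r (dsum x f g) : ℝ) : ℂ) * chi (p.1 - p.2 + (q.1 - q.2)) (dsum x f g))) := by
            rw [← sum4_comm]
            simp_rw [Finset.mul_sum]
        _ = _ := by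
            rw [Complex.ofReal_mul, Complex.ofReal_sum, Finset.mul_sum]
            refine Finset.sum_congr rfl fun f hf => ?_
            rw [Complex.ofReal_sum, Finset.mul_sum]
            exact Finset.sum_congr rfl fun g hg => step f hf g hg
    have hre := congrArg Complex.re hc
    rw [Complex.ofReal_re, Complex.re_sum] at hre
    rw [← hre]
    refine Finset.sum_congr rfl fun p _ => ?_
    rw [Complex.re_sum]
    refine Finset.sum_congr rfl fun q _ => ?_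
    exact (re_two _ _ _).symm
  rw [← e1']
  -- (ii)
  have e2 : ∀ z, 1 / (10 * m1) * ∑ p ∈ Z1 ×ˢ Z1, (μ1 p.1 * μ1 p.2) *
      ‖Av T x (z + (p.1 - p.2))‖ ^ (2 * k) ≤ (A z).re := by
    intro z
    have hs := Complex.hasSum_re (hasSum_Av hr hr2 T x z k)
    simp only [Complex.ofReal_re] at hs
    have hV := sum_le_hasSum ((Z1 ×ˢ Z1).image fun p => p.1 - p.2)
      (fun v _ => mul_nonneg (wt_nonneg r v) (pow_nonneg (norm_nonneg (Av T x (z + v))) (2 * k))) hs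
    refine le_trans ?_ hV
    have hpush : ∑ p ∈ Z1 ×ˢ Z1, (μ1 p.1 * μ1 p.2) * ‖Av T x (z + (p.1 - p.2))‖ ^ (2 * k) ≤
        ∑ v ∈ (Z1 ×ˢ Z1).image (fun p => p.1 - p.2), m1 * ‖Av T x (z + v)‖ ^ (2 * k) := by
      rw [← Finset.sum_fiberwise_of_maps_to
        (fun p hp => Finset.mem_image_of_mem (fun p : GaussianInt × GaussianInt => p.1 - p.2) hp)]
      refine Finset.sum_le_sum fun v _ => ?_
      have h1' : ∑ p ∈ (Z1 ×ˢ Z1).filter (fun p => p.1 - p.2 = v), (μ1 p.1 * μ1 p.2) *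
          ‖Av T x (z + (p.1 - p.2))‖ ^ (2 * k) =
          (∑ p ∈ (Z1 ×ˢ Z1).filter (fun p => p.1 - p.2 = v), μ1 p.1 * μ1 p.2) *
            ‖Av T x (z + v)‖ ^ (2 * k) := by
        rw [Finset.sum_mul]
        refine Finset.sum_congr rfl fun p hp => ?_
        rw [(Finset.mem_filter.mp hp).2]
      rw [h1']
      refine mul_le_mul_of_nonneg_right ?_ (by positivity)
      calc ∑ p ∈ (Z1 ×ˢ Z1).filter (fun p => p.1 - p.2 = v), μ1 p.1 * μ1 p.2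
          ≤ ∑ p ∈ (Z1 ×ˢ Z1).filter (fun p => p.1 - p.2 = v), m1 * μ1 p.2 := by
            refine Finset.sum_le_sum fun p hp => ?_
            rw [Finset.mem_filter, Finset.mem_product] at hp
            exact mul_le_mul_of_nonneg_right (hm1 _ hp.1.1) (h1 _ hp.1.2)
        _ = m1 * ∑ p ∈ (Z1 ×ˢ Z1).filter (fun p => p.1 - p.2 = v), μ1 p.2 := by
            rw [Finset.mul_sum]
        _ ≤ m1 * ∑ y ∈ Z1, μ1 y := by
            refine mul_le_mul_of_nonneg_left ?_ hm0.le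
            rw [← Finset.sum_image (s := (Z1 ×ˢ Z1).filter (fun p => p.1 - p.2 = v))
              (g := fun p : GaussianInt × GaussianInt => p.2) (f := μ1)]
            · refine Finset.sum_le_sum_of_subset_of_nonneg ?_ fun y hy _ => h1 y hy
              intro y hy
              rw [Finset.mem_image] at hy
              obtain ⟨p, hp, rfl⟩ := hy
              rw [Finset.mem_filter, Finset.mem_product] at hp
              exact hp.1.2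
            · intro p hp q hq hpq
              rw [Finset.mem_coe, Finset.mem_filter] at hp hq
              refine Prod.ext ?_ hpq
              have := hp.2.trans hq.2.symm
              simp only at hpq
              rw [hpq] at this
              exact sub_left_injective this
        _ = m1 := by rw [s1, mul_one]
    have hlow : ∑ v ∈ (Z1 ×ˢ Z1).image (fun p => p.1 - p.2), 1 / 10 * ‖Av T x (z + v)‖ ^ (2 * k) ≤
        ∑ v ∈ (Z1 ×ˢ Z1).image (fun p => p.1 - p.2), wt r v * ‖Av T x (z + v)‖ ^ (2 * k) := by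
      refine Finset.sum_le_sum fun v hv => ?_
      rw [Finset.mem_image] at hv
      obtain ⟨p, hp, rfl⟩ := hv
      rw [Finset.mem_product] at hp
      have hb := hbox _ hp.1 _ hp.2
      exact mul_le_mul_of_nonneg_right (wt_lower hr hb.1 hb.2) (by positivity)
    rw [← Finset.mul_sum] at hlow hpush
    refine le_trans ?_ hlow
    rw [one_div, mul_inv, mul_comm (10 : ℝ)⁻¹, mul_comm (m1⁻¹), mul_assoc, ← one_div (10 : ℝ)]
    refine mul_le_mul_of_nonneg_left ?_ (by norm_num)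
    rw [inv_mul_le_iff₀ hm0]
    exact hpush
  -- (iii)
  have hw2 : ∀ p ∈ Z2 ×ˢ Z2, 0 ≤ μ2 p.1 * μ2 p.2 := fun p hp => by
    rw [Finset.mem_product] at hp; exact mul_nonneg (h2 _ hp.1) (h2 _ hp.2)
  have hw3 : ∀ p ∈ Z3 ×ˢ Z3, 0 ≤ μ3 p.1 * μ3 p.2 := fun p hp => by
    rw [Finset.mem_product] at hp; exact mul_nonneg (h3 _ hp.1) (h3 _ hp.2)
  have hw1 : ∀ p ∈ Z1 ×ˢ Z1, 0 ≤ μ1 p.1 * μ1 p.2 := fun p hp => by
    rw [Finset.mem_product] at hp; exact mul_nonneg (h1 _ hp.1) (h1 _ hp.2)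
  have hsum : ∀ (Z : Finset GaussianInt) (μ : GaussianInt → ℝ), ∑ z ∈ Z, μ z = 1 →
      ∑ p ∈ Z ×ˢ Z, μ p.1 * μ p.2 = 1 := by
    intro Z μ hs
    rw [Finset.sum_product]
    simp_rw [← Finset.mul_sum, hs, mul_one]
    exact hs
  have e3 : (1 / (T.card : ℝ) * ∑ i ∈ T,
        ‖ft Z1 μ1 (x i)‖ ^ 2 * ‖ft Z2 μ2 (x i)‖ ^ 2 * ‖ft Z3 μ3 (x i)‖ ^ 2) ^ (2 * k) ≤
      ∑ p ∈ Z2 ×ˢ Z2, ∑ q ∈ Z3 ×ˢ Z3, (μ2 p.1 * μ2 p.2) * (μ3 q.1 * μ3 q.2) *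
        ∑ s ∈ Z1 ×ˢ Z1, (μ1 s.1 * μ1 s.2) *
        ‖Av T x (p.1 - p.2 + (q.1 - q.2) + (s.1 - s.2))‖ ^ (2 * k) := by
    set Q := ((Z2 ×ˢ Z2) ×ˢ (Z3 ×ˢ Z3)) ×ˢ (Z1 ×ˢ Z1) with hQ
    set w : ((GaussianInt × GaussianInt) × (GaussianInt × GaussianInt)) × (GaussianInt × GaussianInt)
      → ℝ := fun q => (μ2 q.1.1.1 * μ2 q.1.1.2) * (μ3 q.1.2.1 * μ3 q.1.2.2) * (μ1 q.2.1 * μ1 q.2.2)
      with hw
    set F : ((GaussianInt × GaussianInt) × (GaussianInt × GaussianInt)) × (GaussianInt × GaussianInt)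
      → ℂ := fun q => Av T x (q.1.1.1 - q.1.1.2 + (q.1.2.1 - q.1.2.2) + (q.2.1 - q.2.2)) with hF
    have hwn : ∀ q ∈ Q, 0 ≤ w q := by
      intro q hq
      rw [hQ, Finset.mem_product, Finset.mem_product] at hq
      exact mul_nonneg (mul_nonneg (hw2 _ hq.1.1) (hw3 _ hq.1.2)) (hw1 _ hq.2)
    have hws : ∑ q ∈ Q, w q = 1 := by
      rw [hQ, Finset.sum_product, Finset.sum_product]
      simp only [hw, ← Finset.mul_sum]
      rw [hsum Z1 μ1 s1]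
      simp_rw [mul_one, ← Finset.mul_sum, hsum Z3 μ3 s3, mul_one]
      exact hsum Z2 μ2 s2
    have hR : ∑ p ∈ Z2 ×ˢ Z2, ∑ q ∈ Z3 ×ˢ Z3, (μ2 p.1 * μ2 p.2) * (μ3 q.1 * μ3 q.2) *
        ∑ s ∈ Z1 ×ˢ Z1, (μ1 s.1 * μ1 s.2) *
        ‖Av T x (p.1 - p.2 + (q.1 - q.2) + (s.1 - s.2))‖ ^ (2 * k) = ∑ q ∈ Q, w q * ‖F q‖ ^ (2 * k) := by
      rw [hQ, Finset.sum_product ((Z2 ×ˢ Z2) ×ˢ (Z3 ×ˢ Z3)) (Z1 ×ˢ Z1),
        Finset.sum_product (Z2 ×ˢ Z2) (Z3 ×ˢ Z3)]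
      refine Finset.sum_congr rfl fun p _ => Finset.sum_congr rfl fun q _ => ?_
      rw [Finset.mul_sum]
      refine Finset.sum_congr rfl fun s _ => ?_
      simp only [hw, hF]
      ring
    rw [hR]
    refine le_trans ?_ (Real.pow_arith_mean_le_arith_mean_pow Q w (fun q => ‖F q‖) hwn hws
      (fun _ _ => norm_nonneg _) (2 * k))
    refine pow_le_pow_left₀ (by positivity) ?_ (2 * k)
    have hE : ∑ q ∈ Q, (w q : ℂ) * F q = ((1 / (T.card : ℝ) * ∑ i ∈ T,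
        ‖ft Z1 μ1 (x i)‖ ^ 2 * ‖ft Z2 μ2 (x i)‖ ^ 2 * ‖ft Z3 μ3 (x i)‖ ^ 2 : ℝ) : ℂ) := by
      simp only [hF, Av, Finset.mul_sum]
      rw [Finset.sum_comm, Complex.ofReal_sum]
      refine Finset.sum_congr rfl fun i _ => ?_
      rw [Complex.ofReal_mul, Complex.ofReal_mul, Complex.ofReal_mul, ← ft_sq Z1, ← ft_sq Z2,
        ← ft_sq Z3, prod3, hQ, Finset.sum_product ((Z2 ×ˢ Z2) ×ˢ (Z3 ×ˢ Z3)) (Z1 ×ˢ Z1),
        Finset.sum_product (Z2 ×ˢ Z2) (Z3 ×ˢ Z3), Finset.mul_sum]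
      refine Finset.sum_congr rfl fun p _ => ?_
      rw [Finset.mul_sum]
      refine Finset.sum_congr rfl fun q _ => ?_
      rw [Finset.mul_sum]
      refine Finset.sum_congr rfl fun s _ => ?_
      simp only [hw]
      rw [chi_add_left, chi_add_left]
      push_cast
      ring
    calc 1 / (T.card : ℝ) * ∑ i ∈ T,
        ‖ft Z1 μ1 (x i)‖ ^ 2 * ‖ft Z2 μ2 (x i)‖ ^ 2 * ‖ft Z3 μ3 (x i)‖ ^ 2
        = (∑ q ∈ Q, (w q : ℂ) * F q).re := by rw [hE, Complex.ofReal_re]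
      _ ≤ ‖∑ q ∈ Q, (w q : ℂ) * F q‖ := Complex.re_le_norm _
      _ ≤ ∑ q ∈ Q, ‖(w q : ℂ) * F q‖ := norm_sum_le _ _
      _ = ∑ q ∈ Q, w q * ‖F q‖ := Finset.sum_congr rfl fun q hq => by
          rw [norm_mul, Complex.norm_real, Real.norm_of_nonneg (hwn q hq)]
  calc _ ≤ 1 / (10 * m1) * ∑ p ∈ Z2 ×ˢ Z2, ∑ q ∈ Z3 ×ˢ Z3, (μ2 p.1 * μ2 p.2) * (μ3 q.1 * μ3 q.2) *
        ∑ s ∈ Z1 ×ˢ Z1, (μ1 s.1 * μ1 s.2) *
        ‖Av T x (p.1 - p.2 + (q.1 - q.2) + (s.1 - s.2))‖ ^ (2 * k) :=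
        mul_le_mul_of_nonneg_left e3 (by positivity)
    _ ≤ _ := by
        rw [Finset.mul_sum]
        refine Finset.sum_le_sum fun p hp => ?_
        rw [Finset.mul_sum]
        refine Finset.sum_le_sum fun q hq => ?_
        rw [mul_left_comm]
        exact mul_le_mul_of_nonneg_left (e2 _) (mul_nonneg (hw2 _ hp) (hw3 _ hq))

theorem re_chi_arg_le {y : GaussianInt} {x : ℂ} {G r0 : ℝ} (hy : ‖GaussianInt.toComplex y‖ ≤ G)
    (hx : ‖x‖ ≤ r0) (hG : 0 ≤ G) (h : G * r0 ≤ 1 / 20) :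
    |(GaussianInt.toComplex y * x).re| ≤ 1 / 20 := by
  refine le_trans (Complex.abs_re_le_norm _) ?_
  rw [norm_mul]
  exact le_trans (mul_le_mul hy hx (norm_nonneg _) hG) h

open Classical in
/-- **(2')** for the second moment, in final form. -/
theorem spectral1 (Z : Finset GaussianInt) (μ : GaussianInt → ℝ) (hμ : ∀ z ∈ Z, 0 ≤ μ z)
    (hμ1 : ∑ z ∈ Z, μ z = 1) (I : Finset ι) (x : ι → ℂ) {t G r0 : ℝ}
    (ht : ∀ i ∈ I, t ≤ ‖ft Z μ (x i)‖) (ht0 : 0 ≤ t) (hG : 0 ≤ G) (hGr : G * r0 ≤ 1 / 20)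
    (hx : ∀ i ∈ I, ‖x i‖ ≤ r0)
    (B : Finset GaussianInt) (hB : ∀ y ∈ B, ‖GaussianInt.toComplex y‖ ≤ G)
    {m : ℝ} (hm : ∀ v, ∑ z ∈ Z.filter (fun z => ‖GaussianInt.toComplex (v - z)‖ ≤ G), μ z ≤ m)
    {r : ℝ} (hr : 0 < r) (hr2 : r ≤ 1 / 2)
    (hbox : ∀ z ∈ Z, (‖GaussianInt.toComplex z‖ + G) * (2 * r) ≤ 1) :
    (B.card : ℝ) * (t / 2 * I.card) ^ 2 ≤
      m * (10 / r ^ 2 * (((I ×ˢ I).filter fun p => inR r (x p.1 - x p.2)).card : ℝ)) := by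
  have hm0 : 0 ≤ m := le_trans (Finset.sum_nonneg fun z hz => hμ z (Finset.mem_filter.mp hz).1) (hm 0)
  have hm' : ∀ v, ∑ z ∈ Z.filter (fun z => v - z ∈ B), μ z ≤ m := by
    intro v
    refine le_trans (Finset.sum_le_sum_of_subset_of_nonneg ?_ ?_) (hm v)
    · intro z hz
      rw [Finset.mem_filter] at hz ⊢
      exact ⟨hz.1, hB _ hz.2⟩
    · intro z hz _
      exact hμ z (Finset.mem_filter.mp hz).1
  obtain ⟨s, hs, h⟩ := spectral_lower Z μ hμ hμ1 I x ht ht0 B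
    (fun y hy i hi => re_chi_arg_le (hB y hy) (hx i hi) hG hGr) hm'
  refine le_trans (h 2) (mul_le_mul_of_nonneg_left ?_ hm0)
  have h2 := sum_box_le_card hr hr2 I s x (fun i _ => (hs i).le) 0
    ((Z ×ˢ B).image (fun p => p.1 + p.2)) (by
      intro v hv
      rw [Finset.mem_image] at hv
      obtain ⟨p, hp, rfl⟩ := hv
      rw [Finset.mem_product] at hp
      have h1 : ‖GaussianInt.toComplex (p.1 + p.2)‖ ≤ ‖GaussianInt.toComplex p.1‖ + G := by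
        rw [map_add]
        exact le_trans (norm_add_le _ _) (by linarith [hB _ hp.2])
      have hb := hbox _ hp.1
      constructor
      · refine le_trans (mul_le_mul_of_nonneg_right (le_trans ?_ h1) (by positivity)) hb
        rw [GaussianInt.intCast_re]
        exact Complex.abs_re_le_norm _
      · refine le_trans (mul_le_mul_of_nonneg_right (le_trans ?_ h1) (by positivity)) hb
        rw [GaussianInt.intCast_im]
        exact Complex.abs_im_le_norm _)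
  simp only [zero_add] at h2
  exact h2

open Classical in
/-- **(2')** for the fourth moment, in final form (energy). -/
theorem spectral2 (Z : Finset GaussianInt) (μ : GaussianInt → ℝ) (hμ : ∀ z ∈ Z, 0 ≤ μ z)
    (hμ1 : ∑ z ∈ Z, μ z = 1) (I : Finset ι) (x : ι → ℂ) {t G r0 : ℝ}
    (ht : ∀ i ∈ I, t ≤ ‖ft Z μ (x i)‖) (ht0 : 0 ≤ t) (hG : 0 ≤ G) (hGr : G * r0 ≤ 1 / 20)
    (hx : ∀ i ∈ I, ‖x i‖ ≤ r0)
    (B : Finset GaussianInt) (hB : ∀ y ∈ B, ‖GaussianInt.toComplex y‖ ≤ G)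
    {m : ℝ} (hm : ∀ v, ∑ z ∈ Z.filter (fun z => ‖GaussianInt.toComplex (v - z)‖ ≤ G), μ z ≤ m)
    {r : ℝ} (hr : 0 < r) (hr2 : r ≤ 1 / 2)
    (hbox : ∀ z ∈ Z, (‖GaussianInt.toComplex z‖ + G) * (2 * r) ≤ 1) :
    (B.card : ℝ) * (t / 2 * I.card) ^ 4 ≤
      m * (10 / r ^ 2 * ((((I ×ˢ I) ×ˢ (I ×ˢ I)).filter fun p =>
        inR r (x p.1.1 + x p.1.2 - (x p.2.1 + x p.2.2))).card : ℝ)) := by
  have hm0 : 0 ≤ m := le_trans (Finset.sum_nonneg fun z hz => hμ z (Finset.mem_filter.mp hz).1) (hm 0)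
  have hm' : ∀ v, ∑ z ∈ Z.filter (fun z => v - z ∈ B), μ z ≤ m := by
    intro v
    refine le_trans (Finset.sum_le_sum_of_subset_of_nonneg ?_ ?_) (hm v)
    · intro z hz
      rw [Finset.mem_filter] at hz ⊢
      exact ⟨hz.1, hB _ hz.2⟩
    · intro z hz _
      exact hμ z (Finset.mem_filter.mp hz).1
  obtain ⟨s, hs, h⟩ := spectral_lower Z μ hμ hμ1 I x ht ht0 B
    (fun y hy i hi => re_chi_arg_le (hB y hy) (hx i hi) hG hGr) hm'
  refine le_trans (h 4) (mul_le_mul_of_nonneg_left ?_ hm0)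
  have h2 := sum_box_le_card hr hr2 (I ×ˢ I) (fun p => s p.1 * s p.2) (fun p => x p.1 + x p.2)
    (fun p _ => by rw [norm_mul, hs, hs, mul_one]) 0
    ((Z ×ˢ B).image (fun p => p.1 + p.2)) (by
      intro v hv
      rw [Finset.mem_image] at hv
      obtain ⟨p, hp, rfl⟩ := hv
      rw [Finset.mem_product] at hp
      have h1 : ‖GaussianInt.toComplex (p.1 + p.2)‖ ≤ ‖GaussianInt.toComplex p.1‖ + G := by
        rw [map_add]
        exact le_trans (norm_add_le _ _) (by linarith [hB _ hp.2])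
      have hb := hbox _ hp.1
      constructor
      · refine le_trans (mul_le_mul_of_nonneg_right (le_trans ?_ h1) (by positivity)) hb
        rw [GaussianInt.intCast_re]
        exact Complex.abs_re_le_norm _
      · refine le_trans (mul_le_mul_of_nonneg_right (le_trans ?_ h1) (by positivity)) hb
        rw [GaussianInt.intCast_im]
        exact Complex.abs_im_le_norm _)
  simp only [zero_add] at h2
  refine le_trans (le_of_eq ?_) h2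
  refine Finset.sum_congr rfl fun v _ => ?_
  have h3 : ∑ p ∈ I ×ˢ I, s p.1 * s p.2 * chi v (x p.1 + x p.2) =
      (∑ i ∈ I, s i * chi v (x i)) ^ 2 := by
    rw [sq, Finset.sum_mul_sum, Finset.sum_product]
    refine Finset.sum_congr rfl fun a _ => Finset.sum_congr rfl fun b _ => ?_
    rw [chi_add_right]
    ring
  rw [h3, norm_pow, ← pow_mul]

end Crest.Agent.R2.M750
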