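import Mathlib

/-!
# R2 (Gaussian moat): the torus lemma (topological sumset lemma), purely algebraic proof

Two lattice paths `α`, `β` with displacements `u`, `v`, `det (u, v) ≠ 0`: every class of
`ℤ[i] / (ℤ u + ℤ v)` is of the form `α i + β j`.  Hence `#{α i + β j} ≥ |det (u, v)|`.
-/

set_option autoImplicit false

namespace Crest.Agent.R2.Tor557

open Finset

section ring
variable {Q : Type*} [AddCommGroup Q]

theorem coeff_const (W : AddMonoidAlgebra ℤ Q) (a b : Q)
    (hgen : AddSubgroup.closure {a, b} = ⊤)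
    (ha : AddMonoidAlgebra.single a 1 * W = W) (hb : AddMonoidAlgebra.single b 1 * W = W)
    (q : Q) : W.coeff q = W.coeff 0 := by
  have key : ∀ g ∈ AddSubgroup.closure ({a, b} : Set Q), ∀ q, W.coeff (g + q) = W.coeff q := by
    intro g hg
    induction hg using AddSubgroup.closure_induction with
    | mem x hx =>
      intro q
      rcases hx with rfl | hx
      · conv_lhs => rw [← ha]
        rw [AddMonoidAlgebra.coeff_single_mul_add, one_mul]
      · rw [Set.mem_singleton_iff] at hx
        subst hx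
        conv_lhs => rw [← hb]
        rw [AddMonoidAlgebra.coeff_single_mul_add, one_mul]
    | zero => intro q; simp
    | add x y _ _ hx hy => intro q; rw [add_assoc, hx, hy]
    | neg x _ hx => intro q; have := hx (-x + q); simpa using this.symm
  have := key q (hgen ▸ AddSubgroup.mem_top q) 0
  simpa using this

/-- augmentation -/
noncomputable def aug : AddMonoidAlgebra ℤ Q →+* ℤ :=
  (AddMonoidAlgebra.lift ℤ ℤ Q (1 : Multiplicative Q →* ℤ)).toRingHom

theorem aug_single (q : Q) (r : ℤ) : aug (AddMonoidAlgebra.single q r) = r := by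
  simp [aug]

end ring

/-! ## Edges of a lattice path -/

section path
variable {Q : Type*} [AddCommGroup Q] (f : GaussianInt →+ Q)

/-- the Gaussian unit `i` -/
def gi : GaussianInt := ⟨0, 1⟩

/-- `b - a` is one of the four units -/
def UStep (a b : GaussianInt) : Prop := b = a + 1 ∨ a = b + 1 ∨ b = a + gi ∨ a = b + gi

noncomputable def ht (a b : GaussianInt) : AddMonoidAlgebra ℤ Q :=
  open Classical in
  if b = a + 1 then AddMonoidAlgebra.single (f a) 1
  else if a = b + 1 then AddMonoidAlgebra.single (f b) (-1) else 0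

noncomputable def vt (a b : GaussianInt) : AddMonoidAlgebra ℤ Q :=
  open Classical in
  if b = a + gi then AddMonoidAlgebra.single (f a) 1
  else if a = b + gi then AddMonoidAlgebra.single (f b) (-1) else 0

theorem no1 (a : GaussianInt) : a ≠ a + 1 + 1 := by
  intro h; have := congrArg Zsqrtd.re h; simp at this; omega
theorem no2 (a : GaussianInt) : a ≠ a + gi + gi := by
  intro h; have := congrArg Zsqrtd.im h; simp [gi] at this; omega
theorem no3 (a : GaussianInt) : a + 1 ≠ a + gi := by
  intro h; have := congrArg Zsqrtd.re h; simp [gi] at this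
theorem no4 (a : GaussianInt) : a ≠ a + gi + 1 := by
  intro h; have := congrArg Zsqrtd.re h; simp [gi] at this
theorem no5 (a : GaussianInt) : a ≠ a + 1 + gi := by
  intro h; have := congrArg Zsqrtd.re h; simp [gi] at this
theorem gi_ne_one : gi ≠ 1 := by
  intro h; have := congrArg Zsqrtd.re h; simp [gi] at this
theorem one_ne_gi : 1 ≠ gi := gi_ne_one.symm
theorem gi_re : gi.re = 0 := rfl
theorem gi_im : gi.im = 1 := rfl

theorem step_eq {a b : GaussianInt} (h : UStep a b) :
    (AddMonoidAlgebra.single (f 1) 1 - 1) * ht f a b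
      + (AddMonoidAlgebra.single (f gi) 1 - 1) * vt f a b
      = AddMonoidAlgebra.single (f b) 1 - AddMonoidAlgebra.single (f a) 1 := by
  rcases h with rfl | rfl | rfl | rfl
  · simp only [ht, vt, if_true, if_neg (no3 a), if_neg (no5 a), mul_zero, add_zero]
    rw [sub_mul, one_mul, AddMonoidAlgebra.single_mul_single, map_add, add_comm (f 1)]
    simp
  · simp only [ht, vt, if_neg (no1 b), if_true, if_neg (no5 b), if_neg (no3 b), mul_zero, add_zero]
    rw [sub_mul, one_mul, AddMonoidAlgebra.single_mul_single, map_add, add_comm (f 1)]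
    simp
    abel
  · simp only [ht, vt, if_neg (no3 a).symm, if_neg (no4 a), if_true, mul_zero, zero_add]
    rw [sub_mul, one_mul, AddMonoidAlgebra.single_mul_single, map_add, add_comm (f gi)]
    simp
  · simp only [ht, vt, if_neg (no4 b), if_neg (no3 b).symm, if_neg (no2 b), if_true, mul_zero, zero_add]
    rw [sub_mul, one_mul, AddMonoidAlgebra.single_mul_single, map_add, add_comm (f gi)]
    simp
    abel

theorem aug_ht {a b : GaussianInt} (h : UStep a b) : aug (ht f a b) = (b - a).re := by
  rcases h with rfl | rfl | rfl | rfl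
  · simp [ht, aug_single]
  · simp [ht, aug_single, no1]
  · simp only [ht, if_neg (no3 a).symm, if_neg (no4 a), map_zero, add_sub_cancel_left, gi_re]
  · simp only [ht, if_neg (no4 b), if_neg (no3 b).symm, map_zero]
    simp [gi_re]

theorem aug_vt {a b : GaussianInt} (h : UStep a b) : aug (vt f a b) = (b - a).im := by
  rcases h with rfl | rfl | rfl | rfl
  · simp only [vt, if_neg (no3 a), if_neg (no5 a), map_zero]
    simp
  · simp only [vt, if_neg (no5 b), if_neg (no3 b), map_zero]
    simp
  · simp only [vt, if_true, aug_single, add_sub_cancel_left, gi_im]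
  · simp only [vt, if_neg (no2 b), if_true, aug_single]
    simp [gi_im]

theorem ht_coeff {a b : GaussianInt} {q : Q} (h : (ht f a b).coeff q ≠ 0) :
    q = f a ∨ q = f b := by
  classical
  unfold ht at h
  split_ifs at h with h1 h2
  · left
    by_contra hne
    exact h (by simp [Ne.symm hne])
  · right
    by_contra hne
    exact h (by simp [Ne.symm hne])
  · simp at h

theorem vt_coeff {a b : GaussianInt} {q : Q} (h : (vt f a b).coeff q ≠ 0) :
    q = f a ∨ q = f b := by
  classical
  unfold vt at h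
  split_ifs at h with h1 h2
  · left
    by_contra hne
    exact h (by simp [Ne.symm hne])
  · right
    by_contra hne
    exact h (by simp [Ne.symm hne])
  · simp at h

noncomputable def hs (α : ℕ → GaussianInt) (m : ℕ) : AddMonoidAlgebra ℤ Q :=
  ∑ i ∈ range m, ht f (α i) (α (i + 1))

noncomputable def vs (α : ℕ → GaussianInt) (m : ℕ) : AddMonoidAlgebra ℤ Q :=
  ∑ i ∈ range m, vt f (α i) (α (i + 1))

theorem path_eq (α : ℕ → GaussianInt) (m : ℕ) (h : ∀ i < m, UStep (α i) (α (i + 1))) :
    (AddMonoidAlgebra.single (f 1) 1 - 1) * hs f α m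
      + (AddMonoidAlgebra.single (f gi) 1 - 1) * vs f α m
      = AddMonoidAlgebra.single (f (α m)) 1 - AddMonoidAlgebra.single (f (α 0)) 1 := by
  unfold hs vs
  rw [mul_sum, mul_sum, ← sum_add_distrib]
  rw [sum_congr rfl (fun i hi => step_eq f (h i (mem_range.1 hi)))]
  exact sum_range_sub (fun i => AddMonoidAlgebra.single (f (α i)) (1 : ℤ)) m

theorem aug_hs (α : ℕ → GaussianInt) (m : ℕ) (h : ∀ i < m, UStep (α i) (α (i + 1))) :
    aug (hs f α m) = (α m - α 0).re := by
  unfold hs
  rw [map_sum, sum_congr rfl (fun i hi => aug_ht f (h i (mem_range.1 hi)))]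
  have := sum_range_sub (fun i => (α i).re) m
  simpa using this

theorem aug_vs (α : ℕ → GaussianInt) (m : ℕ) (h : ∀ i < m, UStep (α i) (α (i + 1))) :
    aug (vs f α m) = (α m - α 0).im := by
  unfold vs
  rw [map_sum, sum_congr rfl (fun i hi => aug_vt f (h i (mem_range.1 hi)))]
  have := sum_range_sub (fun i => (α i).im) m
  simpa using this

theorem hs_coeff (α : ℕ → GaussianInt) (m : ℕ) {q : Q} (h : (hs f α m).coeff q ≠ 0) :
    ∃ i ≤ m, q = f (α i) := by
  unfold hs at h
  rw [AddMonoidAlgebra.coeff_sum, Finsupp.finsetSum_apply] at h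
  obtain ⟨i, hi, hne⟩ := exists_ne_zero_of_sum_ne_zero h
  rw [mem_range] at hi
  rcases ht_coeff f hne with h' | h'
  · exact ⟨i, hi.le, h'⟩
  · exact ⟨i + 1, hi, h'⟩

theorem vs_coeff (α : ℕ → GaussianInt) (m : ℕ) {q : Q} (h : (vs f α m).coeff q ≠ 0) :
    ∃ i ≤ m, q = f (α i) := by
  unfold vs at h
  rw [AddMonoidAlgebra.coeff_sum, Finsupp.finsetSum_apply] at h
  obtain ⟨i, hi, hne⟩ := exists_ne_zero_of_sum_ne_zero h
  rw [mem_range] at hi
  rcases vt_coeff f hne with h' | h'
  · exact ⟨i, hi.le, h'⟩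
  · exact ⟨i + 1, hi, h'⟩

theorem mul_coeff {x y : AddMonoidAlgebra ℤ Q} {q : Q} (h : (x * y).coeff q ≠ 0) :
    ∃ a b, x.coeff a ≠ 0 ∧ y.coeff b ≠ 0 ∧ a + b = q := by
  classical
  rw [AddMonoidAlgebra.coeff_mul] at h
  by_contra hcon
  push Not at hcon
  apply h
  unfold Finsupp.sum
  refine sum_eq_zero fun a ha => sum_eq_zero fun b hb => ?_
  rw [Finsupp.mem_support_iff] at ha hb
  exact if_neg (hcon a b ha hb)

/-- The torus lemma for a surjective homomorphism killing `u` and `v`. -/
theorem torus_hom (hf : Function.Surjective f) (α β : ℕ → GaussianInt) (m n : ℕ)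
    (hα : ∀ i < m, UStep (α i) (α (i + 1))) (hβ : ∀ j < n, UStep (β j) (β (j + 1)))
    (hu : f (α m) = f (α 0)) (hv : f (β n) = f (β 0))
    (hdet : (α m - α 0).re * (β n - β 0).im - (α m - α 0).im * (β n - β 0).re ≠ 0) (q : Q) :
    ∃ i ≤ m, ∃ j ≤ n, f (α i) + f (β j) = q := by
  set X : AddMonoidAlgebra ℤ Q := AddMonoidAlgebra.single (f 1) 1 with hX
  set Y : AddMonoidAlgebra ℤ Q := AddMonoidAlgebra.single (f gi) 1 with hY
  have e1 : (X - 1) * hs f α m + (Y - 1) * vs f α m = 0 := by
    rw [path_eq f α m hα, hu, sub_self]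
  have e2 : (X - 1) * hs f β n + (Y - 1) * vs f β n = 0 := by
    rw [path_eq f β n hβ, hv, sub_self]
  set W := hs f α m * vs f β n - vs f α m * hs f β n with hW
  have hXW : X * W = W := by
    have : (X - 1) * W = ((X - 1) * hs f α m + (Y - 1) * vs f α m) * vs f β n
        - vs f α m * ((X - 1) * hs f β n + (Y - 1) * vs f β n) := by
      rw [hW]; ring
    rw [e1, e2, zero_mul, mul_zero, sub_zero, sub_mul, one_mul] at this
    exact sub_eq_zero.1 this
  have hYW : Y * W = W := by
    have : (Y - 1) * W = hs f α m * ((X - 1) * hs f β n + (Y - 1) * vs f β n)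
        - ((X - 1) * hs f α m + (Y - 1) * vs f α m) * hs f β n := by
      rw [hW]; ring
    rw [e1, e2, zero_mul, mul_zero, sub_zero, sub_mul, one_mul] at this
    exact sub_eq_zero.1 this
  have hgen : AddSubgroup.closure ({f 1, f gi} : Set Q) = ⊤ := by
    rw [eq_top_iff]
    intro q _
    obtain ⟨z, rfl⟩ := hf q
    have hz : z = z.re • (1 : GaussianInt) + z.im • gi := by
      ext <;> simp [gi_re, gi_im]
    rw [hz, map_add, map_zsmul, map_zsmul]
    exact AddSubgroup.add_mem _
      (AddSubgroup.zsmul_mem _ (AddSubgroup.subset_closure (by simp)) _)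
      (AddSubgroup.zsmul_mem _ (AddSubgroup.subset_closure (by simp)) _)
  have hconst := coeff_const W (f 1) (f gi) hgen hXW hYW
  have haug : aug W ≠ 0 := by
    rw [hW, map_sub, map_mul, map_mul, aug_hs f α m hα, aug_vs f β n hβ, aug_vs f α m hα,
      aug_hs f β n hβ]
    exact hdet
  have hW0 : W.coeff q ≠ 0 := by
    intro h0
    apply haug
    have : W = 0 := by
      ext p
      rw [hconst p, ← hconst q, h0]
      simp
    rw [this, map_zero]
  rw [hW, AddMonoidAlgebra.coeff_sub, Finsupp.sub_apply] at hW0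
  have : (hs f α m * vs f β n).coeff q ≠ 0 ∨ (vs f α m * hs f β n).coeff q ≠ 0 := by
    by_contra hcon
    push Not at hcon
    exact hW0 (by rw [hcon.1, hcon.2, sub_zero])
  rcases this with h | h
  · obtain ⟨a, b, ha, hb, hab⟩ := mul_coeff h
    obtain ⟨i, hi, rfl⟩ := hs_coeff f α m ha
    obtain ⟨j, hj, rfl⟩ := vs_coeff f β n hb
    exact ⟨i, hi, j, hj, hab⟩
  · obtain ⟨a, b, ha, hb, hab⟩ := mul_coeff h
    obtain ⟨i, hi, rfl⟩ := vs_coeff f α m ha
    obtain ⟨j, hj, rfl⟩ := hs_coeff f β n hb
    exact ⟨i, hi, j, hj, hab⟩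

end path

/-! ## The lattice form and the counting form -/

/-- the lattice `ℤ u + ℤ v` -/
def Lat (u v : GaussianInt) : AddSubgroup GaussianInt := AddSubgroup.closure {u, v}

/-- `det (u, v)` -/
def cr (u v : GaussianInt) : ℤ := u.re * v.im - u.im * v.re

/-- **TORUS LEMMA.** -/
theorem torus (α β : ℕ → GaussianInt) (m n : ℕ)
    (hα : ∀ i < m, UStep (α i) (α (i + 1))) (hβ : ∀ j < n, UStep (β j) (β (j + 1)))
    (hdet : cr (α m - α 0) (β n - β 0) ≠ 0) (c : GaussianInt) :
    ∃ i ≤ m, ∃ j ≤ n, α i + β j - c ∈ Lat (α m - α 0) (β n - β 0) := by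
  set L := Lat (α m - α 0) (β n - β 0) with hL
  have hu : QuotientAddGroup.mk' L (α m) = QuotientAddGroup.mk' L (α 0) := by
    rw [← sub_eq_zero, ← map_sub, QuotientAddGroup.mk'_apply, QuotientAddGroup.eq_zero_iff]
    exact AddSubgroup.subset_closure (by simp)
  have hv : QuotientAddGroup.mk' L (β n) = QuotientAddGroup.mk' L (β 0) := by
    rw [← sub_eq_zero, ← map_sub, QuotientAddGroup.mk'_apply, QuotientAddGroup.eq_zero_iff]
    exact AddSubgroup.subset_closure (by simp)
  obtain ⟨i, hi, j, hj, hij⟩ := torus_hom (QuotientAddGroup.mk' L)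
    (QuotientAddGroup.mk'_surjective L) α β m n hα hβ hu hv hdet (QuotientAddGroup.mk' L c)
  refine ⟨i, hi, j, hj, ?_⟩
  rw [← map_add, ← sub_eq_zero, ← map_sub, QuotientAddGroup.mk'_apply,
    QuotientAddGroup.eq_zero_iff] at hij
  exact hij

end Crest.Agent.R2.Tor557
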