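import Mathlib

/-!
# R2 (Gaussian moat), block S0: triangle majorant on `ℂ / ℤ[i]`
(helper289)
-/

set_option autoImplicit false

namespace Crest.Agent.R2.Tri

open Real

/-- `ee x = exp (2 π i x)`. -/
noncomputable def ee (x : ℝ) : ℂ := Complex.exp (2 * Real.pi * x * Complex.I)

theorem ee_add (x y : ℝ) : ee (x + y) = ee x * ee y := by
  unfold ee
  rw [← Complex.exp_add]
  congr 1
  push_cast
  ring

@[simp] theorem ee_zero : ee 0 = 1 := by simp [ee]

theorem norm_ee (x : ℝ) : ‖ee x‖ = 1 := by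
  unfold ee
  have : (2 * (Real.pi : ℂ) * (x : ℂ) * Complex.I) = ((2 * Real.pi * x : ℝ) : ℂ) * Complex.I := by
    push_cast; ring
  rw [this, Complex.norm_exp_ofReal_mul_I]

theorem ee_ne_zero (x : ℝ) : ee x ≠ 0 := Complex.exp_ne_zero _

theorem ee_neg (x : ℝ) : ee (-x) = (ee x)⁻¹ := by
  have h : ee (-x) * ee x = 1 := by rw [← ee_add]; simp
  exact eq_inv_of_mul_eq_one_left h

theorem ee_conj (x : ℝ) : (starRingEnd ℂ) (ee x) = ee (-x) := by
  unfold ee
  rw [← Complex.exp_conj]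
  congr 1
  simp [Complex.conj_ofNat]

theorem ee_int (n : ℤ) : ee n = 1 := by
  unfold ee
  rw [Complex.exp_eq_one_iff]
  exact ⟨n, by push_cast; ring⟩

theorem ee_add_int (x : ℝ) (n : ℤ) : ee (x + n) = ee x := by
  rw [ee_add, ee_int, mul_one]

theorem ee_re (x : ℝ) : (ee x).re = Real.cos (2 * Real.pi * x) := by
  unfold ee
  have : (2 * (Real.pi : ℂ) * (x : ℂ) * Complex.I) = ((2 * Real.pi * x : ℝ) : ℂ) * Complex.I := by
    push_cast; ring
  rw [this, Complex.exp_ofReal_mul_I_re]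

theorem ee_im (x : ℝ) : (ee x).im = Real.sin (2 * Real.pi * x) := by
  unfold ee
  have : (2 * (Real.pi : ℂ) * (x : ℂ) * Complex.I) = ((2 * Real.pi * x : ℝ) : ℂ) * Complex.I := by
    push_cast; ring
  rw [this, Complex.exp_ofReal_mul_I_im]

theorem fourier_eq_ee (n : ℤ) (x : ℝ) : (fourier n (x : UnitAddCircle) : ℂ) = ee (n * x) := by
  rw [fourier_coe_apply]
  unfold ee
  congr 1
  push_cast
  ring

theorem ee_two_sub (t : ℝ) : (2 : ℂ) - ee t - ee (-t) = ((4 * Real.sin (Real.pi * t) ^ 2 : ℝ) : ℂ) := by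
  have h : Real.cos (2 * Real.pi * t) = 1 - 2 * Real.sin (Real.pi * t) ^ 2 := by
    rw [mul_assoc, Real.cos_two_mul, Real.cos_sq']
    ring
  apply Complex.ext
  · simp only [Complex.sub_re, ee_re, Complex.ofReal_re]
    have : Real.cos (2 * Real.pi * -t) = Real.cos (2 * Real.pi * t) := by
      rw [mul_neg, Real.cos_neg]
    rw [this, h]
    norm_num
    ring
  · simp only [Complex.sub_im, ee_im, Complex.ofReal_im]
    have : Real.sin (2 * Real.pi * -t) = - Real.sin (2 * Real.pi * t) := by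
      rw [mul_neg, Real.sin_neg]
    rw [this]
    norm_num

/-- Fourier coefficients of the 1-dimensional triangle. -/
noncomputable def c1 (r : ℝ) (n : ℤ) : ℝ :=
  if n = 0 then 1 else (Real.sin (Real.pi * (n * r)) / (Real.pi * (n * r))) ^ 2

/-- The 1-dimensional periodic triangle. -/
noncomputable def tri (r x : ℝ) : ℝ := max 0 (1 - |x - round x| / r) / r

theorem c1_nonneg (r : ℝ) (n : ℤ) : 0 ≤ c1 r n := by
  unfold c1
  split_ifs
  · norm_num
  · positivity

theorem c1_neg (r : ℝ) (n : ℤ) : c1 r (-n) = c1 r n := by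
  unfold c1
  by_cases h : n = 0
  · simp [h]
  · have h' : -n ≠ 0 := by simpa using h
    simp only [h, h', if_false]
    push_cast
    rw [show Real.pi * (-(n : ℝ) * r) = -(Real.pi * (n * r)) by ring, Real.sin_neg, neg_div_neg_eq]

theorem c1_lower {r : ℝ} (hr : 0 < r) (n : ℤ) (hn : |(n : ℝ)| ≤ 1 / (2 * r)) : 2 / 5 ≤ c1 r n := by
  unfold c1
  split_ifs with h
  · norm_num
  · have hn0 : (0 : ℝ) < |(n : ℝ)| := by
      rw [abs_pos]; exact_mod_cast h
    have hx0 : 0 < Real.pi * (|(n : ℝ)| * r) := by positivity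
    have hx1 : Real.pi * (|(n : ℝ)| * r) ≤ Real.pi / 2 := by
      have : |(n : ℝ)| * r ≤ 1 / 2 := by
        calc |(n : ℝ)| * r ≤ 1 / (2 * r) * r := by gcongr
          _ = 1 / 2 := by field_simp
      nlinarith [Real.pi_pos]
    have hs := Real.mul_le_sin hx0.le hx1
    have e1 : (Real.sin (Real.pi * (n * r)) / (Real.pi * (n * r))) ^ 2
        = (Real.sin (Real.pi * (|(n : ℝ)| * r)) / (Real.pi * (|(n : ℝ)| * r))) ^ 2 := by
      rcases abs_cases (n : ℝ) with ⟨h1, _⟩ | ⟨h1, _⟩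
      · rw [h1]
      · rw [h1, show Real.pi * (-(n : ℝ) * r) = -(Real.pi * (n * r)) by ring, Real.sin_neg,
          neg_div_neg_eq]
    rw [e1]
    have h2 : 2 / Real.pi ≤ Real.sin (Real.pi * (|(n : ℝ)| * r)) / (Real.pi * (|(n : ℝ)| * r)) := by
      rw [le_div_iff₀ hx0]; exact hs
    have h3 : (2 / Real.pi) ^ 2 ≤
        (Real.sin (Real.pi * (|(n : ℝ)| * r)) / (Real.pi * (|(n : ℝ)| * r))) ^ 2 := by
      apply pow_le_pow_left₀ (by positivity) h2
    refine le_trans ?_ h3
    rw [div_pow, div_le_div_iff₀ (by norm_num) (by positivity)]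
    have hpi : Real.pi < 3.15 := Real.pi_lt_d2
    nlinarith [Real.pi_pos]

theorem hasSum_quad {y : ℝ} (hy : y ∈ Set.Icc (0 : ℝ) 1) :
    HasSum (fun n : ℤ => 1 / (n : ℂ) ^ 2 * ee (n * y))
      ((2 * Real.pi ^ 2 * (y ^ 2 - y + 6⁻¹) : ℝ) : ℂ) := by
  have h := hasSum_one_div_pow_mul_fourier_mul_bernoulliFun (k := 2) (le_refl 2) hy
  simp only [fourier_eq_ee] at h
  convert h using 1
  rw [bernoulliFun_two]
  have hf : ((Nat.factorial 2 : ℕ) : ℂ) = 2 := by norm_num [Nat.factorial]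
  rw [hf, mul_pow, Complex.I_sq]
  push_cast
  ring

theorem hasSum_tri_aux {r x : ℝ} (hr : 0 < r) (hr2 : r ≤ 1 / 2) (hx0 : 0 ≤ x) (hx1 : x ≤ 1 / 2) :
    HasSum (fun n : ℤ => (c1 r n : ℂ) * ee (n * x)) ((max 0 (1 - x / r) / r : ℝ) : ℂ) := by
  have h1 := hasSum_quad (y := x) ⟨hx0, by linarith⟩
  have h2 := hasSum_quad (y := x + r) ⟨by linarith, by linarith⟩
  have h3 : HasSum (fun n : ℤ => 1 / (n : ℂ) ^ 2 * ee (n * (x - r)))
      ((2 * Real.pi ^ 2 * (|x - r| ^ 2 - |x - r| + 6⁻¹) : ℝ) : ℂ) := by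
    rcases le_total r x with h | h
    · rw [abs_of_nonneg (by linarith)]
      exact hasSum_quad ⟨by linarith, by linarith⟩
    · have h4 := hasSum_quad (y := x - r + 1) ⟨by linarith, by linarith⟩
      convert h4 using 2
      · congr 1
        rw [mul_add, mul_one, ee_add_int]
      · rw [abs_of_nonpos (by linarith)]
        ring
  have h0 : HasSum (fun n : ℤ => if n = 0 then (1 : ℂ) else 0) 1 := hasSum_ite_eq 0 1
  have h5 := h0.add ((((h1.mul_left 2).sub h2).sub h3).mul_left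
    ((1 / (4 * Real.pi ^ 2 * r ^ 2) : ℝ) : ℂ))
  convert h5 using 1
  · funext n
    by_cases hn : n = 0
    · simp [hn, c1]
    · have hnC : (n : ℂ) ≠ 0 := by exact_mod_cast hn
      simp only [c1, hn, if_false]
      have e1 : ee (n * (x + r)) = ee (n * x) * ee (n * r) := by rw [← ee_add]; congr 1; ring
      have e2 : ee (n * (x - r)) = ee (n * x) * ee (-(n * r)) := by rw [← ee_add]; congr 1; ring
      rw [e1, e2]
      have e3 := ee_two_sub (n * r)
      have e4 : ((Real.sin (Real.pi * (n * r)) ^ 2 : ℝ) : ℂ)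
          = (2 - ee (n * r) - ee (-(n * r))) / 4 := by
        rw [e3]; push_cast; ring
      have hrC : (r : ℂ) ≠ 0 := by exact_mod_cast hr.ne'
      have hpC : (Real.pi : ℂ) ≠ 0 := by exact_mod_cast Real.pi_ne_zero
      rw [div_pow, Complex.ofReal_div, e4]
      push_cast
      field_simp
      ring
  · have key : max 0 (1 - x / r) / r = 1 + 1 / (4 * Real.pi ^ 2 * r ^ 2) *
      (2 * (2 * Real.pi ^ 2 * (x ^ 2 - x + 6⁻¹)) - 2 * Real.pi ^ 2 * ((x + r) ^ 2 - (x + r) + 6⁻¹)
        - 2 * Real.pi ^ 2 * (|x - r| ^ 2 - |x - r| + 6⁻¹)) := by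
      have hp := Real.pi_ne_zero
      have hr' := hr.ne'
      rw [sq_abs]
      rcases le_total r x with h | h
      · rw [abs_of_nonneg (by linarith), max_eq_left]
        · field_simp
          ring
        · rw [sub_nonpos, le_div_iff₀ hr]; linarith
      · rw [abs_of_nonpos (by linarith), max_eq_right]
        · field_simp
          ring
        · rw [sub_nonneg, div_le_iff₀ hr]; linarith
    rw [key]
    push_cast
    ring

theorem hasSum_tri {r : ℝ} (hr : 0 < r) (hr2 : r ≤ 1 / 2) (x : ℝ) :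
    HasSum (fun n : ℤ => (c1 r n : ℂ) * ee (n * x)) ((tri r x : ℝ) : ℂ) := by
  have ha : |x - round x| ≤ 1 / 2 := abs_sub_round x
  have h := hasSum_tri_aux hr hr2 (abs_nonneg (x - round x)) ha
  have hshift : ∀ n : ℤ, ee (n * x) = ee (n * (x - round x)) := by
    intro n
    have : (n : ℝ) * x = n * (x - round x) + ((n * round x : ℤ) : ℝ) := by push_cast; ring
    rw [this, ee_add_int]
  simp_rw [hshift]
  rcases abs_cases (x - round x) with ⟨h1, _⟩ | ⟨h1, _⟩
  · rw [h1] at h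
    unfold tri
    rw [h1]
    exact h
  · have h6 := (Equiv.neg ℤ).hasSum_iff.mpr h
    unfold tri
    convert h6 using 1
    funext n
    simp only [Function.comp, Equiv.neg_apply, c1_neg]
    rw [h1]
    congr 2
    push_cast
    ring

theorem summable_c1 {r : ℝ} (hr : 0 < r) (hr2 : r ≤ 1 / 2) : Summable (c1 r) := by
  have h := (hasSum_tri hr hr2 0).summable
  simp only [mul_zero, ee_zero, mul_one] at h
  exact_mod_cast h

theorem tri_nonneg {r : ℝ} (hr : 0 < r) (x : ℝ) : 0 ≤ tri r x := by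
  unfold tri
  positivity

theorem tri_le {r : ℝ} (hr : 0 < r) (x : ℝ) : tri r x ≤ 1 / r := by
  unfold tri
  gcongr
  have : 0 ≤ |x - round x| / r := by positivity
  simp only [max_le_iff]
  constructor
  · norm_num
  · linarith

theorem tri_eq_zero {r : ℝ} (hr : 0 < r) {x : ℝ} (h : r ≤ |x - round x|) : tri r x = 0 := by
  unfold tri
  rw [max_eq_left, zero_div]
  rw [sub_nonpos, le_div_iff₀ hr]
  linarith

theorem tri_neg {r : ℝ} (hr : 0 < r) (hr2 : r ≤ 1 / 2) (x : ℝ) : tri r (-x) = tri r x := by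
  have h1 := hasSum_tri hr hr2 (-x)
  have h2 := (Equiv.neg ℤ).hasSum_iff.mpr (hasSum_tri hr hr2 x)
  have h3 : (fun n : ℤ => (c1 r n : ℂ) * ee (n * -x)) =
      (fun n : ℤ => (c1 r n : ℂ) * ee (n * x)) ∘ (Equiv.neg ℤ) := by
    funext n
    simp only [Function.comp, Equiv.neg_apply, c1_neg]
    congr 2
    push_cast
    ring
  rw [h3] at h1
  exact_mod_cast h1.unique h2

/-! ### The 2-dimensional majorant -/

/-- character of `ℂ / ℤ[i]` attached to a Gaussian integer: `chi v x = exp (2 π i Re (v x))`. -/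
noncomputable def chi (v : GaussianInt) (x : ℂ) : ℂ := ee ((v.re : ℝ) * x.re - (v.im : ℝ) * x.im)

theorem chi_eq_re (v : GaussianInt) (x : ℂ) : chi v x = ee (GaussianInt.toComplex v * x).re := by
  unfold chi
  rw [Complex.mul_re]
  rw [← GaussianInt.intCast_re, ← GaussianInt.intCast_im]

theorem chi_eq_exp (v : GaussianInt) (x : ℂ) :
    chi v x = Complex.exp (2 * Real.pi * ((GaussianInt.toComplex v * x).re : ℝ) * Complex.I) := by
  rw [chi_eq_re]
  rfl

theorem chi_add_left (v w : GaussianInt) (x : ℂ) : chi (v + w) x = chi v x * chi w x := by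
  unfold chi
  rw [← ee_add]
  congr 1
  simp only [Zsqrtd.re_add, Zsqrtd.im_add]
  push_cast
  ring

theorem chi_add_right (v : GaussianInt) (x y : ℂ) : chi v (x + y) = chi v x * chi v y := by
  unfold chi
  rw [← ee_add]
  congr 1
  simp only [Complex.add_re, Complex.add_im]
  ring

@[simp] theorem chi_zero_left (x : ℂ) : chi 0 x = 1 := by simp [chi]

@[simp] theorem chi_zero_right (v : GaussianInt) : chi v 0 = 1 := by simp [chi]

theorem norm_chi (v : GaussianInt) (x : ℂ) : ‖chi v x‖ = 1 := norm_ee _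

theorem chi_neg_left (v : GaussianInt) (x : ℂ) : chi (-v) x = (starRingEnd ℂ) (chi v x) := by
  unfold chi
  rw [ee_conj]
  congr 1
  simp only [Zsqrtd.re_neg, Zsqrtd.im_neg]
  push_cast
  ring

theorem chi_neg_right (v : GaussianInt) (x : ℂ) : chi v (-x) = (starRingEnd ℂ) (chi v x) := by
  unfold chi
  rw [ee_conj]
  congr 1
  simp only [Complex.neg_re, Complex.neg_im]
  ring

theorem chi_sub_right (v : GaussianInt) (x y : ℂ) :
    chi v (x - y) = chi v x * (starRingEnd ℂ) (chi v y) := by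
  rw [sub_eq_add_neg, chi_add_right, chi_neg_right]

theorem chi_gaussian (v z : GaussianInt) : chi v (GaussianInt.toComplex z) = 1 := by
  unfold chi
  have : ((v.re : ℝ) * (GaussianInt.toComplex z).re - (v.im : ℝ) * (GaussianInt.toComplex z).im)
      = ((v.re * z.re - v.im * z.im : ℤ) : ℝ) := by
    rw [← GaussianInt.intCast_re, ← GaussianInt.intCast_im]
    push_cast
    ring
  rw [this, ee_int]

theorem chi_add_gaussian (v z : GaussianInt) (x : ℂ) :
    chi v (x + GaussianInt.toComplex z) = chi v x := by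
  rw [chi_add_right, chi_gaussian, mul_one]

/-- Fourier weights of the majorant. -/
noncomputable def wt (r : ℝ) (v : GaussianInt) : ℝ := c1 r v.re * c1 r v.im

/-- The majorant. -/
noncomputable def phi (r : ℝ) (x : ℂ) : ℝ := tri r x.re * tri r x.im

theorem wt_nonneg (r : ℝ) (v : GaussianInt) : 0 ≤ wt r v :=
  mul_nonneg (c1_nonneg _ _) (c1_nonneg _ _)

theorem wt_lower {r : ℝ} (hr : 0 < r) (v : GaussianInt) (h1 : |(v.re : ℝ)| ≤ 1 / (2 * r))
    (h2 : |(v.im : ℝ)| ≤ 1 / (2 * r)) : 1 / 10 ≤ wt r v := by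
  have a := c1_lower hr _ h1
  have b := c1_lower hr _ h2
  unfold wt
  nlinarith

theorem phi_nonneg {r : ℝ} (hr : 0 < r) (x : ℂ) : 0 ≤ phi r x :=
  mul_nonneg (tri_nonneg hr _) (tri_nonneg hr _)

theorem phi_le {r : ℝ} (hr : 0 < r) (x : ℂ) : phi r x ≤ 1 / r ^ 2 := by
  unfold phi
  calc tri r x.re * tri r x.im ≤ (1 / r) * (1 / r) := by
        apply mul_le_mul (tri_le hr _) (tri_le hr _) (tri_nonneg hr _) (by positivity)
    _ = 1 / r ^ 2 := by field_simp

/-- `x` is within (strict) sup-distance `r` of a Gaussian integer. -/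
def inR (r : ℝ) (x : ℂ) : Prop :=
  ∃ z : GaussianInt, |x.re - z.re| < r ∧ |x.im - z.im| < r

theorem phi_support {r : ℝ} (hr : 0 < r) {x : ℂ} (h : phi r x ≠ 0) : inR r x := by
  unfold phi at h
  refine ⟨⟨round x.re, round x.im⟩, ?_, ?_⟩
  · by_contra hc
    push Not at hc
    exact h (by rw [tri_eq_zero hr hc, zero_mul])
  · by_contra hc
    push Not at hc
    exact h (by rw [tri_eq_zero hr hc, mul_zero])

/-- `ℤ × ℤ ≃ ℤ[i]` -/
def prodEquiv : ℤ × ℤ ≃ GaussianInt where
  toFun p := ⟨p.1, p.2⟩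
  invFun z := (z.re, z.im)
  left_inv p := rfl
  right_inv z := by ext <;> rfl

theorem summable_wt {r : ℝ} (hr : 0 < r) (hr2 : r ≤ 1 / 2) : Summable (wt r) := by
  rw [← prodEquiv.summable_iff]
  have h := summable_c1 hr hr2
  exact Summable.mul_of_nonneg h h (c1_nonneg r) (c1_nonneg r)

theorem hasSum_phi {r : ℝ} (hr : 0 < r) (hr2 : r ≤ 1 / 2) (x : ℂ) :
    HasSum (fun v : GaussianInt => (wt r v : ℂ) * chi v x) ((phi r x : ℝ) : ℂ) := by
  rw [← prodEquiv.hasSum_iff]
  have h1 := hasSum_tri hr hr2 x.re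
  have h2 := hasSum_tri hr hr2 (-x.im)
  rw [tri_neg hr hr2] at h2
  have hn : ∀ y : ℝ, Summable fun n : ℤ => ‖(c1 r n : ℂ) * ee (n * y)‖ := by
    intro y
    have : (fun n : ℤ => ‖(c1 r n : ℂ) * ee (n * y)‖) = c1 r := by
      funext n
      rw [norm_mul, norm_ee, mul_one, Complex.norm_real, Real.norm_eq_abs,
        abs_of_nonneg (c1_nonneg r n)]
    rw [this]
    exact summable_c1 hr hr2
  have hs := summable_mul_of_summable_norm (hn x.re) (hn (-x.im))
  have h := h1.mul h2 hs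
  have hf : ((fun v : GaussianInt => (wt r v : ℂ) * chi v x) ∘ prodEquiv) =
      fun p : ℤ × ℤ => ((c1 r p.1 : ℂ) * ee (p.1 * x.re)) * ((c1 r p.2 : ℂ) * ee (p.2 * (-x.im))) := by
    funext p
    simp only [Function.comp, prodEquiv, Equiv.coe_fn_mk, wt, chi]
    have : ee ((p.1 : ℝ) * x.re - (p.2 : ℝ) * x.im) = ee (p.1 * x.re) * ee (p.2 * (-x.im)) := by
      rw [← ee_add]; congr 1; ring
    rw [this]
    push_cast
    ring
  have hv : ((phi r x : ℝ) : ℂ) = ((tri r x.re : ℝ) : ℂ) * ((tri r x.im : ℝ) : ℂ) := by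
    unfold phi
    push_cast
    rfl
  rw [hf, hv]
  exact h

theorem phi_periodic {r : ℝ} (hr : 0 < r) (hr2 : r ≤ 1 / 2) (x : ℂ) (z : GaussianInt) :
    phi r (x + GaussianInt.toComplex z) = phi r x := by
  have h1 := hasSum_phi hr hr2 (x + GaussianInt.toComplex z)
  simp only [chi_add_gaussian] at h1
  exact_mod_cast h1.unique (hasSum_phi hr hr2 x)

end Crest.Agent.R2.Tri
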