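import Mathlib

/-! Row 2, block Z1 (helper705): Mertens for primes `p = 1 mod 4`, elementary. -/

set_option autoImplicit false
set_option linter.all false
open Finset
open ArithmeticFunction (vonMangoldt)
open scoped ArithmeticFunction.vonMangoldt

namespace Crest.Agent.R2.Z705

/-- the non-principal character mod 4 -/
noncomputable def chi (n : ℕ) : ℝ := ((ZMod.χ₄ (n : ZMod 4) : ℤ) : ℝ)

lemma chi_mul (m k : ℕ) : chi (m * k) = chi m * chi k := by
  unfold chi
  rw [Nat.cast_mul, map_mul]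
  push_cast
  rfl

lemma chi_eq (n : ℕ) : chi n = if n % 4 = 1 then 1 else if n % 4 = 3 then -1 else 0 := by
  have h := ZMod.χ₄_nat_mod_four n
  unfold chi
  rw [h]
  have h4 : n % 4 < 4 := Nat.mod_lt _ (by norm_num)
  generalize n % 4 = r at h4
  interval_cases r <;> simp <;> first | rfl | decide | skip

lemma abs_chi_le (n : ℕ) : |chi n| ≤ 1 := by
  rw [chi_eq]; split_ifs <;> simp

/-- partial sums of `chi` -/
noncomputable def sc (n : ℕ) : ℝ := if n % 4 = 2 ∨ n % 4 = 3 then 1 else 0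

lemma sc_succ (n : ℕ) : sc (n + 1) = sc n + chi n := by
  rw [chi_eq]; unfold sc
  have h4 : n % 4 < 4 := Nat.mod_lt _ (by norm_num)
  have h1 : (n + 1) % 4 = (n % 4 + 1) % 4 := by omega
  rw [h1]
  generalize n % 4 = r at h4
  interval_cases r <;> norm_num

lemma sc_mem (n : ℕ) : 0 ≤ sc n ∧ sc n ≤ 1 := by
  unfold sc; split_ifs <;> norm_num

lemma abel_identity (f : ℕ → ℝ) (a M : ℕ) (hM : a ≤ M) :
    ∑ k ∈ Ico a M, chi k * f k = (sc M - sc a) * f M
      + ∑ k ∈ Ico a M, (sc (k + 1) - sc a) * (f k - f (k + 1)) := by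
  induction M, hM using Nat.le_induction with
  | base => simp
  | succ M hM ih =>
    rw [Finset.sum_Ico_succ_top hM, Finset.sum_Ico_succ_top hM, ih]
    have := sc_succ M
    rw [this]
    ring

lemma abel_bound (f : ℕ → ℝ) (a M : ℕ) (hM : a ≤ M)
    (anti : ∀ k, a ≤ k → f (k + 1) ≤ f k) (nn : ∀ k, a ≤ k → 0 ≤ f k) :
    |∑ k ∈ Ico a M, chi k * f k| ≤ f a := by
  rw [abel_identity f a M hM]
  have hd : ∀ n, |sc n - sc a| ≤ 1 := by
    intro n
    have h1 := sc_mem n
    have h2 := sc_mem a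
    rw [abs_le]; constructor <;> linarith
  have htel : ∑ k ∈ Ico a M, (f k - f (k + 1)) = f a - f M := by
    clear hd nn anti
    induction M, hM using Nat.le_induction with
    | base => simp
    | succ M hM ih => rw [Finset.sum_Ico_succ_top hM, ih]; ring
  calc |(sc M - sc a) * f M + ∑ k ∈ Ico a M, (sc (k + 1) - sc a) * (f k - f (k + 1))|
      ≤ |(sc M - sc a) * f M| + |∑ k ∈ Ico a M, (sc (k + 1) - sc a) * (f k - f (k + 1))| :=
        abs_add_le _ _
    _ ≤ f M + ∑ k ∈ Ico a M, (f k - f (k + 1)) := by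
        apply add_le_add
        · rw [abs_mul, abs_of_nonneg (nn M hM)]
          have := mul_le_mul_of_nonneg_right (hd M) (nn M hM)
          linarith
        · refine (Finset.abs_sum_le_sum_abs _ _).trans ?_
          apply Finset.sum_le_sum
          intro k hk
          have hk' := (Finset.mem_Ico.mp hk).1
          have h0 : 0 ≤ f k - f (k + 1) := sub_nonneg.mpr (anti k hk')
          rw [abs_mul, abs_of_nonneg h0]
          have := mul_le_mul_of_nonneg_right (hd (k + 1)) h0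
          linarith
    _ = f a := by rw [htel]; ring

/-- `P N = ∑_{k ≤ N} chi k / k` -/
noncomputable def PN (N : ℕ) : ℝ := ∑ k ∈ Icc 1 N, chi k * (1 / (k : ℝ))

lemma Icc_one_eq (N : ℕ) : Icc 1 N = Ico 1 (N + 1) := by
  ext x; simp [Nat.lt_succ_iff]

lemma PN_succ (N : ℕ) : PN (N + 1) = PN N + chi (N + 1) * (1 / ((N + 1 : ℕ) : ℝ)) := by
  unfold PN
  rw [Icc_one_eq, Icc_one_eq, Finset.sum_Ico_succ_top (by omega)]

lemma PN_sub (N M : ℕ) (h : N ≤ M) : |PN M - PN N| ≤ 1 / ((N : ℝ) + 1) := by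
  unfold PN
  rw [Icc_one_eq, Icc_one_eq,
    ← Finset.sum_Ico_consecutive (fun k => chi k * (1 / (k : ℝ))) (show 1 ≤ N + 1 by omega)
      (show N + 1 ≤ M + 1 by omega), add_sub_cancel_left]
  have := abel_bound (fun k => 1 / (k : ℝ)) (N + 1) (M + 1) (by omega)
    (by
      intro k hk
      have h1 : (0 : ℝ) < k := by exact_mod_cast (by omega : 0 < k)
      apply one_div_le_one_div_of_le h1
      push_cast; linarith)
    (by intro k _; positivity)
  simpa using this

lemma PN_four (n : ℕ) : 2 / 3 ≤ PN (4 * n + 4) ∧ PN 3 = 2 / 3 := by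
  have h0 : PN 0 = 0 := by simp [PN]
  have c1 : ∀ n : ℕ, chi (4 * n + 1) = 1 := fun n => by rw [chi_eq]; simp [Nat.add_mod, Nat.mul_mod]
  have c2 : ∀ n : ℕ, chi (4 * n + 2) = 0 := fun n => by rw [chi_eq]; simp [Nat.add_mod, Nat.mul_mod]
  have c3 : ∀ n : ℕ, chi (4 * n + 3) = -1 := fun n => by rw [chi_eq]; simp [Nat.add_mod, Nat.mul_mod]
  have c4 : ∀ n : ℕ, chi (4 * n + 4) = 0 := fun n => by rw [chi_eq]; simp [Nat.add_mod, Nat.mul_mod]
  have e3 : PN 3 = 2 / 3 := by
    have a1 := PN_succ 0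
    have a2 := PN_succ 1
    have a3 := PN_succ 2
    have b1 := c1 0
    have b2 := c2 0
    have b3 := c3 0
    norm_num at a1 a2 a3 b1 b2 b3
    rw [a3, a2, a1, h0, b1, b2, b3]; norm_num
  refine ⟨?_, e3⟩
  induction n with
  | zero =>
    have a4 := PN_succ 3
    have b4 := c4 0
    norm_num at a4 b4
    norm_num
    rw [a4, b4, e3]; norm_num
  | succ n ih =>
    have a1 := PN_succ (4 * n + 4)
    have a2 := PN_succ (4 * n + 5)
    have a3 := PN_succ (4 * n + 6)
    have a4 := PN_succ (4 * n + 7)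
    have b1 := c1 (n + 1)
    have b2 := c2 (n + 1)
    have b3 := c3 (n + 1)
    have b4 := c4 (n + 1)
    have e1 : 4 * (n + 1) + 1 = 4 * n + 4 + 1 := by ring
    have e2 : 4 * (n + 1) + 2 = 4 * n + 5 + 1 := by ring
    have e3 : 4 * (n + 1) + 3 = 4 * n + 6 + 1 := by ring
    have e4 : 4 * (n + 1) + 4 = 4 * n + 7 + 1 := by ring
    rw [e1] at b1; rw [e2] at b2; rw [e3] at b3; rw [e4] at b4
    rw [b1] at a1; rw [b2] at a2; rw [b3] at a3; rw [b4] at a4
    rw [e4, a4, a3, a2, a1]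
    have h1 : 1 / ((4 * n + 6 + 1 : ℕ) : ℝ) ≤ 1 / ((4 * n + 4 + 1 : ℕ) : ℝ) := by
      apply one_div_le_one_div_of_le
      · positivity
      · push_cast; linarith
    linarith

lemma PN_ge (N : ℕ) (hN : 1 ≤ N) : 2 / 3 ≤ PN N := by
  have c1 : ∀ n : ℕ, chi (4 * n + 1) = 1 := fun n => by rw [chi_eq]; simp [Nat.add_mod, Nat.mul_mod]
  have c2 : ∀ n : ℕ, chi (4 * n + 2) = 0 := fun n => by rw [chi_eq]; simp [Nat.add_mod, Nat.mul_mod]
  have c3 : ∀ n : ℕ, chi (4 * n + 3) = -1 := fun n => by rw [chi_eq]; simp [Nat.add_mod, Nat.mul_mod]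
  have h0 : PN 0 = 0 := by simp [PN]
  have p1 : PN 1 = 1 := by
    have a1 := PN_succ 0
    have b1 := c1 0
    norm_num at a1 b1
    rw [a1, b1, h0]; norm_num
  have p2 : PN 2 = 1 := by
    have a1 := PN_succ 1
    have b1 := c2 0
    norm_num at a1 b1
    rw [a1, b1, p1]; norm_num
  have p3 := (PN_four 0).2
  rcases Nat.lt_or_ge N 4 with h | h
  · interval_cases N
    · rw [p1]; norm_num
    · rw [p2]; norm_num
    · rw [p3]
  · obtain ⟨n, r, hr, rfl⟩ : ∃ n r : ℕ, r < 4 ∧ N = 4 * n + 4 + r :=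
      ⟨(N - 4) / 4, (N - 4) % 4, Nat.mod_lt _ (by norm_num), by omega⟩
    have base := (PN_four n).1
    have b1 := c1 (n + 1)
    have b2 := c2 (n + 1)
    have b3 := c3 (n + 1)
    have e1 : 4 * (n + 1) + 1 = 4 * n + 4 + 1 := by ring
    have e2 : 4 * (n + 1) + 2 = 4 * n + 5 + 1 := by ring
    have e3 : 4 * (n + 1) + 3 = 4 * n + 6 + 1 := by ring
    rw [e1] at b1; rw [e2] at b2; rw [e3] at b3
    have a1 := PN_succ (4 * n + 4)
    have a2 := PN_succ (4 * n + 5)
    have a3 := PN_succ (4 * n + 6)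
    rw [b1] at a1; rw [b2] at a2; rw [b3] at a3
    have hp : (0 : ℝ) ≤ 1 / ((4 * n + 4 + 1 : ℕ) : ℝ) := by positivity
    have h1 : 1 / ((4 * n + 6 + 1 : ℕ) : ℝ) ≤ 1 / ((4 * n + 4 + 1 : ℕ) : ℝ) := by
      apply one_div_le_one_div_of_le
      · positivity
      · push_cast; linarith
    interval_cases r
    · simpa using base
    · show 2 / 3 ≤ PN (4 * n + 4 + 1); rw [a1]; linarith
    · show 2 / 3 ≤ PN (4 * n + 5 + 1); rw [a2, a1]; linarith
    · show 2 / 3 ≤ PN (4 * n + 6 + 1); rw [a3, a2, a1]; linarith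

/-- hyperbola rearrangement -/
lemma sum_divisors_swap (g : ℕ → ℕ → ℝ) (N : ℕ) :
    ∑ n ∈ Icc 1 N, ∑ m ∈ n.divisors, g m (n / m) = ∑ m ∈ Icc 1 N, ∑ k ∈ Icc 1 (N / m), g m k := by
  rw [Finset.sum_sigma', Finset.sum_sigma']
  refine Finset.sum_bij' (fun x _ => ⟨x.2, x.1 / x.2⟩) (fun y _ => ⟨y.1 * y.2, y.1⟩) ?_ ?_ ?_ ?_ ?_
  · rintro ⟨n, m⟩ h
    simp only [Finset.mem_sigma, Finset.mem_Icc, Nat.mem_divisors] at h ⊢
    obtain ⟨⟨h1, h2⟩, h3, h4⟩ := h
    have hm : 0 < m := Nat.pos_of_dvd_of_pos h3 (by omega)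
    have hmn : m ≤ n := Nat.le_of_dvd (by omega) h3
    refine ⟨⟨hm, by omega⟩, Nat.div_pos hmn hm, Nat.div_le_div_right h2⟩
  · rintro ⟨m, k⟩ h
    simp only [Finset.mem_sigma, Finset.mem_Icc, Nat.mem_divisors] at h ⊢
    obtain ⟨⟨h1, h2⟩, h3, h4⟩ := h
    have hk : m * k ≤ N := by
      calc m * k ≤ m * (N / m) := Nat.mul_le_mul_left _ h4
        _ ≤ N := Nat.mul_div_le N m
    have hpos : 0 < m * k := Nat.mul_pos h1 h3
    exact ⟨⟨hpos, hk⟩, Dvd.intro _ rfl, by omega⟩
  · rintro ⟨n, m⟩ h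
    simp only [Finset.mem_sigma, Finset.mem_Icc, Nat.mem_divisors] at h
    obtain ⟨⟨h1, h2⟩, h3, h4⟩ := h
    simp [Nat.mul_div_cancel' h3]
  · rintro ⟨m, k⟩ h
    simp only [Finset.mem_sigma, Finset.mem_Icc] at h
    obtain ⟨⟨h1, h2⟩, h3, h4⟩ := h
    simp [Nat.mul_div_cancel_left k (show 0 < m by omega)]
  · rintro ⟨n, m⟩ h
    rfl

noncomputable def QN (N : ℕ) : ℝ := ∑ n ∈ Icc 1 N, chi n * (Real.log n / n)

lemma QN_eq (N : ℕ) :
    QN N = ∑ m ∈ Icc 1 N, (chi m * Λ m / m) * PN (N / m) := by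
  have h1 : ∀ n ∈ Icc 1 N, chi n * (Real.log n / n)
      = ∑ m ∈ n.divisors, (chi m * Λ m / m) * (chi (n / m) * (1 / ((n / m : ℕ) : ℝ))) := by
    intro n hn
    have hn1 := (Finset.mem_Icc.mp hn).1
    rw [← ArithmeticFunction.vonMangoldt_sum, Finset.sum_div, Finset.mul_sum]
    apply Finset.sum_congr rfl
    intro m hm
    have hmn := (Nat.mem_divisors.mp hm).1
    have hm0 : 0 < m := Nat.pos_of_dvd_of_pos hmn (by omega)
    obtain ⟨k, rfl⟩ := hmn
    have hk0 : 0 < k := by
      rcases Nat.eq_zero_or_pos k with h | h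
      · subst h; simp at hn1
      · exact h
    rw [Nat.mul_div_cancel_left k hm0, chi_mul]
    have : (m : ℝ) ≠ 0 := by positivity
    have : (k : ℝ) ≠ 0 := by positivity
    push_cast
    field_simp
  unfold QN
  rw [Finset.sum_congr rfl h1, sum_divisors_swap (fun m k => (chi m * Λ m / m) * (chi k * (1 / (k : ℝ))))]
  apply Finset.sum_congr rfl
  intro m _
  rw [← Finset.mul_sum]
  rfl

lemma log_div_anti (k : ℕ) (hk : 3 ≤ k) :
    Real.log ((k + 1 : ℕ) : ℝ) / ((k + 1 : ℕ) : ℝ) ≤ Real.log k / k := by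
  have he : Real.exp 1 ≤ (k : ℝ) := by
    have := Real.exp_one_lt_d9
    have h3 : (3 : ℝ) ≤ k := by exact_mod_cast hk
    linarith
  apply Real.log_div_self_antitoneOn
  · exact he
  · show Real.exp 1 ≤ ((k + 1 : ℕ) : ℝ)
    push_cast; linarith
  · push_cast; linarith

lemma abs_QN_le (N : ℕ) : |QN N| ≤ 1 := by
  have hl3 : Real.log 3 / 3 ≤ 1 := by
    have := Real.log_le_sub_one_of_pos (show (0 : ℝ) < 3 by norm_num)
    rw [div_le_one (by norm_num)]; linarith
  rcases Nat.lt_or_ge N 3 with h | h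
  · have : QN N = 0 := by
      unfold QN
      apply Finset.sum_eq_zero
      intro n hn
      rw [Finset.mem_Icc] at hn
      have : n = 1 ∨ n = 2 := by omega
      rcases this with rfl | rfl
      · simp
      · rw [chi_eq]; simp
    rw [this]; simp
  · have : QN N = ∑ n ∈ Ico 3 (N + 1), chi n * (Real.log n / n) := by
      unfold QN
      rw [Icc_one_eq, ← Finset.sum_Ico_consecutive _ (show 1 ≤ 3 by omega) (show 3 ≤ N + 1 by omega)]
      have : ∑ n ∈ Ico 1 3, chi n * (Real.log n / n) = 0 := by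
        apply Finset.sum_eq_zero
        intro n hn
        rw [Finset.mem_Ico] at hn
        have : n = 1 ∨ n = 2 := by omega
        rcases this with rfl | rfl
        · simp
        · rw [chi_eq]; simp
      rw [this, zero_add]
    rw [this]
    refine (abel_bound (fun n => Real.log n / n) 3 (N + 1) (by omega) ?_ ?_).trans ?_
    · intro k hk; exact log_div_anti k hk
    · intro k hk; positivity
    · simpa using hl3

noncomputable def SN (N : ℕ) : ℝ := ∑ m ∈ Icc 1 N, chi m * Λ m / m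

lemma psi_nat_le (N : ℕ) : ∑ m ∈ Icc 1 N, Λ m ≤ (Real.log 4 + 4) * N := by
  have h := Chebyshev.psi_le_const_mul_self (x := (N : ℝ)) (by positivity)
  have h2 : Chebyshev.psi (N : ℝ) = ∑ m ∈ Icc 1 N, Λ m := by
    rw [Chebyshev.psi_eq_sum_Icc, Nat.floor_natCast]
    rw [← Finset.sum_subset (show Icc 1 N ⊆ Icc 0 N from Finset.Icc_subset_Icc (by omega) le_rfl)]
    intro x hx hx'
    simp only [Finset.mem_Icc] at hx hx'
    have : x = 0 := by omega
    subst this; simp
  rw [← h2]; exact h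

lemma log4_le : Real.log 4 ≤ 2 := by
  have : Real.log 4 = 2 * Real.log 2 := by
    rw [show (4 : ℝ) = 2 ^ 2 by norm_num, Real.log_pow]; norm_num
  have h2 := Real.log_two_lt_d9
  rw [this]; linarith

lemma abs_SN_le (N : ℕ) (hN : 1 ≤ N) : |SN N| ≤ 11 := by
  have hNpos : (0 : ℝ) < N := by exact_mod_cast hN
  have key : |PN N * SN N - QN N| ≤ 6 := by
    rw [QN_eq, SN, Finset.mul_sum, ← Finset.sum_sub_distrib]
    refine (Finset.abs_sum_le_sum_abs _ _).trans ?_
    have : ∀ m ∈ Icc 1 N, |PN N * (chi m * Λ m / m) - chi m * Λ m / m * PN (N / m)| ≤ Λ m / N := by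
      intro m hm
      rw [Finset.mem_Icc] at hm
      have hm0 : (0 : ℝ) < m := by exact_mod_cast hm.1
      have e : PN N * (chi m * Λ m / m) - chi m * Λ m / m * PN (N / m)
          = chi m * (Λ m / m) * (PN N - PN (N / m)) := by ring
      rw [e, abs_mul, abs_mul]
      have h1 := PN_sub (N / m) N (Nat.div_le_self N m)
      have h2 : 1 / (((N / m : ℕ) : ℝ) + 1) ≤ m / N := by
        rw [div_le_div_iff₀ (by positivity) hNpos]
        have h3 : N < m * (N / m + 1) := by
          have := Nat.div_add_mod N m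
          have h4 := Nat.mod_lt N (show 0 < m by omega)
          nlinarith
        have h3' : (N : ℝ) < m * (((N / m : ℕ) : ℝ) + 1) := by exact_mod_cast h3
        linarith
      have h5 : 0 ≤ Λ m / m := div_nonneg ArithmeticFunction.vonMangoldt_nonneg hm0.le
      rw [abs_of_nonneg h5]
      calc |chi m| * (Λ m / m) * |PN N - PN (N / m)|
          ≤ 1 * (Λ m / m) * (m / N) := by
            apply mul_le_mul _ (h1.trans h2) (abs_nonneg _) (by positivity)
            exact mul_le_mul_of_nonneg_right (abs_chi_le m) h5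
        _ = Λ m / N := by field_simp
    refine (Finset.sum_le_sum this).trans ?_
    rw [← Finset.sum_div, div_le_iff₀ hNpos]
    have := psi_nat_le N
    have h4 := log4_le
    nlinarith
  have hQ := abs_QN_le N
  have hP := PN_ge N hN
  have h1 : |PN N * SN N| ≤ 7 := by
    have := abs_sub_abs_le_abs_sub (PN N * SN N) (QN N)
    linarith
  rw [abs_mul, abs_of_nonneg (by linarith)] at h1
  have h2 := abs_nonneg (SN N)
  nlinarith

noncomputable def LN (N : ℕ) : ℝ := ∑ m ∈ Icc 1 N, Λ m / m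

lemma sum_log_eq (N : ℕ) : ∑ n ∈ Icc 1 N, Real.log n = ∑ m ∈ Icc 1 N, Λ m * ((N / m : ℕ) : ℝ) := by
  have h1 : ∀ n ∈ Icc 1 N, Real.log n = ∑ m ∈ n.divisors, Λ m * 1 := by
    intro n _
    simp [ArithmeticFunction.vonMangoldt_sum]
  rw [Finset.sum_congr rfl h1]
  have := sum_divisors_swap (fun m _ => Λ m * 1) N
  rw [this]
  apply Finset.sum_congr rfl
  intro m _
  simp [mul_comm]

lemma sum_log_bounds (N : ℕ) (hN : 1 ≤ N) :
    N * Real.log N - N ≤ ∑ n ∈ Icc 1 N, Real.log n ∧ ∑ n ∈ Icc 1 N, Real.log n ≤ N * Real.log N := by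
  constructor
  · induction N, hN using Nat.le_induction with
    | base => simp
    | succ n hn ih =>
      rw [Icc_one_eq, Finset.sum_Ico_succ_top (by omega), ← Icc_one_eq]
      have hn0 : (0 : ℝ) < n := by exact_mod_cast hn
      have h1 : Real.log ((n + 1 : ℕ) : ℝ) - Real.log n ≤ 1 / n := by
        rw [← Real.log_div (by positivity) (by positivity)]
        have := Real.log_le_sub_one_of_pos (show (0 : ℝ) < ((n + 1 : ℕ) : ℝ) / n by positivity)
        refine this.trans (le_of_eq ?_)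
        push_cast; field_simp; ring
      have h2 : (n : ℝ) * (Real.log ((n + 1 : ℕ) : ℝ) - Real.log n) ≤ 1 := by
        calc (n : ℝ) * (Real.log ((n + 1 : ℕ) : ℝ) - Real.log n) ≤ n * (1 / n) :=
              mul_le_mul_of_nonneg_left h1 hn0.le
          _ = 1 := by field_simp
      push_cast at *
      nlinarith
  · calc ∑ n ∈ Icc 1 N, Real.log n ≤ ∑ n ∈ Icc 1 N, Real.log N := by
          apply Finset.sum_le_sum
          intro n hn
          rw [Finset.mem_Icc] at hn
          apply Real.log_le_log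
          · exact_mod_cast hn.1
          · exact_mod_cast hn.2
      _ = N * Real.log N := by simp

lemma LN_bounds (N : ℕ) (hN : 1 ≤ N) : Real.log N - 1 ≤ LN N ∧ LN N ≤ Real.log N + 6 := by
  have hNpos : (0 : ℝ) < N := by exact_mod_cast hN
  obtain ⟨h1, h2⟩ := sum_log_bounds N hN
  rw [sum_log_eq] at h1 h2
  have hup : ∑ m ∈ Icc 1 N, Λ m * ((N / m : ℕ) : ℝ) ≤ N * LN N := by
    unfold LN
    rw [Finset.mul_sum]
    apply Finset.sum_le_sum
    intro m hm
    rw [Finset.mem_Icc] at hm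
    have hm0 : (0 : ℝ) < m := by exact_mod_cast hm.1
    have : ((N / m : ℕ) : ℝ) ≤ N / m := Nat.cast_div_le
    calc Λ m * ((N / m : ℕ) : ℝ) ≤ Λ m * (N / m) :=
          mul_le_mul_of_nonneg_left this ArithmeticFunction.vonMangoldt_nonneg
      _ = N * (Λ m / m) := by ring
  have hlo : N * LN N ≤ ∑ m ∈ Icc 1 N, Λ m * ((N / m : ℕ) : ℝ) + (Real.log 4 + 4) * N := by
    refine le_trans ?_ (add_le_add_right (psi_nat_le N) _)
    unfold LN
    rw [Finset.mul_sum, ← Finset.sum_add_distrib]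
    apply Finset.sum_le_sum
    intro m hm
    rw [Finset.mem_Icc] at hm
    have hm0 : (0 : ℝ) < m := by exact_mod_cast hm.1
    have h3 : N < m * (N / m + 1) := by
      have := Nat.div_add_mod N m
      have h4 := Nat.mod_lt N (show 0 < m by omega)
      nlinarith
    have h3' : (N : ℝ) / m ≤ ((N / m : ℕ) : ℝ) + 1 := by
      rw [div_le_iff₀ hm0]
      have h3'' : (N : ℝ) < m * (((N / m : ℕ) : ℝ) + 1) := by exact_mod_cast h3
      linarith
    calc (N : ℝ) * (Λ m / m) = Λ m * (N / m) := by ring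
      _ ≤ Λ m * (((N / m : ℕ) : ℝ) + 1) :=
          mul_le_mul_of_nonneg_left h3' ArithmeticFunction.vonMangoldt_nonneg
      _ = Λ m * ((N / m : ℕ) : ℝ) + Λ m := by ring
  have h4 := log4_le
  constructor
  · have : N * (Real.log N - 1) ≤ N * LN N := by nlinarith
    exact le_of_mul_le_mul_left this hNpos
  · have : N * LN N ≤ N * (Real.log N + 6) := by nlinarith
    exact le_of_mul_le_mul_left this hNpos

/-- sum over the primes `1 mod 4` -/
noncomputable def SP (N : ℕ) : ℝ := ∑ p ∈ (Icc 1 N).filter (fun p => p.Prime ∧ p % 4 = 1), Real.log p / p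

lemma exists_nonprime_bound : ∃ C : ℝ, 0 ≤ C ∧ ∀ N : ℕ,
    ∑ m ∈ Icc 1 N, (if m.Prime then 0 else Λ m) / m ≤ C := by
  have hs := ArithmeticFunction.vonMangoldt.summable_residueClass_non_primes_div (q := 1) 0
  have hs' : Summable fun n : ℕ => (if n.Prime then 0 else Λ n) / (n : ℝ) := by
    refine hs.congr ?_
    intro n
    have : ArithmeticFunction.vonMangoldt.residueClass (q := 1) 0 n = Λ n := by
      unfold ArithmeticFunction.vonMangoldt.residueClass
      rw [Set.indicator_of_mem]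
      exact Subsingleton.elim _ _
    rw [this]
  have hnn : ∀ n : ℕ, 0 ≤ (if n.Prime then 0 else Λ n) / (n : ℝ) := by
    intro n
    apply div_nonneg _ (by positivity)
    split_ifs
    · exact le_rfl
    · exact ArithmeticFunction.vonMangoldt_nonneg
  refine ⟨∑' n : ℕ, (if n.Prime then 0 else Λ n) / (n : ℝ), tsum_nonneg hnn, fun N => ?_⟩
  exact hs'.sum_le_tsum _ (fun n _ => hnn n)

theorem mertens_split : ∃ C : ℝ, 0 ≤ C ∧ ∀ N : ℕ, 1 ≤ N → |SP N - Real.log N / 2| ≤ C := by
  obtain ⟨C, hC0, hC⟩ := exists_nonprime_bound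
  refine ⟨C + 20, by linarith, fun N hN => ?_⟩
  have hS := abs_SN_le N hN
  obtain ⟨hL1, hL2⟩ := LN_bounds N hN
  have hsum : LN N + SN N = ∑ m ∈ Icc 1 N, (1 + chi m) * Λ m / m := by
    unfold LN SN
    rw [← Finset.sum_add_distrib]
    apply Finset.sum_congr rfl
    intro m _; ring
  have hterm : ∀ m ∈ Icc 1 N, (1 + chi m) * Λ m / m
      = 2 * (if m.Prime ∧ m % 4 = 1 then Real.log m / m else 0)
        + ((1 + chi m) * ((if m.Prime then 0 else Λ m) / m) + (if m = 2 then Real.log 2 / 2 else 0)) := by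
    intro m hm
    by_cases hp : m.Prime
    · by_cases h1 : m % 4 = 1
      · have hne : m ≠ 2 := by intro h; subst h; simp at h1
        have hc : chi m = 1 := by rw [chi_eq]; simp [h1]
        simp [hp, h1, hne, hc, ArithmeticFunction.vonMangoldt_apply_prime hp]
        ring
      · by_cases h2 : m = 2
        · subst h2
          have hc : chi 2 = 0 := by rw [chi_eq]; simp
          rw [hc, ArithmeticFunction.vonMangoldt_apply_prime hp]
          norm_num [Nat.prime_two]
        · have hodd : m % 2 = 1 := by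
            rcases hp.eq_two_or_odd with h | h
            · exact absurd h h2
            · exact h
          have h3 : m % 4 = 3 := by omega
          have hc : chi m = -1 := by rw [chi_eq]; simp [h3]
          simp [h1, h2, hc]
    · have hne : m ≠ 2 := by intro h; subst h; exact hp Nat.prime_two
      simp [hp, hne]
      ring
  have hA : LN N + SN N = 2 * SP N
      + (∑ m ∈ Icc 1 N, (1 + chi m) * ((if m.Prime then 0 else Λ m) / m)
        + ∑ m ∈ Icc 1 N, (if m = 2 then Real.log 2 / 2 else 0)) := by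
    rw [hsum, Finset.sum_congr rfl hterm, Finset.sum_add_distrib, Finset.sum_add_distrib,
      ← Finset.mul_sum]
    congr 2
    unfold SP
    rw [Finset.sum_filter]
  have hnn : ∀ m : ℕ, 0 ≤ (if m.Prime then 0 else Λ m) / (m : ℝ) := by
    intro m
    apply div_nonneg _ (by positivity)
    split_ifs
    · exact le_rfl
    · exact ArithmeticFunction.vonMangoldt_nonneg
  have hB1 : 0 ≤ ∑ m ∈ Icc 1 N, (1 + chi m) * ((if m.Prime then 0 else Λ m) / m) := by
    apply Finset.sum_nonneg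
    intro m _
    apply mul_nonneg _ (hnn m)
    have := abs_le.mp (abs_chi_le m)
    linarith
  have hB2 : ∑ m ∈ Icc 1 N, (1 + chi m) * ((if m.Prime then 0 else Λ m) / m) ≤ 2 * C := by
    calc _ ≤ ∑ m ∈ Icc 1 N, 2 * ((if m.Prime then 0 else Λ m) / (m : ℝ)) := by
          apply Finset.sum_le_sum
          intro m _
          apply mul_le_mul_of_nonneg_right _ (hnn m)
          have := abs_le.mp (abs_chi_le m)
          linarith
      _ ≤ 2 * C := by
          rw [← Finset.mul_sum]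
          linarith [hC N]
  have hD1 : 0 ≤ ∑ m ∈ Icc 1 N, (if m = 2 then Real.log 2 / 2 else 0) := by
    apply Finset.sum_nonneg
    intro m _
    split_ifs
    · positivity
    · exact le_rfl
  have hD2 : ∑ m ∈ Icc 1 N, (if m = 2 then Real.log 2 / 2 else 0) ≤ 1 := by
    rw [Finset.sum_ite_eq']
    have := Real.log_two_lt_d9
    split_ifs <;> linarith
  have hS' := abs_le.mp hS
  rw [abs_le]
  constructor <;> linarith

end Crest.Agent.R2.Z705
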