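import Crest.Agent.R2.Z705a

/-! Row 2, block Z1 (helper705), part b: windows with many split primes, Gaussian primes. -/

set_option autoImplicit false
set_option linter.all false
open Finset

namespace Crest.Agent.R2.Z705

/-- the primes `1 mod 4` in `(w, 4w]` -/
def PW (w : ℕ) : Finset ℕ := (Ioc w (4 * w)).filter (fun p => p.Prime ∧ p % 4 = 1)

lemma mem_PW {w p : ℕ} : p ∈ PW w ↔ (w < p ∧ p ≤ 4 * w) ∧ p.Prime ∧ p % 4 = 1 := by
  unfold PW; rw [Finset.mem_filter, Finset.mem_Ioc]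

lemma SP_window (w : ℕ) (hw : 1 ≤ w) :
    SP (4 * w) - SP w ≤ (PW w).card * (Real.log ((4 * w : ℕ) : ℝ) / w) := by
  have hsplit : (Icc 1 (4 * w)).filter (fun p => p.Prime ∧ p % 4 = 1)
      = (Icc 1 w).filter (fun p => p.Prime ∧ p % 4 = 1) ∪ PW w := by
    ext p
    rw [Finset.mem_union, mem_PW]
    simp only [Finset.mem_filter, Finset.mem_Icc]
    constructor
    · rintro ⟨⟨h1, h2⟩, h3⟩
      by_cases h : p ≤ w
      · exact Or.inl ⟨⟨h1, h⟩, h3⟩
      · exact Or.inr ⟨⟨by omega, h2⟩, h3⟩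
    · rintro (⟨⟨h1, h2⟩, h3⟩ | ⟨⟨h1, h2⟩, h3⟩)
      · exact ⟨⟨h1, by omega⟩, h3⟩
      · exact ⟨⟨by omega, h2⟩, h3⟩
  have hdisj : Disjoint ((Icc 1 w).filter (fun p => p.Prime ∧ p % 4 = 1)) (PW w) := by
    rw [Finset.disjoint_left]
    intro p hp hp'
    rw [mem_PW] at hp'
    simp only [Finset.mem_filter, Finset.mem_Icc] at hp
    omega
  unfold SP
  rw [hsplit, Finset.sum_union hdisj, add_sub_cancel_left]
  have hw0 : (0 : ℝ) < w := by exact_mod_cast hw
  calc ∑ p ∈ PW w, Real.log p / p ≤ ∑ p ∈ PW w, Real.log ((4 * w : ℕ) : ℝ) / w := by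
        apply Finset.sum_le_sum
        intro p hp
        rw [mem_PW] at hp
        have hp1 : (1 : ℝ) ≤ p := by exact_mod_cast (by omega : 1 ≤ p)
        have h1 : Real.log p ≤ Real.log ((4 * w : ℕ) : ℝ) := by
          apply Real.log_le_log (by linarith)
          exact_mod_cast hp.1.2
        have h0 : 0 ≤ Real.log p := Real.log_nonneg hp1
        have h2 : (w : ℝ) ≤ p := by exact_mod_cast hp.1.1.le
        exact div_le_div₀ (h0.trans h1) h1 hw0 h2
    _ = (PW w).card * (Real.log ((4 * w : ℕ) : ℝ) / w) := by simp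

/-- (Z1b) dyadic density of split primes. -/
theorem exists_window : ∃ (J : ℕ) (c : ℝ) (X0 : ℕ), 0 < c ∧ 1 ≤ J ∧ 4 ≤ X0 ∧ ∀ x : ℕ, X0 ≤ x →
    ∃ w : ℕ, x ≤ w ∧ w ≤ 4 ^ J * x ∧ c * w / Real.log w ≤ (PW w).card := by
  obtain ⟨C, hC0, hC⟩ := mertens_split
  obtain ⟨J, hJ⟩ := exists_nat_gt ((2 * C + 1) / Real.log 2)
  have hl2 : 0 < Real.log 2 := Real.log_pos (by norm_num)
  have hJ' : 2 * C + 1 ≤ J * Real.log 2 := by
    rw [div_lt_iff₀ hl2] at hJ; exact hJ.le
  have hJ1 : 1 ≤ J := by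
    rcases Nat.eq_zero_or_pos J with h | h
    · subst h; simp at hJ'; linarith
    · exact h
  have hJpos : (0 : ℝ) < J := by exact_mod_cast hJ1
  refine ⟨J, 1 / (2 * J), 4, by positivity, hJ1, le_rfl, fun x hx => ?_⟩
  have hx1 : 1 ≤ x := by omega
  have hx0 : (0 : ℝ) < x := by exact_mod_cast hx1
  have htel : ∑ i ∈ range J, (SP (4 ^ (i + 1) * x) - SP (4 ^ i * x)) = SP (4 ^ J * x) - SP x := by
    rw [Finset.sum_range_sub (fun i => SP (4 ^ i * x))]
    simp
  have hbig : 1 ≤ SP (4 ^ J * x) - SP x := by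
    have h1 := abs_le.mp (hC (4 ^ J * x) (by have : 0 < 4 ^ J * x := by positivity
                                             omega))
    have h2 := abs_le.mp (hC x hx1)
    have h3 : Real.log ((4 ^ J * x : ℕ) : ℝ) = 2 * J * Real.log 2 + Real.log x := by
      push_cast
      rw [Real.log_mul (by positivity) (by positivity), Real.log_pow,
        show (4 : ℝ) = 2 ^ 2 by norm_num, Real.log_pow]
      push_cast; ring
    rw [h3] at h1
    linarith [h1.1, h2.2]
  have : ∃ i ∈ range J, 1 / (J : ℝ) ≤ SP (4 ^ (i + 1) * x) - SP (4 ^ i * x) := by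
    by_contra hcon
    push Not at hcon
    have hlt : ∑ i ∈ range J, (SP (4 ^ (i + 1) * x) - SP (4 ^ i * x)) < ∑ i ∈ range J, 1 / (J : ℝ) := by
      apply Finset.sum_lt_sum_of_nonempty
      · exact ⟨0, by simp; omega⟩
      · exact hcon
    rw [htel] at hlt
    have : ∑ i ∈ range J, 1 / (J : ℝ) = 1 := by simp; field_simp
    linarith
  obtain ⟨i, hi, hi2⟩ := this
  rw [Finset.mem_range] at hi
  have hwx : x ≤ 4 ^ i * x := Nat.le_mul_of_pos_left x (by positivity)
  refine ⟨4 ^ i * x, hwx, Nat.mul_le_mul_right x (Nat.pow_le_pow_right (by norm_num) hi.le), ?_⟩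
  set w := 4 ^ i * x with hw
  have hw4 : 4 ≤ w := by omega
  have hw4' : (4 : ℝ) ≤ w := by exact_mod_cast hw4
  have e : 4 ^ (i + 1) * x = 4 * w := by rw [hw, pow_succ]; ring
  rw [e] at hi2
  have h5 := hi2.trans (SP_window w (by omega))
  have hlog : Real.log ((4 * w : ℕ) : ℝ) ≤ 2 * Real.log w := by
    rw [← Real.log_rpow (by linarith) 2]
    apply Real.log_le_log (by push_cast; positivity)
    push_cast
    norm_num
    nlinarith
  have hlw : 0 < Real.log w := Real.log_pos (by linarith)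
  have h6 : 1 / (J : ℝ) ≤ (PW w).card * (2 * Real.log w / w) := by
    refine h5.trans (mul_le_mul_of_nonneg_left ?_ (by positivity))
    exact div_le_div_of_nonneg_right hlog (by positivity)
  rw [div_le_iff₀ hlw]
  have h7 : (PW w).card * (2 * Real.log w / w) = 2 * ((PW w).card * Real.log w) / w := by ring
  rw [h7, div_le_div_iff₀ hJpos (by linarith)] at h6
  have : 1 / (2 * (J : ℝ)) * w = w / (2 * J) := by ring
  rw [this, div_le_iff₀ (by positivity)]
  nlinarith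

/-- (Z1d) a lacunary sequence of windows. -/
theorem exists_windows : ∃ (J : ℕ) (c : ℝ) (X0 : ℕ), 0 < c ∧ 1 ≤ J ∧ 4 ≤ X0 ∧
    ∀ κ x0 : ℕ, 1 ≤ κ → X0 ≤ x0 → ∃ w : ℕ → ℕ, x0 ≤ w 0 ∧ w 0 ≤ 4 ^ J * x0 ∧
      (∀ k, κ * w k ≤ w (k + 1) ∧ w (k + 1) ≤ 4 ^ J * (κ * w k)) ∧
      (∀ k, c * w k / Real.log (w k) ≤ (PW (w k)).card) ∧ (∀ k, X0 ≤ w k) ∧
      (∀ k, κ ^ k * x0 ≤ w k ∧ w k ≤ (4 ^ J) ^ (k + 1) * κ ^ k * x0) := by
  obtain ⟨J, c, X0, hc, hJ, hX0, h⟩ := exists_window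
  refine ⟨J, c, X0, hc, hJ, hX0, fun κ x0 hκ hx0 => ?_⟩
  choose! f hf using h
  let w : ℕ → ℕ := fun k => Nat.rec (f x0) (fun _ v => f (κ * v)) k
  have w0 : w 0 = f x0 := rfl
  have ws : ∀ k, w (k + 1) = f (κ * w k) := fun k => rfl
  have hge : ∀ k, X0 ≤ w k := by
    intro k
    induction k with
    | zero => rw [w0]; exact hx0.trans (hf x0 hx0).1
    | succ k ih =>
      rw [ws]
      have h1 : X0 ≤ κ * w k := ih.trans (Nat.le_mul_of_pos_left _ hκ)
      exact h1.trans (hf _ h1).1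
  have hstep : ∀ k, κ * w k ≤ w (k + 1) ∧ w (k + 1) ≤ 4 ^ J * (κ * w k) := by
    intro k
    have h1 : X0 ≤ κ * w k := (hge k).trans (Nat.le_mul_of_pos_left _ hκ)
    exact ⟨(hf _ h1).1, (hf _ h1).2.1⟩
  have h00 : x0 ≤ w 0 ∧ w 0 ≤ 4 ^ J * x0 := ⟨(hf x0 hx0).1, (hf x0 hx0).2.1⟩
  refine ⟨w, h00.1, h00.2, hstep, ?_, hge, ?_⟩
  · intro k
    cases k with
    | zero => exact (hf x0 hx0).2.2
    | succ k =>
      have h1 : X0 ≤ κ * w k := (hge k).trans (Nat.le_mul_of_pos_left _ hκ)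
      exact (hf _ h1).2.2
  · intro k
    induction k with
    | zero => simpa using h00
    | succ k ih =>
      obtain ⟨h1, h2⟩ := hstep k
      constructor
      · calc κ ^ (k + 1) * x0 = κ * (κ ^ k * x0) := by ring
          _ ≤ κ * w k := Nat.mul_le_mul_left _ ih.1
          _ ≤ _ := h1
      · calc w (k + 1) ≤ 4 ^ J * (κ * w k) := h2
          _ ≤ 4 ^ J * (κ * ((4 ^ J) ^ (k + 1) * κ ^ k * x0)) :=
              Nat.mul_le_mul_left _ (Nat.mul_le_mul_left _ ih.2)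
          _ = (4 ^ J) ^ (k + 1 + 1) * κ ^ (k + 1) * x0 := by ring

/-! ### Gaussian primes -/

lemma exists_gaussian {p : ℕ} (hp : p.Prime) (h : p % 4 = 1) :
    ∃ z : GaussianInt, z.norm = p := by
  haveI := Fact.mk hp
  obtain ⟨a, b, hab⟩ := Nat.Prime.sq_add_sq (p := p) (by omega)
  refine ⟨⟨a, b⟩, ?_⟩
  rw [Zsqrtd.norm_def]
  simp
  have : ((a ^ 2 + b ^ 2 : ℕ) : ℤ) = p := by exact_mod_cast hab
  push_cast at this
  linarith [this]

/-- a Gaussian integer of norm `p` (for `p = 1 mod 4` prime; else `0`). -/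
noncomputable def gpr (p : ℕ) : GaussianInt :=
  open Classical in if h : p.Prime ∧ p % 4 = 1 then (exists_gaussian h.1 h.2).choose else 0

lemma gpr_norm {p : ℕ} (hp : p.Prime) (h : p % 4 = 1) : (gpr p).norm = p := by
  unfold gpr
  rw [dif_pos ⟨hp, h⟩]
  exact (exists_gaussian hp h).choose_spec

lemma gpr_prime {p : ℕ} (hp : p.Prime) (h : p % 4 = 1) : Prime (gpr p) := by
  have hn := gpr_norm hp h
  apply Irreducible.prime
  constructor
  · intro hu
    have h1 := (Zsqrtd.norm_eq_one_iff).mpr hu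
    rw [hn] at h1
    simp at h1
    exact hp.one_lt.ne' h1
  · intro a b hab
    have h1 : (gpr p).norm.natAbs = a.norm.natAbs * b.norm.natAbs := by
      rw [hab, Zsqrtd.norm_mul, Int.natAbs_mul]
    rw [hn, Int.natAbs_natCast] at h1
    rcases (Nat.prime_mul_iff.mp (h1 ▸ hp)) with ⟨_, h2⟩ | ⟨_, h2⟩
    · right; exact Zsqrtd.norm_eq_one_iff.mp h2
    · left; exact Zsqrtd.norm_eq_one_iff.mp h2

lemma norm_natAbs_of_associated {a b : GaussianInt} (h : Associated a b) :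
    a.norm.natAbs = b.norm.natAbs := by
  obtain ⟨u, rfl⟩ := h
  rw [Zsqrtd.norm_mul, Int.natAbs_mul, Zsqrtd.norm_eq_one_iff.mpr u.isUnit, mul_one]

lemma gpr_associated {p q : ℕ} (hp : p.Prime) (h : p % 4 = 1) (hq : q.Prime) (h' : q % 4 = 1)
    (ha : Associated (gpr p) (gpr q)) : p = q := by
  have := norm_natAbs_of_associated ha
  rw [gpr_norm hp h, gpr_norm hq h'] at this
  simpa using this

lemma norm_dvd {a b : GaussianInt} (h : a ∣ b) : a.norm ∣ b.norm := by
  obtain ⟨c, rfl⟩ := h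
  rw [Zsqrtd.norm_mul]
  exact dvd_mul_right _ _

lemma not_dvd_star {p : ℕ} (hp : p.Prime) (h : p % 4 = 1) {z : GaussianInt}
    (hz : z.norm = p) : ¬ z ∣ star z := by
  intro hd
  have hp2 : p ≠ 2 := by intro h2; subst h2; simp at h
  have h1 : z ∣ z + star z := dvd_add (dvd_refl z) hd
  have e : z + star z = ((2 * z.re : ℤ) : GaussianInt) := by
    apply Zsqrtd.ext
    · simp; ring
    · simp
  rw [e] at h1
  have h2 : z.norm ∣ (((2 * z.re : ℤ) : GaussianInt)).norm := norm_dvd h1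
  rw [hz, Zsqrtd.norm_intCast] at h2
  have hpI : Prime (p : ℤ) := Nat.prime_iff_prime_int.mp hp
  have h3 : (p : ℤ) ∣ 2 * z.re := by
    rcases hpI.dvd_or_dvd h2 with h | h <;> exact h
  have h4 : (p : ℤ) ∣ z.re := by
    rcases hpI.dvd_or_dvd h3 with h | h
    · exfalso
      have : p ∣ 2 := by exact_mod_cast h
      have := (Nat.prime_dvd_prime_iff_eq hp Nat.prime_two).mp this
      exact hp2 this
    · exact h
  have hn : z.re * z.re + z.im * z.im = p := by
    have := hz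
    rw [Zsqrtd.norm_def] at this
    linarith
  have hpos : (1 : ℤ) < p := by exact_mod_cast hp.one_lt
  have hre : z.re = 0 := by
    obtain ⟨k, hk⟩ := h4
    by_contra hne
    have hk0 : k ≠ 0 := by rintro rfl; simp at hk; exact hne hk
    have hk1 : 1 ≤ k * k := by
      have := mul_self_pos.mpr hk0
      omega
    have : (p : ℤ) * p ≤ z.re * z.re := by
      rw [hk]; nlinarith
    have h5 := mul_self_nonneg z.im
    nlinarith
  rw [hre] at hn
  simp at hn
  have : p = z.im.natAbs * z.im.natAbs := by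
    have : (p : ℤ) = ((z.im.natAbs * z.im.natAbs : ℕ) : ℤ) := by
      push_cast
      rw [← hn, abs_mul_abs_self]
    exact_mod_cast this
  have hm1 : z.im.natAbs ≠ 1 := by
    intro h1
    rw [h1] at this
    rw [this] at hp
    exact Nat.not_prime_one (by simpa using hp)
  rw [this] at hp
  exact Nat.not_prime_mul hm1 hm1 hp

/-- the split Gaussian primes with norm in `(w, 4w]`, one per conjugate pair. -/
noncomputable def GW (w : ℕ) : Finset GaussianInt := open Classical in (PW w).image gpr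

lemma mem_GW {w : ℕ} {z : GaussianInt} : z ∈ GW w ↔ ∃ p ∈ PW w, gpr p = z := by
  unfold GW; rw [Finset.mem_image]

lemma card_GW (w : ℕ) : (GW w).card = (PW w).card := by
  unfold GW
  apply Finset.card_image_of_injOn
  intro p hp q hq hpq
  have hp' := (mem_PW.mp (by exact_mod_cast hp)).2
  have hq' := (mem_PW.mp (by exact_mod_cast hq)).2
  have h1 := gpr_norm hp'.1 hp'.2
  have h2 := gpr_norm hq'.1 hq'.2
  have h3 : (p : ℤ) = q := by rw [← h1, ← h2]; simp only [hpq]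
  exact_mod_cast h3

/-- all the properties of the elements of `GW w`. -/
theorem GW_spec {w : ℕ} {z : GaussianInt} (hz : z ∈ GW w) :
    Prime z ∧ ∃ p : ℕ, p.Prime ∧ p % 4 = 1 ∧ z.norm = p ∧ w < p ∧ p ≤ 4 * w := by
  obtain ⟨p, hp, rfl⟩ := mem_GW.mp hz
  rw [mem_PW] at hp
  exact ⟨gpr_prime hp.2.1 hp.2.2, p, hp.2.1, hp.2.2, gpr_norm hp.2.1 hp.2.2, hp.1.1, hp.1.2⟩

/-- non-associated, also up to conjugation (for all windows together). -/
theorem GW_assoc {w w' : ℕ} {z z' : GaussianInt} (hz : z ∈ GW w) (hz' : z' ∈ GW w') :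
    (Associated z z' → z = z') ∧ (¬ Associated z (star z')) ∧ ¬ z ∣ star z' := by
  obtain ⟨p, hp, rfl⟩ := mem_GW.mp hz
  obtain ⟨q, hq, rfl⟩ := mem_GW.mp hz'
  rw [mem_PW] at hp hq
  have hnd : ¬ gpr p ∣ star (gpr q) := by
    intro hd
    have hn : (gpr p).norm ∣ (star (gpr q)).norm := norm_dvd hd
    have : (star (gpr q)).norm = (gpr q).norm := by
      rw [Zsqrtd.norm_def, Zsqrtd.norm_def]; simp
    rw [this, gpr_norm hp.2.1 hp.2.2, gpr_norm hq.2.1 hq.2.2] at hn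
    have h1 : p ∣ q := by exact_mod_cast hn
    have h2 := (Nat.prime_dvd_prime_iff_eq hp.2.1 hq.2.1).mp h1
    subst h2
    exact not_dvd_star hp.2.1 hp.2.2 (gpr_norm hp.2.1 hp.2.2) hd
  refine ⟨fun h => ?_, fun h => hnd h.dvd, hnd⟩
  rw [gpr_associated hp.2.1 hp.2.2 hq.2.1 hq.2.2 h]

lemma GW_disjoint {w w' : ℕ} (h : 4 * w ≤ w') : Disjoint (GW w) (GW w') := by
  rw [Finset.disjoint_left]
  intro z hz hz'
  obtain ⟨_, p, _, _, hn, h1, h2⟩ := GW_spec hz
  obtain ⟨_, q, _, _, hn', h1', h2'⟩ := GW_spec hz'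
  have : p = q := by rw [hn] at hn'; exact_mod_cast hn'
  omega

end Crest.Agent.R2.Z705
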